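import Mathlib
import Crest.Agent.Lib.Mertens
import Crest.Agent.Lib.LinSieve.Main
import Crest.Agent.R020.Canon

-- ▼ part R020/Abn1
section

/-!
# Sums of nonnegative multiplicative functions over numbers with all prime factors in a finite set
-/

open Finset

namespace Crest.Agent.R020

/-- Sum of a nonnegative multiplicative function over a finite set of `s`-factored numbers. -/
lemma sum_le_prod_tsum {f : ℕ → ℝ} (hf0 : ∀ n, 0 ≤ f n) (hf1 : f 1 = 1)
    (hmul : ∀ {m n : ℕ}, Nat.Coprime m n → f (m * n) = f m * f n)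
    (hsum : ∀ {p : ℕ}, p.Prime → Summable fun k : ℕ => f (p ^ k)) (s : Finset ℕ) (T : Finset ℕ)
    (hT : ∀ n ∈ T, n ∈ Nat.factoredNumbers s) :
    ∑ n ∈ T, f n ≤ ∏ p ∈ s with p.Prime, ∑' k : ℕ, f (p ^ k) := by
  have h := EulerProduct.summable_and_hasSum_factoredNumbers_prod_filter_prime_tsum
    (f := f) hf1 hmul (fun hp => by
      have := hsum hp
      refine this.congr fun k => ?_
      rw [Real.norm_of_nonneg (hf0 _)]) s
  have h2 := h.2
  let T' : Finset (Nat.factoredNumbers s) := T.attach.map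
    ⟨fun n => ⟨n.1, hT n.1 n.2⟩, fun a b hab => by
      have := congrArg Subtype.val hab
      exact Subtype.ext this⟩
  have h3 : ∑ n ∈ T, f n = ∑ m ∈ T', f m := by
    rw [Finset.sum_map, ← Finset.sum_attach]
    rfl
  rw [h3]
  exact sum_le_hasSum T' (fun i _ => hf0 _) h2

/-- geometric version of `sum_le_prod_tsum` for completely multiplicative functions. -/
lemma sum_le_prod_geom {f : ℕ →* ℝ} (hf0 : ∀ n, 0 ≤ f n) 
    (hlt : ∀ {p : ℕ}, p.Prime → f p < 1) (s : Finset ℕ) (T : Finset ℕ)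
    (hT : ∀ n ∈ T, n ∈ Nat.factoredNumbers s) :
    ∑ n ∈ T, f n ≤ ∏ p ∈ s with p.Prime, (1 - f p)⁻¹ := by
  refine (sum_le_prod_tsum (f := f) hf0 (map_one f) (fun {m n} _ => map_mul f m n)
    (fun {p} hp => ?_) s T hT).trans (le_of_eq ?_)
  · simp only [map_pow]
    exact summable_geometric_of_lt_one (hf0 p) (hlt hp)
  · refine Finset.prod_congr rfl fun p hp => ?_
    simp only [map_pow]
    exact tsum_geometric_of_lt_one (hf0 p) (hlt (Finset.mem_filter.mp hp).2)

/-- `1/(1-r) ≤ exp (r + 6 r²)` for `0 ≤ r ≤ 5/6`. -/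
lemma inv_one_sub_le_exp {r : ℝ} (h0 : 0 ≤ r) (h1 : r ≤ 5 / 6) :
    (1 - r)⁻¹ ≤ Real.exp (r + 6 * r ^ 2) := by
  have h2 : (1 - r)⁻¹ ≤ 1 + (r + 6 * r ^ 2) := by
    rw [inv_le_iff_one_le_mul₀ (by linarith)]
    nlinarith [mul_nonneg h0 h0, mul_nonneg (mul_nonneg h0 h0) (sub_nonneg.mpr h1)]
  refine h2.trans ?_
  have := Real.add_one_le_exp (r + 6 * r ^ 2)
  linarith

lemma sum_inv_sq_primes_le (s : Finset ℕ) : ∑ p ∈ s with p.Prime, 1 / (p : ℝ) ^ 2 ≤ 1 := by
  -- bounded by the sum over all `n ≥ 2`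
  have key : ∀ N : ℕ, ∑ n ∈ Finset.Ico 2 (N + 2), 1 / (n : ℝ) ^ 2 ≤ 1 - 1 / ((N : ℝ) + 1) := by
    intro N
    induction N with
    | zero => simp
    | succ N ih =>
      rw [show N + 1 + 2 = (N + 2) + 1 by ring, Finset.sum_Ico_succ_top (by omega)]
      have : 1 / ((N + 2 : ℕ) : ℝ) ^ 2 ≤ 1 / ((N : ℝ) + 1) - 1 / ((N : ℝ) + 1 + 1) := by
        push_cast
        rw [div_sub_div _ _ (by positivity) (by positivity), div_le_div_iff₀ (by positivity)
          (by positivity)]
        nlinarith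
      push_cast at this ⊢
      linarith
  have hsub : s.filter Nat.Prime ⊆ Finset.Ico 2 (s.sup id + 1 + 2) := by
    intro p hp
    rw [Finset.mem_filter] at hp
    rw [Finset.mem_Ico]
    have := Finset.le_sup (f := id) hp.1
    simp only [id] at this
    exact ⟨hp.2.two_le, by omega⟩
  calc ∑ p ∈ s with p.Prime, 1 / (p : ℝ) ^ 2 ≤ ∑ n ∈ Finset.Ico 2 (s.sup id + 1 + 2), 1 / (n : ℝ) ^ 2 :=
        Finset.sum_le_sum_of_subset_of_nonneg hsub (fun _ _ _ => by positivity)
    _ ≤ 1 := by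
        refine (key _).trans ?_
        have : 0 ≤ 1 / (((s.sup id + 1 : ℕ) : ℝ) + 1) := by positivity
        linarith

/-- `(n/φ n)^2` for prime powers. -/
lemma div_totient_prime_pow {p k : ℕ} (hp : p.Prime) (hk : 1 ≤ k) :
    ((p ^ k : ℕ) : ℝ) / (Nat.totient (p ^ k) : ℝ) = (p : ℝ) / ((p : ℝ) - 1) := by
  obtain ⟨j, rfl⟩ : ∃ j, k = j + 1 := ⟨k - 1, by omega⟩
  rw [Nat.totient_prime_pow_succ hp]
  have h1 : (1 : ℝ) < p := by exact_mod_cast hp.one_lt
  have h2 : ((p - 1 : ℕ) : ℝ) = (p : ℝ) - 1 := by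
    rw [Nat.cast_sub hp.one_lt.le]; simp
  push_cast [h2]
  rw [pow_succ, mul_div_mul_left]
  positivity

/-- the multiplicative function `g n (n/φ n)^2 / n` -/
noncomputable def gphi (g : ℕ →*₀ ℝ) (n : ℕ) : ℝ := g n * ((n : ℝ) / (Nat.totient n : ℝ)) ^ 2 / n

lemma gphi_nonneg {g : ℕ →*₀ ℝ} (hg : ∀ n, 0 ≤ g n) (n : ℕ) : 0 ≤ gphi g n := by
  unfold gphi
  have := hg n
  positivity

lemma gphi_one (g : ℕ →*₀ ℝ) : gphi g 1 = 1 := by simp [gphi]

lemma gphi_mul (g : ℕ →*₀ ℝ) {m n : ℕ} (h : Nat.Coprime m n) :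
    gphi g (m * n) = gphi g m * gphi g n := by
  unfold gphi
  rw [Nat.totient_mul h, map_mul]
  push_cast
  ring

/-- nonnegativity of completely multiplicative functions from the values at primes -/
lemma nonneg_of_prime {g : ℕ →*₀ ℝ} (hg : ∀ p : ℕ, p.Prime → 0 ≤ g p) (n : ℕ) : 0 ≤ g n := by
  induction n using Nat.recOnMul with
  | zero => simp
  | one => simp
  | prime p hp => exact hg p hp
  | mul a b ha hb => rw [map_mul]; exact mul_nonneg ha hb

lemma gphi_prime_pow {g : ℕ →*₀ ℝ} {p k : ℕ} (hp : p.Prime) :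
    gphi g (p ^ (k + 1)) = ((p : ℝ) / ((p : ℝ) - 1)) ^ 2 * (g p / p) * (g p / p) ^ k := by
  unfold gphi
  rw [div_totient_prime_pow hp (by omega), map_pow]
  push_cast
  have h1 : (p : ℝ) ≠ 0 := by exact_mod_cast hp.ne_zero
  rw [div_pow (g p) (p : ℝ) k, pow_succ, pow_succ]
  field_simp
  ring

lemma gphi_summable {g : ℕ →*₀ ℝ} (hg : ∀ p : ℕ, p.Prime → 0 ≤ g p ∧ g p ≤ 3 / 2)
    {p : ℕ} (hp : p.Prime) : Summable fun k : ℕ => gphi g (p ^ k) := by
  rw [← summable_nat_add_iff 1]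
  simp_rw [gphi_prime_pow hp]
  have h2 : (2 : ℝ) ≤ p := by exact_mod_cast hp.two_le
  have h3 := hg p hp
  refine (summable_geometric_of_lt_one (div_nonneg h3.1 (by linarith)) ?_).mul_left _
  rw [div_lt_one (by linarith)]
  linarith

lemma gphi_tsum_le {g : ℕ →*₀ ℝ} (hg : ∀ p : ℕ, p.Prime → 0 ≤ g p ∧ g p ≤ 3 / 2)
    {p : ℕ} (hp : p.Prime) :
    ∑' k : ℕ, gphi g (p ^ k) ≤ Real.exp (g p / p + 60 * (1 / (p : ℝ) ^ 2)) := by
  have h2 : (2 : ℝ) ≤ p := by exact_mod_cast hp.two_le
  have hp0 : (0 : ℝ) < p := by linarith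
  have h3 := hg p hp
  set r := g p / p with hr
  have hr0 : 0 ≤ r := div_nonneg h3.1 (by linarith)
  have hr1 : r ≤ (3 / 2) / p := div_le_div_of_nonneg_right h3.2 hp0.le
  have hr2 : r ≤ 3 / 4 := hr1.trans (by
    rw [div_le_iff₀ hp0]; linarith)
  rw [(gphi_summable hg hp).tsum_eq_zero_add]
  simp_rw [gphi_prime_pow hp]
  rw [tsum_mul_left, tsum_geometric_of_lt_one hr0 (by linarith), pow_zero, gphi_one]
  have hx : (0 : ℝ) < 1 / p := by positivity
  have hx2 : (1 : ℝ) / p ≤ 1 / 2 := one_div_le_one_div_of_le (by norm_num) h2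
  have h4 : ((p : ℝ) / ((p : ℝ) - 1)) ^ 2 ≤ 1 + 8 / p := by
    rw [div_pow, div_le_iff₀ (by nlinarith)]
    have : (1 + 8 / (p : ℝ)) * ((p : ℝ) - 1) ^ 2 = ((p : ℝ) + 8) * ((p : ℝ) - 1) ^ 2 / p := by
      field_simp
    rw [this, le_div_iff₀ hp0]
    nlinarith [mul_nonneg (sub_nonneg.mpr h2) (sub_nonneg.mpr h2)]
  have h5 : r * (1 - r)⁻¹ ≤ r + 4 * r ^ 2 := by
    rw [← div_eq_mul_inv, div_le_iff₀ (by linarith)]
    nlinarith [mul_nonneg hr0 hr0, mul_nonneg (mul_nonneg hr0 hr0) (sub_nonneg.mpr hr2)]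
  have h6 : ((p : ℝ) / ((p : ℝ) - 1)) ^ 2 * r * (1 - r)⁻¹ ≤ (1 + 8 / p) * (r + 4 * r ^ 2) := by
    rw [mul_assoc]
    refine mul_le_mul h4 h5 (mul_nonneg hr0 (inv_nonneg.mpr (by linarith))) (by positivity)
  have h7 : (1 + 8 / (p : ℝ)) * (r + 4 * r ^ 2) ≤ r + 60 * (1 / (p : ℝ) ^ 2) := by
    set x : ℝ := 1 / p with hxdef
    have e1 : (8 : ℝ) / p = 8 * x := by rw [hxdef]; ring
    have e2 : (3 / 2 : ℝ) / p = 3 / 2 * x := by rw [hxdef]; ring
    have e3 : 1 / (p : ℝ) ^ 2 = x ^ 2 := by rw [hxdef]; ring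
    rw [e1, e3]
    rw [e2] at hr1
    have h8 : r ^ 2 ≤ (3 / 2 * x) ^ 2 := pow_le_pow_left₀ hr0 hr1 2
    have h9 : x * r ≤ x * (3 / 2 * x) := mul_le_mul_of_nonneg_left hr1 hx.le
    have h10 : x * r ^ 2 ≤ 1 / 2 * (3 / 2 * x) ^ 2 :=
      mul_le_mul hx2 h8 (by positivity) (by norm_num)
    nlinarith
  have h11 := Real.add_one_le_exp (r + 60 * (1 / (p : ℝ) ^ 2))
  linarith

/-- numbers in `[1, N]` are factored by the primes up to `N` -/
lemma mem_factoredNumbers_of_le {n N : ℕ} (h0 : n ≠ 0) (h : n ≤ N) :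
    n ∈ Nat.factoredNumbers (Finset.range (N + 1)) := by
  rw [Nat.mem_factoredNumbers']
  intro p hp hpn
  rw [Finset.mem_range]
  have := Nat.le_of_dvd (Nat.pos_of_ne_zero h0) hpn
  omega

/-- `Σ_{m ≤ N} g(m) (m/φ(m))² / m ≤ e^{60} exp(Σ_{p ≤ N} g(p)/p)`. -/
lemma sum_gphi_le {g : ℕ →*₀ ℝ} (hg : ∀ p : ℕ, p.Prime → 0 ≤ g p ∧ g p ≤ 3 / 2)
    (s T : Finset ℕ) (hT : ∀ n ∈ T, n ∈ Nat.factoredNumbers s) :
    ∑ m ∈ T, gphi g m ≤ Real.exp 60 * Real.exp (∑ p ∈ s with p.Prime, g p / p) := by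
  refine (sum_le_prod_tsum (gphi_nonneg (nonneg_of_prime fun p hp => (hg p hp).1)) (gphi_one g)
    (fun {m n} h => gphi_mul g h) (fun {p} hp => gphi_summable hg hp) s T hT).trans ?_
  calc ∏ p ∈ s with p.Prime, ∑' k : ℕ, gphi g (p ^ k)
      ≤ ∏ p ∈ s with p.Prime, Real.exp (g p / p + 60 * (1 / (p : ℝ) ^ 2)) :=
        Finset.prod_le_prod
          (fun p hp => tsum_nonneg fun k =>
            gphi_nonneg (nonneg_of_prime fun p hp => (hg p hp).1) _)
          (fun p hp => gphi_tsum_le hg (Finset.mem_filter.mp hp).2)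
    _ = Real.exp (∑ p ∈ s with p.Prime, (g p / p + 60 * (1 / (p : ℝ) ^ 2))) :=
        (Real.exp_sum _ _).symm
    _ ≤ Real.exp (60 + ∑ p ∈ s with p.Prime, g p / p) := by
        rw [Real.exp_le_exp, Finset.sum_add_distrib, ← Finset.mul_sum]
        have := sum_inv_sq_primes_le s
        linarith
    _ = _ := Real.exp_add _ _

end Crest.Agent.R020
end

-- ▼ part R020/Abn2
section

/-!
# Sums of completely multiplicative functions over shifted primes, counting form
-/

open Finset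

namespace Crest.Agent.R020

lemma sum_inv_primes_le (x : ℝ) (hx : 2 ≤ x) :
    ∑ p ∈ Finset.range (⌊x⌋₊ + 1) with p.Prime, (1 : ℝ) / p ≤ Real.log (Real.log x) + 27 := by
  have h1 := Crest.Agent.Lib.Mertens.mertens_two 2 x le_rfl hx
  have h2 : (Finset.range (⌊x⌋₊ + 1)).filter Nat.Prime ⊆
      insert 2 (Crest.Agent.Lib.Mertens.pr 2 x) := by
    intro p hp
    rw [Finset.mem_filter, Finset.mem_range] at hp
    rw [Finset.mem_insert, Crest.Agent.Lib.Mertens.pr, Finset.mem_filter, Finset.mem_Ioc]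
    rcases Nat.lt_or_ge 2 p with h | h
    · right
      refine ⟨⟨?_, by omega⟩, hp.2⟩
      simpa using h
    · left
      exact le_antisymm h hp.2.two_le
  have h3 : ∑ p ∈ Finset.range (⌊x⌋₊ + 1) with p.Prime, (1 : ℝ) / p ≤
      1 / 2 + ∑ p ∈ Crest.Agent.Lib.Mertens.pr 2 x, (1 : ℝ) / p := by
    refine (Finset.sum_le_sum_of_subset_of_nonneg h2 (fun _ _ _ => by positivity)).trans ?_
    rw [Finset.sum_insert]
    · norm_num
    · simp [Crest.Agent.Lib.Mertens.pr]
  have h4 : Real.log 2 > 0.6931471803 := Real.log_two_gt_d9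
  have h5 : (18 : ℝ) / Real.log 2 ≤ 26 := by
    rw [div_le_iff₀ (by linarith)]
    linarith
  have h6 : -Real.log (Real.log 2) ≤ 1 / 2 := by
    rw [← Real.log_inv]
    have : (Real.log 2)⁻¹ ≤ 3 / 2 := by
      rw [inv_le_comm₀ (by linarith) (by norm_num)]
      linarith
    refine (Real.log_le_log (by positivity) this).trans ?_
    have := Real.log_le_sub_one_of_pos (show (0 : ℝ) < 3 / 2 by norm_num)
    linarith
  have h7 := (abs_le.mp h1).2
  linarith

lemma range_primes_mono {x y : ℝ} (h : x ≤ y) :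
    (Finset.range (⌊x⌋₊ + 1)).filter Nat.Prime ⊆ (Finset.range (⌊y⌋₊ + 1)).filter Nat.Prime := by
  refine Finset.filter_subset_filter _ (Finset.range_subset_range.mpr ?_)
  have := Nat.floor_le_floor h
  omega

/-- `n ↦ g n * n^{-σ}` as a monoid hom -/
noncomputable def gpow (g : ℕ →*₀ ℝ) (σ : ℝ) : ℕ →* ℝ where
  toFun n := g n * (n : ℝ) ^ (-σ)
  map_one' := by simp
  map_mul' m n := by
    rw [map_mul]
    push_cast
    rw [Real.mul_rpow (Nat.cast_nonneg _) (Nat.cast_nonneg _)]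
    ring

lemma gpow_apply (g : ℕ →*₀ ℝ) (σ : ℝ) (n : ℕ) : gpow g σ n = g n * (n : ℝ) ^ (-σ) := rfl

/-- Rankin's bound, raw form. -/
lemma rankin_raw {g : ℕ →*₀ ℝ} (hg : ∀ p : ℕ, p.Prime → 0 ≤ g p ∧ g p ≤ 3 / 2)
    {x η Q : ℝ} (hx : 1 ≤ x) (hη0 : 0 ≤ η) (hη1 : η ≤ 1 / 10) (hQ1 : 1 ≤ Q)
    (hQ : η * Real.log Q ≤ 1)
    (T : Finset ℕ) (hT : ∀ n ∈ T, n ≠ 0 ∧ (n : ℝ) ≤ x ∧ ∀ p : ℕ, p.Prime → p ∣ n → (p : ℝ) ≤ Q) :
    ∑ n ∈ T, g n ≤ x ^ (1 - η) * Real.exp
      (Real.exp 1 * (3 / 2) * (∑ p ∈ Finset.range (⌊Q⌋₊ + 1) with p.Prime, (1 : ℝ) / p) + 101) := by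
  have hgn := nonneg_of_prime fun p hp => (hg p hp).1
  have hstep1 : ∑ n ∈ T, g n ≤ x ^ (1 - η) * ∑ n ∈ T, gpow g (1 - η) n := by
    rw [Finset.mul_sum]
    refine Finset.sum_le_sum fun n hn => ?_
    obtain ⟨hn0, hnx, -⟩ := hT n hn
    have hn1 : (0 : ℝ) < n := by exact_mod_cast Nat.pos_of_ne_zero hn0
    rw [gpow_apply]
    have h1 : (n : ℝ) ^ (1 - η) ≤ x ^ (1 - η) :=
      Real.rpow_le_rpow hn1.le hnx (by linarith)
    have h2 : (n : ℝ) ^ (1 - η) * (n : ℝ) ^ (-(1 - η)) = 1 := by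
      rw [← Real.rpow_add hn1]; simp
    have h3 : (0 : ℝ) ≤ (n : ℝ) ^ (-(1 - η)) := Real.rpow_nonneg hn1.le _
    calc g n = (n : ℝ) ^ (1 - η) * (g n * (n : ℝ) ^ (-(1 - η))) := by
          rw [mul_comm (g n), ← mul_assoc, h2, one_mul]
      _ ≤ _ := mul_le_mul_of_nonneg_right h1 (mul_nonneg (hgn n) h3)
  refine hstep1.trans (mul_le_mul_of_nonneg_left ?_ (Real.rpow_nonneg (by linarith) _))
  have hrp : ∀ p : ℕ, p.Prime → gpow g (1 - η) p ≤ 5 / 6 := by
    intro p hp
    rw [gpow_apply]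
    have h2 : (2 : ℝ) ≤ p := by exact_mod_cast hp.two_le
    have h3 : (p : ℝ) ^ (-(1 - η)) ≤ (2 : ℝ) ^ (-(1 - η)) :=
      Real.rpow_le_rpow_of_nonpos (by norm_num) h2 (by linarith)
    have h4 : (2 : ℝ) ^ (-(1 - η)) ≤ (2 : ℝ) ^ (-(9 / 10 : ℝ)) :=
      Real.rpow_le_rpow_of_exponent_le (by norm_num) (by linarith)
    have h5 : (2 : ℝ) ^ (-(9 / 10 : ℝ)) ≤ 5 / 9 := by
      have h6 : ((2 : ℝ) ^ (-(9 / 10 : ℝ))) ^ (10 : ℕ) = 2⁻¹ ^ 9 := by
        rw [← Real.rpow_natCast, ← Real.rpow_mul (by norm_num)]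
        norm_num
      by_contra hcon
      push Not at hcon
      have h7 : (5 / 9 : ℝ) ^ 10 < ((2 : ℝ) ^ (-(9 / 10 : ℝ))) ^ (10 : ℕ) :=
        pow_lt_pow_left₀ hcon (by norm_num) (by norm_num)
      rw [h6] at h7
      norm_num at h7
    have h6 := hg p hp
    have h7 : (0 : ℝ) ≤ (p : ℝ) ^ (-(1 - η)) := Real.rpow_nonneg (by linarith) _
    nlinarith
  have hbound : ∀ p ∈ (Finset.range (⌊Q⌋₊ + 1)).filter Nat.Prime,
      gpow g (1 - η) p ≤ Real.exp 1 * (3 / 2) * (1 / (p : ℝ)) := by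
    intro p hp
    rw [Finset.mem_filter, Finset.mem_range] at hp
    have h2 : (2 : ℝ) ≤ p := by exact_mod_cast hp.2.two_le
    have hp0 : (0 : ℝ) < p := by linarith
    have hpQ : (p : ℝ) ≤ Q := by
      have : p ≤ ⌊Q⌋₊ := by omega
      exact (Nat.le_floor_iff (by linarith)).mp this
    have h6 := hg p hp.2
    rw [gpow_apply, show -(1 - η) = -1 + η by ring, Real.rpow_add hp0, Real.rpow_neg_one]
    have h7 : (p : ℝ) ^ η ≤ Real.exp 1 := by
      rw [Real.rpow_def_of_pos hp0, Real.exp_le_exp, mul_comm]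
      exact (mul_le_mul_of_nonneg_left (Real.log_le_log hp0 hpQ) hη0).trans hQ
    have h8 : (0 : ℝ) ≤ (p : ℝ) ^ η := Real.rpow_nonneg hp0.le _
    calc g p * ((p : ℝ)⁻¹ * (p : ℝ) ^ η) ≤ (3 / 2) * ((p : ℝ)⁻¹ * Real.exp 1) := by
          refine mul_le_mul h6.2 (mul_le_mul_of_nonneg_left h7 (by positivity)) (by positivity)
            (by norm_num)
      _ = _ := by ring
  have hfac : ∀ n ∈ T, n ∈ Nat.factoredNumbers (Finset.range (⌊Q⌋₊ + 1)) := by
    intro n hn
    obtain ⟨hn0, -, hnp⟩ := hT n hn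
    rw [Nat.mem_factoredNumbers']
    intro p hp hpn
    rw [Finset.mem_range]
    have := Nat.le_floor (hnp p hp hpn)
    omega
  have hgp0 : ∀ n, 0 ≤ gpow g (1 - η) n := fun n => by
    rw [gpow_apply]
    exact mul_nonneg (hgn n) (Real.rpow_nonneg (Nat.cast_nonneg _) _)
  refine (sum_le_prod_geom hgp0 (fun {p} hp => (hrp p hp).trans_lt (by norm_num)) _ T hfac).trans ?_
  calc ∏ p ∈ Finset.range (⌊Q⌋₊ + 1) with p.Prime, (1 - gpow g (1 - η) p)⁻¹
      ≤ ∏ p ∈ Finset.range (⌊Q⌋₊ + 1) with p.Prime,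
          Real.exp (gpow g (1 - η) p + 6 * (gpow g (1 - η) p) ^ 2) := by
        refine Finset.prod_le_prod (fun p hp => ?_) (fun p hp => ?_)
        · rw [inv_nonneg]
          have := hrp p (Finset.mem_filter.mp hp).2
          linarith
        · exact inv_one_sub_le_exp (hgp0 p) (hrp p (Finset.mem_filter.mp hp).2)
    _ = Real.exp (∑ p ∈ Finset.range (⌊Q⌋₊ + 1) with p.Prime,
          (gpow g (1 - η) p + 6 * (gpow g (1 - η) p) ^ 2)) := (Real.exp_sum _ _).symm
    _ ≤ _ := by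
        rw [Real.exp_le_exp, Finset.sum_add_distrib]
        refine add_le_add ?_ ?_
        · rw [Finset.mul_sum]
          exact Finset.sum_le_sum hbound
        · calc ∑ p ∈ Finset.range (⌊Q⌋₊ + 1) with p.Prime, 6 * (gpow g (1 - η) p) ^ 2
              ≤ ∑ p ∈ Finset.range (⌊Q⌋₊ + 1) with p.Prime, 101 * (1 / (p : ℝ) ^ 2) := by
                refine Finset.sum_le_sum fun p hp => ?_
                have h1 := hbound p hp
                have h2 := pow_le_pow_left₀ (hgp0 p) h1 2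
                have h3 := Real.exp_one_lt_d9
                have h4 := Real.exp_pos 1
                have h5 : (Real.exp 1 * (3 / 2)) ^ 2 ≤ 101 / 6 := by nlinarith
                have h6 : (Real.exp 1 * (3 / 2) * (1 / (p : ℝ))) ^ 2 =
                    (Real.exp 1 * (3 / 2)) ^ 2 * (1 / (p : ℝ) ^ 2) := by ring
                rw [h6] at h2
                have h7 : (0 : ℝ) ≤ 1 / (p : ℝ) ^ 2 := by positivity
                nlinarith
            _ ≤ 101 := by
                rw [← Finset.mul_sum]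
                have := sum_inv_sq_primes_le (Finset.range (⌊Q⌋₊ + 1))
                linarith

/-- The rough part: shifted primes `q - 1` having a prime factor `> Q`. -/
lemma rough_sum_le : ∃ C : ℝ, 0 < C ∧ ∀ g : ℕ →*₀ ℝ,
    (∀ p : ℕ, p.Prime → 0 ≤ g p ∧ g p ≤ 3 / 2) → ∀ x Q : ℝ, 2 ≤ Q → Q ≤ x →
    ∀ A : Finset ℕ, (∀ q ∈ A, q.Prime ∧ (q : ℝ) ≤ x ∧ ∃ p : ℕ, p.Prime ∧ Q < p ∧ p ∣ q - 1) →
    ∑ q ∈ A, g (q - 1) ≤ C * (x / (Real.log Q) ^ 2) *
      Real.exp (∑ p ∈ Finset.range (⌊x⌋₊ + 1) with p.Prime, g p / p) := by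
  obtain ⟨C, hC, hsieve⟩ := Crest.Agent.Lib.LinSieve.linear_sieve 2 (by norm_num)
  refine ⟨3 / 2 * C * Real.exp 60, by positivity, fun g hg x Q hQ2 hQx A hA => ?_⟩
  have hgn := nonneg_of_prime fun p hp => (hg p hp).1
  have hx2 : 2 ≤ x := hQ2.trans hQx
  have hx0 : 0 < x := by linarith
  have hlogQ : 0 < Real.log Q := Real.log_pos (by linarith)
  set N := ⌊x⌋₊ with hN
  set M := ⌊x / Q⌋₊ with hM
  -- the set of pairs
  set D : Finset ((_ : ℕ) × ℕ) := (Finset.Icc 1 M).sigma fun m =>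
    (Finset.Ioc 0 ⌊x / m⌋₊).filter fun n => ∀ i : Fin 2, ((![1, m] : Fin 2 → ℕ) i * n +
      (![0, 1] : Fin 2 → ℕ) i).Prime with hD
  have hsub : A ⊆ D.image fun z => z.1 * z.2 + 1 := by
    intro q hq
    obtain ⟨hqp, hqx, p, hp, hQp, m, hm⟩ := hA q hq
    have hq1 : 1 ≤ q - 1 := by have := hqp.two_le; omega
    have hm0 : m ≠ 0 := by rintro rfl; simp at hm; omega
    have hp0 : (0 : ℝ) < p := by exact_mod_cast hp.pos
    have hmp : (m : ℝ) * p ≤ x := by
      have : m * p ≤ q := by rw [mul_comm, ← hm]; omega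
      exact le_trans (by exact_mod_cast this) hqx
    have hm0' : (0 : ℝ) < m := by exact_mod_cast Nat.pos_of_ne_zero hm0
    rw [Finset.mem_image]
    refine ⟨⟨m, p⟩, ?_, ?_⟩
    · rw [hD, Finset.mem_sigma, Finset.mem_Icc, Finset.mem_filter, Finset.mem_Ioc]
      refine ⟨⟨Nat.one_le_iff_ne_zero.mpr hm0, ?_⟩, ⟨hp.pos, ?_⟩, ?_⟩
      · refine Nat.le_floor ?_
        rw [le_div_iff₀ (by linarith)]
        exact (mul_le_mul_of_nonneg_left hQp.le hm0'.le).trans hmp
      · refine Nat.le_floor ?_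
        rw [le_div_iff₀ hm0', mul_comm]
        exact hmp
      · intro i
        fin_cases i
        · simpa using hp
        · have : m * p + 1 = q := by rw [mul_comm, ← hm]; omega
          simpa [this] using hqp
    · show m * p + 1 = q
      rw [mul_comm, ← hm]; omega
  have hstep1 : ∑ q ∈ A, g (q - 1) ≤ ∑ z ∈ D, g (z.1 * z.2) := by
    refine (Finset.sum_le_sum_of_subset_of_nonneg hsub (fun _ _ _ => hgn _)).trans ?_
    refine (Finset.sum_image_le_of_nonneg (fun _ _ => hgn _)).trans (le_of_eq ?_)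
    simp
  refine hstep1.trans ?_
  rw [hD, Finset.sum_sigma]
  calc ∑ m ∈ Finset.Icc 1 M, ∑ n ∈ (Finset.Ioc 0 ⌊x / m⌋₊).filter (fun n => ∀ i : Fin 2,
          ((![1, m] : Fin 2 → ℕ) i * n + (![0, 1] : Fin 2 → ℕ) i).Prime), g (m * n)
      ≤ ∑ m ∈ Finset.Icc 1 M, (3 / 2 * C * (x / (Real.log Q) ^ 2)) * gphi g m := by
        refine Finset.sum_le_sum fun m hm => ?_
        rw [Finset.mem_Icc] at hm
        have hm0 : (0 : ℝ) < m := by exact_mod_cast hm.1
        have hmM : (m : ℝ) ≤ x / Q := by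
          have h1 : (m : ℝ) ≤ M := by exact_mod_cast hm.2
          exact h1.trans (Nat.floor_le (by positivity))
        have hT : Q ≤ x / m := by
          rw [le_div_iff₀ hm0, mul_comm]
          rwa [le_div_iff₀ (by linarith)] at hmM
        have hcard := hsieve ![1, m] ![0, 1] m (by omega) (by
          intro i
          fin_cases i <;> simp) (by
          intro i j hij
          fin_cases i <;> fin_cases j <;> simp_all) (x / m) (hQ2.trans hT)
        calc ∑ n ∈ (Finset.Ioc 0 ⌊x / m⌋₊).filter (fun n => ∀ i : Fin 2,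
              ((![1, m] : Fin 2 → ℕ) i * n + (![0, 1] : Fin 2 → ℕ) i).Prime), g (m * n)
            ≤ ∑ n ∈ (Finset.Ioc 0 ⌊x / m⌋₊).filter (fun n => ∀ i : Fin 2,
              ((![1, m] : Fin 2 → ℕ) i * n + (![0, 1] : Fin 2 → ℕ) i).Prime), g m * (3 / 2) := by
              refine Finset.sum_le_sum fun n hn => ?_
              rw [Finset.mem_filter] at hn
              have hnp := hn.2 0
              simp only [Fin.isValue, Matrix.cons_val_zero, one_mul, add_zero] at hnp
              rw [map_mul]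
              exact mul_le_mul_of_nonneg_left (hg n hnp).2 (hgn m)
          _ = (((Finset.Ioc 0 ⌊x / m⌋₊).filter (fun n => ∀ i : Fin 2,
              ((![1, m] : Fin 2 → ℕ) i * n + (![0, 1] : Fin 2 → ℕ) i).Prime)).card : ℝ) *
                (g m * (3 / 2)) := by
              rw [Finset.sum_const, nsmul_eq_mul]
          _ ≤ (C * (x / m / Real.log (x / m) ^ 2) * ((m : ℝ) / Nat.totient m) ^ 2) *
                (g m * (3 / 2)) := by
              refine mul_le_mul_of_nonneg_right hcard (mul_nonneg (hgn m) (by norm_num))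
          _ ≤ (C * (x / m / Real.log Q ^ 2) * ((m : ℝ) / Nat.totient m) ^ 2) *
                (g m * (3 / 2)) := by
              refine mul_le_mul_of_nonneg_right ?_ (mul_nonneg (hgn m) (by norm_num))
              refine mul_le_mul_of_nonneg_right ?_ (by positivity)
              refine mul_le_mul_of_nonneg_left ?_ hC.le
              refine div_le_div_of_nonneg_left (by positivity) (by positivity) ?_
              exact pow_le_pow_left₀ hlogQ.le (Real.log_le_log (by linarith) hT) 2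
          _ = _ := by
              unfold gphi
              field_simp
    _ = (3 / 2 * C * (x / (Real.log Q) ^ 2)) * ∑ m ∈ Finset.Icc 1 M, gphi g m := by
        rw [Finset.mul_sum]
    _ ≤ (3 / 2 * C * (x / (Real.log Q) ^ 2)) * (Real.exp 60 *
          Real.exp (∑ p ∈ Finset.range (⌊x⌋₊ + 1) with p.Prime, g p / p)) := by
        refine mul_le_mul_of_nonneg_left ?_ (by positivity)
        refine sum_gphi_le hg _ _ fun n hn => ?_
        rw [Finset.mem_Icc] at hn
        refine mem_factoredNumbers_of_le (by omega) (hn.2.trans ?_)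
        refine Nat.floor_le_floor ?_
        exact div_le_self hx0.le (by linarith)
    _ = _ := by ring

end Crest.Agent.R020
end

-- ▼ part R020/Abn3
section

/-!
# The twisted sum over shifted primes, counting form (TS1)
-/

open Finset Filter

namespace Crest.Agent.R020

/-- `1 + max 0 (log log x)` -/
noncomputable def LLx (x : ℝ) : ℝ := 1 + max 0 (Real.log (Real.log x))

lemma one_le_LLx (x : ℝ) : 1 ≤ LLx x := by
  unfold LLx
  have := le_max_left 0 (Real.log (Real.log x))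
  linarith

lemma g_le_self {g : ℕ →*₀ ℝ} (hg : ∀ p : ℕ, p.Prime → 0 ≤ g p ∧ g p ≤ 3 / 2) (n : ℕ) :
    g n ≤ n := by
  have hgn := nonneg_of_prime fun p hp => (hg p hp).1
  induction n using Nat.recOnMul with
  | zero => simp
  | one => simp
  | prime p hp =>
    have : (2 : ℝ) ≤ p := by exact_mod_cast hp.two_le
    have := (hg p hp).2
    linarith
  | mul a b ha hb =>
    rw [map_mul]
    push_cast
    exact mul_le_mul ha hb (hgn b) (Nat.cast_nonneg _)

/-- The smooth part. -/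
lemma smooth_sum_le {g : ℕ →*₀ ℝ} (hg : ∀ p : ℕ, p.Prime → 0 ≤ g p ∧ g p ≤ 3 / 2)
    {x : ℝ} (hx : 16 ≤ x) (hη1 : 8 * Real.log (Real.log x) / Real.log x ≤ 1 / 10)
    (T : Finset ℕ) (hT : ∀ n ∈ T, n ≠ 0 ∧ (n : ℝ) ≤ x ∧ ∀ p : ℕ, p.Prime → p ∣ n →
      (p : ℝ) ≤ Real.exp (Real.log x / (8 * Real.log (Real.log x)))) :
    ∑ n ∈ T, g n ≤ Real.exp 213 * (x / Real.log x ^ 2) := by
  have hx0 : 0 < x := by linarith
  have hl1 : 1 < Real.log x := by
    rw [Real.lt_log_iff_exp_lt hx0]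
    have := Real.exp_one_lt_d9
    linarith
  set l := Real.log x with hl
  have hll : 0 < Real.log l := Real.log_pos hl1
  set η := 8 * Real.log l / l with hη
  have hη0 : 0 ≤ η := by positivity
  set Q := Real.exp (l / (8 * Real.log l)) with hQ
  have hQ1 : 1 ≤ Q := Real.one_le_exp (by positivity)
  have hlogQ : Real.log Q = l / (8 * Real.log l) := Real.log_exp _
  have hη2 : η * Real.log Q ≤ 1 := by
    rw [hlogQ, hη]
    apply le_of_eq
    field_simp
  refine (rankin_raw hg (by linarith) hη0 hη1 hQ1 hη2 T hT).trans ?_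
  have hQx : Q ≤ x := by
    rw [hQ, ← Real.exp_log hx0, ← hl, Real.exp_le_exp]
    have h1 : 10 ≤ l / (8 * Real.log l) := by
      rw [le_div_iff₀ (by positivity)]
      rw [hη, div_le_iff₀ (by linarith)] at hη1
      linarith
    have h2 : Real.log l ≤ l := (Real.log_le_self (by linarith))
    rw [div_le_iff₀ (by positivity)]
    have h3 : 1 ≤ 8 * Real.log l := by
      have : Real.log l ≥ 1 / 2 := by
        rw [ge_iff_le, Real.le_log_iff_exp_le (by linarith)]
        have h16 : Real.log 16 ≤ l := Real.log_le_log (by norm_num) hx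
        have h17 : Real.log 16 = 4 * Real.log 2 := by
          rw [show (16 : ℝ) = 2 ^ 4 by norm_num, Real.log_pow]; norm_num
        have h18 := Real.log_two_gt_d9
        have h19 : Real.exp (1 / 2) ≤ 2 := by
          have h20 : Real.exp (1 / 2) ^ 2 = Real.exp 1 := by
            rw [← Real.exp_nat_mul]; norm_num
          have h21 := Real.exp_one_lt_d9
          have h22 := Real.exp_pos (1 / 2)
          nlinarith
        linarith
      linarith
    nlinarith
  have hsum : ∑ p ∈ Finset.range (⌊Q⌋₊ + 1) with p.Prime, (1 : ℝ) / p ≤ Real.log l + 27 := by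
    refine le_trans ?_ (sum_inv_primes_le x (by linarith))
    exact Finset.sum_le_sum_of_subset_of_nonneg (range_primes_mono hQx) (fun _ _ _ => by positivity)
  have hpow : x ^ (1 - η) = x * Real.exp (-(8 * Real.log l)) := by
    rw [Real.rpow_sub hx0, Real.rpow_one, Real.rpow_def_of_pos hx0, ← hl, Real.exp_neg,
      ← div_eq_mul_inv]
    congr 2
    rw [hη]
    field_simp
  have hl2 : 1 / l ^ 2 = Real.exp (-(2 * Real.log l)) := by
    rw [Real.exp_neg, ← Real.log_rpow (by linarith), Real.exp_log (by positivity)]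
    norm_num
  rw [hpow]
  have he := Real.exp_one_lt_d9
  have he0 := Real.exp_pos 1
  calc x * Real.exp (-(8 * Real.log l)) * Real.exp (Real.exp 1 * (3 / 2) *
        (∑ p ∈ Finset.range (⌊Q⌋₊ + 1) with p.Prime, (1 : ℝ) / p) + 101)
      = x * Real.exp (-(8 * Real.log l) + (Real.exp 1 * (3 / 2) *
        (∑ p ∈ Finset.range (⌊Q⌋₊ + 1) with p.Prime, (1 : ℝ) / p) + 101)) := by
        rw [mul_assoc, ← Real.exp_add]
    _ ≤ x * Real.exp (213 + (-(2 * Real.log l))) := by
        refine mul_le_mul_of_nonneg_left ?_ hx0.le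
        rw [Real.exp_le_exp]
        have h1 : Real.exp 1 * (3 / 2) *
            (∑ p ∈ Finset.range (⌊Q⌋₊ + 1) with p.Prime, (1 : ℝ) / p) ≤
            Real.exp 1 * (3 / 2) * (Real.log l + 27) := mul_le_mul_of_nonneg_left hsum (by positivity)
        nlinarith
    _ = _ := by
        rw [Real.exp_add, ← hl2]
        ring

/-- **TS1**: sums of completely multiplicative functions over shifted primes. -/
theorem shifted_sum_le : ∃ C : ℝ, 0 < C ∧ ∀ g : ℕ →*₀ ℝ,
    (∀ p : ℕ, p.Prime → 0 ≤ g p ∧ g p ≤ 3 / 2) → ∀ x : ℝ, 2 ≤ x →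
    ∀ A : Finset ℕ, (∀ q ∈ A, q.Prime ∧ (q : ℝ) ≤ x) →
    ∑ q ∈ A, g (q - 1) ≤ C * LLx x ^ 2 * (x / (Real.log x) ^ 2) *
      Real.exp (∑ p ∈ Finset.range (⌊x⌋₊ + 1) with p.Prime, g p / p) := by
  obtain ⟨C, hC, hrough⟩ := rough_sum_le
  -- threshold
  have hev : ∀ᶠ x : ℝ in atTop, 8 * Real.log (Real.log x) / Real.log x ≤ 1 / 10 := by
    have h1 : Tendsto (fun t : ℝ => Real.log t / t) atTop (nhds 0) := by
      have := Real.tendsto_pow_log_div_mul_add_atTop 1 0 1 one_ne_zero
      simpa using this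
    have h2 := (h1.comp Real.tendsto_log_atTop).eventually (ge_mem_nhds (show (0 : ℝ) < 1 / 80 by norm_num))
    filter_upwards [h2] with x hx
    simp only [Function.comp] at hx
    have : 8 * Real.log (Real.log x) / Real.log x = 8 * (Real.log (Real.log x) / Real.log x) := by
      ring
    rw [this]
    linarith
  obtain ⟨X₀, hX₀⟩ := Filter.eventually_atTop.mp (hev.and (Filter.eventually_ge_atTop (16 : ℝ)))
  set X₁ := max X₀ 16 with hX₁
  refine ⟨64 * C + Real.exp 213 + 4 * ((X₁ + 1) * X₁), by positivity, fun g hg x hx A hA => ?_⟩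
  have hgn := nonneg_of_prime fun p hp => (hg p hp).1
  have hx0 : 0 < x := by linarith
  have hlx : 0 < Real.log x := Real.log_pos (by linarith)
  have hS : 0 ≤ ∑ p ∈ Finset.range (⌊x⌋₊ + 1) with p.Prime, g p / p :=
    Finset.sum_nonneg fun p _ => div_nonneg (hgn p) (Nat.cast_nonneg _)
  set S := ∑ p ∈ Finset.range (⌊x⌋₊ + 1) with p.Prime, g p / p with hSdef
  have hES : 1 ≤ Real.exp S := Real.one_le_exp hS
  have hLL := one_le_LLx x
  have hLL2 : 1 ≤ LLx x ^ 2 := one_le_pow₀ hLL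
  have hX1 : 16 ≤ X₁ := le_max_right _ _
  rcases lt_or_ge x X₁ with hlt | hge
  · -- small x
    have h1 : ∑ q ∈ A, g (q - 1) ≤ (X₁ + 1) * X₁ := by
      calc ∑ q ∈ A, g (q - 1) ≤ ∑ q ∈ A, X₁ := by
            refine Finset.sum_le_sum fun q hq => ?_
            refine (g_le_self hg _).trans ?_
            have h2 := (hA q hq).2
            have h3 : ((q - 1 : ℕ) : ℝ) ≤ q := by exact_mod_cast Nat.sub_le q 1
            linarith
        _ = (A.card : ℝ) * X₁ := by rw [Finset.sum_const, nsmul_eq_mul]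
        _ ≤ _ := by
            refine mul_le_mul_of_nonneg_right ?_ (by linarith)
            have h4 : A ⊆ Finset.range (⌊x⌋₊ + 1) := by
              intro q hq
              rw [Finset.mem_range]
              have := Nat.le_floor (hA q hq).2
              omega
            have h5 := Finset.card_le_card h4
            rw [Finset.card_range] at h5
            have h6 : (A.card : ℝ) ≤ ⌊x⌋₊ + 1 := by exact_mod_cast h5
            have h7 := Nat.floor_le hx0.le
            linarith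
    have h2 : 1 / 4 ≤ x / Real.log x ^ 2 := by
      rw [div_le_div_iff₀ (by norm_num) (by positivity)]
      have h3 : Real.log x ≤ x ^ (1 / 2 : ℝ) / (1 / 2) := Real.log_le_rpow_div hx0.le (by norm_num)
      have h4 : (x ^ (1 / 2 : ℝ)) ^ 2 = x := by
        rw [← Real.rpow_natCast, ← Real.rpow_mul hx0.le]; norm_num
      have h5 : 0 ≤ x ^ (1 / 2 : ℝ) := Real.rpow_nonneg hx0.le _
      have h6 : Real.log x ^ 2 ≤ (x ^ (1 / 2 : ℝ) / (1 / 2)) ^ 2 := pow_le_pow_left₀ hlx.le h3 2
      have h7 : (x ^ (1 / 2 : ℝ) / (1 / 2)) ^ 2 = 4 * x := by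
        rw [div_pow, h4]; ring
      linarith
    refine h1.trans ?_
    have h8 : 0 ≤ x / Real.log x ^ 2 := by positivity
    have h9 : (X₁ + 1) * X₁ ≤ 4 * ((X₁ + 1) * X₁) * (x / Real.log x ^ 2) := by
      have : 0 ≤ (X₁ + 1) * X₁ := by positivity
      nlinarith
    refine h9.trans ?_
    have h10 : 4 * ((X₁ + 1) * X₁) ≤ (64 * C + Real.exp 213 + 4 * ((X₁ + 1) * X₁)) := by
      have := Real.exp_pos 213
      linarith
    calc 4 * ((X₁ + 1) * X₁) * (x / Real.log x ^ 2)
        ≤ (64 * C + Real.exp 213 + 4 * ((X₁ + 1) * X₁)) * (x / Real.log x ^ 2) :=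
          mul_le_mul_of_nonneg_right h10 h8
      _ ≤ (64 * C + Real.exp 213 + 4 * ((X₁ + 1) * X₁)) * LLx x ^ 2 * (x / Real.log x ^ 2) := by
          refine mul_le_mul_of_nonneg_right ?_ h8
          exact le_mul_of_one_le_right (by positivity) hLL2
      _ ≤ _ := le_mul_of_one_le_right (by positivity) hES
  · -- large x
    obtain ⟨hη, hx16⟩ := hX₀ x ((le_max_left _ _).trans hge)
    have hl1 : 1 < Real.log x := by
      rw [Real.lt_log_iff_exp_lt hx0]
      have := Real.exp_one_lt_d9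
      linarith
    set l := Real.log x with hl
    have hll : 0 < Real.log l := Real.log_pos hl1
    set Q := Real.exp (l / (8 * Real.log l)) with hQ
    have hlogQ : Real.log Q = l / (8 * Real.log l) := Real.log_exp _
    have h10 : 10 ≤ l / (8 * Real.log l) := by
      rw [le_div_iff₀ (by positivity)]
      rw [div_le_iff₀ (by linarith)] at hη
      linarith
    have hQ2 : 2 ≤ Q := by
      have := Real.add_one_le_exp (l / (8 * Real.log l))
      linarith
    have hQx : Q ≤ x := by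
      rw [hQ, ← Real.exp_log hx0, ← hl, Real.exp_le_exp]
      rw [div_le_iff₀ (by positivity)]
      have h3 : 1 ≤ 8 * Real.log l := by
        have : Real.log l ≥ 1 / 2 := by
          rw [ge_iff_le, Real.le_log_iff_exp_le (by linarith)]
          have h16 : Real.log 16 ≤ l := Real.log_le_log (by norm_num) hx16
          have h17 : Real.log 16 = 4 * Real.log 2 := by
            rw [show (16 : ℝ) = 2 ^ 4 by norm_num, Real.log_pow]; norm_num
          have h18 := Real.log_two_gt_d9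
          have h19 : Real.exp (1 / 2) ≤ 2 := by
            have h20 : Real.exp (1 / 2) ^ 2 = Real.exp 1 := by
              rw [← Real.exp_nat_mul]; norm_num
            have h21 := Real.exp_one_lt_d9
            have h22 := Real.exp_pos (1 / 2)
            nlinarith
          linarith
        linarith
      nlinarith
    classical
    rw [← Finset.sum_filter_add_sum_filter_not A (fun q => ∃ p : ℕ, p.Prime ∧ Q < p ∧ p ∣ q - 1)]
    have hA1 := hrough g hg x Q hQ2 hQx (A.filter (fun q => ∃ p : ℕ, p.Prime ∧ Q < p ∧ p ∣ q - 1))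
      (fun q hq => by
        rw [Finset.mem_filter] at hq
        exact ⟨(hA q hq.1).1, (hA q hq.1).2, hq.2⟩)
    have hA2 : ∑ q ∈ A.filter (fun q => ¬ ∃ p : ℕ, p.Prime ∧ Q < p ∧ p ∣ q - 1), g (q - 1) ≤
        Real.exp 213 * (x / l ^ 2) := by
      have hinj : Set.InjOn (fun q : ℕ => q - 1)
          (A.filter (fun q => ¬ ∃ p : ℕ, p.Prime ∧ Q < p ∧ p ∣ q - 1) : Finset ℕ) := by
        intro a ha b hb hab
        rw [Finset.mem_coe, Finset.mem_filter] at ha hb
        have h1 := (hA a ha.1).1.two_le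
        have h2 := (hA b hb.1).1.two_le
        simp only at hab
        omega
      rw [← Finset.sum_image (f := fun n => g n) hinj]
      refine smooth_sum_le hg hx16 hη _ fun n hn => ?_
      rw [Finset.mem_image] at hn
      obtain ⟨q, hq, rfl⟩ := hn
      rw [Finset.mem_filter] at hq
      obtain ⟨hqA, hq2⟩ := hq
      have h1 := (hA q hqA).1.two_le
      refine ⟨by omega, ?_, fun p hp hpq => ?_⟩
      · have h3 : ((q - 1 : ℕ) : ℝ) ≤ q := by exact_mod_cast Nat.sub_le q 1
        exact h3.trans (hA q hqA).2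
      · by_contra hcon
        push Not at hcon
        exact hq2 ⟨p, hp, hcon, hpq⟩
    have hxl : 0 ≤ x / l ^ 2 := by positivity
    have hLLl : Real.log l ^ 2 ≤ LLx x ^ 2 := by
      refine pow_le_pow_left₀ hll.le ?_ 2
      unfold LLx
      have := le_max_right 0 (Real.log (Real.log x))
      linarith
    have hA1' : C * (x / (Real.log Q) ^ 2) * Real.exp S ≤
        64 * C * LLx x ^ 2 * (x / l ^ 2) * Real.exp S := by
      refine mul_le_mul_of_nonneg_right ?_ (Real.exp_pos _).le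
      have h1 : C * (x / (Real.log Q) ^ 2) = 64 * C * Real.log l ^ 2 * (x / l ^ 2) := by
        rw [hlogQ]
        field_simp
        ring
      rw [h1]
      refine mul_le_mul_of_nonneg_right ?_ hxl
      exact mul_le_mul_of_nonneg_left hLLl (by positivity)
    have hA2' : Real.exp 213 * (x / l ^ 2) ≤
        Real.exp 213 * LLx x ^ 2 * (x / l ^ 2) * Real.exp S := by
      calc Real.exp 213 * (x / l ^ 2) ≤ Real.exp 213 * LLx x ^ 2 * (x / l ^ 2) := by
            refine mul_le_mul_of_nonneg_right ?_ hxl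
            exact le_mul_of_one_le_right (Real.exp_pos _).le hLL2
        _ ≤ _ := le_mul_of_one_le_right (by positivity) hES
    have hA3 : 0 ≤ 4 * ((X₁ + 1) * X₁) * LLx x ^ 2 * (x / l ^ 2) * Real.exp S := by positivity
    calc _ ≤ 64 * C * LLx x ^ 2 * (x / l ^ 2) * Real.exp S +
          Real.exp 213 * LLx x ^ 2 * (x / l ^ 2) * Real.exp S :=
          add_le_add (hA1.trans hA1') (hA2.trans hA2')
      _ ≤ _ := by nlinarith

end Crest.Agent.R020
end

-- ▼ part R020/Abn4

/-!
# The twisted sum over shifted primes, reciprocal form on a unit window of the double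
# logarithmic scale (TS2)
-/

open Finset Filter

namespace Crest.Agent.R020

/-- the primes `p` with `yy p ≤ u` (for `u ≥ 0`), as a finset. -/
noncomputable def PL (u : ℝ) : Finset ℕ :=
  (Finset.range (⌊Real.exp (Real.exp u)⌋₊ + 1)).filter Nat.Prime

lemma abn_yy_le_iff {p : ℕ} (hp : p.Prime) {u : ℝ} (hu : 0 ≤ u) :
    yy p ≤ u ↔ (p : ℝ) ≤ Real.exp (Real.exp u) := by
  have h2 : (2 : ℝ) ≤ p := by exact_mod_cast hp.two_le
  have hlog : 0 < Real.log p := Real.log_pos (by linarith)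
  unfold yy
  rw [max_le_iff, Real.log_le_iff_le_exp hlog, Real.log_le_iff_le_exp (by linarith)]
  exact ⟨fun h => h.2, fun h => ⟨hu, h⟩⟩

lemma mem_PL {p : ℕ} {u : ℝ} (hu : 0 ≤ u) : p ∈ PL u ↔ p.Prime ∧ yy p ≤ u := by
  unfold PL
  rw [Finset.mem_filter, Finset.mem_range, Nat.lt_succ_iff,
    Nat.le_floor_iff (Real.exp_pos _).le]
  constructor
  · rintro ⟨h1, h2⟩
    exact ⟨h2, (abn_yy_le_iff h2 hu).mpr h1⟩
  · rintro ⟨h1, h2⟩
    exact ⟨(abn_yy_le_iff h1 hu).mp h2, h1⟩

/-- **TS2**: twisted sum over shifted primes on a unit window of the `loglog` scale. -/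
theorem twisted_sum_le : ∃ C : ℝ, 0 < C ∧ ∀ g : ℕ →*₀ ℝ,
    (∀ p : ℕ, p.Prime → 0 ≤ g p ∧ g p ≤ 3 / 2) → ∀ u : ℝ, 0 ≤ u →
    ∀ T : Finset ℕ, (∀ q ∈ T, q.Prime ∧ u ≤ yy q ∧ yy q ≤ u + 1) →
    ∑ q ∈ T, g (q - 1) / ((q : ℝ) - 1) ≤ C * (1 + u) ^ 2 * Real.exp (-u) *
      Real.exp (∑ p ∈ PL u, g p / p) := by
  obtain ⟨C, hC, hTS⟩ := shifted_sum_le
  refine ⟨4 * C / Real.log 2 ^ 2 * 9 * Real.exp 30 * (Real.exp 1 * Real.log 2), ?_,
    fun g hg u hu T hT => ?_⟩
  · have := Real.log_pos (show (1 : ℝ) < 2 by norm_num)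
    positivity
  have hgn := nonneg_of_prime fun p hp => (hg p hp).1
  have hlog2 := Real.log_two_gt_d9
  have hlog2' := Real.log_two_lt_d9
  have hlog2pos : 0 < Real.log 2 := by linarith
  set S := ∑ p ∈ PL u, g p / p with hS
  -- facts on the elements of `T`
  have hTk : ∀ q ∈ T, 1 ≤ Nat.log 2 q ∧ Real.exp u ≤ ((Nat.log 2 q : ℝ) + 1) * Real.log 2 ∧
      (Nat.log 2 q : ℝ) * Real.log 2 ≤ Real.exp (u + 1) := by
    intro q hq
    obtain ⟨hqp, hq1, hq2⟩ := hT q hq
    have hq0 : q ≠ 0 := hqp.ne_zero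
    have h2 : (2 : ℝ) ≤ q := by exact_mod_cast hqp.two_le
    have hk1 : 1 ≤ Nat.log 2 q := by
      refine Nat.le_log_of_pow_le (by norm_num) ?_
      simpa using hqp.two_le
    have hlow : (2 : ℝ) ^ (Nat.log 2 q) ≤ q := by exact_mod_cast Nat.pow_log_le_self 2 hq0
    have hup : (q : ℝ) < 2 ^ (Nat.log 2 q + 1) := by
      exact_mod_cast Nat.lt_pow_succ_log_self (by norm_num) q
    refine ⟨hk1, ?_, ?_⟩
    · rcases le_or_gt u 0 with h0 | h0
      · have hu0 : u = 0 := le_antisymm h0 hu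
        rw [hu0, Real.exp_zero]
        have : (1 : ℝ) ≤ Nat.log 2 q := by exact_mod_cast hk1
        nlinarith
      · have h3 : u ≤ Real.log (Real.log q) := by
          unfold yy at hq1
          rcases le_max_iff.mp hq1 with h | h
          · linarith
          · exact h
        have hlq : 0 < Real.log q := Real.log_pos (by linarith)
        rw [Real.le_log_iff_exp_le hlq] at h3
        refine h3.trans ?_
        have h4 := Real.log_le_log (by linarith) hup.le
        rw [Real.log_pow] at h4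
        push_cast at h4
        exact h4
    · have h3 := (abn_yy_le_iff hqp (by linarith)).mp hq2
      have h4 := Real.log_le_log (by positivity) (hlow.trans h3)
      rwa [Real.log_pow, Real.log_exp] at h4
  -- bound for each dyadic piece
  set Kmax := ⌊Real.exp (u + 1) / Real.log 2⌋₊ with hKmax
  have hpiece : ∀ k ∈ Finset.Icc 1 Kmax,
      ∑ q ∈ T.filter (fun q => Nat.log 2 q = k), g (q - 1) / ((q : ℝ) - 1) ≤
        4 * C / Real.log 2 ^ 2 * 9 * Real.exp 30 * (1 + u) ^ 2 * Real.exp S *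
          (Real.log 2 ^ 2 * Real.exp (-(2 * u))) := by
    intro k hk
    rcases (T.filter (fun q => Nat.log 2 q = k)).eq_empty_or_nonempty with he | ⟨q₀, hq₀⟩
    · rw [he, Finset.sum_empty]
      positivity
    rw [Finset.mem_filter] at hq₀
    obtain ⟨hq₀T, hq₀k⟩ := hq₀
    obtain ⟨h1, h2, h3⟩ := hTk q₀ hq₀T
    rw [hq₀k] at h1 h2 h3
    have hk0 : (1 : ℝ) ≤ k := by exact_mod_cast h1
    set X : ℝ := 2 ^ (k + 1) with hX
    have hX2 : 2 ≤ X := by
      rw [hX]
      calc (2 : ℝ) = 2 ^ 1 := by norm_num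
        _ ≤ 2 ^ (k + 1) := pow_le_pow_right₀ (by norm_num) (by omega)
    have hlogX : Real.log X = ((k : ℝ) + 1) * Real.log 2 := by
      rw [hX, Real.log_pow]
      push_cast
      ring
    have hTS1 := hTS g hg X hX2 (T.filter (fun q => Nat.log 2 q = k)) (fun q hq => by
      rw [Finset.mem_filter] at hq
      refine ⟨(hT q hq.1).1, ?_⟩
      rw [hX, ← hq.2]
      exact_mod_cast (Nat.lt_pow_succ_log_self (by norm_num) q).le)
    -- the sum of reciprocals
    have hrec : ∑ q ∈ T.filter (fun q => Nat.log 2 q = k), g (q - 1) / ((q : ℝ) - 1) ≤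
        (4 / X) * ∑ q ∈ T.filter (fun q => Nat.log 2 q = k), g (q - 1) := by
      rw [Finset.mul_sum]
      refine Finset.sum_le_sum fun q hq => ?_
      rw [Finset.mem_filter] at hq
      have hqp := (hT q hq.1).1
      have hq2 : (2 : ℝ) ≤ q := by exact_mod_cast hqp.two_le
      have hlow : (2 : ℝ) ^ k ≤ q := by
        rw [← hq.2]; exact_mod_cast Nat.pow_log_le_self 2 hqp.ne_zero
      have hX' : X = 2 * 2 ^ k := by rw [hX, pow_succ]; ring
      have hXq : X / 4 ≤ (q : ℝ) - 1 := by linarith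
      rw [div_le_iff₀ (by linarith)]
      have : 4 / X * g (q - 1) * ((q : ℝ) - 1) = g (q - 1) * (4 / X * ((q : ℝ) - 1)) := by ring
      rw [this]
      refine le_mul_of_one_le_right (hgn _) ?_
      rw [div_mul_eq_mul_div, one_le_div (by linarith)]
      linarith
    refine hrec.trans ?_
    have hX0 : 0 < X := by linarith
    have hlX : 0 < Real.log X := Real.log_pos (by linarith)
    -- LLx bound
    have hLL : LLx X ≤ 3 * (1 + u) := by
      unfold LLx
      have h4 : Real.log (Real.log X) ≤ u + 2 := by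
        rw [Real.log_le_iff_le_exp hlX, hlogX]
        have h5 : Real.exp (u + 2) = Real.exp (u + 1) * Real.exp 1 := by
          rw [← Real.exp_add]; ring_nf
        have h6 : 2 ≤ Real.exp 1 := by have := Real.exp_one_gt_d9; linarith
        have h7 : 1 ≤ Real.exp (u + 1) := Real.one_le_exp (by linarith)
        rw [h5]
        nlinarith
      have h8 : max 0 (Real.log (Real.log X)) ≤ u + 2 := max_le (by linarith) h4
      linarith
    have hLL1 := one_le_LLx X
    have hLL2 : LLx X ^ 2 ≤ 9 * (1 + u) ^ 2 := by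
      have := pow_le_pow_left₀ (by linarith) hLL 2
      nlinarith
    -- prime sum bound
    have hsum : ∑ p ∈ Finset.range (⌊X⌋₊ + 1) with p.Prime, g p / p ≤ S + 30 := by
      set Y := Real.exp (Real.exp u) with hY
      have hY2 : 2 ≤ Y := by
        rw [hY]
        have h4 : 1 ≤ Real.exp u := Real.one_le_exp hu
        have h5 := Real.add_one_le_exp (Real.exp u)
        linarith
      rcases le_or_gt X Y with hXY | hXY
      · have : ∑ p ∈ Finset.range (⌊X⌋₊ + 1) with p.Prime, g p / p ≤ S := by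
          rw [hS]
          exact Finset.sum_le_sum_of_subset_of_nonneg (range_primes_mono hXY)
            (fun p _ _ => div_nonneg (hgn p) (Nat.cast_nonneg _))
        linarith
      · have hM := Crest.Agent.Lib.Mertens.mertens_two Y X hY2 hXY.le
        have hsplit : (Finset.range (⌊X⌋₊ + 1)).filter Nat.Prime ⊆
            PL u ∪ Crest.Agent.Lib.Mertens.pr Y X := by
          intro p hp
          rw [Finset.mem_filter, Finset.mem_range] at hp
          rw [Finset.mem_union, PL, Crest.Agent.Lib.Mertens.pr, Finset.mem_filter,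
            Finset.mem_filter, Finset.mem_Ioc, Finset.mem_range]
          rcases Nat.lt_or_ge ⌊Y⌋₊ p with h | h
          · right; exact ⟨⟨h, by omega⟩, hp.2⟩
          · left
            have h' : p ≤ ⌊Real.exp (Real.exp u)⌋₊ := h
            exact ⟨by omega, hp.2⟩
        have h5 : ∑ p ∈ Finset.range (⌊X⌋₊ + 1) with p.Prime, g p / p ≤
            S + ∑ p ∈ Crest.Agent.Lib.Mertens.pr Y X, g p / p := by
          refine (Finset.sum_le_sum_of_subset_of_nonneg hsplit
            (fun p _ _ => div_nonneg (hgn p) (Nat.cast_nonneg _))).trans ?_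
          refine (Finset.sum_union_inter (s₁ := PL u)
            (s₂ := Crest.Agent.Lib.Mertens.pr Y X) (f := fun p : ℕ => g p / (p : ℝ))).symm ▸ ?_
          have : 0 ≤ ∑ p ∈ PL u ∩ Crest.Agent.Lib.Mertens.pr Y X, g p / (p : ℝ) :=
            Finset.sum_nonneg fun p _ => div_nonneg (hgn p) (Nat.cast_nonneg _)
          linarith
        have h6 : ∑ p ∈ Crest.Agent.Lib.Mertens.pr Y X, g p / (p : ℝ) ≤
            3 / 2 * ∑ p ∈ Crest.Agent.Lib.Mertens.pr Y X, 1 / (p : ℝ) := by
          rw [Finset.mul_sum]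
          refine Finset.sum_le_sum fun p hp => ?_
          unfold Crest.Agent.Lib.Mertens.pr at hp
          rw [Finset.mem_filter] at hp
          have := (hg p hp.2).2
          rw [mul_one_div]
          exact div_le_div_of_nonneg_right this (Nat.cast_nonneg _)
        have h7 := (abs_le.mp hM).2
        have h8 : Real.log Y = Real.exp u := Real.log_exp _
        have h9 : Real.log (Real.log Y) = u := by rw [h8, Real.log_exp]
        have h10 : Real.log (Real.log X) ≤ u + 2 := by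
          rw [Real.log_le_iff_le_exp hlX, hlogX]
          have h5 : Real.exp (u + 2) = Real.exp (u + 1) * Real.exp 1 := by
            rw [← Real.exp_add]; ring_nf
          have h6 : 2 ≤ Real.exp 1 := by have := Real.exp_one_gt_d9; linarith
          have h7 : 1 ≤ Real.exp (u + 1) := Real.one_le_exp (by linarith)
          rw [h5]
          nlinarith
        have h11 : 18 / Real.log Y ≤ 18 := by
          rw [h8, div_le_iff₀ (Real.exp_pos _)]
          have := Real.one_le_exp hu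
          linarith
        rw [h9] at h7
        linarith
    have hexp : Real.exp (∑ p ∈ Finset.range (⌊X⌋₊ + 1) with p.Prime, g p / p) ≤
        Real.exp 30 * Real.exp S := by
      rw [← Real.exp_add, Real.exp_le_exp]
      linarith
    have hinv : 1 / Real.log X ^ 2 ≤ Real.exp (-(2 * u)) := by
      rw [Real.exp_neg, ← one_div]
      refine one_div_le_one_div_of_le (Real.exp_pos _) ?_
      have : Real.exp (2 * u) = Real.exp u ^ 2 := by
        rw [← Real.exp_nat_mul]; norm_num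
      rw [this, hlogX]
      exact pow_le_pow_left₀ (Real.exp_pos _).le h2 2
    calc 4 / X * ∑ q ∈ T.filter (fun q => Nat.log 2 q = k), g (q - 1)
        ≤ 4 / X * (C * LLx X ^ 2 * (X / (Real.log X) ^ 2) *
            Real.exp (∑ p ∈ Finset.range (⌊X⌋₊ + 1) with p.Prime, g p / p)) :=
          mul_le_mul_of_nonneg_left hTS1 (by positivity)
      _ = 4 * C * LLx X ^ 2 * (1 / (Real.log X) ^ 2) *
            Real.exp (∑ p ∈ Finset.range (⌊X⌋₊ + 1) with p.Prime, g p / p) := by
          field_simp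
      _ ≤ 4 * C * (9 * (1 + u) ^ 2) * Real.exp (-(2 * u)) * (Real.exp 30 * Real.exp S) := by
          refine mul_le_mul ?_ hexp (Real.exp_pos _).le (by positivity)
          refine mul_le_mul ?_ hinv (by positivity) (by positivity)
          exact mul_le_mul_of_nonneg_left hLL2 (by positivity)
      _ = _ := by
          field_simp
  -- assemble
  have hTsub : ∀ q ∈ T, Nat.log 2 q ∈ Finset.Icc 1 Kmax := by
    intro q hq
    obtain ⟨h1, h2, h3⟩ := hTk q hq
    rw [Finset.mem_Icc]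
    refine ⟨h1, Nat.le_floor ?_⟩
    rw [le_div_iff₀ hlog2pos]
    exact h3
  rw [← Finset.sum_fiberwise_of_maps_to hTsub]
  refine (Finset.sum_le_sum hpiece).trans ?_
  rw [Finset.sum_const, nsmul_eq_mul, Nat.card_Icc]
  have hcard : ((Kmax + 1 - 1 : ℕ) : ℝ) ≤ Real.exp (u + 1) / Real.log 2 := by
    rw [Nat.add_sub_cancel]
    exact Nat.floor_le (by positivity)
  refine (mul_le_mul_of_nonneg_right hcard (by positivity)).trans (le_of_eq ?_)
  have h1 : Real.exp (u + 1) = Real.exp u * Real.exp 1 := Real.exp_add _ _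
  have h2 : Real.exp (-(2 * u)) = Real.exp (-u) * Real.exp (-u) := by
    rw [← Real.exp_add]; ring_nf
  have h3 : Real.exp u * Real.exp (-u) = 1 := by rw [← Real.exp_add]; simp
  rw [h1, h2]
  field_simp
  linear_combination h3

end Crest.Agent.R020
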