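import Mathlib

/-!
Row 20, module E (collisions), part 2: factor matrices, sums over matrices, completely multiplicative
weights given by their values on primes.
-/

set_option autoImplicit false

open scoped ENNReal
open Finset

namespace Crest.Agent.R020.Coll

/-! ### common refinement of two factorisations -/

/-- a divisor of a product splits as a product of divisors -/
lemma exists_split {κ : Type*} [DecidableEq κ] (S : Finset κ) (b : κ → ℕ) (a : ℕ)
    (h : a ∣ ∏ j ∈ S, b j) : ∃ c : κ → ℕ, (∀ j ∈ S, c j ∣ b j) ∧ a = ∏ j ∈ S, c j := by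
  induction S using Finset.induction_on generalizing a with
  | empty =>
    refine ⟨fun _ => 1, by simp, ?_⟩
    simpa using h
  | insert j S hj ih =>
    rw [Finset.prod_insert hj] at h
    obtain ⟨a₁, a₂, h1, h2, rfl⟩ := exists_dvd_and_dvd_of_dvd_mul h
    obtain ⟨c, hc, rfl⟩ := ih a₂ h2
    refine ⟨Function.update c j a₁, ?_, ?_⟩
    · intro j' hj'
      by_cases e : j' = j
      · subst e; simpa using h1
      · rw [Function.update_of_ne e]
        exact hc j' ((Finset.mem_insert.1 hj').resolve_left e)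
    · rw [Finset.prod_insert hj, Function.update_self]
      congr 1
      refine Finset.prod_congr rfl fun j' hj' => ?_
      rw [Function.update_of_ne]
      rintro rfl
      exact hj hj'

/-- common refinement -/
lemma exists_matrix {ι κ : Type*} [DecidableEq ι] [Fintype κ] [DecidableEq κ] (S : Finset ι)
    (a : ι → ℕ) (b : κ → ℕ) (ha : ∀ i ∈ S, a i ≠ 0) (h : ∏ i ∈ S, a i = ∏ j, b j) :
    ∃ m : ι → κ → ℕ, (∀ i ∈ S, ∏ j, m i j = a i) ∧ (∀ j, ∏ i ∈ S, m i j = b j) := by
  induction S using Finset.induction_on generalizing b with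
  | empty =>
    refine ⟨fun _ _ => 1, by simp, fun j => ?_⟩
    have h1 : ∏ j, b j = 1 := by simpa using h.symm
    have : b j = 1 := (Finset.prod_eq_one_iff.1 h1) j (Finset.mem_univ j)
    simp [this]
  | insert i S hi ih =>
    rw [Finset.prod_insert hi] at h
    have hdvd : a i ∣ ∏ j, b j := ⟨_, h.symm⟩
    obtain ⟨c, hc, hac⟩ := exists_split Finset.univ b (a i) hdvd
    have hai : a i ≠ 0 := ha i (Finset.mem_insert_self _ _)
    have hc0 : ∀ j, c j ≠ 0 := by
      intro j hj
      apply hai
      rw [hac]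
      exact Finset.prod_eq_zero (Finset.mem_univ j) hj
    choose b' hb' using fun j => hc j (Finset.mem_univ j)
    have h2 : ∏ i' ∈ S, a i' = ∏ j, b' j := by
      have : a i * ∏ i' ∈ S, a i' = a i * ∏ j, b' j := by
        rw [h]
        conv_lhs => rw [Finset.prod_congr rfl fun j _ => hb' j]
        rw [Finset.prod_mul_distrib, ← hac]
      exact Nat.eq_of_mul_eq_mul_left (Nat.pos_of_ne_zero hai) this
    obtain ⟨m, hm1, hm2⟩ := ih b' (fun i' hi' => ha i' (Finset.mem_insert_of_mem hi')) h2
    refine ⟨Function.update m i c, ?_, ?_⟩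
    · intro i' hi'
      by_cases e : i' = i
      · subst e; simp [hac]
      · rw [Function.update_of_ne e]
        exact hm1 i' ((Finset.mem_insert.1 hi').resolve_left e)
    · intro j
      rw [Finset.prod_insert hi, Function.update_self, hb' j, ← hm2 j]
      congr 1
      refine Finset.prod_congr rfl fun i' hi' => ?_
      rw [Function.update_of_ne]
      rintro rfl
      exact hi hi'

/-! ### sums over functions -/

open Classical in
/-- `∑_m ∏_i g i (m i) ≤ ∏_i ∑_n g i n` -/
lemma tsum_prod_le {ι : Type*} [Fintype ι] {α : Type*} (g : ι → α → ℝ≥0∞) :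
    ∑' m : ι → α, ∏ i, g i (m i) ≤ ∏ i, ∑' n, g i n := by
  rw [ENNReal.tsum_eq_iSup_sum]
  refine iSup_le fun s => ?_
  set t : ι → Finset α := fun i => s.image (fun m => m i) with ht
  have hs : s ⊆ Fintype.piFinset t := by
    intro m hm
    rw [Fintype.mem_piFinset]
    intro i
    exact Finset.mem_image_of_mem _ hm
  calc ∑ m ∈ s, ∏ i, g i (m i) ≤ ∑ m ∈ Fintype.piFinset t, ∏ i, g i (m i) :=
        Finset.sum_le_sum_of_subset hs
    _ = ∏ i, ∑ n ∈ t i, g i n := (Finset.prod_univ_sum t g).symm
    _ ≤ ∏ i, ∑' n, g i n := Finset.prod_le_prod' fun i _ => ENNReal.sum_le_tsum _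


/-! ### completely multiplicative weights -/

/-- the completely multiplicative function with values `u q` at the primes (and `0` at `0`) -/
noncomputable def cm (u : ℕ → ℝ≥0∞) (n : ℕ) : ℝ≥0∞ :=
  if n = 0 then 0 else (n.primeFactorsList.map u).prod

@[simp] lemma cm_zero (u : ℕ → ℝ≥0∞) : cm u 0 = 0 := by simp [cm]

@[simp] lemma cm_one (u : ℕ → ℝ≥0∞) : cm u 1 = 1 := by simp [cm]

lemma cm_mul (u : ℕ → ℝ≥0∞) (m n : ℕ) : cm u (m * n) = cm u m * cm u n := by
  rcases eq_or_ne m 0 with rfl | hm
  · simp
  rcases eq_or_ne n 0 with rfl | hn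
  · simp
  unfold cm
  rw [if_neg (mul_ne_zero hm hn), if_neg hm, if_neg hn,
    ((Nat.perm_primeFactorsList_mul hm hn).map u).prod_eq, List.map_append, List.prod_append]

lemma cm_prime (u : ℕ → ℝ≥0∞) (q : ℕ) (hq : q.Prime) : cm u q = u q := by
  unfold cm
  rw [if_neg hq.ne_zero, Nat.primeFactorsList_prime hq]
  simp








end Crest.Agent.R020.Coll
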