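import Mathlib
import Crest.Prelude.Def_TotientScale
import Crest.Agent.R020.Renewal

-- ▼ part R020/RenewalAbs
section

/-!
Row 20, module G1: an abstract renewal theorem with exponential rate (aperiodic because `p 0 > 0`,
geometric tails).
-/

set_option autoImplicit false

noncomputable section

open Finset Filter Topology

namespace Crest.Agent.R020

namespace Renewal

/-- Data of a discrete renewal equation: `p n` is the mass at distance `n+1`, `r n` the tail
`∑_{d ≥ n} p d`, `u` the renewal sequence. -/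
structure Data where
  p : ℕ → ℝ
  r : ℕ → ℝ
  u : ℕ → ℝ
  κ : ℝ
  C : ℝ
  hp : ∀ n, 0 ≤ p n
  hp0 : 0 < p 0
  hr0 : r 0 = 1
  hr : ∀ n, r (n + 1) = r n - p n
  hrn : ∀ n, 0 ≤ r n
  hκ0 : 0 < κ
  hκ1 : κ < 1
  hrC : ∀ n, r n ≤ C * κ ^ n
  hu0 : u 0 = 1
  hu : ∀ n, u (n + 1) = ∑ d ∈ range (n + 1), p d * u (n - d)

variable (D : Data)

theorem Data.u_nonneg (n : ℕ) : 0 ≤ D.u n := by
  induction n using Nat.strong_induction_on with
  | _ n ih =>
    cases n with
    | zero => rw [D.hu0]; norm_num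
    | succ n =>
      rw [D.hu]
      exact Finset.sum_nonneg fun d hd => mul_nonneg (D.hp d) (ih _ (by omega))

/-- the renewal identity `∑_{k ≤ n} u_k r_{n-k} = 1`. -/
theorem Data.conv (n : ℕ) : ∑ k ∈ range (n + 1), D.u k * D.r (n - k) = 1 := by
  induction n with
  | zero => simp [D.hu0, D.hr0]
  | succ n ih =>
    rw [Finset.sum_range_succ]
    have h1 : ∑ k ∈ range (n + 1), D.u k * D.r (n + 1 - k)
        = ∑ k ∈ range (n + 1), D.u k * D.r (n - k) - ∑ k ∈ range (n + 1), D.u k * D.p (n - k) := by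
      rw [← Finset.sum_sub_distrib]
      refine Finset.sum_congr rfl fun k hk => ?_
      have hk' : k ≤ n := by simpa [Nat.lt_succ_iff] using hk
      rw [show n + 1 - k = (n - k) + 1 by omega, D.hr]
      ring
    rw [h1, ih, Nat.sub_self, D.hr0, D.hu n, mul_one]
    have h2 : ∑ d ∈ range (n + 1), D.p d * D.u (n - d) = ∑ k ∈ range (n + 1), D.u k * D.p (n - k) := by
      rw [← Finset.sum_range_reflect]
      refine Finset.sum_congr rfl fun k hk => ?_
      have hk' : k ≤ n := by simpa [Nat.lt_succ_iff] using hk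
      rw [show n + 1 - 1 - k = n - k by omega, show n - (n - k) = k by omega]
      ring
    rw [h2]
    ring

theorem Data.u_le_one (n : ℕ) : D.u n ≤ 1 := by
  have h := D.conv n
  rw [Finset.sum_range_succ, Nat.sub_self, D.hr0, mul_one] at h
  have : 0 ≤ ∑ k ∈ range n, D.u k * D.r (n - k) :=
    Finset.sum_nonneg fun k _ => mul_nonneg (D.u_nonneg k) (D.hrn _)
  linarith

theorem Data.C_ge_one : 1 ≤ D.C := by
  have := D.hrC 0
  rw [D.hr0] at this
  simpa using this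

theorem Data.p_le (n : ℕ) : D.p n ≤ D.r n := by
  have := D.hrn (n + 1)
  rw [D.hr] at this
  linarith

/-- `R z = ∑ r_n z^n`. -/
def Data.R (z : ℂ) : ℂ := ∑' n, (D.r n : ℂ) * z ^ n

/-- `P z = ∑ p_n z^(n+1)`. -/
def Data.P (z : ℂ) : ℂ := ∑' n, (D.p n : ℂ) * z ^ (n + 1)

theorem Data.norm_term_le {ρ1 : ℝ} {z : ℂ} (hz : ‖z‖ ≤ ρ1) (n : ℕ) :
    ‖(D.r n : ℂ) * z ^ n‖ ≤ D.C * (D.κ * ρ1) ^ n := by
  rw [norm_mul, norm_pow, mul_pow, ← mul_assoc]
  have h1 : ‖(D.r n : ℂ)‖ ≤ D.C * D.κ ^ n := by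
    rw [Complex.norm_real, Real.norm_of_nonneg (D.hrn n)]
    exact D.hrC n
  exact mul_le_mul h1 (pow_le_pow_left₀ (norm_nonneg _) hz n) (by positivity)
    (mul_nonneg (by linarith [D.C_ge_one]) (pow_nonneg D.hκ0.le n))

theorem Data.summable_geo {ρ1 : ℝ} (h0 : 0 ≤ ρ1) (h1 : D.κ * ρ1 < 1) :
    Summable fun n : ℕ => D.C * (D.κ * ρ1) ^ n :=
  (summable_geometric_of_lt_one (mul_nonneg D.hκ0.le h0) h1).mul_left _

theorem Data.summable_R {z : ℂ} (hz : D.κ * ‖z‖ < 1) : Summable fun n => ‖(D.r n : ℂ) * z ^ n‖ :=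
  Summable.of_nonneg_of_le (fun _ => norm_nonneg _) (fun n => D.norm_term_le le_rfl n)
    (D.summable_geo (norm_nonneg _) hz)

theorem Data.summable_P {z : ℂ} (hz : D.κ * ‖z‖ < 1) :
    Summable fun n => ‖(D.p n : ℂ) * z ^ (n + 1)‖ := by
  refine Summable.of_nonneg_of_le (fun _ => norm_nonneg _) (fun n => ?_)
    ((D.summable_R hz).mul_left ‖z‖)
  rw [norm_mul, norm_mul, norm_pow, norm_pow, Complex.norm_real, Complex.norm_real,
    Real.norm_of_nonneg (D.hp n), Real.norm_of_nonneg (D.hrn n), pow_succ]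
  have := D.p_le n
  have h2 : 0 ≤ ‖z‖ ^ n * ‖z‖ := by positivity
  nlinarith

theorem Data.R_differentiableOn {ρ1 : ℝ} (h0 : 0 ≤ ρ1) (h1 : D.κ * ρ1 < 1) :
    DifferentiableOn ℂ D.R (Metric.ball 0 ρ1) := by
  refine Complex.differentiableOn_tsum_of_summable_norm (D.summable_geo h0 h1) (fun n => ?_)
    Metric.isOpen_ball (fun n w hw => ?_)
  · exact ((differentiable_id.pow n).const_mul _).differentiableOn
  · exact D.norm_term_le (by simpa using (mem_ball_zero_iff.1 hw).le) n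

theorem Data.one_sub_mul_R {z : ℂ} (hz : D.κ * ‖z‖ < 1) : (1 - z) * D.R z = 1 - D.P z := by
  have hR := (D.summable_R hz).of_norm
  have hP := (D.summable_P hz).of_norm
  have h1 : D.R z = 1 + ∑' n, (D.r (n + 1) : ℂ) * z ^ (n + 1) := by
    rw [Data.R, hR.tsum_eq_zero_add]
    simp [D.hr0]
  have h2 : z * D.R z = ∑' n, (D.r n : ℂ) * z ^ (n + 1) := by
    rw [Data.R, ← tsum_mul_left]
    refine tsum_congr fun n => ?_
    rw [pow_succ]; ring
  have hR1 : Summable fun n => (D.r (n + 1) : ℂ) * z ^ (n + 1) :=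
    (summable_nat_add_iff (f := fun n => (D.r n : ℂ) * z ^ n) 1).2 hR
  have hR2 : Summable fun n => (D.r n : ℂ) * z ^ (n + 1) := by
    refine (hR.mul_left z).congr fun n => ?_
    rw [pow_succ]; ring
  rw [sub_mul, one_mul, h2, h1, add_sub_assoc, ← hR1.tsum_sub hR2, Data.P, sub_eq_add_neg (1:ℂ),
    ← tsum_neg]
  congr 1
  refine tsum_congr fun n => ?_
  rw [D.hr]
  push_cast
  ring

/-- `U z = ∑ u_n z^n`. -/
def Data.U (z : ℂ) : ℂ := ∑' n, (D.u n : ℂ) * z ^ n

theorem Data.summable_U {z : ℂ} (hz : ‖z‖ < 1) : Summable fun n => ‖(D.u n : ℂ) * z ^ n‖ := by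
  refine Summable.of_nonneg_of_le (fun _ => norm_nonneg _) (fun n => ?_)
    (summable_geometric_of_lt_one (norm_nonneg _) hz)
  rw [norm_mul, norm_pow, Complex.norm_real, Real.norm_of_nonneg (D.u_nonneg n)]
  exact mul_le_of_le_one_left (by positivity) (D.u_le_one n)

theorem Data.U_mul_R {z : ℂ} (hz : ‖z‖ < 1) : D.U z * D.R z = (1 - z)⁻¹ := by
  have hκz : D.κ * ‖z‖ < 1 := by nlinarith [D.hκ0, D.hκ1, norm_nonneg z]
  rw [Data.U, Data.R, tsum_mul_tsum_eq_tsum_sum_range_of_summable_norm (D.summable_U hz)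
    (D.summable_R hκz), ← tsum_geometric_of_norm_lt_one hz]
  refine tsum_congr fun n => ?_
  have h := D.conv n
  have h' : (∑ k ∈ range (n + 1), (D.u k : ℂ) * (D.r (n - k) : ℂ)) = 1 := by
    exact_mod_cast congrArg (fun x : ℝ => (x : ℂ)) h
  rw [← one_mul (z ^ n), ← h', Finset.sum_mul]
  refine Finset.sum_congr rfl fun k hk => ?_
  have hk' : k ≤ n := by simpa [Nat.lt_succ_iff] using hk
  have : z ^ n = z ^ k * z ^ (n - k) := by rw [← pow_add]; congr 1; omega
  rw [this]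
  ring

theorem Data.R_ne_zero {z : ℂ} (hz : ‖z‖ ≤ 1) : D.R z ≠ 0 := by
  have hκz : D.κ * ‖z‖ < 1 := by nlinarith [D.hκ0, D.hκ1, norm_nonneg z]
  rcases hz.lt_or_eq with h | h
  · intro h0
    have := D.U_mul_R h
    rw [h0, mul_zero] at this
    have h1 : (1 - z) ≠ 0 := by
      intro h2
      have : z = 1 := by linear_combination -h2
      rw [this] at h
      simp at h
    exact (inv_ne_zero h1) this.symm
  · by_cases hz1 : z = 1
    · subst hz1
      have hs : Summable D.r := by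
        have := D.summable_R (z := 1) hκz
        simpa [abs_of_nonneg (D.hrn _)] using this
      have : D.R 1 = ((∑' n, D.r n : ℝ) : ℂ) := by
        rw [Data.R, Complex.ofReal_tsum]
        simp
      rw [this]
      have hpos : 0 < ∑' n, D.r n := by
        refine hs.tsum_pos (fun n => D.hrn n) 0 ?_
        rw [D.hr0]; norm_num
      exact_mod_cast hpos.ne'
    · intro h0
      have h1 := D.one_sub_mul_R hκz
      rw [h0, mul_zero] at h1
      have hP1 : D.P z = 1 := by linear_combination h1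
      -- total mass one
      have hone := D.one_sub_mul_R (z := 1) (by simpa using D.hκ1)
      rw [sub_self, zero_mul] at hone
      have hP2 : D.P 1 = 1 := by linear_combination hone
      have hsP := D.summable_P hκz
      have hsP1 := D.summable_P (z := 1) (by simpa using D.hκ1)
      have hre : ∑' n, D.p n * (1 - (z ^ (n + 1)).re) = 0 := by
        have e1 : HasSum (fun n => (D.p n : ℂ) * (1:ℂ) ^ (n + 1)) 1 := by
          have := hsP1.of_norm.hasSum
          rwa [show (∑' (b : ℕ), (D.p b : ℂ) * (1:ℂ) ^ (b + 1)) = 1 from hP2] at this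
        have e2 : HasSum (fun n => (D.p n : ℂ) * z ^ (n + 1)) 1 := by
          have := hsP.of_norm.hasSum
          rwa [show (∑' (b : ℕ), (D.p b : ℂ) * z ^ (b + 1)) = 1 from hP1] at this
        have e3 := Complex.hasSum_re (e1.sub e2)
        rw [sub_self, Complex.zero_re] at e3
        rw [← e3.tsum_eq]
        refine tsum_congr fun n => ?_
        simp [mul_sub]
      have hterm : ∀ n, 0 ≤ D.p n * (1 - (z ^ (n + 1)).re) := fun n => by
        refine mul_nonneg (D.hp n) ?_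
        have := Complex.re_le_norm (z ^ (n + 1))
        rw [norm_pow, h, one_pow] at this
        linarith
      have hsum : Summable fun n => D.p n * (1 - (z ^ (n + 1)).re) := by
        have e1 := (hsP1.of_norm.sub hsP.of_norm)
        have e2 := (Complex.hasSum_re e1.hasSum).summable
        refine e2.congr fun n => ?_
        simp [mul_sub]
      have h3 := (hasSum_zero_iff_of_nonneg hterm).1 (hre ▸ hsum.hasSum)
      have h4 := congrFun h3 0
      simp only [Pi.zero_apply, zero_add, pow_one] at h4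
      have h5 : z.re = 1 := by
        rcases mul_eq_zero.1 h4 with h6 | h6
        · exact absurd h6 D.hp0.ne'
        · linarith
      apply hz1
      have h6 : z.re ^ 2 + z.im ^ 2 = 1 := by
        have := Complex.sq_norm z
        rw [h, Complex.normSq_apply] at this
        nlinarith
      have h7 : z.im = 0 := by
        have : z.im ^ 2 = 0 := by rw [h5] at h6; linarith
        exact pow_eq_zero_iff (two_ne_zero) |>.1 this
      apply Complex.ext <;> simp [h5, h7]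

/-- the differences `v_n = u_n - u_{n-1}`. -/
def Data.v (n : ℕ) : ℝ := match n with
  | 0 => D.u 0
  | n + 1 => D.u (n + 1) - D.u n

theorem Data.sum_v (n : ℕ) : ∑ k ∈ range (n + 1), D.v k = D.u n := by
  induction n with
  | zero => simp [Data.v]
  | succ n ih => rw [Finset.sum_range_succ, ih]; simp [Data.v]

theorem Data.abs_v_le (n : ℕ) : |D.v n| ≤ 1 := by
  cases n with
  | zero => simp [Data.v, D.hu0]
  | succ n =>
    have h1 := D.u_nonneg n
    have h2 := D.u_nonneg (n + 1)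
    have h3 := D.u_le_one n
    have h4 := D.u_le_one (n + 1)
    simp only [Data.v]
    rw [abs_le]
    constructor <;> linarith

theorem Data.hasSum_v {z : ℂ} (hz : ‖z‖ < 1) :
    HasSum (fun n => (D.v n : ℂ) * z ^ n) ((D.R z)⁻¹) := by
  have hU := (D.summable_U hz).of_norm
  have hsv : Summable fun n => (D.v n : ℂ) * z ^ n := by
    refine Summable.of_norm (Summable.of_nonneg_of_le (fun _ => norm_nonneg _) (fun n => ?_)
      (summable_geometric_of_lt_one (norm_nonneg _) hz))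
    rw [norm_mul, norm_pow, Complex.norm_real]
    exact mul_le_of_le_one_left (by positivity) (by simpa using D.abs_v_le n)
  have h1 : ∑' n, (D.v n : ℂ) * z ^ n = (1 - z) * D.U z := by
    have hU1 : Summable fun n => (D.u (n + 1) : ℂ) * z ^ (n + 1) :=
      (summable_nat_add_iff (f := fun n => (D.u n : ℂ) * z ^ n) 1).2 hU
    have hU2 : Summable fun n => (D.u n : ℂ) * z ^ (n + 1) := by
      refine (hU.mul_left z).congr fun n => ?_
      rw [pow_succ]; ring
    rw [hsv.tsum_eq_zero_add, sub_mul, one_mul, Data.U]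
    conv_rhs => rw [hU.tsum_eq_zero_add]
    have h2 : z * (((D.u 0 : ℝ) : ℂ) * z ^ 0 + ∑' n, (D.u (n + 1) : ℂ) * z ^ (n + 1))
        = ∑' n, (D.u n : ℂ) * z ^ (n + 1) := by
      rw [← hU.tsum_eq_zero_add, ← tsum_mul_left]
      refine tsum_congr fun n => ?_
      rw [pow_succ]; ring
    rw [h2, add_sub_assoc, ← hU1.tsum_sub hU2]
    simp only [Data.v]
    congr 1
    refine tsum_congr fun n => ?_
    push_cast
    ring
  have h2 : (1 - z) * D.U z = (D.R z)⁻¹ := by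
    have h3 := D.U_mul_R hz
    have h4 : D.R z ≠ 0 := D.R_ne_zero hz.le
    have h5 : (1 - z) ≠ 0 := by
      intro h2
      have : z = 1 := by linear_combination -h2
      rw [this] at hz
      simp at hz
    field_simp
    field_simp at h3
    linear_combination h3
  rw [← h2, ← h1]
  exact hsv.hasSum

theorem Data.R_one : D.R 1 = ((∑' n, D.r n : ℝ) : ℂ) := by
  rw [Data.R, Complex.ofReal_tsum]
  simp

theorem Data.summable_r : Summable D.r := by
  have := D.summable_R (z := 1) (by simpa using D.hκ1)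
  simpa [abs_of_nonneg (D.hrn _)] using this

theorem Data.tsum_r_pos : 0 < ∑' n, D.r n := by
  refine D.summable_r.tsum_pos (fun n => D.hrn n) 0 ?_
  rw [D.hr0]; norm_num

/-- The renewal theorem with exponential rate. -/
theorem Data.rate : ∃ C' η : ℝ, 0 < C' ∧ 0 < η ∧ η < 1 ∧
    ∀ n, |D.u n - (∑' k, D.r k)⁻¹| ≤ C' * η ^ n := by
  set ρ1 : ℝ := (1 + 1 / D.κ) / 2 with hρ1
  have hκ0 := D.hκ0
  have hκ1 := D.hκ1
  have hκρ1 : D.κ * ρ1 < 1 := by
    rw [hρ1]; field_simp; linarith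
  have h1ρ1 : 1 < ρ1 := by
    rw [hρ1]
    have : 1 < 1 / D.κ := by rw [lt_div_iff₀ hκ0]; linarith
    linarith
  have hdiff := D.R_differentiableOn (by linarith) hκρ1
  -- the open set where `R ≠ 0`
  have hopen : IsOpen (Metric.ball (0:ℂ) ρ1 ∩ D.R ⁻¹' {0}ᶜ) :=
    hdiff.continuousOn.isOpen_inter_preimage Metric.isOpen_ball isOpen_compl_singleton
  have hsub : Metric.closedBall (0:ℂ) 1 ⊆ Metric.ball (0:ℂ) ρ1 ∩ D.R ⁻¹' {0}ᶜ := by
    intro z hz
    have hz' : ‖z‖ ≤ 1 := by simpa using hz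
    exact ⟨by simpa using lt_of_le_of_lt hz' h1ρ1, D.R_ne_zero hz'⟩
  obtain ⟨δ, hδ, hcth⟩ := (isCompact_closedBall (0:ℂ) 1).exists_cthickening_subset_open hopen hsub
  rw [cthickening_closedBall hδ.le zero_le_one] at hcth
  set ρ2 : NNReal := ⟨δ + 1, by positivity⟩ with hρ2
  have hρ2c : (ρ2 : ℝ) = δ + 1 := rfl
  have hρ2pos : 0 < ρ2 := by
    rw [← NNReal.coe_pos, hρ2c]; positivity
  set V : ℂ → ℂ := fun z => (D.R z)⁻¹ with hV
  have hVd : DifferentiableOn ℂ V (Metric.closedBall 0 (δ + 1)) :=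
    (hdiff.mono fun z hz => (hcth hz).1).inv fun z hz => (hcth hz).2
  have hVcl : DiffContOnCl ℂ V (Metric.ball 0 ρ2) := by
    refine DifferentiableOn.diffContOnCl ?_
    rw [closure_ball _ (by rw [hρ2c]; positivity), hρ2c]
    exact hVd
  have hfps := hVcl.hasFPowerSeriesOnBall hρ2pos
  -- the other power series
  set q : FormalMultilinearSeries ℂ ℂ ℂ := FormalMultilinearSeries.ofScalars ℂ (fun n => (D.v n : ℂ))
    with hq
  have hcoef : ∀ n, q.coeff n = (D.v n : ℂ) := fun n => by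
    rw [hq, FormalMultilinearSeries.coeff_ofScalars]
  have hfps2 : HasFPowerSeriesAt V q 0 := by
    rw [hasFPowerSeriesAt_iff]
    have : Metric.ball (0:ℂ) 1 ∈ 𝓝 (0:ℂ) := Metric.ball_mem_nhds _ one_pos
    filter_upwards [this] with z hz
    have h := D.hasSum_v (z := z) (by simpa using hz)
    simp only [hcoef, zero_add, smul_eq_mul]
    simpa [mul_comm] using h
  have heq : q = cauchyPowerSeries V 0 ρ2 :=
    hfps2.eq_formalMultilinearSeries hfps.hasFPowerSeriesAt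
  -- bounds
  set M : ℝ := (2 * Real.pi)⁻¹ * ∫ θ in (0:ℝ)..2 * Real.pi, ‖V (circleMap 0 ρ2 θ)‖ with hM
  have hM0 : 0 ≤ M := by
    refine mul_nonneg (by positivity) (intervalIntegral.integral_nonneg (by positivity)
      fun _ _ => norm_nonneg _)
  set η : ℝ := (δ + 1)⁻¹ with hη
  have hη0 : 0 < η := by positivity
  have hη1 : η < 1 := inv_lt_one_of_one_lt₀ (by linarith)
  have hvb : ∀ n, |D.v n| ≤ M * η ^ n := fun n => by
    have h1 := norm_cauchyPowerSeries_le V 0 ρ2 n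
    rw [← heq, FormalMultilinearSeries.norm_apply_eq_norm_coef, hcoef, Complex.norm_real,
      Real.norm_eq_abs] at h1
    have h2 : |(ρ2:ℝ)|⁻¹ = η := by rw [hρ2c, abs_of_pos (by positivity)]
    rw [h2] at h1
    exact h1
  -- the sum at `z = 1`
  have hone : HasSum (fun n => (D.v n : ℂ)) ((D.R 1)⁻¹) := by
    have hmem : (1:ℂ) ∈ Metric.eball (0:ℂ) (ρ2 : ENNReal) := by
      rw [Metric.mem_eball, edist_eq_enorm_sub, sub_zero]
      have : ‖(1:ℂ)‖₊ < ρ2 := by
        rw [← NNReal.coe_lt_coe, hρ2c]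
        simp [hδ]
      exact ENNReal.coe_lt_coe.2 this
    have h := hfps.hasSum hmem
    rw [← heq] at h
    have e : ∀ n, (q n fun _ => (1:ℂ)) = (D.v n : ℂ) := fun n => by
      have := FormalMultilinearSeries.apply_eq_pow_smul_coeff (p := q) (n := n) (z := (1:ℂ))
      rw [this, hcoef]
      simp
    simp only [e, zero_add] at h
    exact h
  have honeR : HasSum D.v ((∑' k, D.r k)⁻¹) := by
    rw [D.R_one, ← Complex.ofReal_inv] at hone
    exact_mod_cast hone
  refine ⟨M * η / (1 - η) + 1, η, ?_, hη0, hη1, fun n => ?_⟩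
  · have : 0 ≤ M * η / (1 - η) := div_nonneg (mul_nonneg hM0 hη0.le) (by linarith)
    linarith
  have htail : HasSum (fun k => D.v (k + (n + 1))) ((∑' k, D.r k)⁻¹ - D.u n) := by
    have := (hasSum_nat_add_iff' (f := D.v) (n + 1)).2 honeR
    rwa [D.sum_v] at this
  have hgeo : HasSum (fun k : ℕ => M * η ^ (n + 1) * η ^ k) (M * η ^ (n + 1) * (1 - η)⁻¹) :=
    (hasSum_geometric_of_lt_one hη0.le hη1).mul_left _
  have hb : |(∑' k, D.r k)⁻¹ - D.u n| ≤ M * η ^ (n + 1) * (1 - η)⁻¹ := by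
    rw [← htail.tsum_eq, ← hgeo.tsum_eq, ← Real.norm_eq_abs]
    refine tsum_of_norm_bounded hgeo.summable.hasSum fun k => ?_
    rw [Real.norm_eq_abs]
    refine (hvb _).trans (le_of_eq ?_)
    generalize M = M'
    rw [pow_add]
    ring
  rw [abs_sub_comm]
  refine hb.trans ?_
  have h1 : M * η ^ (n + 1) * (1 - η)⁻¹ = M * η / (1 - η) * η ^ n := by
    rw [pow_succ, div_eq_mul_inv]; ring
  rw [h1]
  have : 0 ≤ η ^ n := by positivity
  nlinarith

end Renewal

end Crest.Agent.R020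
end
private theorem rz_cb8fc2f5e8 : type_of% @_root_.Crest.Agent.R020.Renewal.Data.v.eq_1 := @_root_.Crest.Agent.R020.Renewal.Data.v.eq_1 -- L250
end

-- ▼ part R020/RenewalG

/-!
Row 20, module G1: the renewal theorem for `g_j ρ^j`, and the profile functions
`h_j = ∑_{i ≥ 0} ρ^i a_{i+j}`.
-/

set_option autoImplicit false

noncomputable section

open Finset Filter Topology
open Crest.NumberTheoryR.TotientScale

namespace Crest.Agent.R020

section

variable {ρ : ℝ} (hρ0 : 0 < ρ) (hρ1 : ρ < 1)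
  (hρ : HasSum (fun j : ℕ => aCoef (j + 1) * ρ ^ (j + 1)) 1)

/-- `(j+1) r^j` is bounded by `C κ^j` for `r < κ`. -/
theorem exists_lin_geo_bound {r κ : ℝ} (hr : 0 ≤ r) (hrκ : r < κ) :
    ∃ C : ℝ, 0 < C ∧ ∀ j : ℕ, ((j:ℝ) + 1) * r ^ j ≤ C * κ ^ j := by
  have hκ : 0 < κ := lt_of_le_of_lt hr hrκ
  have hq0 : 0 ≤ r / κ := div_nonneg hr hκ.le
  have hq1 : r / κ < 1 := (div_lt_one hκ).2 hrκ
  have h1 : Tendsto (fun j : ℕ => ((j:ℝ)) * (r / κ) ^ j) atTop (𝓝 0) :=
    tendsto_self_mul_const_pow_of_lt_one hq0 hq1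
  have h2 : Tendsto (fun j : ℕ => (r / κ) ^ j) atTop (𝓝 0) :=
    tendsto_pow_atTop_nhds_zero_of_lt_one hq0 hq1
  have h3 : Tendsto (fun j : ℕ => ((j:ℝ) + 1) * (r / κ) ^ j) atTop (𝓝 0) := by
    have := h1.add h2
    simp only [add_zero] at this
    refine this.congr fun j => ?_
    ring
  obtain ⟨C, hC⟩ := h3.bddAbove_range
  refine ⟨max C 1, by positivity, fun j => ?_⟩
  have h4 : ((j:ℝ) + 1) * (r / κ) ^ j ≤ max C 1 := (hC ⟨j, rfl⟩).trans (le_max_left _ _)
  have h5 : ((j:ℝ) + 1) * r ^ j = ((j:ℝ) + 1) * (r / κ) ^ j * κ ^ j := by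
    rw [div_pow]; field_simp
  rw [h5]
  exact mul_le_mul_of_nonneg_right h4 (by positivity)

include hρ0 hρ1 hρ

/-- the renewal data attached to `ρ`. -/
theorem exists_renewalData : ∃ D : Renewal.Data, (∀ n, D.p n = aCoef (n + 1) * ρ ^ (n + 1)) ∧
    (∀ n, D.u n = gSeq n * ρ ^ n) ∧
    (∀ n, D.r n = ∑' d, aCoef (n + d + 1) * ρ ^ (n + d + 1)) := by
  obtain ⟨C, hC, hCb⟩ := exists_lin_geo_bound (r := ρ) (κ := (1 + ρ) / 2) hρ0.le (by linarith)
  set κ : ℝ := (1 + ρ) / 2 with hκ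
  have hκ0 : 0 < κ := by positivity
  have hκ1 : κ < 1 := by rw [hκ]; linarith
  have hpb : ∀ n : ℕ, aCoef (n + 1) * ρ ^ (n + 1) ≤ C * κ ^ n := fun n => by
    have h1 : aCoef (n + 1) ≤ (n:ℝ) + 1 := by
      have := aCoef_le_self (n + 1)
      push_cast at this
      exact this
    calc aCoef (n + 1) * ρ ^ (n + 1) ≤ ((n:ℝ) + 1) * ρ ^ (n + 1) :=
          mul_le_mul_of_nonneg_right h1 (by positivity)
      _ ≤ ((n:ℝ) + 1) * ρ ^ n := by
          refine mul_le_mul_of_nonneg_left ?_ (by positivity)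
          exact pow_le_pow_of_le_one hρ0.le hρ1.le (by omega)
      _ ≤ C * κ ^ n := hCb n
  have hs := hρ.summable
  have hsn : ∀ n, Summable fun d => aCoef (n + d + 1) * ρ ^ (n + d + 1) := fun n => by
    have := (summable_nat_add_iff (f := fun j : ℕ => aCoef (j + 1) * ρ ^ (j + 1)) n).2 hs
    refine this.congr fun d => ?_
    rw [add_comm d n]
  refine ⟨{ p := fun n => aCoef (n + 1) * ρ ^ (n + 1)
            r := fun n => ∑' d, aCoef (n + d + 1) * ρ ^ (n + d + 1)
            u := fun n => gSeq n * ρ ^ n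
            κ := κ
            C := C / (1 - κ)
            hp := fun n => mul_nonneg (aCoef_pos _ (by omega)).le (by positivity)
            hp0 := mul_pos (aCoef_pos _ (by omega)) (by positivity)
            hr0 := ?_
            hr := ?_
            hrn := fun n => tsum_nonneg fun d =>
              mul_nonneg (aCoef_pos _ (by omega)).le (by positivity)
            hκ0 := hκ0
            hκ1 := hκ1
            hrC := ?_
            hu0 := by simp [gSeq_zero]
            hu := ?_ }, fun _ => rfl, fun _ => rfl, fun _ => rfl⟩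
  · rw [← hρ.tsum_eq]
    refine tsum_congr fun d => ?_
    rw [zero_add]
  · intro n
    have h1 := (hsn n).tsum_eq_zero_add
    rw [h1]
    have h2 : (∑' b, aCoef (n + (b + 1) + 1) * ρ ^ (n + (b + 1) + 1))
        = ∑' d, aCoef (n + 1 + d + 1) * ρ ^ (n + 1 + d + 1) := by
      refine tsum_congr fun d => ?_
      rw [show n + (d + 1) + 1 = n + 1 + d + 1 by ring]
    rw [h2, add_zero]
    ring
  · intro n
    have hg : HasSum (fun d : ℕ => C * κ ^ n * κ ^ d) (C * κ ^ n * (1 - κ)⁻¹) :=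
      (hasSum_geometric_of_lt_one hκ0.le hκ1).mul_left _
    have h1 : ∑' d, aCoef (n + d + 1) * ρ ^ (n + d + 1) ≤ ∑' d : ℕ, C * κ ^ n * κ ^ d := by
      refine (hsn n).tsum_le_tsum (fun d => ?_) hg.summable
      refine (hpb (n + d)).trans (le_of_eq ?_)
      rw [pow_add]; ring
    refine h1.trans (le_of_eq ?_)
    rw [hg.tsum_eq, div_eq_mul_inv]
    ring
  · intro n
    rw [gSeq_succ, Finset.sum_mul]
    refine Finset.sum_congr rfl fun d hd => ?_
    have hd' : d ≤ n := by simpa [Nat.lt_succ_iff] using hd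
    have : ρ ^ (n + 1) = ρ ^ (d + 1) * ρ ^ (n - d) := by
      rw [← pow_add]; congr 1; omega
    rw [this]
    ring

/-- **Renewal theorem**: `g_n ρ^n → μ` with exponential rate. -/
theorem exists_gSeq_rate : ∃ μ C η : ℝ, 0 < μ ∧ 0 < C ∧ 0 < η ∧ η < 1 ∧
    ∀ n, |gSeq n * ρ ^ n - μ| ≤ C * η ^ n := by
  obtain ⟨D, _, hu, _⟩ := exists_renewalData hρ0 hρ1 hρ
  obtain ⟨C, η, hC, h0, h1, h⟩ := D.rate
  exact ⟨(∑' k, D.r k)⁻¹, C, η, inv_pos.2 D.tsum_r_pos, hC, h0, h1, fun n => by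
    rw [← hu]; exact h n⟩

theorem gSeq_mul_pow_le_one (n : ℕ) : gSeq n * ρ ^ n ≤ 1 := by
  obtain ⟨D, _, hu, _⟩ := exists_renewalData hρ0 hρ1 hρ
  rw [← hu]
  exact D.u_le_one n

theorem exists_gSeq_lower : ∃ c : ℝ, 0 < c ∧ ∀ n, c ≤ gSeq n * ρ ^ n := by
  obtain ⟨μ, C, η, hμ, hC, h0, h1, h⟩ := exists_gSeq_rate hρ0 hρ1 hρ
  have ht : Tendsto (fun n : ℕ => gSeq n * ρ ^ n) atTop (𝓝 μ) := by
    rw [tendsto_iff_norm_sub_tendsto_zero]
    refine squeeze_zero (fun _ => norm_nonneg _) (fun n => ?_)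
      (by simpa using (tendsto_pow_atTop_nhds_zero_of_lt_one h0.le h1).const_mul C)
    rw [Real.norm_eq_abs]
    exact h n
  have hev := ht.eventually (lt_mem_nhds (show μ / 2 < μ by linarith))
  obtain ⟨N, hN⟩ := eventually_atTop.1 hev
  have hpos : ∀ n, 0 < gSeq n * ρ ^ n := fun n => mul_pos (gSeq_pos n) (by positivity)
  obtain ⟨m, hm⟩ : ∃ m : ℝ, 0 < m ∧ ∀ n ∈ range (N + 1), m ≤ gSeq n * ρ ^ n := by
    obtain ⟨n0, _, hn0⟩ := Finset.exists_min_image (range (N + 1)) (fun n => gSeq n * ρ ^ n)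
      ⟨0, by simp⟩
    exact ⟨gSeq n0 * ρ ^ n0, hpos n0, fun n hn => hn0 n hn⟩
  refine ⟨min (μ / 2) m, lt_min (by linarith) hm.1, fun n => ?_⟩
  rcases le_or_gt N n with hn | hn
  · exact (min_le_left _ _).trans (hN n hn).le
  · exact (min_le_right _ _).trans (hm.2 n (by simp; omega))

end

/-! ### the profile `h_j` -/

/-- `h_j = ∑_{i ≥ 0} ρ^i a_{i+j}`. -/
def hSeq (ρ : ℝ) (j : ℕ) : ℝ := ∑' i : ℕ, ρ ^ i * aCoef (i + j)

/-- `c^(k)_j = ∑_{i ≤ k} g_i a_{k+j-i}`. -/
def cSeq (k j : ℕ) : ℝ := ∑ i ∈ range (k + 1), gSeq i * aCoef (k + j - i)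

theorem cSeq_zero (j : ℕ) : cSeq 0 j = aCoef j := by
  simp [cSeq, gSeq_zero]

theorem cSeq_one (k : ℕ) : cSeq k 1 = gSeq (k + 1) := by
  rw [gSeq_succ, cSeq, ← Finset.sum_range_reflect]
  refine Finset.sum_congr rfl fun i hi => ?_
  have hi' : i ≤ k := by simpa [Nat.lt_succ_iff] using hi
  rw [show k + 1 - 1 - i = k - i by omega, show k + 1 - (k - i) = i + 1 by omega]
  ring

theorem cSeq_succ (k j : ℕ) : cSeq (k + 1) j = gSeq (k + 1) * aCoef j + cSeq k (j + 1) := by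
  rw [cSeq, Finset.sum_range_succ, cSeq, add_comm]
  congr 1
  · rw [show k + 1 + j - (k + 1) = j by omega]
  · refine Finset.sum_congr rfl fun i _ => ?_
    rw [show k + 1 + j - i = k + (j + 1) - i by omega]

theorem cSeq_pos (k j : ℕ) (hj : 1 ≤ j) : 0 < cSeq k j := by
  refine Finset.sum_pos (fun i hi => ?_) ⟨0, by simp⟩
  have hi' : i ≤ k := by simpa [Nat.lt_succ_iff] using hi
  exact mul_pos (gSeq_pos i) (aCoef_pos _ (by omega))


theorem half_log_le_aCoef (j : ℕ) (hj : 1 ≤ j) : Real.log (j + 1) / 2 ≤ aCoef j := by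
  rcases Nat.eq_or_lt_of_le hj with h | h
  · rw [← h, aCoef_one]
    have h1 := Real.log_two_gt_d9
    have h2 := Real.log_two_lt_d9
    push_cast
    norm_num
    linarith
  · refine le_trans ?_ (aCoef_ge_log j hj)
    have hj2 : (2:ℝ) ≤ j := by exact_mod_cast h
    have : Real.log ((j:ℝ) + 1) ≤ Real.log ((j:ℝ) ^ 2) :=
      Real.log_le_log (by positivity) (by nlinarith)
    rw [Real.log_pow] at this
    push_cast at this
    linarith

theorem aCoef_add_le (s j : ℕ) (hj : 1 ≤ j) :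
    aCoef (s + j) ≤ (2 * (s:ℝ) + 1) * Real.log (j + 1) := by
  have h1 : aCoef (s + j) ≤ Real.log ((s + j : ℕ) + 1) := aCoef_le_log (s + j) (by omega)
  have h2 : Real.log (((s + j : ℕ) : ℝ) + 1) ≤ Real.log (((s:ℝ) + 1) * ((j:ℝ) + 1)) := by
    refine Real.log_le_log (by positivity) ?_
    push_cast
    have : 0 ≤ (s:ℝ) * j := by positivity
    nlinarith
  rw [Real.log_mul (by positivity) (by positivity)] at h2
  have h3 : Real.log ((s:ℝ) + 1) ≤ s := by
    have := Real.log_le_sub_one_of_pos (show (0:ℝ) < (s:ℝ) + 1 by positivity)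
    linarith
  have h4 : (1:ℝ) / 2 ≤ Real.log (j + 1) := by
    have h5 : Real.log 2 ≤ Real.log ((j:ℝ) + 1) := by
      refine Real.log_le_log (by norm_num) ?_
      have : (1:ℝ) ≤ j := by exact_mod_cast hj
      linarith
    have := Real.log_two_gt_d9
    linarith
  have h5 : (0:ℝ) ≤ s := by positivity
  nlinarith

section

variable {ρ : ℝ} (hρ0 : 0 < ρ) (hρ1 : ρ < 1)

include hρ0 hρ1

theorem hSeq_summable (j : ℕ) (hj : 1 ≤ j) : Summable fun i : ℕ => ρ ^ i * aCoef (i + j) := by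
  obtain ⟨C, hC, hCb⟩ := exists_lin_geo_bound (r := ρ) (κ := (1 + ρ) / 2) hρ0.le (by linarith)
  have hs : Summable fun i : ℕ => 2 * Real.log (j + 1) * C * ((1 + ρ) / 2) ^ i :=
    (summable_geometric_of_lt_one (by positivity) (by linarith)).mul_left _
  refine Summable.of_nonneg_of_le (fun i => mul_nonneg (by positivity) (aCoef_pos _ (by omega)).le)
    (fun i => ?_) hs
  have hl : 0 ≤ Real.log ((j:ℝ) + 1) := Real.log_nonneg (by
    have : (1:ℝ) ≤ j := by exact_mod_cast hj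
    linarith)
  calc ρ ^ i * aCoef (i + j) ≤ ρ ^ i * ((2 * (i:ℝ) + 1) * Real.log (j + 1)) :=
        mul_le_mul_of_nonneg_left (aCoef_add_le i j hj) (by positivity)
    _ ≤ ρ ^ i * ((2 * ((i:ℝ) + 1)) * Real.log (j + 1)) := by
        refine mul_le_mul_of_nonneg_left (mul_le_mul_of_nonneg_right (by linarith) hl) (by positivity)
    _ = 2 * Real.log (j + 1) * (((i:ℝ) + 1) * ρ ^ i) := by ring
    _ ≤ 2 * Real.log (j + 1) * (C * ((1 + ρ) / 2) ^ i) :=
        mul_le_mul_of_nonneg_left (hCb i) (by positivity)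
    _ = 2 * Real.log (j + 1) * C * ((1 + ρ) / 2) ^ i := by ring


theorem aCoef_le_hSeq (j : ℕ) (hj : 1 ≤ j) : aCoef j ≤ hSeq ρ j := by
  have h := (hSeq_summable hρ0 hρ1 j hj).le_tsum 0
    (fun i _ => mul_nonneg (by positivity) (aCoef_pos _ (by omega)).le)
  simpa [hSeq] using h

theorem hSeq_pos (j : ℕ) (hj : 1 ≤ j) : 0 < hSeq ρ j :=
  lt_of_lt_of_le (aCoef_pos j hj) (aCoef_le_hSeq hρ0 hρ1 j hj)


theorem exists_hSeq_le : ∃ C : ℝ, 0 < C ∧ ∀ j : ℕ, 1 ≤ j → hSeq ρ j ≤ C * Real.log (j + 1) := by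
  obtain ⟨C, hC, hCb⟩ := exists_lin_geo_bound (r := ρ) (κ := (1 + ρ) / 2) hρ0.le (by linarith)
  refine ⟨2 * C * (1 - (1 + ρ) / 2)⁻¹, mul_pos (by positivity) (inv_pos.2 (by linarith)),
    fun j hj => ?_⟩
  have hl : 0 ≤ Real.log ((j:ℝ) + 1) := Real.log_nonneg (by
    have : (1:ℝ) ≤ j := by exact_mod_cast hj
    linarith)
  have hg : HasSum (fun i : ℕ => 2 * Real.log (j + 1) * C * ((1 + ρ) / 2) ^ i)
      (2 * Real.log (j + 1) * C * (1 - (1 + ρ) / 2)⁻¹) :=
    (hasSum_geometric_of_lt_one (by positivity) (by linarith)).mul_left _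
  have h1 : hSeq ρ j ≤ ∑' i : ℕ, 2 * Real.log (j + 1) * C * ((1 + ρ) / 2) ^ i := by
    refine (hSeq_summable hρ0 hρ1 j hj).tsum_le_tsum (fun i => ?_) hg.summable
    calc ρ ^ i * aCoef (i + j) ≤ ρ ^ i * ((2 * (i:ℝ) + 1) * Real.log (j + 1)) :=
          mul_le_mul_of_nonneg_left (aCoef_add_le i j hj) (by positivity)
      _ ≤ ρ ^ i * ((2 * ((i:ℝ) + 1)) * Real.log (j + 1)) := by
          refine mul_le_mul_of_nonneg_left (mul_le_mul_of_nonneg_right (by linarith) hl)
            (by positivity)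
      _ = 2 * Real.log (j + 1) * (((i:ℝ) + 1) * ρ ^ i) := by ring
      _ ≤ 2 * Real.log (j + 1) * (C * ((1 + ρ) / 2) ^ i) :=
          mul_le_mul_of_nonneg_left (hCb i) (by positivity)
      _ = 2 * Real.log (j + 1) * C * ((1 + ρ) / 2) ^ i := by ring
  rw [hg.tsum_eq] at h1
  refine h1.trans (le_of_eq (by ring))

theorem hSeq_one (hρ : HasSum (fun j : ℕ => aCoef (j + 1) * ρ ^ (j + 1)) 1) :
    hSeq ρ 1 = 1 / ρ := by
  rw [eq_div_iff hρ0.ne', ← hρ.tsum_eq, hSeq, ← tsum_mul_right]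
  refine tsum_congr fun i => ?_
  rw [pow_succ]; ring

/-- `c^(k)_j = μ ρ^{-k} h_j (1 + O(η^k))`, uniformly in `j ≥ 1`. -/
theorem exists_cSeq_rate (hρ : HasSum (fun j : ℕ => aCoef (j + 1) * ρ ^ (j + 1)) 1) :
    ∃ μ C η : ℝ, 0 < μ ∧ 0 < C ∧ 0 < η ∧ η < 1 ∧ (∀ n, |gSeq n * ρ ^ n - μ| ≤ C * η ^ n) ∧
      ∀ k j : ℕ, 1 ≤ j → |cSeq k j * ρ ^ k - μ * hSeq ρ j| ≤ C * η ^ k * hSeq ρ j := by
  obtain ⟨μ, C, η, hμ, hC, h0, h1, h⟩ := exists_gSeq_rate hρ0 hρ1 hρ
  set q : ℝ := max η ρ with hq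
  have hq0 : 0 < q := lt_of_lt_of_le h0 (le_max_left _ _)
  have hq1 : q < 1 := max_lt h1 hρ1
  -- intermediate ratios
  set q1 : ℝ := (1 + 2 * q) / 3 with hq1d
  set q2 : ℝ := (2 + q) / 3 with hq2d
  have hqq1 : q < q1 := by rw [hq1d]; linarith
  have hq12 : q1 < q2 := by rw [hq1d, hq2d]; linarith
  have hq2 : q2 < 1 := by rw [hq2d]; linarith
  have hq1pos : 0 < q1 := hq0.trans hqq1
  have hq2pos : 0 < q2 := hq1pos.trans hq12
  obtain ⟨C1, hC1, hC1b⟩ := exists_lin_geo_bound (r := q) (κ := q1) hq0.le hqq1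
  obtain ⟨C2, hC2, hC2b⟩ := exists_lin_geo_bound (r := q1) (κ := q2) hq1pos.le hq12
  have hlog : ∀ j : ℕ, 1 ≤ j → Real.log ((j:ℝ) + 1) ≤ 2 * hSeq ρ j := fun j hj => by
    have h2 := half_log_le_aCoef j hj
    have h3 := aCoef_le_hSeq hρ0 hρ1 j hj
    linarith
  -- the constant
  set C3 : ℝ := C * 4 * C1 * C2 + μ * 4 * C1 * q1 * (1 - q1)⁻¹ + C with hC3
  have hinv : 0 < (1 - q1)⁻¹ := inv_pos.2 (by linarith)
  refine ⟨μ, C3, q2, hμ, by positivity, hq2pos, hq2, fun n => ?_, fun k j hj => ?_⟩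
  · refine (h n).trans ?_
    have e1 : η ^ n ≤ q2 ^ n :=
      pow_le_pow_left₀ h0.le (((le_max_left η ρ).trans hqq1.le).trans hq12.le) n
    have e2 : C ≤ C3 := by rw [hC3]; have : 0 ≤ C * 4 * C1 * C2 + μ * 4 * C1 * q1 * (1 - q1)⁻¹ := by positivity
                           linarith
    exact mul_le_mul e2 e1 (by positivity) (by linarith)
  have hlogj := hlog j hj
  have hl0 : 0 ≤ Real.log ((j:ℝ) + 1) := Real.log_nonneg (by
    have : (1:ℝ) ≤ j := by exact_mod_cast hj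
    linarith)
  -- rewrite `c^(k)_j ρ^k`
  have e1 : cSeq k j * ρ ^ k = ∑ s ∈ range (k + 1), (gSeq (k - s) * ρ ^ (k - s)) *
      (ρ ^ s * aCoef (s + j)) := by
    rw [cSeq, ← Finset.sum_range_reflect, Finset.sum_mul]
    refine Finset.sum_congr rfl fun s hs => ?_
    have hs' : s ≤ k := by simpa [Nat.lt_succ_iff] using hs
    rw [show k + 1 - 1 - s = k - s by omega, show k + j - (k - s) = s + j by omega]
    have : ρ ^ k = ρ ^ (k - s) * ρ ^ s := by rw [← pow_add]; congr 1; omega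
    rw [this]; ring
  have hsm := hSeq_summable hρ0 hρ1 j hj
  have e2 : hSeq ρ j = ∑ s ∈ range (k + 1), ρ ^ s * aCoef (s + j)
      + ∑' s : ℕ, ρ ^ (s + (k + 1)) * aCoef (s + (k + 1) + j) :=
    (hsm.sum_add_tsum_nat_add (k + 1)).symm
  have e3 : cSeq k j * ρ ^ k - μ * hSeq ρ j
      = ∑ s ∈ range (k + 1), (gSeq (k - s) * ρ ^ (k - s) - μ) * (ρ ^ s * aCoef (s + j))
        - μ * ∑' s : ℕ, ρ ^ (s + (k + 1)) * aCoef (s + (k + 1) + j) := by
    rw [e1]
    conv_lhs => rw [e2]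
    rw [mul_add, Finset.mul_sum, ← sub_sub, ← Finset.sum_sub_distrib]
    congr 1
    refine Finset.sum_congr rfl fun s _ => ?_
    ring
  -- term bound
  have hterm : ∀ s : ℕ, ρ ^ s * aCoef (s + j) ≤ 4 * hSeq ρ j * (C1 * q1 ^ s) := fun s => by
    have hH : 0 < hSeq ρ j := hSeq_pos hρ0 hρ1 j hj
    calc ρ ^ s * aCoef (s + j) ≤ q ^ s * ((2 * (s:ℝ) + 1) * Real.log (j + 1)) :=
          mul_le_mul (pow_le_pow_left₀ hρ0.le (le_max_right _ _) s) (aCoef_add_le s j hj)
            (aCoef_pos _ (by omega)).le (by positivity)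
      _ ≤ q ^ s * ((2 * ((s:ℝ) + 1)) * (2 * hSeq ρ j)) := by
          refine mul_le_mul_of_nonneg_left (mul_le_mul (by linarith) hlogj hl0 (by positivity))
            (by positivity)
      _ = 4 * hSeq ρ j * (((s:ℝ) + 1) * q ^ s) := by ring
      _ ≤ 4 * hSeq ρ j * (C1 * q1 ^ s) := mul_le_mul_of_nonneg_left (hC1b s) (by positivity)
  have hH : 0 < hSeq ρ j := hSeq_pos hρ0 hρ1 j hj
  -- first part
  have p1 : |∑ s ∈ range (k + 1), (gSeq (k - s) * ρ ^ (k - s) - μ) * (ρ ^ s * aCoef (s + j))|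
      ≤ C * 4 * C1 * C2 * q2 ^ k * hSeq ρ j := by
    calc |∑ s ∈ range (k + 1), (gSeq (k - s) * ρ ^ (k - s) - μ) * (ρ ^ s * aCoef (s + j))|
        ≤ ∑ s ∈ range (k + 1), |(gSeq (k - s) * ρ ^ (k - s) - μ) * (ρ ^ s * aCoef (s + j))| :=
          Finset.abs_sum_le_sum_abs _ _
      _ ≤ ∑ s ∈ range (k + 1), (C * q1 ^ (k - s)) * (4 * hSeq ρ j * (C1 * q1 ^ s)) := by
          refine Finset.sum_le_sum fun s _ => ?_
          rw [abs_mul, abs_of_nonneg (mul_nonneg (by positivity : (0:ℝ) ≤ ρ ^ s)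
            (aCoef_pos (s + j) (by omega)).le)]
          refine mul_le_mul ((h _).trans ?_) (hterm s) (mul_nonneg (by positivity)
            (aCoef_pos (s + j) (by omega)).le) (by positivity)
          exact mul_le_mul_of_nonneg_left (pow_le_pow_left₀ h0.le
            ((le_max_left η ρ).trans hqq1.le) _) hC.le
      _ = ∑ s ∈ range (k + 1), C * 4 * C1 * hSeq ρ j * q1 ^ k := by
          refine Finset.sum_congr rfl fun s hs => ?_
          have hs' : s ≤ k := by simpa [Nat.lt_succ_iff] using hs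
          have : q1 ^ k = q1 ^ (k - s) * q1 ^ s := by rw [← pow_add]; congr 1; omega
          rw [this]; ring
      _ = C * 4 * C1 * hSeq ρ j * (((k:ℝ) + 1) * q1 ^ k) := by
          rw [Finset.sum_const, Finset.card_range, nsmul_eq_mul]
          push_cast; ring
      _ ≤ C * 4 * C1 * hSeq ρ j * (C2 * q2 ^ k) :=
          mul_le_mul_of_nonneg_left (hC2b k) (by positivity)
      _ = C * 4 * C1 * C2 * q2 ^ k * hSeq ρ j := by ring
  -- second part
  have hst : Summable fun s : ℕ => ρ ^ (s + (k + 1)) * aCoef (s + (k + 1) + j) :=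
    (summable_nat_add_iff (f := fun s : ℕ => ρ ^ s * aCoef (s + j)) (k + 1)).2 hsm
  have p2 : |μ * ∑' s : ℕ, ρ ^ (s + (k + 1)) * aCoef (s + (k + 1) + j)|
      ≤ μ * 4 * C1 * q1 * (1 - q1)⁻¹ * q2 ^ k * hSeq ρ j := by
    have hnn : 0 ≤ ∑' s : ℕ, ρ ^ (s + (k + 1)) * aCoef (s + (k + 1) + j) :=
      tsum_nonneg fun s => mul_nonneg (by positivity) (aCoef_pos _ (by omega)).le
    rw [abs_of_nonneg (mul_nonneg hμ.le hnn)]
    have hg : HasSum (fun s : ℕ => 4 * hSeq ρ j * (C1 * q1 ^ (k + 1)) * q1 ^ s)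
        (4 * hSeq ρ j * (C1 * q1 ^ (k + 1)) * (1 - q1)⁻¹) :=
      (hasSum_geometric_of_lt_one hq1pos.le (by linarith)).mul_left _
    have h2 : ∑' s : ℕ, ρ ^ (s + (k + 1)) * aCoef (s + (k + 1) + j)
        ≤ 4 * hSeq ρ j * (C1 * q1 ^ (k + 1)) * (1 - q1)⁻¹ := by
      rw [← hg.tsum_eq]
      refine hst.tsum_le_tsum (fun s => (hterm (s + (k + 1))).trans (le_of_eq ?_)) hg.summable
      rw [pow_add]; ring
    calc μ * ∑' s : ℕ, ρ ^ (s + (k + 1)) * aCoef (s + (k + 1) + j)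
        ≤ μ * (4 * hSeq ρ j * (C1 * q1 ^ (k + 1)) * (1 - q1)⁻¹) :=
          mul_le_mul_of_nonneg_left h2 hμ.le
      _ = μ * 4 * C1 * q1 * (1 - q1)⁻¹ * q1 ^ k * hSeq ρ j := by rw [pow_succ]; ring
      _ ≤ μ * 4 * C1 * q1 * (1 - q1)⁻¹ * q2 ^ k * hSeq ρ j := by
          refine mul_le_mul_of_nonneg_right (mul_le_mul_of_nonneg_left
            (pow_le_pow_left₀ hq1pos.le hq12.le k) (by positivity)) hH.le
  rw [e3]
  refine (abs_sub _ _).trans ?_
  refine (add_le_add p1 p2).trans ?_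
  have : 0 ≤ C * q2 ^ k * hSeq ρ j := by positivity
  rw [hC3]
  nlinarith

end

end Crest.Agent.R020
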