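import Crest.Agent.R020.Chain0
import Mathlib
import Crest.Agent.R020.ScalePhase
import Crest.Agent.R020.Stmt
import Crest.Agent.R020.Chain2
import Crest.Agent.R020.ChainReal2
import Crest.Agent.R020.ChainS
import Crest.Agent.R020.Rho

-- ▼ part R020/ChainRec
section

/-!
Row 20: the abstract recursion of the chain (`StmtRec`).
-/

set_option autoImplicit false

noncomputable section

namespace Crest.Agent.R020

theorem stmtRec : StmtRec := by
  intro δ C1 θ hδ hδ1 hC1 hθ hθ4 K x q e hx hq he hee hqq hxx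
  set b : ℝ := (1 + δ)⁻¹ with hb
  have h1δ : (0 : ℝ) < 1 + δ := by linarith
  have hb0 : 0 < b := inv_pos.mpr h1δ
  have hb1 : b * (1 + δ) = 1 := inv_mul_cancel₀ h1δ.ne'
  have hb12 : 1 / 2 ≤ b := by
    rw [hb, le_inv_comm₀ (by norm_num) h1δ]
    norm_num
    linarith
  have heK : ∀ n ≤ K, e (K - n) ≤ θ ^ n * e K := by
    intro n
    induction n with
    | zero => intro _; simp
    | succ n ih =>
      intro hn
      have h1 := hee (K - (n + 1)) (by omega)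
      have h2 : K - (n + 1) + 1 = K - n := by omega
      rw [h2] at h1
      have h3 := ih (by omega)
      calc e (K - (n + 1)) ≤ θ * e (K - n) := h1
        _ ≤ θ * (θ ^ n * e K) := by gcongr
        _ = θ ^ (n + 1) * e K := by ring
  have heK' : ∀ k ≤ K, e k ≤ θ ^ (K - k) * e K := by
    intro k hk
    have := heK (K - k) (by omega)
    rwa [show K - (K - k) = k by omega] at this
  set M : ℝ := q K + 4 * C1 * θ * e K with hM
  have hM0 : 0 ≤ M := by
    have := hq K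
    have := he K
    positivity
  have heK0 : 0 ≤ e K := he K
  have key : ∀ n ≤ K, q (K - n) + 4 * C1 * θ * (θ ^ n * e K) ≤ b ^ n * M := by
    intro n
    induction n with
    | zero => intro _; simp [hM]
    | succ n ih =>
      intro hn
      have h1 := hqq (K - (n + 1)) (by omega)
      have h2 : K - (n + 1) + 1 = K - n := by omega
      rw [h2] at h1
      have h3 := ih (by omega)
      have h4 := heK (n + 1) hn
      have hT : 0 ≤ θ ^ n * e K := by positivity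
      have h5 : b * (q (K - n) + 4 * C1 * θ * (θ ^ n * e K)) ≤ b * (b ^ n * M) :=
        mul_le_mul_of_nonneg_left h3 hb0.le
      have h6 : C1 * e (K - (n + 1)) ≤ C1 * (θ ^ (n + 1) * e K) :=
        mul_le_mul_of_nonneg_left h4 hC1.le
      have h7 : 0 ≤ C1 * θ * (θ ^ n * e K) * (4 * b - 1 - 4 * θ) := by
        have : 0 ≤ 4 * b - 1 - 4 * θ := by linarith
        positivity
      calc q (K - (n + 1)) + 4 * C1 * θ * (θ ^ (n + 1) * e K)
          ≤ b * q (K - n) + C1 * (θ ^ (n + 1) * e K) + 4 * C1 * θ * (θ ^ (n + 1) * e K) := by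
            linarith
        _ = b * (q (K - n) + 4 * C1 * θ * (θ ^ n * e K))
            - C1 * θ * (θ ^ n * e K) * (4 * b - 1 - 4 * θ) := by ring
        _ ≤ b * (b ^ n * M) := by linarith
        _ = b ^ (n + 1) * M := by ring
  have hqK : ∀ k ≤ K, q k ≤ b ^ (K - k) * M := by
    intro k hk
    have h := key (K - k) (by omega)
    rw [show K - (K - k) = k by omega] at h
    have : 0 ≤ 4 * C1 * θ * (θ ^ (K - k) * e K) := by positivity
    linarith
  refine ⟨hqK, ?_⟩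
  intro j k hjk
  induction k, hjk using Nat.le_induction with
  | base =>
    intro hk
    have h1 : 0 ≤ (1 + δ) / δ * b ^ (K - (j + 1)) * M := by positivity
    have h2 : 0 ≤ 4 * C1 * θ ^ (K - j) * e K := by positivity
    linarith
  | succ k hjk ih =>
    intro hk
    have h1 := ih (by omega)
    have h2 := hxx k hk
    have h3 := hqK (k + 2) (by omega)
    have h4 := heK' k (by omega)
    have h5 := heK' (k + 1) (by omega)
    obtain ⟨n, hn⟩ : ∃ n, K = k + 2 + n := ⟨K - (k + 2), by omega⟩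
    have e1 : K - (k + 1) = n + 1 := by omega
    have e2 : K - (k + 1 + 1) = n := by omega
    have e3 : K - (k + 2) = n := by omega
    have e4 : K - k = n + 2 := by omega
    rw [e1, e4] at h1
    rw [e3] at h3
    rw [e4] at h4
    rw [e1] at h5
    rw [e2, e1]
    have hL : (1 + δ) / δ * b ^ (n + 1) * M + b ^ n * M = (1 + δ) / δ * b ^ n * M := by
      have : (1 + δ) / δ * b + 1 = (1 + δ) / δ := by
        field_simp
        linarith
      calc (1 + δ) / δ * b ^ (n + 1) * M + b ^ n * M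
          = ((1 + δ) / δ * b + 1) * b ^ n * M := by ring
        _ = _ := by rw [this]
    have h6 : C1 * (e k + e (k + 1)) ≤ C1 * (θ ^ (n + 2) * e K + θ ^ (n + 1) * e K) :=
      mul_le_mul_of_nonneg_left (add_le_add h4 h5) hC1.le
    have h7 : 0 ≤ C1 * (θ ^ (n + 1) * e K) * (3 - 5 * θ) := by
      have : 0 ≤ 3 - 5 * θ := by linarith
      positivity
    have h8 : 4 * C1 * θ ^ (n + 2) * e K + C1 * (θ ^ (n + 2) * e K + θ ^ (n + 1) * e K)
        = 4 * C1 * θ ^ (n + 1) * e K - C1 * (θ ^ (n + 1) * e K) * (3 - 5 * θ) := by ring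
    linarith

end Crest.Agent.R020
end
end

-- ▼ part R020/Laplace
section

/-!
Row 20 (S0026, S0027), module G2 (helper826): the abstract Laplace sums `D(η) = ∑ w e^{-ηH}` and the
limit `∑ w (1 - T/B)_+^k → D(η)`.
-/

set_option autoImplicit false

open Filter Topology

namespace Crest.Agent.R020.Laplace

variable {V : Type*}

/-- `D(η) = ∑ w e^{-ηH}`. -/
noncomputable def D (w H : V → ℝ) (η : ℝ) : ℝ := ∑' v, w v * Real.exp (-(η * H v))

/-- The abstract data: nonnegative weights and heights with finite Laplace sums. -/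
structure Data (w H : V → ℝ) : Prop where
  w_nonneg : ∀ v, 0 ≤ w v
  H_nonneg : ∀ v, 0 ≤ H v
  summable : ∀ η, 0 < η → Summable fun v => w v * Real.exp (-(η * H v))
  pos : ∃ v, 0 < w v

/-! ### summability from a counting bound -/

theorem summable_of_count {w H : V → ℝ} (hw : ∀ v, 0 ≤ w v) (hH : ∀ v, 0 ≤ H v) (G : ℕ → ℝ)
    (hG : ∀ N : ℕ, ∀ s : Finset V, (∀ v ∈ s, H v < N + 1) → ∑ v ∈ s, w v ≤ G N)
    {η : ℝ} (hη : 0 ≤ η) (hs : Summable fun N : ℕ => Real.exp (-(η * N)) * G N) :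
    Summable fun v => w v * Real.exp (-(η * H v)) := by
  classical
  have hG0 : ∀ N, 0 ≤ G N := fun N => by simpa using hG N ∅ (by simp)
  refine summable_of_sum_le (c := ∑' N : ℕ, Real.exp (-(η * N)) * G N)
    (fun v => mul_nonneg (hw v) (Real.exp_pos _).le) fun s => ?_
  have h1 : ∑ v ∈ s, w v * Real.exp (-(η * H v))
      = ∑ N ∈ s.image (fun v => ⌊H v⌋₊), ∑ v ∈ s.filter (fun v => ⌊H v⌋₊ = N),
        w v * Real.exp (-(η * H v)) :=
    (Finset.sum_fiberwise_of_maps_to (fun v hv => Finset.mem_image_of_mem _ hv) _).symm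
  rw [h1]
  have h2 : ∀ N ∈ s.image (fun v => ⌊H v⌋₊), ∑ v ∈ s.filter (fun v => ⌊H v⌋₊ = N),
        w v * Real.exp (-(η * H v)) ≤ Real.exp (-(η * N)) * G N := by
    intro N _
    have h3 : ∀ v ∈ s.filter (fun v => ⌊H v⌋₊ = N), w v * Real.exp (-(η * H v))
        ≤ Real.exp (-(η * N)) * w v := by
      intro v hv
      rw [Finset.mem_filter] at hv
      have h4 : (N : ℝ) ≤ H v := by rw [← hv.2]; exact Nat.floor_le (hH v)
      rw [mul_comm]
      refine mul_le_mul_of_nonneg_right (Real.exp_le_exp.2 ?_) (hw v)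
      have := mul_le_mul_of_nonneg_left h4 hη
      linarith
    refine (Finset.sum_le_sum h3).trans ?_
    rw [← Finset.mul_sum]
    refine mul_le_mul_of_nonneg_left (hG N _ fun v hv => ?_) (Real.exp_pos _).le
    rw [Finset.mem_filter] at hv
    rw [← hv.2]
    exact Nat.lt_floor_add_one _
  refine (Finset.sum_le_sum h2).trans ?_
  exact hs.sum_le_tsum _ fun N _ => mul_nonneg (Real.exp_pos _).le (hG0 N)

theorem summable_exp_logsq {C η : ℝ} (hC : 0 ≤ C) (hη : 0 < η) :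
    Summable fun N : ℕ => Real.exp (-(η * N)) * Real.exp (C * Real.log ((N : ℝ) + 3) ^ 2) := by
  have h1 := (Real.isLittleO_pow_log_id_atTop (n := 2)).bound
    (show (0 : ℝ) < η / (2 * (C + 1)) by positivity)
  have h2 : Tendsto (fun N : ℕ => (N : ℝ) + 3) atTop atTop :=
    tendsto_atTop_add_const_right _ _ tendsto_natCast_atTop_atTop
  have h3 := h2.eventually h1
  have h4 : Summable fun N : ℕ => Real.exp (3 * η / 2) * Real.exp (-(η / 2)) ^ N :=
    (summable_geometric_of_lt_one (Real.exp_pos _).le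
      (by rw [Real.exp_lt_one_iff]; linarith)).mul_left _
  refine Summable.of_norm_bounded_eventually_nat h4 ?_
  filter_upwards [h3] with N hN
  rw [Real.norm_of_nonneg (by positivity), ← Real.exp_nat_mul, ← Real.exp_add, ← Real.exp_add,
    Real.exp_le_exp]
  have hN3 : (0 : ℝ) < (N : ℝ) + 3 := by positivity
  simp only [id, Real.norm_eq_abs, abs_of_pos hN3] at hN
  rw [abs_of_nonneg (sq_nonneg (Real.log ((N : ℝ) + 3)))] at hN
  have h5 : C * Real.log ((N : ℝ) + 3) ^ 2 ≤ (C + 1) * (η / (2 * (C + 1)) * ((N : ℝ) + 3)) :=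
    (mul_le_mul_of_nonneg_right (by linarith) (sq_nonneg _)).trans
      (mul_le_mul_of_nonneg_left hN (by linarith))
  have h6 : (C + 1) * (η / (2 * (C + 1)) * ((N : ℝ) + 3)) = η / 2 * ((N : ℝ) + 3) := by
    field_simp
  rw [h6] at h5
  linarith

/-- the form used in row 20: `∑_{H < N+1} w ≤ exp(C log²(N+3))`. -/
theorem Data.of_logsq {w H : V → ℝ} (hw : ∀ v, 0 ≤ w v) (hH : ∀ v, 0 ≤ H v) (hpos : ∃ v, 0 < w v)
    {C : ℝ} (hC : 0 ≤ C)
    (hG : ∀ N : ℕ, ∀ s : Finset V, (∀ v ∈ s, H v < N + 1) →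
      ∑ v ∈ s, w v ≤ Real.exp (C * Real.log ((N : ℝ) + 3) ^ 2)) : Data w H :=
  ⟨hw, hH, fun _ hη => summable_of_count hw hH _ hG hη.le (summable_exp_logsq hC hη), hpos⟩

section

variable {w H : V → ℝ} (hD : Data w H)

include hD

theorem Data.term_nonneg (η : ℝ) (v : V) : 0 ≤ w v * Real.exp (-(η * H v)) :=
  mul_nonneg (hD.w_nonneg v) (Real.exp_pos _).le

theorem Data.D_pos {η : ℝ} (hη : 0 < η) : 0 < D w H η := by
  obtain ⟨v, hv⟩ := hD.pos
  exact (hD.summable η hη).tsum_pos (hD.term_nonneg η) v (mul_pos hv (Real.exp_pos _))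

theorem Data.D_anti {a b : ℝ} (ha : 0 < a) (hab : a ≤ b) : D w H b ≤ D w H a := by
  refine (hD.summable b (ha.trans_le hab)).tsum_le_tsum (fun v => ?_) (hD.summable a ha)
  refine mul_le_mul_of_nonneg_left (Real.exp_le_exp.2 ?_) (hD.w_nonneg v)
  have := mul_le_mul_of_nonneg_right hab (hD.H_nonneg v)
  linarith





end

end Crest.Agent.R020.Laplace
end

-- ▼ part R020/LaplaceLim
section

/-!
Row 20 (S0026, S0027), module G2 (helper826): the Laplace limit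
`∑ w (1 - T/B)_+^k - D(η) → 0`.
-/

set_option autoImplicit false

open Filter Topology

namespace Crest.Agent.R020.Laplace

/-- `(1-y)_+^k ≤ e^{-ky}` -/
theorem pos_pow_le_exp (y : ℝ) (k : ℕ) : (max 0 (1 - y)) ^ k ≤ Real.exp (-(k * y)) := by
  have h1 : max 0 (1 - y) ≤ Real.exp (-y) := by
    refine max_le (Real.exp_pos _).le ?_
    have := Real.add_one_le_exp (-y)
    linarith
  calc (max 0 (1 - y)) ^ k ≤ (Real.exp (-y)) ^ k := pow_le_pow_left₀ (le_max_left _ _) h1 k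
    _ = Real.exp (-(k * y)) := by rw [← Real.exp_nat_mul]; ring_nf

/-- `e^{-ky} (1 - k y²) ≤ (1-y)_+^k` for `0 ≤ y ≤ 1`. -/
theorem exp_mul_le_pos_pow {y : ℝ} (hy0 : 0 ≤ y) (hy1 : y ≤ 1) (k : ℕ) :
    Real.exp (-(k * y)) * (1 - k * y ^ 2) ≤ (max 0 (1 - y)) ^ k := by
  rw [max_eq_right (by linarith)]
  have h1 : 1 - y ^ 2 ≤ (1 - y) * Real.exp y := by
    have h2 := Real.add_one_le_exp y
    nlinarith [mul_le_mul_of_nonneg_left h2 (show (0 : ℝ) ≤ 1 - y by linarith)]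
  have h2 : 1 - (k : ℝ) * y ^ 2 ≤ (1 - y ^ 2) ^ k := by
    have h3 := one_add_mul_le_pow (show (-2 : ℝ) ≤ -(y ^ 2) by nlinarith) k
    have e1 : (1 : ℝ) + -(y ^ 2) = 1 - y ^ 2 := by ring
    rw [e1] at h3
    linarith
  have h3 : (1 - y ^ 2) ^ k ≤ ((1 - y) * Real.exp y) ^ k :=
    pow_le_pow_left₀ (by nlinarith) h1 k
  rw [mul_pow, ← Real.exp_nat_mul] at h3
  have h4 : 1 - (k : ℝ) * y ^ 2 ≤ (1 - y) ^ k * Real.exp (k * y) := h2.trans h3
  calc Real.exp (-(k * y)) * (1 - k * y ^ 2)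
      ≤ Real.exp (-(k * y)) * ((1 - y) ^ k * Real.exp (k * y)) :=
        mul_le_mul_of_nonneg_left h4 (Real.exp_pos _).le
    _ = (1 - y) ^ k * (Real.exp (-(k * y)) * Real.exp (k * y)) := by ring
    _ = (1 - y) ^ k := by rw [← Real.exp_add]; simp

variable {ι : Type*} {l : Filter ι}

/-- pointwise limit: if `k y - x → 0` with `x` bounded, `k → ∞`, then `(1-y)_+^k - e^{-x} → 0`. -/
theorem tendsto_pos_pow_sub {k : ι → ℕ} {y x : ι → ℝ} (hk : Tendsto k l atTop)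
    (hy : ∀ᶠ i in l, 0 ≤ y i) {X : ℝ} (hx0 : ∀ᶠ i in l, 0 ≤ x i) (hx : ∀ᶠ i in l, x i ≤ X)
    (hxy : Tendsto (fun i => (k i : ℝ) * y i - x i) l (𝓝 0)) :
    Tendsto (fun i => (max 0 (1 - y i)) ^ k i - Real.exp (-x i)) l (𝓝 0) := by
  have hkR : Tendsto (fun i => (k i : ℝ)) l atTop := tendsto_natCast_atTop_atTop.comp hk
  -- e^{-ky} - e^{-x} → 0
  have h1 : Tendsto (fun i => Real.exp (-(k i * y i)) - Real.exp (-x i)) l (𝓝 0) := by
    have h2 : Tendsto (fun i => Real.exp (-(k i * y i - x i)) - 1) l (𝓝 0) := by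
      have h3 := (Real.continuous_exp.tendsto 0).comp (by simpa using hxy.neg)
      have h4 : Tendsto (fun i => Real.exp (-(k i * y i - x i))) l (𝓝 1) := by
        simpa [Function.comp_def] using h3
      simpa using h4.sub_const 1
    refine squeeze_zero_norm' ?_ (tendsto_zero_iff_norm_tendsto_zero.1 h2)
    filter_upwards [hx0] with i hi
    have e : Real.exp (-(k i * y i)) - Real.exp (-x i)
        = Real.exp (-x i) * (Real.exp (-(k i * y i - x i)) - 1) := by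
      rw [mul_sub, ← Real.exp_add, mul_one]
      congr 2
      ring
    rw [e, norm_mul, Real.norm_of_nonneg (Real.exp_pos _).le]
    exact mul_le_of_le_one_left (norm_nonneg _) (by rw [Real.exp_le_one_iff]; linarith)
  -- (1-y)_+^k - e^{-ky} → 0
  have h2 : Tendsto (fun i => (max 0 (1 - y i)) ^ k i - Real.exp (-(k i * y i))) l (𝓝 0) := by
    have hb : ∀ᶠ i in l, (k i : ℝ) * y i ≤ X + 1 := by
      filter_upwards [hx, hxy.eventually (gt_mem_nhds one_pos)] with i h3 h4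
      linarith
    have h5 : Tendsto (fun i => (X + 1) ^ 2 / (k i : ℝ)) l (𝓝 0) :=
      tendsto_const_nhds.div_atTop hkR
    refine squeeze_zero_norm' ?_ h5
    filter_upwards [hb, hy, hkR.eventually_gt_atTop 0, hkR.eventually_ge_atTop (X + 1)]
      with i h6 h7 h8 h9
    have hy1 : y i ≤ 1 := by
      have : (k i : ℝ) * y i ≤ k i * 1 := by linarith
      exact le_of_mul_le_mul_left this h8
    have h10 := pos_pow_le_exp (y i) (k i)
    have h11 := exp_mul_le_pos_pow h7 hy1 (k i)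
    have h12 : (k i : ℝ) * y i ^ 2 ≤ (X + 1) ^ 2 / k i := by
      rw [le_div_iff₀ h8]
      have : ((k i : ℝ) * y i) ^ 2 ≤ (X + 1) ^ 2 :=
        pow_le_pow_left₀ (mul_nonneg h8.le h7) h6 2
      nlinarith
    have h13 : Real.exp (-(k i * y i)) ≤ 1 := by
      rw [Real.exp_le_one_iff]
      have := mul_nonneg h8.le h7
      linarith
    have h14 : 0 ≤ (k i : ℝ) * y i ^ 2 := by positivity
    rw [Real.norm_eq_abs, abs_le]
    constructor
    · have h15 : Real.exp (-(k i * y i)) * (k i * y i ^ 2) ≤ k i * y i ^ 2 :=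
        mul_le_of_le_one_left h14 h13
      nlinarith
    · have : 0 ≤ (X + 1) ^ 2 / (k i : ℝ) := by positivity
      linarith
  have h3 := h2.add h1
  rw [add_zero] at h3
  exact h3.congr fun i => by ring

variable {V : Type*} {w H : V → ℝ}

/-- **The Laplace limit.** -/
theorem Data.tendsto_laplace (hD : Data w H) {k : ι → ℕ} {B κ ε η : ι → ℝ} {T : ι → V → ℝ}
    {η₀ η₁ : ℝ} [l.IsCountablyGenerated]
    (hη₀ : 0 < η₀) (hk : Tendsto k l atTop) (hB : ∀ᶠ i in l, 0 < B i)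
    (hκ : ∀ᶠ i in l, 0 ≤ κ i) (hε : Tendsto ε l (𝓝 0))
    (hη : ∀ᶠ i in l, η₀ ≤ η i ∧ η i ≤ η₁)
    (hT : ∀ᶠ i in l, ∀ v, |T i v - κ i * H v| ≤ ε i * (κ i * H v))
    (hlim : Tendsto (fun i => (k i : ℝ) * κ i / B i - η i) l (𝓝 0)) :
    Tendsto (fun i => ∑' v, w v * (max 0 (1 - T i v / B i)) ^ k i - D w H (η i)) l (𝓝 0) := by
  have hkR : Tendsto (fun i => (k i : ℝ)) l atTop := tendsto_natCast_atTop_atTop.comp hk
  -- eventually `ε ≤ 1/4` etc.
  have hε1 : ∀ᶠ i in l, ε i ≤ 1 / 4 := hε.eventually_le_const (by norm_num)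
  have hlow : ∀ᶠ i in l, 3 / 4 * η₀ ≤ (k i : ℝ) * κ i / B i := by
    have := hlim.eventually (lt_mem_nhds (show -(η₀ / 4) < 0 by linarith))
    filter_upwards [this, hη] with i h1 h2
    linarith
  -- domination of the terms
  have hterm : ∀ᶠ i in l, ∀ v, η₀ / 2 * H v ≤ (k i : ℝ) * (T i v / B i) := by
    filter_upwards [hε1, hlow, hT, hB, hκ] with i h1 h2 h3 h4 h5 v
    have hH := hD.H_nonneg v
    have h6 := (abs_le.1 (h3 v)).1
    have h7 : (3 / 4) * (κ i * H v) ≤ T i v := by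
      have : ε i * (κ i * H v) ≤ 1 / 4 * (κ i * H v) :=
        mul_le_mul_of_nonneg_right h1 (mul_nonneg h5 hH)
      linarith
    have h8 : (3 / 4) * ((k i : ℝ) * κ i / B i * H v) ≤ (k i : ℝ) * (T i v / B i) := by
      have h9 : (k i : ℝ) * ((3 / 4) * (κ i * H v) / B i) ≤ (k i : ℝ) * (T i v / B i) :=
        mul_le_mul_of_nonneg_left (div_le_div_of_nonneg_right h7 h4.le) (Nat.cast_nonneg _)
      refine le_trans (le_of_eq ?_) h9
      ring
    have h9 : 3 / 4 * η₀ * H v ≤ (k i : ℝ) * κ i / B i * H v :=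
      mul_le_mul_of_nonneg_right h2 hH
    nlinarith
  have hbound : ∀ᶠ i in l, ∀ v, ‖w v * ((max 0 (1 - T i v / B i)) ^ k i
      - Real.exp (-(η i * H v)))‖ ≤ 2 * (w v * Real.exp (-(η₀ / 2 * H v))) := by
    filter_upwards [hterm, hη] with i h1 h2 v
    have hH := hD.H_nonneg v
    have hw := hD.w_nonneg v
    have h3 : (max 0 (1 - T i v / B i)) ^ k i ≤ Real.exp (-(η₀ / 2 * H v)) :=
      (pos_pow_le_exp _ _).trans (Real.exp_le_exp.2 (neg_le_neg (h1 v)))
    have h4 : Real.exp (-(η i * H v)) ≤ Real.exp (-(η₀ / 2 * H v)) := by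
      refine Real.exp_le_exp.2 (neg_le_neg (mul_le_mul_of_nonneg_right ?_ hH))
      linarith [h2.1]
    have h5 : 0 ≤ (max 0 (1 - T i v / B i)) ^ k i := pow_nonneg (le_max_left _ _) _
    have h6 := (Real.exp_pos (-(η i * H v))).le
    rw [norm_mul, Real.norm_of_nonneg hw, Real.norm_eq_abs]
    have h7 : |(max 0 (1 - T i v / B i)) ^ k i - Real.exp (-(η i * H v))|
        ≤ 2 * Real.exp (-(η₀ / 2 * H v)) := by
      rw [abs_le]; constructor <;> linarith [(Real.exp_pos (-(η₀ / 2 * H v))).le]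
    nlinarith [mul_le_mul_of_nonneg_left h7 hw]
  have hmain : Tendsto (fun i => ∑' v, w v * ((max 0 (1 - T i v / B i)) ^ k i
      - Real.exp (-(η i * H v)))) l (𝓝 (∑' _ : V, (0 : ℝ))) := by
    refine tendsto_tsum_of_dominated_convergence (bound := fun v =>
      2 * (w v * Real.exp (-(η₀ / 2 * H v)))) ((hD.summable _ (by positivity)).mul_left 2)
      (fun v => ?_) hbound
    have hH := hD.H_nonneg v
    suffices hs : Tendsto (fun i => (max 0 (1 - T i v / B i)) ^ k i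
        - Real.exp (-(η i * H v))) l (𝓝 0) by
      simpa using hs.const_mul (w v)
    refine tendsto_pos_pow_sub (X := η₁ * H v) hk ?_ ?_ ?_ ?_
    · filter_upwards [hterm, hkR.eventually_gt_atTop 0] with i h1 h2
      have h3 : 0 ≤ (k i : ℝ) * (T i v / B i) := le_trans (by positivity) (h1 v)
      exact nonneg_of_mul_nonneg_right h3 h2
    · filter_upwards [hη] with i h1
      exact mul_nonneg (hη₀.le.trans h1.1) hH
    · filter_upwards [hη] with i h1
      exact mul_le_mul_of_nonneg_right h1.2 hH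
    · -- k T / B - η H → 0
      have h1 : Tendsto (fun i => ((k i : ℝ) * κ i / B i - η i) * H v) l (𝓝 0) := by
        simpa using hlim.mul_const (H v)
      have h2 : Tendsto (fun i => |ε i| * ((|η₁| + 1) * H v)) l (𝓝 0) := by
        simpa using (hε.abs.mul_const ((|η₁| + 1) * H v))
      have h3 : Tendsto (fun i => (k i : ℝ) * (T i v / B i) - (k i : ℝ) * κ i / B i * H v) l
          (𝓝 0) := by
        refine squeeze_zero_norm' ?_ h2
        filter_upwards [hT, hB, hκ, hη, hlim.eventually (gt_mem_nhds one_pos)] with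
          i a1 a2 a3 a4 a5
        have e : (k i : ℝ) * (T i v / B i) - (k i : ℝ) * κ i / B i * H v
            = (k i : ℝ) / B i * (T i v - κ i * H v) := by ring
        rw [e, norm_mul, Real.norm_of_nonneg (div_nonneg (Nat.cast_nonneg _) a2.le),
          Real.norm_eq_abs]
        have b1 : |T i v - κ i * H v| ≤ |ε i| * (κ i * H v) :=
          (a1 v).trans (mul_le_mul_of_nonneg_right (le_abs_self _) (mul_nonneg a3 hH))
        have b2 : (k i : ℝ) / B i * |T i v - κ i * H v|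
            ≤ (k i : ℝ) / B i * (|ε i| * (κ i * H v)) :=
          mul_le_mul_of_nonneg_left b1 (div_nonneg (Nat.cast_nonneg _) a2.le)
        have b3 : (k i : ℝ) * κ i / B i ≤ |η₁| + 1 := by
          have := le_abs_self η₁
          linarith [a4.2]
        calc (k i : ℝ) / B i * |T i v - κ i * H v|
            ≤ (k i : ℝ) / B i * (|ε i| * (κ i * H v)) := b2
          _ = |ε i| * (((k i : ℝ) * κ i / B i) * H v) := by ring
          _ ≤ |ε i| * ((|η₁| + 1) * H v) :=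
            mul_le_mul_of_nonneg_left (mul_le_mul_of_nonneg_right b3 hH) (abs_nonneg _)
      have h4 := h3.add h1
      rw [add_zero] at h4
      exact h4.congr fun i => by ring
  rw [tsum_zero] at hmain
  refine hmain.congr' ?_
  filter_upwards [hterm, hη] with i h1 h2
  have s1 : Summable fun v => w v * Real.exp (-(η i * H v)) :=
    hD.summable _ (hη₀.trans_le h2.1)
  have s2 : Summable fun v => w v * (max 0 (1 - T i v / B i)) ^ k i := by
    refine Summable.of_nonneg_of_le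
      (fun v => mul_nonneg (hD.w_nonneg v) (pow_nonneg (le_max_left _ _) _)) (fun v => ?_)
      (hD.summable (η₀ / 2) (by positivity))
    exact mul_le_mul_of_nonneg_left ((pos_pow_le_exp _ _).trans
      (Real.exp_le_exp.2 (neg_le_neg (h1 v)))) (hD.w_nonneg v)
  rw [D, ← s2.tsum_sub s1]
  exact tsum_congr fun v => by ring

end Crest.Agent.R020.Laplace
end

-- ▼ part R020/LimitS
section

/-!
Row 20 (S0026, S0027), module G2 (helper826): the limit of the sums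
`S_{m-r}^± = ∑ w (B ± Δ - T_{m-r})_+^{m-r} / ((m-r)! g_1 ⋯ g_{m-r})` divided by `scaleG`.
-/

set_option autoImplicit false

noncomputable section

open Finset Filter Topology
open Crest.NumberTheoryR.TotientScale

namespace Crest.Agent.R020

variable {V : Type*} {w H : V → ℝ}

/-- `∑ w (X - T)_+^k / (k! g_1 ⋯ g_k)`. -/
def Ssum (w T : V → ℝ) (k : ℕ) (X : ℝ) : ℝ :=
  ∑' v, w v * ((max 0 (X - T v)) ^ k / ((k.factorial : ℝ) * ∏ i ∈ range k, gSeq (i + 1)))

theorem Ssum_eq (w T : V → ℝ) (k : ℕ) {X : ℝ} (hX : 0 < X) :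
    Ssum w T k X = scaleAt X k * ∑' v, w v * (max 0 (1 - T v / X)) ^ k := by
  rw [Ssum, ← tsum_mul_left]
  refine tsum_congr fun v => ?_
  have h1 : max 0 (X - T v) = X * max 0 (1 - T v / X) := by
    rw [mul_max_of_nonneg _ _ hX.le, mul_zero, mul_sub, mul_one, mul_div_cancel₀ _ hX.ne']
  rw [h1, mul_pow, scaleAt]
  ring

/-- the profile `A_r(θ) = ∏_{s<r} (z(θ) ρ^s) · D(z(θ) ρ^r)`. -/
def Aprof (ρ μ : ℝ) (w H : V → ℝ) (r : ℕ) (θ : ℝ) : ℝ :=
  (∏ s ∈ range r, (zPhase ρ μ θ * ρ ^ s)) * Laplace.D w H (zPhase ρ μ θ * ρ ^ r)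

section

variable {ρ : ℝ} (hρ0 : 0 < ρ) (hρ1 : ρ < 1)

include hρ0 hρ1

theorem zPhase_bounds {μ : ℝ} (hμ : 0 < μ) {θ : ℝ} (hθ : θ ∈ Set.Ico (0 : ℝ) 1) :
    μ * ρ / lam ρ ≤ zPhase ρ μ θ ∧ zPhase ρ μ θ ≤ μ / lam ρ := by
  have hl := lam_pos hρ0 hρ1
  rw [zPhase]
  constructor
  · refine div_le_div_of_nonneg_right ?_ hl.le
    refine mul_le_mul_of_nonneg_left ?_ hμ.le
    refine (exp_neg_lam hρ0 hρ1).symm.le.trans (Real.exp_le_exp.2 ?_)
    have := mul_le_mul_of_nonneg_left hθ.2.le hl.le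
    linarith
  · refine div_le_div_of_nonneg_right ?_ hl.le
    refine mul_le_of_le_one_right hμ.le ?_
    rw [Real.exp_le_one_iff]
    have := mul_nonneg hl.le hθ.1
    linarith

theorem zPhase_pos {μ : ℝ} (hμ : 0 < μ) (θ : ℝ) : 0 < zPhase ρ μ θ := by
  have hl := lam_pos hρ0 hρ1
  rw [zPhase]; positivity

/-- `A_r` is bounded between positive constants on `[0,1)`. -/
theorem Aprof_bounds (hD : Laplace.Data w H) {μ : ℝ} (hμ : 0 < μ) (r : ℕ) :
    ∃ c₁ c₂ : ℝ, 0 < c₁ ∧ ∀ θ ∈ Set.Ico (0 : ℝ) 1,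
      c₁ ≤ Aprof ρ μ w H r θ ∧ Aprof ρ μ w H r θ ≤ c₂ := by
  have hl := lam_pos hρ0 hρ1
  set z0 : ℝ := μ * ρ / lam ρ with hz0
  set z1 : ℝ := μ / lam ρ with hz1
  have hz0pos : 0 < z0 := by positivity
  have hz1pos : 0 < z1 := by positivity
  refine ⟨(∏ s ∈ range r, (z0 * ρ ^ s)) * Laplace.D w H (z1 * ρ ^ r),
    (∏ s ∈ range r, (z1 * ρ ^ s)) * Laplace.D w H (z0 * ρ ^ r), ?_, fun θ hθ => ?_⟩
  · exact mul_pos (Finset.prod_pos fun s _ => by positivity) (hD.D_pos (by positivity))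
  · obtain ⟨h1, h2⟩ := zPhase_bounds hρ0 hρ1 hμ hθ
    have hz := zPhase_pos hρ0 hρ1 hμ θ
    rw [Aprof]
    constructor
    · refine mul_le_mul (Finset.prod_le_prod (fun s _ => by positivity) fun s _ =>
        mul_le_mul_of_nonneg_right h1 (by positivity)) (hD.D_anti (by positivity)
        (mul_le_mul_of_nonneg_right h2 (by positivity))) (hD.D_pos (by positivity)).le
        (Finset.prod_nonneg fun s _ => by positivity)
    · refine mul_le_mul (Finset.prod_le_prod (fun s _ => by positivity) fun s _ =>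
        mul_le_mul_of_nonneg_right h2 (by positivity)) (hD.D_anti (by positivity)
        (mul_le_mul_of_nonneg_right h1 (by positivity))) (hD.D_pos (by positivity)).le
        (Finset.prod_nonneg fun s _ => by positivity)

/-- The Laplace limit at level `m - r`. -/
theorem tendsto_laplace_phase (hD : Laplace.Data w H) {T : ℕ → V → ℝ} {μ C q : ℝ} (hμ : 0 < μ)
    (hq0 : 0 < q) (hq1 : q < 1) (hg : Tendsto (fun n : ℕ => gSeq n * ρ ^ n) atTop (𝓝 μ))
    (hT : ∀ k v, |T k v * ρ ^ k - μ * H v| ≤ C * q ^ k * H v) (r : ℕ) {Bp : ℝ → ℝ}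
    (hBp : Tendsto (fun x => Bp x / bigB x) atTop (𝓝 1)) :
    Tendsto (fun x => ∑' v, w v * (max 0 (1 - T (mIndex ρ x - r) v / Bp x)) ^ (mIndex ρ x - r)
      - Laplace.D w H (zPhase ρ μ (phase ρ x) * ρ ^ r)) atTop (𝓝 0) := by
  have hl := lam_pos hρ0 hρ1
  have hB := tendsto_bigB
  have hk : Tendsto (fun x => mIndex ρ x - r) atTop atTop :=
    (tendsto_sub_atTop_nat r).comp (tendsto_mIndex hρ0 hρ1)
  have hBp0 : ∀ᶠ x in atTop, 0 < Bp x := by
    filter_upwards [hBp.eventually (lt_mem_nhds (show (0 : ℝ) < 1 by norm_num)),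
      hB.eventually_gt_atTop 0] with x h1 h2
    exact (div_pos_iff_of_pos_right h2).1 h1
  refine hD.tendsto_laplace (l := atTop) (k := fun x => mIndex ρ x - r) (B := Bp)
    (κ := fun x => μ * (ρ ^ (mIndex ρ x - r))⁻¹)
    (ε := fun x => C * q ^ (mIndex ρ x - r) / μ)
    (η := fun x => zPhase ρ μ (phase ρ x) * ρ ^ r)
    (T := fun x => T (mIndex ρ x - r))
    (η₀ := μ * ρ / lam ρ * ρ ^ r) (η₁ := μ / lam ρ * ρ ^ r) (by positivity) hk hBp0 ?_ ?_ ?_ ?_ ?_
  · exact Eventually.of_forall fun x => by positivity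
  · have h1 : Tendsto (fun n : ℕ => q ^ n) atTop (𝓝 0) :=
      tendsto_pow_atTop_nhds_zero_of_lt_one hq0.le hq1
    have h2 := ((h1.comp hk).const_mul C).div_const μ
    simpa using h2
  · filter_upwards [eventually_phase_mem hρ0 hρ1] with x hx
    obtain ⟨h1, h2⟩ := zPhase_bounds hρ0 hρ1 hμ hx
    exact ⟨mul_le_mul_of_nonneg_right h1 (by positivity),
      mul_le_mul_of_nonneg_right h2 (by positivity)⟩
  · refine Eventually.of_forall fun x v => ?_
    have hp : 0 < ρ ^ (mIndex ρ x - r) := by positivity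
    have h1 := hT (mIndex ρ x - r) v
    have e1 : T (mIndex ρ x - r) v - μ * (ρ ^ (mIndex ρ x - r))⁻¹ * H v
        = (T (mIndex ρ x - r) v * ρ ^ (mIndex ρ x - r) - μ * H v)
          * (ρ ^ (mIndex ρ x - r))⁻¹ := by
      field_simp
    rw [e1, abs_mul, abs_of_pos (inv_pos.2 hp)]
    refine (mul_le_mul_of_nonneg_right h1 (inv_pos.2 hp).le).trans (le_of_eq ?_)
    field_simp
  · -- the limit of `k κ / Bp - η`
    have ha := tendsto_mul_gSeq_div hρ0 hρ1 hg r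
    have hb : Tendsto (fun x => μ / (gSeq (mIndex ρ x - r) * ρ ^ (mIndex ρ x - r))) atTop
        (𝓝 1) := by
      have := ((hg.comp hk).inv₀ hμ.ne').const_mul μ
      rw [mul_inv_cancel₀ hμ.ne'] at this
      exact this.congr fun x => by simp [div_eq_mul_inv]
    have hc : Tendsto (fun x => bigB x / Bp x) atTop (𝓝 1) := by
      have := hBp.inv₀ one_ne_zero
      simpa [inv_div] using this
    have hbc : Tendsto (fun x => μ / (gSeq (mIndex ρ x - r) * ρ ^ (mIndex ρ x - r))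
        * (bigB x / Bp x)) atTop (𝓝 1) := by
      simpa using hb.mul hc
    have h1 : Tendsto (fun x => (((mIndex ρ x - r : ℕ) : ℝ) * gSeq (mIndex ρ x - r) / bigB x
        - zPhase ρ μ (phase ρ x) * ρ ^ r)
        * (μ / (gSeq (mIndex ρ x - r) * ρ ^ (mIndex ρ x - r)) * (bigB x / Bp x)))
        atTop (𝓝 0) := by
      simpa using ha.mul hbc
    have h2 : Tendsto (fun x => (zPhase ρ μ (phase ρ x) * ρ ^ r)
        * (μ / (gSeq (mIndex ρ x - r) * ρ ^ (mIndex ρ x - r)) * (bigB x / Bp x) - 1))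
        atTop (𝓝 0) := by
      have h3 : Tendsto (fun x => (μ / lam ρ) * ‖μ / (gSeq (mIndex ρ x - r)
          * ρ ^ (mIndex ρ x - r)) * (bigB x / Bp x) - 1‖) atTop (𝓝 0) := by
        have := (hbc.sub_const 1).norm.const_mul (μ / lam ρ)
        simpa using this
      refine squeeze_zero_norm' ?_ h3
      filter_upwards [eventually_phase_mem hρ0 hρ1] with x hx
      have h4 := zPhase_bounds hρ0 hρ1 hμ hx
      have h5 := zPhase_pos hρ0 hρ1 hμ (phase ρ x)
      rw [norm_mul]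
      refine mul_le_mul_of_nonneg_right ?_ (norm_nonneg _)
      rw [Real.norm_of_nonneg (by positivity)]
      exact (mul_le_of_le_one_right h5.le (pow_le_one₀ hρ0.le hρ1.le)).trans h4.2
    have h3 := h1.add h2
    rw [add_zero] at h3
    refine h3.congr' ?_
    filter_upwards [hB.eventually_gt_atTop 0, hBp0] with x hx1 hx2
    have hgp := gSeq_pos (mIndex ρ x - r)
    have hp : 0 < ρ ^ (mIndex ρ x - r) := by positivity
    have e1 : ((mIndex ρ x - r : ℕ) : ℝ) * (μ * (ρ ^ (mIndex ρ x - r))⁻¹) / Bp x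
        = (((mIndex ρ x - r : ℕ) : ℝ) * gSeq (mIndex ρ x - r) / bigB x)
          * (μ / (gSeq (mIndex ρ x - r) * ρ ^ (mIndex ρ x - r)) * (bigB x / Bp x)) := by
      field_simp
    rw [e1]
    ring

/-- `scaleAt (B) (m-r) * (…)/ scaleG → A_r` in the form of a difference. -/
theorem tendsto_scale_mul (hD : Laplace.Data w H) {T : ℕ → V → ℝ} {μ C q : ℝ} (hμ : 0 < μ)
    (hq0 : 0 < q) (hq1 : q < 1) (hg : Tendsto (fun n : ℕ => gSeq n * ρ ^ n) atTop (𝓝 μ))
    (hT : ∀ k v, |T k v * ρ ^ k - μ * H v| ≤ C * q ^ k * H v) (r : ℕ) {Bp : ℝ → ℝ}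
    (hBp : Tendsto (fun x => Bp x / bigB x) atTop (𝓝 1)) :
    Tendsto (fun x => (scaleAt (bigB x) (mIndex ρ x - r) / scaleG ρ x) *
      (∑' v, w v * (max 0 (1 - T (mIndex ρ x - r) v / Bp x)) ^ (mIndex ρ x - r))
      - Aprof ρ μ w H r (phase ρ x)) atTop (𝓝 0) := by
  have h1 := tendsto_laplace_phase hρ0 hρ1 hD hμ hq0 hq1 hg hT r hBp
  have h2 := tendsto_scaleAt_div hρ0 hρ1 hg hμ.le r
  have hl := lam_pos hρ0 hρ1
  -- bounds
  set M : ℝ := Laplace.D w H (μ * ρ / lam ρ * ρ ^ r) with hM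
  have hMpos : 0 < M := hD.D_pos (by positivity)
  have hDb : ∀ᶠ x in atTop, ‖Laplace.D w H (zPhase ρ μ (phase ρ x) * ρ ^ r)‖ ≤ M := by
    filter_upwards [eventually_phase_mem hρ0 hρ1] with x hx
    have h3 := zPhase_bounds hρ0 hρ1 hμ hx
    have h4 := zPhase_pos hρ0 hρ1 hμ (phase ρ x)
    rw [Real.norm_of_nonneg (hD.D_pos (by positivity)).le]
    exact hD.D_anti (by positivity) (mul_le_mul_of_nonneg_right h3.1 (by positivity))
  have hSb : ∀ᶠ x in atTop, ‖scaleAt (bigB x) (mIndex ρ x - r) / scaleG ρ x‖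
      ≤ (∏ s ∈ range r, (μ / lam ρ * ρ ^ s)) + 1 := by
    filter_upwards [eventually_phase_mem hρ0 hρ1,
      (tendsto_zero_iff_norm_tendsto_zero.1 h2).eventually (gt_mem_nhds one_pos)] with x hx h5
    have h3 := zPhase_bounds hρ0 hρ1 hμ hx
    have h4 := zPhase_pos hρ0 hρ1 hμ (phase ρ x)
    have h6 : ‖∏ s ∈ range r, (zPhase ρ μ (phase ρ x) * ρ ^ s)‖
        ≤ ∏ s ∈ range r, (μ / lam ρ * ρ ^ s) := by
      rw [Real.norm_of_nonneg (Finset.prod_nonneg fun s _ => by positivity)]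
      exact Finset.prod_le_prod (fun s _ => by positivity) fun s _ =>
        mul_le_mul_of_nonneg_right h3.2 (by positivity)
    have h7 := norm_add_le (scaleAt (bigB x) (mIndex ρ x - r) / scaleG ρ x
      - ∏ s ∈ range r, (zPhase ρ μ (phase ρ x) * ρ ^ s))
      (∏ s ∈ range r, (zPhase ρ μ (phase ρ x) * ρ ^ s))
    rw [sub_add_cancel] at h7
    linarith
  have t1 : Tendsto (fun x => (scaleAt (bigB x) (mIndex ρ x - r) / scaleG ρ x) *
      (∑' v, w v * (max 0 (1 - T (mIndex ρ x - r) v / Bp x)) ^ (mIndex ρ x - r)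
      - Laplace.D w H (zPhase ρ μ (phase ρ x) * ρ ^ r))) atTop (𝓝 0) := by
    have h3 := (tendsto_zero_iff_norm_tendsto_zero.1 h1).const_mul
      ((∏ s ∈ range r, (μ / lam ρ * ρ ^ s)) + 1)
    rw [mul_zero] at h3
    refine squeeze_zero_norm' ?_ h3
    filter_upwards [hSb] with x hx
    rw [norm_mul]
    exact mul_le_mul_of_nonneg_right hx (norm_nonneg _)
  have t2 : Tendsto (fun x => (scaleAt (bigB x) (mIndex ρ x - r) / scaleG ρ x
      - ∏ s ∈ range r, (zPhase ρ μ (phase ρ x) * ρ ^ s))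
      * Laplace.D w H (zPhase ρ μ (phase ρ x) * ρ ^ r)) atTop (𝓝 0) := by
    have h3 := (tendsto_zero_iff_norm_tendsto_zero.1 h2).mul_const M
    rw [zero_mul] at h3
    refine squeeze_zero_norm' ?_ h3
    filter_upwards [hDb] with x hx
    rw [norm_mul]
    exact mul_le_mul_of_nonneg_left hx (norm_nonneg _)
  have t3 := t1.add t2
  rw [add_zero] at t3
  refine t3.congr fun x => ?_
  rw [Aprof]
  ring

/-- **Asymptotics of `S_{m-r}^±`.** `Δ ≥ 0`, `Δ/B → 0` and `(m-r) Δ / B ≤ t`. -/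
theorem Ssum_asymp (hD : Laplace.Data w H) {T : ℕ → V → ℝ} {μ C q : ℝ} (hμ : 0 < μ)
    (hq0 : 0 < q) (hq1 : q < 1) (hg : Tendsto (fun n : ℕ => gSeq n * ρ ^ n) atTop (𝓝 μ))
    (hT : ∀ k v, |T k v * ρ ^ k - μ * H v| ≤ C * q ^ k * H v) (r : ℕ) {Δ : ℝ → ℝ} {t : ℝ}
    (hΔ0 : ∀ᶠ x in atTop, 0 ≤ Δ x) (hΔB : Tendsto (fun x => Δ x / bigB x) atTop (𝓝 0))
    (hΔt : ∀ᶠ x in atTop, ((mIndex ρ x - r : ℕ) : ℝ) * Δ x / bigB x ≤ t) {ε : ℝ} (hε : 0 < ε)
    (hε1 : ε ≤ 1) :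
    (∀ᶠ x in atTop, (1 - ε) * Aprof ρ μ w H r (phase ρ x) * scaleG ρ x
        ≤ Ssum w (T (mIndex ρ x - r)) (mIndex ρ x - r) (bigB x + Δ x) ∧
      Ssum w (T (mIndex ρ x - r)) (mIndex ρ x - r) (bigB x + Δ x)
        ≤ (1 + ε) * Real.exp t * Aprof ρ μ w H r (phase ρ x) * scaleG ρ x) ∧
    (∀ᶠ x in atTop, (1 - ε) * (1 - t) * Aprof ρ μ w H r (phase ρ x) * scaleG ρ x
        ≤ Ssum w (T (mIndex ρ x - r)) (mIndex ρ x - r) (bigB x - Δ x) ∧
      Ssum w (T (mIndex ρ x - r)) (mIndex ρ x - r) (bigB x - Δ x)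
        ≤ (1 + ε) * Aprof ρ μ w H r (phase ρ x) * scaleG ρ x) := by
  have hB := tendsto_bigB
  have hgood : ∀ᶠ x in atTop, 0 < bigB x := hB.eventually_gt_atTop 0
  -- the two limits
  have hp : Tendsto (fun x => (bigB x + Δ x) / bigB x) atTop (𝓝 1) := by
    have h1 : Tendsto (fun x => 1 + Δ x / bigB x) atTop (𝓝 1) := by simpa using hΔB.const_add 1
    refine h1.congr' ?_
    filter_upwards [hgood] with x hx
    rw [add_div, div_self hx.ne']
  have hm : Tendsto (fun x => (bigB x - Δ x) / bigB x) atTop (𝓝 1) := by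
    have h1 : Tendsto (fun x => 1 - Δ x / bigB x) atTop (𝓝 1) := by
      simpa using hΔB.const_sub 1
    refine h1.congr' ?_
    filter_upwards [hgood] with x hx
    rw [sub_div, div_self hx.ne']
  have lp := tendsto_scale_mul hρ0 hρ1 hD hμ hq0 hq1 hg hT r hp
  have lm := tendsto_scale_mul hρ0 hρ1 hD hμ hq0 hq1 hg hT r hm
  obtain ⟨c₁, c₂, hc₁, hc⟩ := Aprof_bounds hρ0 hρ1 hD hμ r
  have hεc : 0 < ε * c₁ := by positivity
  have hG : ∀ᶠ x in atTop, 0 < scaleG ρ x := by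
    filter_upwards [hgood] with x hx
    rw [scaleG_eq]; exact scaleAt_pos hx _
  -- comparison of `scaleAt (B ± Δ) k` with `scaleAt B k`
  have hsc : ∀ (X B : ℝ) (k : ℕ), 0 < B → scaleAt X k = scaleAt B k * (X / B) ^ k := by
    intro X B k hB0
    rw [scaleAt, scaleAt, div_pow]
    field_simp
  have hcore : ∀ (Bp : ℝ → ℝ), Tendsto (fun x => (scaleAt (bigB x) (mIndex ρ x - r) / scaleG ρ x) *
      (∑' v, w v * (max 0 (1 - T (mIndex ρ x - r) v / Bp x)) ^ (mIndex ρ x - r))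
      - Aprof ρ μ w H r (phase ρ x)) atTop (𝓝 0) →
      ∀ᶠ x in atTop, (1 - ε) * Aprof ρ μ w H r (phase ρ x) * scaleG ρ x
        ≤ scaleAt (bigB x) (mIndex ρ x - r) *
          (∑' v, w v * (max 0 (1 - T (mIndex ρ x - r) v / Bp x)) ^ (mIndex ρ x - r)) ∧
        scaleAt (bigB x) (mIndex ρ x - r) *
          (∑' v, w v * (max 0 (1 - T (mIndex ρ x - r) v / Bp x)) ^ (mIndex ρ x - r))
        ≤ (1 + ε) * Aprof ρ μ w H r (phase ρ x) * scaleG ρ x := by
    intro Bp hl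
    filter_upwards [(tendsto_zero_iff_norm_tendsto_zero.1 hl).eventually (gt_mem_nhds hεc), hG,
      eventually_phase_mem hρ0 hρ1] with x h1 h2 h3
    have h4 := (hc _ h3).1
    rw [Real.norm_eq_abs, abs_lt] at h1
    have h5 : ε * c₁ ≤ ε * Aprof ρ μ w H r (phase ρ x) := mul_le_mul_of_nonneg_left h4 hε.le
    set S := ∑' v, w v * (max 0 (1 - T (mIndex ρ x - r) v / Bp x)) ^ (mIndex ρ x - r) with hS
    have e1 : scaleAt (bigB x) (mIndex ρ x - r) * S
        = (scaleAt (bigB x) (mIndex ρ x - r) / scaleG ρ x * S) * scaleG ρ x := by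
      field_simp
    rw [e1]
    constructor
    · refine mul_le_mul_of_nonneg_right ?_ h2.le
      linarith [h1.1]
    · refine mul_le_mul_of_nonneg_right ?_ h2.le
      linarith [h1.2]
  have hSnn : ∀ (Bp : ℝ → ℝ) (x : ℝ), 0 ≤ ∑' v, w v *
      (max 0 (1 - T (mIndex ρ x - r) v / Bp x)) ^ (mIndex ρ x - r) := fun Bp x =>
    tsum_nonneg fun v => mul_nonneg (hD.w_nonneg v) (pow_nonneg (le_max_left _ _) _)
  have hsmall : ∀ᶠ x in atTop, Δ x / bigB x < 1 :=
    hΔB.eventually (gt_mem_nhds one_pos)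
  constructor
  · filter_upwards [hcore _ lp, hΔ0, hΔt, hgood, hG, eventually_phase_mem hρ0 hρ1]
      with x h1 h2 h3 h4 h5 h6
    have hX : 0 < bigB x + Δ x := by linarith
    rw [Ssum_eq w _ _ hX, hsc _ (bigB x) _ h4]
    have hy : (bigB x + Δ x) / bigB x = 1 + Δ x / bigB x := by
      rw [add_div, div_self h4.ne']
    have hy0 : 0 ≤ Δ x / bigB x := div_nonneg h2 h4.le
    have g1 : 1 ≤ ((bigB x + Δ x) / bigB x) ^ (mIndex ρ x - r) :=
      one_le_pow₀ (by rw [hy]; linarith)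
    have g2 : ((bigB x + Δ x) / bigB x) ^ (mIndex ρ x - r) ≤ Real.exp t := by
      calc ((bigB x + Δ x) / bigB x) ^ (mIndex ρ x - r)
          ≤ (Real.exp (Δ x / bigB x)) ^ (mIndex ρ x - r) := by
            refine pow_le_pow_left₀ (by positivity) ?_ _
            rw [hy]
            have := Real.add_one_le_exp (Δ x / bigB x)
            linarith
        _ = Real.exp (((mIndex ρ x - r : ℕ) : ℝ) * Δ x / bigB x) := by
            rw [← Real.exp_nat_mul]; congr 1; ring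
        _ ≤ Real.exp t := Real.exp_le_exp.2 h3
    have hA : 0 < Aprof ρ μ w H r (phase ρ x) := hc₁.trans_le (hc _ h6).1
    have hSc : 0 ≤ scaleAt (bigB x) (mIndex ρ x - r) *
        ∑' v, w v * (max 0 (1 - T (mIndex ρ x - r) v / (bigB x + Δ x))) ^ (mIndex ρ x - r) :=
      mul_nonneg (scaleAt_pos h4 _).le (hSnn (fun x => bigB x + Δ x) x)
    set P := scaleAt (bigB x) (mIndex ρ x - r) *
        ∑' v, w v * (max 0 (1 - T (mIndex ρ x - r) v / (bigB x + Δ x))) ^ (mIndex ρ x - r)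
      with hP
    have e2 : scaleAt (bigB x) (mIndex ρ x - r) * ((bigB x + Δ x) / bigB x) ^ (mIndex ρ x - r) *
        ∑' v, w v * (max 0 (1 - T (mIndex ρ x - r) v / (bigB x + Δ x))) ^ (mIndex ρ x - r)
        = P * ((bigB x + Δ x) / bigB x) ^ (mIndex ρ x - r) := by rw [hP]; ring
    rw [e2]
    constructor
    · refine h1.1.trans ?_
      exact le_mul_of_one_le_right hSc g1
    · calc P * ((bigB x + Δ x) / bigB x) ^ (mIndex ρ x - r)
          ≤ ((1 + ε) * Aprof ρ μ w H r (phase ρ x) * scaleG ρ x) * Real.exp t :=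
            mul_le_mul h1.2 g2 (by positivity) (by positivity)
        _ = _ := by ring
  · filter_upwards [hcore _ lm, hΔ0, hΔt, hgood, hG, eventually_phase_mem hρ0 hρ1, hsmall]
      with x h1 h2 h3 h4 h5 h6 h7
    have hX : 0 < bigB x - Δ x := by
      rw [div_lt_one h4] at h7; linarith
    rw [Ssum_eq w _ _ hX, hsc _ (bigB x) _ h4]
    have hy : (bigB x - Δ x) / bigB x = 1 - Δ x / bigB x := by
      rw [sub_div, div_self h4.ne']
    have hy0 : 0 ≤ Δ x / bigB x := div_nonneg h2 h4.le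
    have g1 : ((bigB x - Δ x) / bigB x) ^ (mIndex ρ x - r) ≤ 1 :=
      pow_le_one₀ (by rw [hy]; linarith) (by rw [hy]; linarith)
    have g2 : 1 - t ≤ ((bigB x - Δ x) / bigB x) ^ (mIndex ρ x - r) := by
      have h8 := one_add_mul_le_pow (show (-2 : ℝ) ≤ -(Δ x / bigB x) by linarith)
        (mIndex ρ x - r)
      rw [hy]
      have e : (1 : ℝ) + -(Δ x / bigB x) = 1 - Δ x / bigB x := by ring
      rw [e] at h8
      have e2 : ((mIndex ρ x - r : ℕ) : ℝ) * -(Δ x / bigB x)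
          = -(((mIndex ρ x - r : ℕ) : ℝ) * Δ x / bigB x) := by ring
      rw [e2] at h8
      linarith
    have hA : 0 < Aprof ρ μ w H r (phase ρ x) := hc₁.trans_le (hc _ h6).1
    have hSc : 0 ≤ scaleAt (bigB x) (mIndex ρ x - r) *
        ∑' v, w v * (max 0 (1 - T (mIndex ρ x - r) v / (bigB x - Δ x))) ^ (mIndex ρ x - r) :=
      mul_nonneg (scaleAt_pos h4 _).le (hSnn (fun x => bigB x - Δ x) x)
    set P := scaleAt (bigB x) (mIndex ρ x - r) *
        ∑' v, w v * (max 0 (1 - T (mIndex ρ x - r) v / (bigB x - Δ x))) ^ (mIndex ρ x - r)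
      with hP
    have e2 : scaleAt (bigB x) (mIndex ρ x - r) * ((bigB x - Δ x) / bigB x) ^ (mIndex ρ x - r) *
        ∑' v, w v * (max 0 (1 - T (mIndex ρ x - r) v / (bigB x - Δ x))) ^ (mIndex ρ x - r)
        = P * ((bigB x - Δ x) / bigB x) ^ (mIndex ρ x - r) := by rw [hP]; ring
    rw [e2]
    have hpow0 : 0 ≤ ((bigB x - Δ x) / bigB x) ^ (mIndex ρ x - r) :=
      pow_nonneg (div_nonneg hX.le h4.le) _
    constructor
    · have he : 0 ≤ 1 - ε := by linarith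
      · calc (1 - ε) * (1 - t) * Aprof ρ μ w H r (phase ρ x) * scaleG ρ x
            = ((1 - ε) * Aprof ρ μ w H r (phase ρ x) * scaleG ρ x) * (1 - t) := by ring
          _ ≤ ((1 - ε) * Aprof ρ μ w H r (phase ρ x) * scaleG ρ x) *
              ((bigB x - Δ x) / bigB x) ^ (mIndex ρ x - r) :=
            mul_le_mul_of_nonneg_left g2 (by positivity)
          _ ≤ P * ((bigB x - Δ x) / bigB x) ^ (mIndex ρ x - r) :=
            mul_le_mul_of_nonneg_right h1.1 hpow0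
    · calc P * ((bigB x - Δ x) / bigB x) ^ (mIndex ρ x - r) ≤ P * 1 :=
            mul_le_mul_of_nonneg_left g1 hSc
        _ = P := mul_one _
        _ ≤ _ := h1.2

end

end Crest.Agent.R020
end
end

-- ▼ part R020/LaplaceTot
section

/-!
Row 20 (helper826): instantiation of the Laplace limit for totients.
-/

set_option autoImplicit false

open scoped ENNReal Topology
open Filter Crest.NumberTheoryR.TotientScale

noncomputable section

namespace Crest.Agent.R020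

open Classical in
/-- The weight `1/v` on totients. -/
def wtot (v : ℕ) : ℝ := if IsTot v then (v : ℝ)⁻¹ else 0

/-- `H(v) = F_h(v)`. -/
def Htot (ρ : ℝ) (v : ℕ) : ℝ := FF (fun i => hSeq ρ (i + 1)) v

/-- `T_k(v) = F_{c^{(k)}}(v)`. -/
def Ttot (k : ℕ) (v : ℕ) : ℝ := FF (fun i => cSeq k (i + 1)) v

theorem wtot_nonneg (v : ℕ) : 0 ≤ wtot v := by
  unfold wtot; split_ifs <;> positivity

theorem ofReal_wtot {v : ℕ} (hv : IsTot v) : ENNReal.ofReal (wtot v) = (v : ℝ≥0∞)⁻¹ := by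
  have h0 : (0 : ℝ) < v := by exact_mod_cast hv.pos
  rw [wtot, if_pos hv, ENNReal.ofReal_inv_of_pos h0, ENNReal.ofReal_natCast]

theorem wsum_eq_tsum {φ : ℕ → ℝ} :
    wsum φ {v | IsTot v} = ∑' v, ENNReal.ofReal (wtot v * φ v) := by
  unfold wsum ws
  refine tsum_congr fun v => ?_
  by_cases hv : IsTot v
  · rw [Set.indicator_of_mem (show v ∈ {v | IsTot v} from hv),
      ENNReal.ofReal_mul (wtot_nonneg v), ofReal_wtot hv, mul_comm]
  · rw [Set.indicator_of_notMem (show v ∉ {v | IsTot v} from hv), wtot, if_neg hv, zero_mul,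
      ENNReal.ofReal_zero]

theorem sum_wtot_le (s : Finset ℕ) (A : Set ℕ) (h : ∀ v ∈ s, IsTot v → v ∈ A) {R : ℝ} (hR : 0 ≤ R)
    (hA : wt A ≤ ENNReal.ofReal R) : ∑ v ∈ s, wtot v ≤ R := by
  have h1 : ENNReal.ofReal (∑ v ∈ s, wtot v) ≤ wt A := by
    rw [ENNReal.ofReal_sum_of_nonneg fun v _ => wtot_nonneg v]
    refine le_trans ?_ (ENNReal.sum_le_tsum s)
    refine Finset.sum_le_sum fun v hv => ?_
    by_cases ht : IsTot v
    · rw [ofReal_wtot ht, Set.indicator_of_mem (h v hv ht)]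
    · rw [wtot, if_neg ht, ENNReal.ofReal_zero]; exact zero_le
  exact (ENNReal.ofReal_le_ofReal_iff hR).1 (h1.trans hA)

section

variable {ρ : ℝ} (hρ0 : 0 < ρ) (hρ1 : ρ < 1)

include hρ0 hρ1

set_option linter.unusedSectionVars false

theorem Htot_nonneg (v : ℕ) : 0 ≤ Htot ρ v :=
  FF_nonneg (fun i => (hSeq_pos hρ0 hρ1 (i + 1) (by omega)).le) v

theorem Ttot_nonneg (k v : ℕ) : 0 ≤ Ttot k v :=
  FF_nonneg (fun i => (cSeq_pos k (i + 1) (by omega)).le) v

theorem dataTot (hρ : HasSum (fun j : ℕ => aCoef (j + 1) * ρ ^ (j + 1)) 1) (hZ : StmtZ) :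
    Laplace.Data wtot (Htot ρ) := by
  obtain ⟨C, hC, hZ⟩ := hZ
  refine Laplace.Data.of_logsq wtot_nonneg (Htot_nonneg hρ0 hρ1) ⟨1, ?_⟩ hC.le fun N s hs => ?_
  · rw [wtot, if_pos isTot_one]; norm_num
  · refine sum_wtot_le s {v | IsTot v ∧ y1 v ≤ (N : ℝ) + 1} (fun v hv ht => ⟨ht, ?_⟩)
      (Real.exp_pos _).le ?_
    · have h1 := mul_y1_le_FF (c := fun i => hSeq ρ (i + 1))
        (fun i => (hSeq_pos hρ0 hρ1 (i + 1) (by omega)).le) v
      have h2 : hSeq ρ (0 + 1) = 1 / ρ := by simpa using hSeq_one hρ0 hρ1 hρ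
      simp only [h2] at h1
      have h3 : (1 : ℝ) ≤ 1 / ρ := by rw [le_div_iff₀ hρ0]; linarith
      have h4 := hs v hv
      have h5 := y1_nonneg v
      have h6 : FF (fun i => hSeq ρ (i + 1)) v = Htot ρ v := rfl
      rw [h6] at h1
      nlinarith
    · have h1 := hZ ((N : ℝ) + 1) (by positivity)
      have e : (N : ℝ) + 1 + 2 = N + 3 := by ring
      rwa [e] at h1

theorem Ttot_rate {μ C q : ℝ}
    (h : ∀ k j : ℕ, 1 ≤ j → |cSeq k j * ρ ^ k - μ * hSeq ρ j| ≤ C * q ^ k * hSeq ρ j)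
    (k v : ℕ) : |Ttot k v * ρ ^ k - μ * Htot ρ v| ≤ C * q ^ k * Htot ρ v := by
  have e1 : Ttot k v * ρ ^ k = FF (fun i => ρ ^ k * cSeq k (i + 1)) v := by
    rw [FF_smul, Ttot]; ring
  have e2 : (μ + C * q ^ k) * Htot ρ v = FF (fun i => (μ + C * q ^ k) * hSeq ρ (i + 1)) v := by
    rw [FF_smul, Htot]
  have e3 : (μ - C * q ^ k) * Htot ρ v = FF (fun i => (μ - C * q ^ k) * hSeq ρ (i + 1)) v := by
    rw [FF_smul, Htot]
  have h1 : Ttot k v * ρ ^ k ≤ (μ + C * q ^ k) * Htot ρ v := by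
    rw [e1, e2]
    refine FF_mono (fun i => ?_) v
    have := (abs_le.1 (h k (i + 1) (by omega))).2
    linarith
  have h2 : (μ - C * q ^ k) * Htot ρ v ≤ Ttot k v * ρ ^ k := by
    rw [e1, e3]
    refine FF_mono (fun i => ?_) v
    have := (abs_le.1 (h k (i + 1) (by omega))).1
    linarith
  rw [abs_le]
  constructor <;> linarith

theorem exists_Ttot_ge : ∃ κ : ℝ, 0 < κ ∧ ∀ k v : ℕ, κ * Htot ρ v ≤ Ttot k v := by
  obtain ⟨C, hC, hCb⟩ := exists_hSeq_le hρ0 hρ1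
  refine ⟨1 / (2 * C), by positivity, fun k v => ?_⟩
  have e : 1 / (2 * C) * Htot ρ v = FF (fun i => 1 / (2 * C) * hSeq ρ (i + 1)) v := by
    rw [FF_smul, Htot]
  rw [e]
  refine FF_mono (fun i => ?_) v
  have h1 := hCb (i + 1) (by omega)
  have h2 := half_log_le_aCoef (i + 1) (by omega)
  have h3 : aCoef (i + 1) ≤ cSeq k (i + 1) := by
    rw [cSeq]
    have h4 : gSeq 0 * aCoef (k + (i + 1) - 0) ≤
        ∑ j ∈ Finset.range (k + 1), gSeq j * aCoef (k + (i + 1) - j) := by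
      refine Finset.single_le_sum (f := fun j => gSeq j * aCoef (k + (i + 1) - j))
        (fun j hj => ?_) (by simp)
      rw [Finset.mem_range] at hj
      exact mul_nonneg (gSeq_pos _).le (aCoef_pos _ (by omega)).le
    rw [gSeq_zero, one_mul] at h4
    exact (aCoef_mono (by omega) (by omega)).trans h4
  rw [div_mul_eq_mul_div, one_mul, div_le_iff₀ (by positivity)]
  have h5 : Real.log (((i + 1 : ℕ) : ℝ) + 1) / 2 ≤ cSeq k (i + 1) := h2.trans h3
  nlinarith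

/-- Summability of the terms of `Ssum` for totients. -/
theorem summable_Ssum (hD : Laplace.Data wtot (Htot ρ)) {k : ℕ} (hk : 1 ≤ k) (X : ℝ) {s : ℝ}
    (hs : 0 < s) :
    Summable fun v => wtot v * ((max 0 (X - s * Ttot k v)) ^ k /
      ((k.factorial : ℝ) * ∏ i ∈ Finset.range k, gSeq (i + 1))) := by
  obtain ⟨κ, hκ, hκb⟩ := exists_Ttot_ge hρ0 hρ1
  have hg : 0 < (k.factorial : ℝ) * ∏ i ∈ Finset.range k, gSeq (i + 1) := by
    have : 0 < ∏ i ∈ Finset.range k, gSeq (i + 1) := Finset.prod_pos fun i _ => gSeq_pos _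
    positivity
  set G := (k.factorial : ℝ) * ∏ i ∈ Finset.range k, gSeq (i + 1) with hG
  refine Summable.of_nonneg_of_le (fun v => mul_nonneg (wtot_nonneg v)
    (div_nonneg (pow_nonneg (le_max_left _ _) _) hg.le)) (fun v => ?_)
    ((hD.summable 1 one_pos).mul_left (|X| ^ k / G * Real.exp (|X| / (s * κ))))
  have hT := hκb k v
  have hH := Htot_nonneg hρ0 hρ1 v
  have hTn := Ttot_nonneg hρ0 hρ1 k v
  have key : (max 0 (X - s * Ttot k v)) ^ k ≤
      |X| ^ k * Real.exp (|X| / (s * κ)) * Real.exp (-(1 * Htot ρ v)) := by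
    rcases le_or_gt X (s * Ttot k v) with h1 | h1
    · rw [max_eq_left (by linarith), zero_pow (by omega)]
      positivity
    · have hX : 0 < X := lt_of_le_of_lt (by positivity) h1
      have h2 : Htot ρ v ≤ |X| / (s * κ) := by
        rw [le_div_iff₀ (by positivity), abs_of_pos hX]
        have := mul_le_mul_of_nonneg_left hT hs.le
        nlinarith
      have h3 : (max 0 (X - s * Ttot k v)) ^ k ≤ |X| ^ k := by
        refine pow_le_pow_left₀ (le_max_left _ _) (max_le (abs_nonneg _) ?_) k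
        rw [abs_of_pos hX]
        have : 0 ≤ s * Ttot k v := by positivity
        linarith
      rw [mul_assoc, ← Real.exp_add]
      refine h3.trans (le_mul_of_one_le_right (by positivity) ?_)
      exact Real.one_le_exp (by linarith)
  calc wtot v * ((max 0 (X - s * Ttot k v)) ^ k / G)
      ≤ wtot v * ((|X| ^ k * Real.exp (|X| / (s * κ)) * Real.exp (-(1 * Htot ρ v))) / G) :=
        mul_le_mul_of_nonneg_left (div_le_div_of_nonneg_right key hg.le) (wtot_nonneg v)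
    _ = |X| ^ k / G * Real.exp (|X| / (s * κ)) * (wtot v * Real.exp (-(1 * Htot ρ v))) := by ring

/-- `wsum` of the test function at level `k` is `Ssum`. -/
theorem wsum_eq_Ssum (hD : Laplace.Data wtot (Htot ρ)) {k : ℕ} (hk : 1 ≤ k) (X : ℝ) {s : ℝ}
    (hs : 0 < s) :
    wsum (fun v => (max 0 (X - s * Ttot k v)) ^ k /
      ((k.factorial : ℝ) * ∏ i ∈ Finset.range k, gSeq (i + 1))) {v | IsTot v}
      = ENNReal.ofReal (Ssum wtot (fun v => s * Ttot k v) k X) := by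
  have hg : 0 < (k.factorial : ℝ) * ∏ i ∈ Finset.range k, gSeq (i + 1) := by
    have : 0 < ∏ i ∈ Finset.range k, gSeq (i + 1) := Finset.prod_pos fun i _ => gSeq_pos _
    positivity
  rw [wsum_eq_tsum, Ssum, ENNReal.ofReal_tsum_of_nonneg
    (fun v => mul_nonneg (wtot_nonneg v)
      (div_nonneg (pow_nonneg (le_max_left _ _) _) hg.le)) (summable_Ssum hρ0 hρ1 hD hk X hs)]


end

end Crest.Agent.R020
end
end

-- ▼ part R020/Chain3
section

/-!
Row 20: finiteness of the chain sums, positive proportion, `StmtLowChain`, `StmtUpChain`.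
-/

set_option autoImplicit false

open scoped ENNReal Topology
open MeasureTheory Filter Crest.NumberTheoryR.TotientScale

noncomputable section

namespace Crest.Agent.R020

/-! ### Finiteness -/

theorem psiP_nonneg (B Δ : ℝ) (k : ℕ) (t : ℝ) : 0 ≤ psiP B Δ k t := psi_nonneg _ _ _

theorem psiM_nonneg (B Δ : ℝ) (k : ℕ) (t : ℝ) : 0 ≤ psiM B Δ k t := psi_nonneg _ _ _

theorem psiM_le_psiP {B Δ : ℝ} (hB : 0 < B) (hΔ : 0 ≤ Δ) (k : ℕ) (t : ℝ) :
    psiM B Δ k t ≤ psiP B Δ k t := by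
  apply psi_mono_R
  have := CR2.Del_nonneg hB hΔ k
  linarith

theorem FF_cc_nonneg (k v : ℕ) : 0 ≤ FF (cc k) v := FF_nonneg (fun i => (cc_pos k i).le) v

theorem g_mul_y1_le (k v : ℕ) : gSeq (k + 1) * y1 v ≤ FF (cc k) v := by
  have := mul_y1_le_FF (c := cc k) (fun i => (cc_pos k i).le) v
  rwa [cc_first] at this

theorem SP_ne_top (hZ : StmtZ) {B Δ : ℝ} (hB : 0 < B) (hΔ : 0 ≤ Δ) (k : ℕ) :
    SP B Δ k Tot ≠ ⊤ := by
  obtain ⟨C, hC, hZ⟩ := hZ
  have hg := gSeq_pos (k + 1)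
  set R := B + Del B Δ k with hR
  have hR0 : 0 ≤ R := by
    have := CR2.Del_nonneg hB hΔ k
    linarith
  have h1 : SP B Δ k Tot ≤
      ENNReal.ofReal (psiP B Δ k 0) * wt {v | IsTot v ∧ y1 v ≤ R / gSeq (k + 1)} := by
    rw [← wsum_const]
    unfold SP wsum ws
    apply ENNReal.tsum_le_tsum
    intro v
    by_cases hv : IsTot v
    · rw [Set.indicator_of_mem (show v ∈ Tot from hv)]
      by_cases hy : y1 v ≤ R / gSeq (k + 1)
      · rw [Set.indicator_of_mem (show v ∈ {v | IsTot v ∧ y1 v ≤ R / gSeq (k + 1)} from ⟨hv, hy⟩)]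
        apply mul_le_mul_left
        apply ENNReal.ofReal_le_ofReal
        exact psi_anti _ _ (FF_cc_nonneg k v)
      · have h2 : psiP B Δ k (FF (cc k) v) = 0 := by
          unfold psiP psi
          rw [if_neg]
          rw [not_le]
          rw [not_le, div_lt_iff₀ hg] at hy
          have := g_mul_y1_le k v
          linarith
        have h3 : ENNReal.ofReal ((fun v => psiP B Δ k (FF (cc k) v)) v) = 0 := by
          show ENNReal.ofReal (psiP B Δ k (FF (cc k) v)) = 0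
          rw [h2, ENNReal.ofReal_zero]
        rw [h3, zero_mul]
        exact zero_le
    · rw [Set.indicator_of_notMem (show v ∉ Tot from hv)]
      exact zero_le
  refine ne_top_of_le_ne_top ?_ h1
  apply ENNReal.mul_ne_top ENNReal.ofReal_ne_top
  exact ne_top_of_le_ne_top ENNReal.ofReal_ne_top (hZ (R / gSeq (k + 1)) (by positivity))

theorem SM_le_SP {B Δ : ℝ} (hB : 0 < B) (hΔ : 0 ≤ Δ) (k : ℕ) (A : Set ℕ) :
    SM B Δ k A ≤ SP B Δ k A := wsum_mono_fun fun _ _ => psiM_le_psiP hB hΔ k _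

theorem QP_le_SP {δ : ℝ} (hδ : 0 ≤ δ) (B Δ : ℝ) (k : ℕ) (A : Set ℕ) :
    QP δ B Δ k A ≤ SP B Δ k A := by
  apply wsum_mono_fun
  intro v _
  apply psi_anti
  have := FF_cc_nonneg k v
  nlinarith

theorem SM_ne_top (hZ : StmtZ) {B Δ : ℝ} (hB : 0 < B) (hΔ : 0 ≤ Δ) (k : ℕ) {A : Set ℕ}
    (hA : A ⊆ Tot) : SM B Δ k A ≠ ⊤ :=
  ne_top_of_le_ne_top (SP_ne_top hZ hB hΔ k) ((wsum_mono_set _ hA).trans (SM_le_SP hB hΔ k _))

theorem QP_ne_top (hZ : StmtZ) {δ : ℝ} (hδ : 0 ≤ δ) {B Δ : ℝ} (hB : 0 < B) (hΔ : 0 ≤ Δ) (k : ℕ)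
    {A : Set ℕ} (hA : A ⊆ Tot) : QP δ B Δ k A ≠ ⊤ :=
  ne_top_of_le_ne_top (SP_ne_top hZ hB hΔ k) ((wsum_mono_set _ hA).trans (QP_le_SP hδ B Δ k _))

/-- The Laplace sum in `y1`. -/
def Lap (Y : ℝ) : ℝ≥0∞ := wsum (fun v => Real.exp (-(y1 v) / Y)) Tot

theorem Lap_ne_top (hZ : StmtZ) {Y : ℝ} (hY : 0 < Y) : Lap Y ≠ ⊤ := by
  obtain ⟨C, hC, hZ⟩ := hZ
  have hD : Laplace.Data wtot y1 := by
    apply Laplace.Data.of_logsq wtot_nonneg y1_nonneg _ hC.le
    · intro N s hs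
      refine sum_wtot_le s {v | IsTot v ∧ y1 v ≤ (N : ℝ) + 1} (fun v hv ht => ⟨ht, (hs v hv).le⟩)
        (Real.exp_pos _).le ?_
      have := hZ ((N : ℝ) + 1) (by positivity)
      have e : (N : ℝ) + 1 + 2 = N + 3 := by ring
      rwa [e] at this
    · refine ⟨1, ?_⟩
      unfold wtot
      rw [if_pos isTot_one]
      norm_num
  have h1 := hD.summable (1 / Y) (by positivity)
  have h2 : Lap Y = ∑' v, ENNReal.ofReal (wtot v * Real.exp (-(1 / Y * y1 v))) := by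
    unfold Lap
    have e : Tot = {v | IsTot v} := rfl
    rw [e, wsum_eq_tsum]
    apply tsum_congr
    intro v
    congr 3
    ring
  rw [h2]
  rw [← ENNReal.ofReal_tsum_of_nonneg (fun v => mul_nonneg (wtot_nonneg v) (Real.exp_pos _).le) h1]
  exact ENNReal.ofReal_ne_top

theorem Lap_mono {Y Y' : ℝ} (hY : 0 < Y) (h : Y ≤ Y') : Lap Y ≤ Lap Y' := by
  apply wsum_mono_fun
  intro v _
  apply Real.exp_le_exp.mpr
  have h1 := y1_nonneg v
  rw [neg_div, neg_div]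
  apply neg_le_neg
  exact div_le_div_of_nonneg_left h1 hY h

theorem SP_le_Lap {B Δ : ℝ} (hB : 0 < B) (hΔ : 0 ≤ Δ) {k : ℕ}
    (hk : 8 * ((k : ℝ) + 1) * Del B Δ k ≤ B) :
    SP B Δ k Tot ≤ ENNReal.ofReal (3 * psiP B Δ k 0) * Lap (Ysc B k) := by
  unfold Lap
  rw [← wsum_const_mul (mul_nonneg (by norm_num) (psiP_nonneg _ _ _ _))]
  apply wsum_mono_fun
  intro v _
  have hadm := adm_P hB hΔ hk le_rfl (by norm_num : (1 : ℝ) ≤ 2)
  have h1 := hadm.decay (y1 v) (y1_nonneg v)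
  rw [one_mul, cc_first] at h1
  exact (psi_anti _ _ (g_mul_y1_le k v)).trans h1

/-! ### Slack conditions -/

theorem slack_mono {B Δ : ℝ} (hB : 0 < B) (hΔ : 0 ≤ Δ) {K : ℕ}
    (hK : 8 * ((K : ℝ) + 1) * Del B Δ K ≤ B) {k : ℕ} (hk : k ≤ K) :
    8 * ((k : ℝ) + 1) * Del B Δ k ≤ B := by
  refine le_trans ?_ hK
  have h1 := CR2.Del_mono (Δ := Δ) hB hk
  have h2 := CR2.Del_nonneg hB hΔ k
  have h3 : (k : ℝ) ≤ K := by exact_mod_cast hk
  have h4 : (0 : ℝ) ≤ k := Nat.cast_nonneg k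
  apply mul_le_mul (by linarith) h1 h2 (by positivity)

theorem Ysc_ge_of_le {B : ℝ} (hB : 0 < B) {k K : ℕ} (h : k ≤ K) : Ysc B K ≤ Ysc B k := by
  have h1 := stmtR2 B hB k K h
  have h2 : (1 : ℝ) ≤ (1 + aa 0) ^ (K - k) := one_le_pow₀ (by linarith [aa_pos 0])
  have h3 := Ysc_pos hB K
  nlinarith

/-- `e_k ≤ (8 / Ysc_K) e_{k+1}` for `k < K`. -/
theorem e_step {B Δ : ℝ} (hB : 0 < B) (hΔ : 0 ≤ Δ) {K : ℕ}
    (hK : 8 * ((K : ℝ) + 1) * Del B Δ K ≤ B) {k : ℕ} (hk : k < K) :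
    psiP B Δ k 0 ≤ 8 / Ysc B K * psiP B Δ (k + 1) 0 := by
  have h1 := slack_mono hB hΔ hK (show k + 1 ≤ K from hk)
  have h2 := CR2.Del_nonneg hB hΔ (k + 1)
  have h3 := (stmtR4 B Δ hB hΔ k (by
    refine le_trans ?_ h1
    push_cast
    nlinarith)).1
  refine h3.trans ?_
  apply mul_le_mul_of_nonneg_right _ (psiP_nonneg _ _ _ _)
  apply div_le_div_of_nonneg_left (by norm_num) (Ysc_pos hB K)
  exact Ysc_ge_of_le hB hk.le

/-! ### Restricted classes -/

/-- Totients whose tail lies in `D`. -/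
def upc (D : Set ℕ) : Set ℕ := {v | IsTot v ∧ v ≠ 1 ∧ ¬ Sq v ∧ tl v ∈ D}

/-- `n`-fold extension of the class `W`. -/
def upn (W : Set ℕ) : ℕ → Set ℕ
  | 0 => W
  | n + 1 => upc (upn W n)

theorem upn_sub_Tot {W : Set ℕ} (hW : W ⊆ Tot) (n : ℕ) : upn W n ⊆ Tot := by
  cases n with
  | zero => exact hW
  | succ n => exact fun v hv => hv.1

theorem upc_sub_Tot (D : Set ℕ) : upc D ⊆ Tot := fun _ hv => hv.1

/-! ### Positive proportion -/

theorem exp_neg_two_mul_le {u : ℝ} (h0 : 0 ≤ u) (h1 : u ≤ 1 / 2) : Real.exp (-(2 * u)) ≤ 1 - u := by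
  have h2 := Real.add_one_le_exp (2 * u)
  rw [Real.exp_neg, inv_le_comm₀ (Real.exp_pos _) (by linarith)]
  refine le_trans ?_ h2
  rw [inv_le_iff_one_le_mul₀ (by linarith)]
  nlinarith

/-- (a) the dilated function is much smaller than the lower one at heights `t ≥ 4 M B/(K+1)`. -/
theorem psiP_dil_le {B Δ : ℝ} (hB : 0 < B) (hΔ : 0 ≤ Δ) {K : ℕ} (hK1 : 1 ≤ K)
    (hK : 8 * ((K : ℝ) + 1) * Del B Δ K ≤ B) {δ ϵ M t : ℝ} (hδ0 : 0 < δ) (hϵ0 : 0 < ϵ)
    (hϵ1 : ϵ < 1) (hM : 1 / 4 + Real.log (1 / ϵ) ≤ 2 * δ * M) (ht : 4 * M * B / ((K : ℝ) + 1) ≤ t)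
    (ht2 : t ≤ B / 4) : psiP B Δ K ((1 + δ) * t) ≤ ϵ * psiM B Δ K t := by
  have hD := CR2.Del_nonneg hB hΔ K
  set D := Del B Δ K with hDdef
  have hKr : (1 : ℝ) ≤ K := by exact_mod_cast hK1
  have hlog : 0 < Real.log (1 / ϵ) := Real.log_pos (by rw [lt_div_iff₀ hϵ0]; linarith)
  have h8 : 8 * (K : ℝ) * D ≤ B := by nlinarith
  have h8' : 8 * D ≤ B := by nlinarith
  have hM0 : 0 < M := by
    by_contra h
    push Not at h
    have : 2 * δ * M ≤ 0 := by nlinarith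
    linarith
  -- the key lower bound
  have hkey : Real.log (1 / ϵ) * B ≤ K * (δ * t - 2 * D) := by
    have h1 : 4 * M * B ≤ t * ((K : ℝ) + 1) := by
      rwa [div_le_iff₀ (by positivity)] at ht
    have ht0 : 0 < t := lt_of_lt_of_le (by positivity) ht
    have h2 : 2 * M * B ≤ t * K := by nlinarith
    have h3 : δ * (2 * M * B) ≤ δ * (t * K) := mul_le_mul_of_nonneg_left h2 hδ0.le
    have h4 : (1 / 4 + Real.log (1 / ϵ)) * B ≤ 2 * δ * M * B :=
      mul_le_mul_of_nonneg_right hM hB.le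
    nlinarith
  have hRm : 0 < B - D - t := by linarith
  unfold psiP psiM psi
  rw [← hDdef]
  have hcond : t ≤ B - D := by linarith
  rw [if_pos hcond]
  split_ifs with h
  · rw [CR2.scaleAt_eq_mul (B + D - (1 + δ) * t), CR2.scaleAt_eq_mul (B - D - t), ← mul_assoc]
    apply mul_le_mul_of_nonneg_right _ (scaleAt_pos one_pos K).le
    set R := B - D - t with hR
    have h1 : B + D - (1 + δ) * t = R * (1 - (δ * t - 2 * D) / R) := by
      field_simp
      rw [hR]; ring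
    rw [h1, mul_pow, mul_comm ϵ]
    apply mul_le_mul_of_nonneg_left _ (by positivity)
    have h2 : 0 ≤ 1 - (δ * t - 2 * D) / R := by
      have h3 : 0 ≤ R * (1 - (δ * t - 2 * D) / R) := by rw [← h1]; linarith
      exact nonneg_of_mul_nonneg_right h3 hRm
    have h3 : 1 - (δ * t - 2 * D) / R ≤ Real.exp (-((δ * t - 2 * D) / R)) := by
      have := Real.add_one_le_exp (-((δ * t - 2 * D) / R))
      linarith
    have h4 : Real.log (1 / ϵ) ≤ K * ((δ * t - 2 * D) / R) := by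
      have h5 : 0 ≤ δ * t - 2 * D := by
        have h6 : 0 ≤ (K : ℝ) * (δ * t - 2 * D) := by
          refine le_trans (by positivity) hkey
        exact nonneg_of_mul_nonneg_right h6 (by linarith)
      have h6 : R ≤ B := by rw [hR]; linarith [lt_of_lt_of_le (by positivity : (0:ℝ) < 4 * M * B / ((K : ℝ) + 1)) ht]
      rw [← mul_div_assoc, le_div_iff₀ hRm]
      refine le_trans ?_ hkey
      exact mul_le_mul_of_nonneg_left h6 hlog.le
    calc (1 - (δ * t - 2 * D) / R) ^ K ≤ (Real.exp (-((δ * t - 2 * D) / R))) ^ K :=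
          pow_le_pow_left₀ h2 h3 K
      _ = Real.exp (-(K * ((δ * t - 2 * D) / R))) := by
          rw [← Real.exp_nat_mul]; ring_nf
      _ ≤ Real.exp (-(Real.log (1 / ϵ))) := Real.exp_le_exp.mpr (by linarith)
      _ = ϵ := by
          rw [one_div, Real.log_inv, neg_neg, Real.exp_log hϵ0]
  · exact mul_nonneg hϵ0.le (scaleAt_nonneg hRm.le K)

/-- (b) the lower function at bounded heights is a positive proportion of `ψ_K^+(0)`. -/
theorem psiM_ge {B Δ : ℝ} (hB : 0 < B) (hΔ : 0 ≤ Δ) {K : ℕ}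
    (hK : 8 * ((K : ℝ) + 1) * Del B Δ K ≤ B) {M t : ℝ} (ht0 : 0 ≤ t)
    (ht : t ≤ M * B / ((K : ℝ) + 1)) (ht2 : t ≤ B / 4) :
    Real.exp (-(1 / 2 + 2 * M)) * psiP B Δ K 0 ≤ psiM B Δ K t := by
  have hD := CR2.Del_nonneg hB hΔ K
  set D := Del B Δ K with hDdef
  have hK0 : (0 : ℝ) ≤ K := Nat.cast_nonneg K
  have h8 : 8 * (K : ℝ) * D ≤ B := by nlinarith
  have h8' : 8 * D ≤ B := by nlinarith
  have hRp : 0 < B + D := by linarith
  unfold psiP psiM psi
  rw [← hDdef]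
  rw [if_pos (by linarith), if_pos (by linarith), sub_zero]
  rw [CR2.scaleAt_eq_mul (B + D), CR2.scaleAt_eq_mul (B - D - t), ← mul_assoc]
  apply mul_le_mul_of_nonneg_right _ (scaleAt_pos one_pos K).le
  set u := (2 * D + t) / (B + D) with hu
  have h1 : B - D - t = (B + D) * (1 - u) := by
    rw [hu]; field_simp; ring
  rw [h1, mul_pow, mul_comm]
  apply mul_le_mul_of_nonneg_left _ (by positivity)
  have hu0 : 0 ≤ u := by rw [hu]; positivity
  have hu1 : u ≤ 1 / 2 := by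
    rw [hu, div_le_iff₀ hRp]; linarith
  have h2 := exp_neg_two_mul_le hu0 hu1
  have h3 : (K : ℝ) * u ≤ 1 / 4 + M := by
    rw [hu, ← mul_div_assoc, div_le_iff₀ hRp]
    have h4 : t * ((K : ℝ) + 1) ≤ M * B := by
      rwa [le_div_iff₀ (by positivity)] at ht
    have hM : 0 ≤ M := by
      by_contra h
      push Not at h
      have : M * B < 0 := mul_neg_of_neg_of_pos h hB
      have : 0 ≤ t * ((K : ℝ) + 1) := by positivity
      linarith
    nlinarith
  calc Real.exp (-(1 / 2 + 2 * M)) ≤ Real.exp (K * (-(2 * u))) :=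
        Real.exp_le_exp.mpr (by nlinarith)
    _ = (Real.exp (-(2 * u))) ^ K := by rw [← Real.exp_nat_mul]
    _ ≤ (1 - u) ^ K := pow_le_pow_left₀ (Real.exp_pos _).le h2 K

theorem wsum_empty (φ : ℕ → ℝ) : wsum φ ∅ = 0 := by
  unfold wsum ws
  simp

theorem arith_T {c2 cW T : ℝ} (hc2 : 0 < c2) (hcW : 0 < cW) (h1 : 1 ≤ T)
    (h2 : 1 / (cW * c2) ≤ T) : 1 ≤ c2 * (cW * T ^ 2) := by
  have h3 : 1 ≤ T * (cW * c2) := by
    rwa [div_le_iff₀ (by positivity)] at h2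
  have h4 : T * (cW * c2) ≤ T ^ 2 * (cW * c2) := by
    apply mul_le_mul_of_nonneg_right _ (by positivity)
    nlinarith
  nlinarith

theorem arith_fin {A1 C1 θ qK xK eK xj xK1 eK1 ϵ : ℝ} (hA1 : 0 < A1) (hC1 : 0 < C1) (hθ : 0 < θ)
    (hϵA : A1 * ϵ = 1 / 8) (hq : qK ≤ ϵ * xK) (he0 : 0 ≤ eK) (hex : eK ≤ xK)
    (heK1 : eK1 ≤ θ * eK) (hlast : xK ≤ xK1 + C1 * eK1)
    (hr : xK1 ≤ xj + A1 * (qK + 4 * C1 * θ * eK) + 4 * C1 * θ * eK)
    (hθC : 64 * C1 * (A1 + 1) * θ ≤ 1) : eK / 2 ≤ xj := by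
  have h1 : A1 * (qK + 4 * C1 * θ * eK) ≤ 1 / 8 * xK + A1 * (4 * C1 * θ) * eK := by
    have h2 : A1 * qK ≤ A1 * (ϵ * xK) := mul_le_mul_of_nonneg_left hq hA1.le
    have h3 : A1 * (ϵ * xK) = 1 / 8 * xK := by rw [← mul_assoc, hϵA]
    nlinarith
  have h4 : (A1 * (4 * C1 * θ) + 4 * C1 * θ + C1 * θ) * eK ≤ 1 / 8 * eK := by
    apply mul_le_mul_of_nonneg_right _ he0
    have := mul_pos hC1 hθ
    have := mul_pos this hA1
    nlinarith
  have h5 : C1 * eK1 ≤ C1 * θ * eK := by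
    have := mul_le_mul_of_nonneg_left heK1 hC1.le
    linarith
  linarith

section

variable {C1 Ys0 δ : ℝ}

set_option maxHeartbeats 2000000 in
/-- Positive proportion. -/
theorem pos_prop (hO : OneStep C1 Ys0) (hZ : StmtZ) (hW : StmtW) {C3 : ℝ}
    (hC3 : 0 < C3) (hratio : ∀ k, cc k 1 ≤ C3 * gSeq (k + 1)) (hδ0 : 0 < δ) (hδ1 : δ ≤ 1)
    (hδ : ∀ k i : ℕ, (1 + δ) * (gSeq (k + 1) * aa i + cc k (i + 1)) ≤
      gSeq (k + 1) * aa (i + 1) / (1 - aa 0) + cc k (i + 1)) :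
    ∃ (Λ : ℝ) (K0 : ℕ), 1 ≤ K0 ∧ Ys0 ≤ Λ ∧ 1 ≤ Λ ∧ ∀ (B Δ : ℝ) (K : ℕ), 0 < B → 0 ≤ Δ → K0 ≤ K →
      8 * ((K : ℝ) + 1) * Del B Δ K ≤ B → Λ ≤ Ysc B K →
      ∀ j < K, ENNReal.ofReal (psiP B Δ K 0 / 2) ≤ SM B Δ j Tot := by
  obtain ⟨cW, T0, hcW, hWW⟩ := hW
  have hC1 := hO.C1_pos
  -- constants
  set ϵ : ℝ := δ / (8 * (1 + δ)) with hϵ
  have hϵ0 : 0 < ϵ := by rw [hϵ]; positivity
  have hϵ1 : ϵ < 1 := by
    rw [hϵ, div_lt_one (by positivity)]; linarith
  have hϵδ : (1 + δ) / δ * ϵ = 1 / 8 := by rw [hϵ]; field_simp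
  set M : ℝ := (1 / 4 + Real.log (1 / ϵ)) / (2 * δ) with hM
  have hlog : 0 < Real.log (1 / ϵ) := Real.log_pos (by rw [lt_div_iff₀ hϵ0]; linarith)
  have hM0 : 0 < M := by rw [hM]; positivity
  have hM2 : 1 / 4 + Real.log (1 / ϵ) ≤ 2 * δ * M := by
    rw [hM]; field_simp; rfl
  set M2 : ℝ := 8 * (1 + C3) * M with hM2d
  have hM2pos : 0 < M2 := by rw [hM2d]; positivity
  set c2 : ℝ := Real.exp (-(1 / 2 + 2 * M2)) with hc2
  have hc2pos : 0 < c2 := Real.exp_pos _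
  set T1 : ℝ := max T0 (max 1 (1 / (cW * c2))) with hT1
  set A1 : ℝ := (1 + δ) / δ with hA1
  have hA1pos : 0 < A1 := by rw [hA1]; positivity
  set Λ : ℝ := max Ys0 (max 32 (max (T1 / M) (8 * (64 * C1 * (A1 + 1))))) with hΛ
  obtain ⟨K0, hK0⟩ := exists_nat_ge (4 * M2)
  refine ⟨Λ, max 1 K0, le_max_left _ _, le_max_left _ _, ?_, ?_⟩
  · exact le_trans (by norm_num) (le_trans (le_max_left _ _) (le_max_right _ _) : (32 : ℝ) ≤ Λ)
  intro B Δ K hB hΔ hK0K hK hΛY j hj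
  have hK1 : 1 ≤ K := le_trans (le_max_left _ _) hK0K
  have hKr : 4 * M2 ≤ K := hK0.trans (by exact_mod_cast le_trans (le_max_right _ _) hK0K)
  set Y := Ysc B K with hY
  have hYpos : 0 < Y := Ysc_pos hB K
  have hYs0 : Ys0 ≤ Y := le_trans (le_max_left _ _) hΛY
  have h32 : 32 ≤ Y := le_trans (le_trans (le_max_left _ _) (le_max_right _ _)) hΛY
  have hT1Y : T1 ≤ M * Y := by
    have h1 : T1 / M ≤ Y := le_trans (le_trans (le_trans (le_max_left _ _) (le_max_right _ _))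
      (le_max_right _ _)) hΛY
    rw [div_le_iff₀ hM0] at h1
    linarith
  have hC1Y : 8 * (64 * C1 * (A1 + 1)) ≤ Y := le_trans (le_trans (le_trans (le_max_right _ _)
    (le_max_right _ _)) (le_max_right _ _)) hΛY
  set θ : ℝ := 8 / Y with hθ
  have hθ0 : 0 < θ := by rw [hθ]; positivity
  have hθ4 : θ ≤ 1 / 4 := by
    rw [hθ, div_le_iff₀ hYpos]; linarith
  have hθC : 64 * C1 * (A1 + 1) * θ ≤ 1 := by
    rw [hθ, mul_div_assoc', div_le_one hYpos]; linarith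
  -- the special family
  set T : ℝ := M * Y with hT
  obtain ⟨W, hWprop, hWwt⟩ := hWW T (le_trans (le_max_left _ _) hT1Y)
  have hTge1 : 1 ≤ T := le_trans (le_trans (le_max_left _ _) (le_max_right _ _)) hT1Y
  have hTge2 : 1 / (cW * c2) ≤ T := le_trans (le_trans (le_max_right _ _) (le_max_right _ _)) hT1Y
  have hWTot : W ⊆ Tot := fun v hv => (hWprop v hv).1
  have hg := gSeq_pos (K + 1)
  have hgT : gSeq (K + 1) * T = 4 * M * B / ((K : ℝ) + 1) := by
    rw [hT, hY, Ysc]; field_simp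
  -- heights on W
  have hheight : ∀ v ∈ W, 4 * M * B / ((K : ℝ) + 1) ≤ FF (cc K) v ∧
      FF (cc K) v ≤ M2 * B / ((K : ℝ) + 1) ∧ FF (cc K) v ≤ B / 4 ∧ 0 ≤ FF (cc K) v := by
    intro v hv
    obtain ⟨-, hTy, -, hFF⟩ := hWprop v hv
    have h1 : 4 * M * B / ((K : ℝ) + 1) ≤ FF (cc K) v := by
      rw [← hgT]
      exact le_trans (mul_le_mul_of_nonneg_left hTy hg.le) (g_mul_y1_le K v)
    have h2 : FF (cc K) v ≤ M2 * B / ((K : ℝ) + 1) := by
      have h3 := hFF (cc K) (fun i => (cc_pos K i).le)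
      have h4 := hratio K
      rw [cc_first] at h3
      have h5 : (gSeq (K + 1) + cc K 1) * (2 * T) ≤ (1 + C3) * 2 * (gSeq (K + 1) * T) := by
        have : 0 < T := by linarith
        nlinarith
      rw [hgT] at h5
      refine (h3.trans h5).trans (le_of_eq ?_)
      rw [hM2d]; ring
    refine ⟨h1, h2, h2.trans ?_, FF_cc_nonneg K v⟩
    rw [div_le_div_iff₀ (by positivity) (by norm_num)]
    nlinarith
  -- x_K and q_K
  have hxK : ENNReal.ofReal (psiP B Δ K 0) ≤ SM B Δ K W := by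
    have h1 : ENNReal.ofReal (c2 * psiP B Δ K 0) * wt W ≤ SM B Δ K W := by
      rw [← wsum_const]
      apply wsum_mono_fun
      intro v hv
      obtain ⟨ha, hb, hc, hd⟩ := hheight v hv
      exact psiM_ge hB hΔ hK hd hb hc
    refine le_trans ?_ h1
    refine le_trans ?_ (mul_le_mul_right hWwt _)
    rw [← ENNReal.ofReal_mul (mul_nonneg hc2pos.le (psiP_nonneg _ _ _ _))]
    apply ENNReal.ofReal_le_ofReal
    have h2 : 1 ≤ c2 * (cW * T ^ 2) := arith_T hc2pos hcW hTge1 hTge2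
    have h5 := psiP_nonneg B Δ K 0
    have h6 := mul_le_mul_of_nonneg_right h2 h5
    linarith
  have hqK : QP δ B Δ K W ≤ ENNReal.ofReal ϵ * SM B Δ K W := by
    unfold QP SM
    rw [← wsum_const_mul hϵ0.le]
    apply wsum_mono_fun
    intro v hv
    obtain ⟨ha, hb, hc, hd⟩ := hheight v hv
    exact psiP_dil_le hB hΔ hK1 hK hδ0 hϵ0 hϵ1 hM2 ha hc
  -- real sequences
  set x : ℕ → ℝ := fun k => (SM B Δ k (upn W (K - k))).toReal with hx
  set q : ℕ → ℝ := fun k => (QP δ B Δ k (upn W (K - k))).toReal with hq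
  set e : ℕ → ℝ := fun k => psiP B Δ k 0 with he
  have hSMtop : ∀ k (A : Set ℕ), A ⊆ Tot → SM B Δ k A ≠ ⊤ := fun k A hA => SM_ne_top hZ hB hΔ k hA
  have hQPtop : ∀ k (A : Set ℕ), A ⊆ Tot → QP δ B Δ k A ≠ ⊤ :=
    fun k A hA => QP_ne_top hZ hδ0.le hB hΔ k hA
  have hSub : ∀ n, upn W n ⊆ Tot := upn_sub_Tot hWTot
  have hYk : ∀ k ≤ K, Ys0 ≤ Ysc B k := fun k hk => hYs0.trans (Ysc_ge_of_le hB hk)
  have hrec := stmtRec δ C1 θ hδ0 hδ1 hC1 hθ0 hθ4 K x q e (fun k => ENNReal.toReal_nonneg)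
    (fun k => ENNReal.toReal_nonneg) (fun k => psiP_nonneg _ _ _ _)
    (fun k hk => e_step hB hΔ hK hk)
    (by
      intro k hk
      have hs : K - k = (K - (k + 1)) + 1 := by omega
      have h1 := QP_up hO hB hΔ (slack_mono hB hΔ hK hk.le) (hYk k hk.le) hδ0.le hδ1
        (A := upn W (K - k)) (D := upn W (K - (k + 1))) (by
          rw [hs]
          intro v hv
          exact ⟨hv.1, fun _ _ => hv.2.2.2⟩)
      have h2 := ENNReal.toReal_mono (by
        apply ENNReal.add_ne_top.mpr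
        refine ⟨ENNReal.mul_ne_top ENNReal.ofReal_ne_top (hQPtop _ _ (hSub _)),
          ENNReal.ofReal_ne_top⟩) h1
      rw [ENNReal.toReal_add (ENNReal.mul_ne_top ENNReal.ofReal_ne_top (hQPtop _ _ (hSub _)))
        ENNReal.ofReal_ne_top, ENNReal.toReal_mul, ENNReal.toReal_ofReal (by positivity),
        ENNReal.toReal_ofReal (mul_nonneg hC1.le (psiP_nonneg _ _ _ _))] at h2
      exact h2)
    (by
      intro k hk
      have hs : K - k = (K - (k + 1)) + 1 := by omega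
      have hs2 : K - (k + 1) = (K - (k + 2)) + 1 := by omega
      have h1 := SM_low_viol hO hB hΔ (slack_mono hB hΔ hK (show k ≤ K by omega))
        (slack_mono hB hΔ hK (show k + 1 ≤ K by omega)) (hYk k (by omega)) (hYk (k + 1) (by omega))
        hδ (D := upn W (K - (k + 1))) (D2 := upn W (K - (k + 2)))
        (fun v hv => hSub _ hv) (by
          rw [hs2]
          intro v hv _ _
          exact hv.2.2.2)
      have h0 : {v | IsTot v ∧ v ≠ 1 ∧ ¬ Sq v ∧ tl v ∈ upn W (K - (k + 1))} = upn W (K - k) := by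
        rw [hs]; rfl
      rw [h0] at h1
      have h2 := ENNReal.toReal_mono (by
        apply ENNReal.add_ne_top.mpr
        refine ⟨ENNReal.add_ne_top.mpr ⟨hSMtop _ _ (hSub _), hQPtop _ _ (hSub _)⟩,
          ENNReal.add_ne_top.mpr ⟨ENNReal.ofReal_ne_top, ENNReal.ofReal_ne_top⟩⟩) h1
      rw [ENNReal.toReal_add (ENNReal.add_ne_top.mpr ⟨hSMtop _ _ (hSub _), hQPtop _ _ (hSub _)⟩)
        (ENNReal.add_ne_top.mpr ⟨ENNReal.ofReal_ne_top, ENNReal.ofReal_ne_top⟩),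
        ENNReal.toReal_add (hSMtop _ _ (hSub _)) (hQPtop _ _ (hSub _)),
        ENNReal.toReal_add ENNReal.ofReal_ne_top ENNReal.ofReal_ne_top,
        ENNReal.toReal_ofReal (mul_nonneg hC1.le (psiM_nonneg _ _ _ _)),
        ENNReal.toReal_ofReal (mul_nonneg hC1.le (psiP_nonneg _ _ _ _))] at h2
      have h3 := psiM_le_psiP hB hΔ k 0
      have h4 : C1 * psiM B Δ k 0 ≤ C1 * psiP B Δ k 0 := mul_le_mul_of_nonneg_left h3 hC1.le
      simp only [hx, hq, he]
      linarith)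
  obtain ⟨-, hrec2⟩ := hrec
  have hr := hrec2 j (K - 1) (by omega) (by omega)
  have e1 : K - (K - 1 + 1) = 0 := by omega
  have e2 : K - (K - 1) = 1 := by omega
  rw [e1, e2, pow_zero, pow_one, mul_one] at hr
  -- the step from K-1 to K
  have hlast : x K ≤ x (K - 1) + C1 * e (K - 1) := by
    obtain ⟨K', rfl⟩ : ∃ K', K = K' + 1 := ⟨K - 1, by omega⟩
    have h1 := SM_low hO hB hΔ (slack_mono hB hΔ hK (show K' ≤ K' + 1 by omega))
      (hYk K' (by omega)) (D := W) (fun v hv => hWTot hv)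
    have h0 : {d | d ∈ W ∧ FF aa d < y1 d} = ∅ := by
      ext v
      simp only [Set.mem_ofPred_eq, Set.mem_empty_iff_false, iff_false, not_and, not_lt]
      intro hv
      exact (hWprop v hv).2.2.1
    rw [h0] at h1
    have h00 : SP B Δ (K' + 1) ∅ = 0 := wsum_empty _
    rw [h00, add_zero] at h1
    have htop : SM B Δ K' {v | IsTot v ∧ v ≠ 1 ∧ ¬ Sq v ∧ tl v ∈ W} ≠ ⊤ :=
      hSMtop _ _ (upc_sub_Tot W)
    have h2 := ENNReal.toReal_mono (ENNReal.add_ne_top.mpr ⟨htop, ENNReal.ofReal_ne_top⟩) h1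
    rw [ENNReal.toReal_add htop ENNReal.ofReal_ne_top,
      ENNReal.toReal_ofReal (mul_nonneg hC1.le (psiM_nonneg _ _ _ _))] at h2
    have h3 := psiM_le_psiP hB hΔ K' 0
    have h4 : C1 * psiM B Δ K' 0 ≤ C1 * psiP B Δ K' 0 := mul_le_mul_of_nonneg_left h3 hC1.le
    simp only [hx, he, Nat.add_sub_cancel, Nat.sub_self, Nat.add_sub_cancel_left]
    have h2' : (SM B Δ (K' + 1) W).toReal ≤ (SM B Δ K' (upc W)).toReal + C1 * psiM B Δ K' 0 := h2
    change (SM B Δ (K' + 1) W).toReal ≤ (SM B Δ K' (upc W)).toReal + C1 * psiP B Δ K' 0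
    linarith
  have heK : e (K - 1) ≤ θ * e K := by
    have := e_step hB hΔ hK (show K - 1 < K by omega)
    rw [show K - 1 + 1 = K by omega] at this
    exact this
  have hxKW : x K = (SM B Δ K W).toReal := by simp only [hx, Nat.sub_self]; rfl
  have hqKW : q K = (QP δ B Δ K W).toReal := by simp only [hq, Nat.sub_self]; rfl
  have hxK' : e K ≤ x K := by
    rw [hxKW]
    have := ENNReal.toReal_mono (hSMtop _ _ hWTot) hxK
    rwa [ENNReal.toReal_ofReal (psiP_nonneg _ _ _ _)] at this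
  have hqK' : q K ≤ ϵ * x K := by
    rw [hxKW, hqKW]
    have := ENNReal.toReal_mono (ENNReal.mul_ne_top ENNReal.ofReal_ne_top (hSMtop _ _ hWTot)) hqK
    rwa [ENNReal.toReal_mul, ENNReal.toReal_ofReal hϵ0.le] at this
  have heK0 : 0 ≤ e K := psiP_nonneg _ _ _ _
  have hfin : e K / 2 ≤ x j :=
    arith_fin hA1pos hC1 hθ0 hϵδ hqK' heK0 hxK' heK hlast hr hθC
  -- conclude
  have hmono : SM B Δ j (upn W (K - j)) ≤ SM B Δ j Tot := wsum_mono_set _ (hSub _)
  refine le_trans ?_ hmono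
  rw [← ENNReal.ofReal_toReal (hSMtop j _ (hSub (K - j)))]
  exact ENNReal.ofReal_le_ofReal hfin

end

end Crest.Agent.R020
end
end

-- ▼ part R020/ChainLim
section

/-!
Row 20 (helper826): `StmtLim`, the limit at the fundamental range, from `StmtZ`.
-/

set_option autoImplicit false

open scoped ENNReal Topology
open Filter Crest.NumberTheoryR.TotientScale

noncomputable section

namespace Crest.Agent.R020

theorem wv_eq_wtot (v : ℕ) : wv v = wtot v := by
  rw [wv, wtot]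
  by_cases hv : IsTot v
  · rw [if_pos hv, if_pos hv, one_div]
  · rw [if_neg hv, if_neg hv]

theorem Hv_eq_Htot (ρ : ℝ) (v : ℕ) : Hv ρ v = Htot ρ v := rfl

theorem FF_cc (k v : ℕ) : FF (cc k) v = Ttot k v := rfl

theorem DH_eq (ρ η : ℝ) : DH ρ η = Laplace.D wtot (Htot ρ) η := by
  rw [DH, Laplace.D]
  exact tsum_congr fun v => by rw [wv_eq_wtot, Hv_eq_Htot]

theorem Ar_eq (ρ μ : ℝ) (r : ℕ) (θ : ℝ) : Ar ρ μ r θ = Aprof ρ μ wtot (Htot ρ) r θ := by
  rw [Ar, Aprof, DH_eq]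

section

variable {ρ : ℝ} (hρ0 : 0 < ρ) (hρ1 : ρ < 1)

include hρ0 hρ1

/-- The scale `Ysc (B x) (m - r)` is between `2/(z₁ ρ^{r-1})` and `8/(z₀ ρ^{r-1})`. -/
theorem eventually_Ysc_bounds {μ : ℝ} (hμ : 0 < μ)
    (hg : Tendsto (fun n : ℕ => gSeq n * ρ ^ n) atTop (𝓝 μ)) {r : ℕ} (hr : 1 ≤ r) :
    ∀ᶠ x in atTop, 2 / (μ / lam ρ * ρ ^ (r - 1)) ≤ Ysc (bigB x) (mIndex ρ x - r) ∧
      Ysc (bigB x) (mIndex ρ x - r) ≤ 8 / (μ * ρ / lam ρ * ρ ^ (r - 1)) := by
  have hl := lam_pos hρ0 hρ1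
  have h1 := tendsto_mul_gSeq_div hρ0 hρ1 hg (r - 1)
  set z0 : ℝ := μ * ρ / lam ρ * ρ ^ (r - 1) with hz0
  set z1 : ℝ := μ / lam ρ * ρ ^ (r - 1) with hz1
  have hz0p : 0 < z0 := by positivity
  have hz1p : 0 < z1 := by positivity
  have hz01 : z0 ≤ z1 := by
    refine mul_le_mul_of_nonneg_right ?_ (by positivity)
    exact div_le_div_of_nonneg_right (mul_le_of_le_one_right hμ.le hρ1.le) hl.le
  filter_upwards [eventually_phase_mem hρ0 hρ1, tendsto_bigB.eventually_gt_atTop 0,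
    (tendsto_mIndex hρ0 hρ1).eventually_ge_atTop r,
    (tendsto_zero_iff_norm_tendsto_zero.1 h1).eventually (gt_mem_nhds (half_pos hz0p))]
    with x hx hB hm hn
  obtain ⟨h2, h3⟩ := zPhase_bounds hρ0 hρ1 hμ hx
  have h2' : z0 ≤ zPhase ρ μ (phase ρ x) * ρ ^ (r - 1) :=
    mul_le_mul_of_nonneg_right h2 (by positivity)
  have h3' : zPhase ρ μ (phase ρ x) * ρ ^ (r - 1) ≤ z1 :=
    mul_le_mul_of_nonneg_right h3 (by positivity)
  rw [Real.norm_eq_abs, abs_lt] at hn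
  have e0 : mIndex ρ x - r + 1 = mIndex ρ x - (r - 1) := by omega
  have e1 : Ysc (bigB x) (mIndex ρ x - r) = 4 / (((mIndex ρ x - (r - 1) : ℕ) : ℝ) *
      gSeq (mIndex ρ x - (r - 1)) / bigB x) := by
    rw [Ysc, e0]
    have e2 : ((mIndex ρ x - r : ℕ) : ℝ) + 1 = ((mIndex ρ x - (r - 1) : ℕ) : ℝ) := by
      rw [← e0]; push_cast; ring
    rw [e2, div_div_eq_mul_div]
  rw [e1]
  set t : ℝ := ((mIndex ρ x - (r - 1) : ℕ) : ℝ) * gSeq (mIndex ρ x - (r - 1)) / bigB x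
  have ht1 : z0 / 2 ≤ t := by linarith [hn.1]
  have ht2 : t ≤ 2 * z1 := by linarith [hn.2]
  have ht : 0 < t := by linarith
  constructor
  · rw [div_le_div_iff₀ hz1p ht]; linarith
  · rw [div_le_div_iff₀ ht hz0p]; linarith

/-- Summability at level `k`. -/
theorem summable_pos_pow (hD : Laplace.Data wtot (Htot ρ)) {k : ℕ} (hk : 1 ≤ k) {X : ℝ}
    (hX : 0 < X) : Summable fun v => wtot v * (max 0 (1 - Ttot k v / X)) ^ k := by
  have h1 := summable_Ssum hρ0 hρ1 hD hk X one_pos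
  have hg : 0 < (k.factorial : ℝ) * ∏ i ∈ Finset.range k, gSeq (i + 1) := by
    have : 0 < ∏ i ∈ Finset.range k, gSeq (i + 1) := Finset.prod_pos fun i _ => gSeq_pos _
    positivity
  refine (h1.mul_left (((k.factorial : ℝ) * ∏ i ∈ Finset.range k, gSeq (i + 1)) / X ^ k)).congr
    fun v => ?_
  have h2 : max 0 (X - 1 * Ttot k v) = X * max 0 (1 - Ttot k v / X) := by
    rw [mul_max_of_nonneg _ _ hX.le, mul_zero, mul_sub, mul_one, one_mul,
      mul_div_cancel₀ _ hX.ne']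
  rw [h2, mul_pow]
  set G : ℝ := (k.factorial : ℝ) * ∏ i ∈ Finset.range k, gSeq (i + 1) with hG
  have hXk : X ^ k ≠ 0 := pow_ne_zero _ hX.ne'
  calc G / X ^ k * (wtot v * (X ^ k * (max 0 (1 - Ttot k v / X)) ^ k / G))
      = (G / G) * (X ^ k / X ^ k) * (wtot v * (max 0 (1 - Ttot k v / X)) ^ k) := by ring
    _ = wtot v * (max 0 (1 - Ttot k v / X)) ^ k := by
      rw [div_self hg.ne', div_self hXk, one_mul, one_mul]

end

/-- **(LIM).** -/
theorem stmtLim (hZ : StmtZ) : StmtLim := by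
  intro ρ hρ0 hρ1 hρ
  have hD := dataTot hρ0 hρ1 hρ hZ
  have hl := lam_pos hρ0 hρ1
  obtain ⟨μ, C, q, hμ, hC, hq0, hq1, hg, hc⟩ := exists_cSeq_rate hρ0 hρ1 hρ
  have hgt : Tendsto (fun n : ℕ => gSeq n * ρ ^ n) atTop (𝓝 μ) := by
    rw [tendsto_iff_norm_sub_tendsto_zero]
    have h1 : Tendsto (fun n : ℕ => C * q ^ n) atTop (𝓝 0) := by
      simpa using (tendsto_pow_atTop_nhds_zero_of_lt_one hq0.le hq1).const_mul C
    exact squeeze_zero (fun n => norm_nonneg _) (fun n => by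
      rw [Real.norm_eq_abs]; exact hg n) h1
  refine ⟨μ, hμ, fun r => ?_, fun r R hR => ⟨?_, ?_⟩, fun r hr => ?_, fun Λ => ?_⟩
  · obtain ⟨c₁, c₂, h1, h2⟩ := Aprof_bounds hρ0 hρ1 hD hμ r
    exact ⟨c₁, c₂, h1, fun θ hθ => by rw [Ar_eq]; exact h2 θ hθ⟩
  · have hk : ∀ᶠ x in atTop, 1 ≤ mIndex ρ x - r :=
      ((tendsto_sub_atTop_nat r).comp (tendsto_mIndex hρ0 hρ1)).eventually_ge_atTop 1
    filter_upwards [hR.eventually (lt_mem_nhds (show (0 : ℝ) < 1 by norm_num)),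
      tendsto_bigB.eventually_gt_atTop 0, hk] with x h1 h2 h3
    have hRx : 0 < R x := (div_pos_iff_of_pos_right h2).1 h1
    refine (summable_pos_pow hρ0 hρ1 hD h3 hRx).congr fun v => ?_
    rw [wv_eq_wtot, FF_cc]
  · refine (tendsto_scale_mul hρ0 hρ1 hD hμ hq0 hq1 hgt
      (fun k v => Ttot_rate hρ0 hρ1 hc k v) r hR).congr fun x => ?_
    rw [Ar_eq]
    simp only [wv_eq_wtot, FF_cc]
  · exact ⟨_, _, by positivity, eventually_Ysc_bounds hρ0 hρ1 hμ hgt hr⟩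
  · have h1 : Tendsto (fun r : ℕ => Λ * (μ / lam ρ * ρ ^ r)) atTop (𝓝 0) := by
      have := (tendsto_pow_atTop_nhds_zero_of_lt_one hρ0.le hρ1).const_mul (Λ * (μ / lam ρ))
      rw [mul_zero] at this
      exact this.congr fun r => by ring
    obtain ⟨r₀, hr₀⟩ := eventually_atTop.1 (h1.eventually (gt_mem_nhds (show (0 : ℝ) < 2 by norm_num)))
    refine ⟨r₀ + 1, fun r hr => ?_⟩
    filter_upwards [eventually_Ysc_bounds hρ0 hρ1 hμ hgt (show 1 ≤ r by omega)] with x hx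
    refine le_trans ?_ hx.1
    rw [le_div_iff₀ (by positivity)]
    exact (hr₀ (r - 1) (by omega)).le

end Crest.Agent.R020
end
end

-- ▼ part R020/Chain4
section

/-!
Row 20: `StmtLowChain`, `StmtUpChain`.
-/

set_option autoImplicit false

open scoped ENNReal Topology
open MeasureTheory Filter Crest.NumberTheoryR.TotientScale

noncomputable section

namespace Crest.Agent.R020

/-! ### The ratio `c^{(k)}_2 / c^{(k)}_1` -/

theorem exists_ratio {ρ : ℝ} (hρ0 : 0 < ρ) (hρ1 : ρ < 1)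
    (hρ : HasSum (fun j : ℕ => aCoef (j + 1) * ρ ^ (j + 1)) 1) :
    ∃ C3 : ℝ, 0 < C3 ∧ ∀ k, cc k 1 ≤ C3 * gSeq (k + 1) := by
  obtain ⟨c, hc, hcl⟩ := exists_gSeq_lower hρ0 hρ1 hρ
  refine ⟨1 / (ρ * c), by positivity, fun k => ?_⟩
  have h1 : cc k 1 ≤ gSeq (k + 2) := by
    have h2 : cc (k + 1) 0 = gSeq (k + 2) := cc_first (k + 1)
    rw [← h2, cc_succ, Tc]
    have h3 := mul_pos (cc_pos k 0) (aa_pos 0)
    have h4 : cc k (0 + 1) = cc k 1 := rfl
    linarith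
  refine h1.trans ?_
  have h2 : gSeq (k + 2) * ρ ^ (k + 2) ≤ 1 := gSeq_mul_pow_le_one hρ0 hρ1 hρ _
  have h3 : c ≤ gSeq (k + 1) * ρ ^ (k + 1) := hcl _
  rw [div_mul_eq_mul_div, one_mul, le_div_iff₀ (by positivity)]
  have h4 : 0 < ρ ^ (k + 1) := by positivity
  have h5 : gSeq (k + 2) * (ρ * c) * ρ ^ (k + 1) ≤ gSeq (k + 1) * ρ ^ (k + 1) := by
    calc gSeq (k + 2) * (ρ * c) * ρ ^ (k + 1) = (gSeq (k + 2) * ρ ^ (k + 2)) * c := by ring
      _ ≤ 1 * c := mul_le_mul_of_nonneg_right h2 hc.le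
      _ ≤ gSeq (k + 1) * ρ ^ (k + 1) := by rw [one_mul]; exact h3
  exact le_of_mul_le_mul_right h5 h4

/-! ### Slack -/

theorem slack_eventually {ρ : ℝ} (hρ0 : 0 < ρ) (hρ1 : ρ < 1) :
    ∃ Λ : ℝ, ∀ r : ℕ, (∀ᶠ x in atTop, Λ ≤ Ysc (bigB x) (mIndex ρ x - r)) →
      ∀ᶠ x in atTop, 8 * (((mIndex ρ x - r : ℕ) : ℝ) + 1) *
        Del (bigB x) (Sh x) (mIndex ρ x - r) ≤ bigB x := by
  obtain ⟨C, hC, hR3⟩ := stmtR3
  refine ⟨(16 * C) ^ (25 : ℕ), fun r hr => ?_⟩
  -- `m + 1 ≤ B^{0.03}/16` eventually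
  have hm : ∀ᶠ x in atTop, 16 * (((mIndex ρ x : ℕ) : ℝ) + 1) ≤ bigB x ^ (3 / 100 : ℝ) := by
    have h1 := tendsto_mIndex_sub_div hρ0 hρ1 0
    have h2 : Tendsto (fun x => Real.log (bigB x) / bigB x ^ (3 / 100 : ℝ)) atTop (𝓝 0) := by
      have := (isLittleO_log_rpow_atTop (show (0 : ℝ) < 3 / 100 by norm_num)).tendsto_div_nhds_zero
      exact this.comp tendsto_bigB
    have h3 : Tendsto (fun x => 1 / bigB x ^ (3 / 100 : ℝ)) atTop (𝓝 0) := by
      have := (tendsto_rpow_atTop (show (0 : ℝ) < 3 / 100 by norm_num)).comp tendsto_bigB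
      exact Tendsto.comp (f := fun x => bigB x ^ (3 / 100 : ℝ)) (g := fun y : ℝ => 1 / y)
        (by simpa using tendsto_inv_atTop_zero) this
    have h4 := (h1.mul h2).add h3
    rw [mul_zero, zero_add] at h4
    have hL : Tendsto (fun x => Real.log (bigB x)) atTop atTop :=
      Real.tendsto_log_atTop.comp tendsto_bigB
    filter_upwards [h4.eventually_lt_const (show (0 : ℝ) < 1 / 16 by norm_num),
      tendsto_bigB.eventually_gt_atTop 0, hL.eventually_gt_atTop 0] with x hx hB hLx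
    have hp : 0 < bigB x ^ (3 / 100 : ℝ) := Real.rpow_pos_of_pos hB _
    have h5 : ((mIndex ρ x - 0 : ℕ) : ℝ) / Real.log (bigB x) * (Real.log (bigB x) /
        bigB x ^ (3 / 100 : ℝ)) + 1 / bigB x ^ (3 / 100 : ℝ) =
        (((mIndex ρ x : ℕ) : ℝ) + 1) / bigB x ^ (3 / 100 : ℝ) := by
      rw [Nat.sub_zero]
      field_simp
    rw [h5, div_lt_iff₀ hp] at hx
    linarith
  filter_upwards [hr, hm, tendsto_bigB.eventually_gt_atTop 1] with x hY hmx hB1
  have hB : 0 < bigB x := by linarith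
  have hSh : 0 ≤ Sh x := Real.rpow_nonneg hB.le _
  set K := mIndex ρ x - r with hK
  have h1 := hR3 (bigB x) (Sh x) hB hSh K
  have hYp := Ysc_pos hB K
  have h2 : C * bigB x * Ysc (bigB x) K ^ (-(1 / 25) : ℝ) ≤ bigB x / 16 := by
    have h3 : 16 * C ≤ Ysc (bigB x) K ^ (1 / 25 : ℝ) := by
      have h4 : (16 * C : ℝ) = ((16 * C) ^ (25 : ℕ)) ^ (1 / 25 : ℝ) := by
        rw [← Real.rpow_natCast, ← Real.rpow_mul (by positivity)]
        norm_num
      rw [h4]
      exact Real.rpow_le_rpow (by positivity) hY (by norm_num)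
    rw [Real.rpow_neg hYp.le]
    have h5 : 0 < Ysc (bigB x) K ^ (1 / 25 : ℝ) := Real.rpow_pos_of_pos hYp _
    rw [← div_eq_mul_inv, div_le_div_iff₀ h5 (by norm_num)]
    nlinarith
  have h3 : ((K : ℝ) + 1) * Sh x ≤ bigB x / 16 := by
    have h4 : (K : ℝ) ≤ mIndex ρ x := by exact_mod_cast Nat.sub_le _ _
    have h5 : bigB x ^ (3 / 100 : ℝ) * Sh x = bigB x := by
      unfold Sh
      rw [← Real.rpow_add hB]
      norm_num
    have h6 : 16 * ((K : ℝ) + 1) * Sh x ≤ bigB x ^ (3 / 100 : ℝ) * Sh x := by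
      apply mul_le_mul_of_nonneg_right _ hSh
      linarith
    linarith
  nlinarith

/-! ### Upper chain -/

theorem psiP_le_SP {B Δ : ℝ} (k : ℕ) : ENNReal.ofReal (psiP B Δ k 0) ≤ SP B Δ k Tot := by
  unfold SP wsum ws
  refine le_trans (le_of_eq ?_) (ENNReal.le_tsum 1)
  rw [Set.indicator_of_mem (show 1 ∈ Tot from isTot_one)]
  show ENNReal.ofReal (psiP B Δ k 0) = ENNReal.ofReal (psiP B Δ k (FF (cc k) 1)) * ((1 : ℕ) : ℝ≥0∞)⁻¹
  rw [FF_one]
  simp

section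

variable {C1 Ys0 : ℝ}

theorem SP_chain (hO : OneStep C1 Ys0) {B Δ : ℝ} (hB : 0 < B) (hΔ : 0 ≤ Δ) {K : ℕ}
    (hK : 8 * ((K : ℝ) + 1) * Del B Δ K ≤ B) (hY : Ys0 ≤ Ysc B K) :
    ∀ n j : ℕ, j + n ≤ K →
      SP B Δ j Tot ≤ SP B Δ (j + n) Tot +
        ENNReal.ofReal (C1 * ∑ i ∈ Finset.range n, psiP B Δ (j + i) 0) := by
  intro n
  induction n with
  | zero => intro j _; simp
  | succ n ih =>
    intro j hj
    have h1 := ih j (by omega)
    have h2 := SP_up hO hB hΔ (slack_mono hB hΔ hK (show j + n ≤ K by omega))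
      (hY.trans (Ysc_ge_of_le hB (show j + n ≤ K by omega))) (A := Tot) (D := Tot)
      (fun v hv => ⟨hv, fun h1 hsq => (totient_decomp hv h1 hsq).2.1⟩)
    refine h1.trans ?_
    rw [Finset.sum_range_succ, mul_add, ENNReal.ofReal_add
      (mul_nonneg hO.C1_pos.le (Finset.sum_nonneg fun i _ => psiP_nonneg _ _ _ _))
      (mul_nonneg hO.C1_pos.le (psiP_nonneg _ _ _ _))]
    calc SP B Δ (j + n) Tot + ENNReal.ofReal (C1 * ∑ i ∈ Finset.range n, psiP B Δ (j + i) 0)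
        ≤ (SP B Δ (j + n + 1) Tot + ENNReal.ofReal (C1 * psiP B Δ (j + n) 0)) +
          ENNReal.ofReal (C1 * ∑ i ∈ Finset.range n, psiP B Δ (j + i) 0) := by gcongr
      _ = _ := by rw [add_assoc, add_comm (ENNReal.ofReal (C1 * psiP B Δ (j + n) 0))]; rfl

/-- `∑_{i<n} e_{j+i} ≤ 2 θ e_{j+n}`. -/
theorem sum_e_le {e : ℕ → ℝ} {θ : ℝ} (hθ0 : 0 ≤ θ) (hθ : θ ≤ 1 / 4) (he : ∀ k, 0 ≤ e k) {K : ℕ}
    (hs : ∀ k < K, e k ≤ θ * e (k + 1)) :
    ∀ n j : ℕ, j + n ≤ K → ∑ i ∈ Finset.range n, e (j + i) ≤ 2 * θ * e (j + n) := by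
  intro n
  induction n with
  | zero =>
    intro j _
    simp only [Finset.range_zero, Finset.sum_empty, Nat.add_zero]
    have := he j
    positivity
  | succ n ih =>
    intro j hj
    have h1 := ih j (by omega)
    have h2 := hs (j + n) (by omega)
    rw [Finset.sum_range_succ]
    have h3 := he (j + n)
    have h4 := he (j + (n + 1))
    have e1 : j + n + 1 = j + (n + 1) := by ring
    rw [e1] at h2
    have h5 : 2 * θ * e (j + n) ≤ e (j + n) := by nlinarith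
    have h6 : 2 * θ * e (j + n) ≤ 1 / 2 * e (j + n) := by nlinarith
    nlinarith

theorem upChain (hO : OneStep C1 Ys0) {B Δ : ℝ} (hB : 0 < B) (hΔ : 0 ≤ Δ) {K : ℕ}
    (hK : 8 * ((K : ℝ) + 1) * Del B Δ K ≤ B) (hY : Ys0 ≤ Ysc B K) (h32 : 32 ≤ Ysc B K) {ε : ℝ}
    (hε : 16 * C1 / Ysc B K ≤ ε) {j : ℕ} (hj : j ≤ K) :
    SP B Δ j Tot ≤ ENNReal.ofReal (1 + ε) * SP B Δ K Tot := by
  have hYp := Ysc_pos hB K
  have hC1 := hO.C1_pos
  have h1 := SP_chain hO hB hΔ hK hY (K - j) j (by omega)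
  have e1 : j + (K - j) = K := by omega
  rw [e1] at h1
  have h2 := sum_e_le (e := fun k => psiP B Δ k 0) (θ := 8 / Ysc B K) (by positivity)
    (by rw [div_le_iff₀ hYp]; linarith) (fun k => psiP_nonneg _ _ _ _) (K := K)
    (fun k hk => e_step hB hΔ hK hk) (K - j) j (by omega)
  simp only [e1] at h2
  have hε0 : 0 ≤ ε := le_trans (by positivity) hε
  rw [ENNReal.ofReal_add zero_le_one hε0, ENNReal.ofReal_one, add_mul, one_mul]
  refine h1.trans (add_le_add_right ?_ _)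
  have h3 : C1 * ∑ i ∈ Finset.range (K - j), psiP B Δ (j + i) 0 ≤ ε * psiP B Δ K 0 := by
    have h4 := psiP_nonneg B Δ K 0
    calc C1 * ∑ i ∈ Finset.range (K - j), psiP B Δ (j + i) 0
        ≤ C1 * (2 * (8 / Ysc B K) * psiP B Δ K 0) := mul_le_mul_of_nonneg_left h2 hC1.le
      _ = 16 * C1 / Ysc B K * psiP B Δ K 0 := by ring
      _ ≤ ε * psiP B Δ K 0 := mul_le_mul_of_nonneg_right hε h4
  calc ENNReal.ofReal (C1 * ∑ i ∈ Finset.range (K - j), psiP B Δ (j + i) 0)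
      ≤ ENNReal.ofReal (ε * psiP B Δ K 0) := ENNReal.ofReal_le_ofReal h3
    _ = ENNReal.ofReal ε * ENNReal.ofReal (psiP B Δ K 0) := ENNReal.ofReal_mul hε0
    _ ≤ ENNReal.ofReal ε * SP B Δ K Tot := by gcongr; exact psiP_le_SP K

end

theorem stmtUpChain (h1 : StmtFup) (h2 : StmtFupV) (h3 : StmtFlow) (hZ : StmtZ) {ρ : ℝ}
    (hρ0 : 0 < ρ) (hρ1 : ρ < 1) (hρ : HasSum (fun j : ℕ => aCoef (j + 1) * ρ ^ (j + 1)) 1) :
    StmtUpChain ρ := by
  obtain ⟨C1, Ys0, -, hO⟩ := exists_oneStep h1 h2 h3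
  obtain ⟨μ, hμ, -, -, -, hlim⟩ := stmtLim hZ ρ hρ0 hρ1 hρ
  obtain ⟨Λs, hΛs⟩ := slack_eventually hρ0 hρ1
  have hC1 := hO.C1_pos
  intro ε hε
  obtain ⟨r0, hr0⟩ := hlim (max Λs (max Ys0 (max 32 (16 * C1 / ε))))
  rw [eventually_atTop]
  refine ⟨r0, fun r hr => ?_⟩
  have hY := hr0 r hr
  have hs := hΛs r (by
    filter_upwards [hY] with x hx
    exact le_trans (le_max_left _ _) hx)
  filter_upwards [hY, hs, tendsto_bigB.eventually_gt_atTop 0,
    (tendsto_mIndex hρ0 hρ1).eventually_ge_atTop (r + 1)] with x hx hsx hB hm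
  have hΔ : 0 ≤ Sh x := Real.rpow_nonneg hB.le _
  have hYp := Ysc_pos hB (mIndex ρ x - r)
  have hy1 : Ys0 ≤ Ysc (bigB x) (mIndex ρ x - r) :=
    le_trans (le_trans (le_max_left _ _) (le_max_right _ _)) hx
  have hy2 : 32 ≤ Ysc (bigB x) (mIndex ρ x - r) :=
    le_trans (le_trans (le_trans (le_max_left _ _) (le_max_right _ _)) (le_max_right _ _)) hx
  have hy3 : 16 * C1 / ε ≤ Ysc (bigB x) (mIndex ρ x - r) :=
    le_trans (le_trans (le_trans (le_max_right _ _) (le_max_right _ _)) (le_max_right _ _)) hx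
  have hy4 : 16 * C1 / Ysc (bigB x) (mIndex ρ x - r) ≤ ε := by
    rw [div_le_iff₀ hYp]
    rw [div_le_iff₀ hε] at hy3
    linarith
  exact ⟨upChain hO hB hΔ hsx hy1 hy2 hy4 (Nat.zero_le _),
    upChain hO hB hΔ hsx hy1 hy2 hy4 (by omega)⟩

/-! ### Lower chain -/

theorem stmtLowChain (h1 : StmtFup) (h2 : StmtFupV) (h3 : StmtFlow) (hZ : StmtZ) (hW : StmtW)
    {ρ : ℝ} (hρ0 : 0 < ρ) (hρ1 : ρ < 1)
    (hρ : HasSum (fun j : ℕ => aCoef (j + 1) * ρ ^ (j + 1)) 1) : StmtLowChain ρ := by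
  obtain ⟨C1, Ys0, -, hO⟩ := exists_oneStep h1 h2 h3
  obtain ⟨μ, hμ, -, -, hlim3, hlim⟩ := stmtLim hZ ρ hρ0 hρ1 hρ
  obtain ⟨Λs, hΛs⟩ := slack_eventually hρ0 hρ1
  obtain ⟨C3, hC3, hratio⟩ := exists_ratio hρ0 hρ1 hρ
  obtain ⟨δ, hδ0, hδ1, hδ⟩ := stmtR1
  obtain ⟨Λ, K0, hK0, hΛY, hΛ1, hpos⟩ := pos_prop hO hZ hW hC3 hratio hδ0 (by linarith) hδ
  have hC1 := hO.C1_pos
  -- choose the base level r₀
  obtain ⟨ra, hra⟩ := hlim (max Λs (max Λ 32))
  set r0 := max 1 ra with hr0d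
  have hr01 : 1 ≤ r0 := le_max_left _ _
  have hY0 := hra r0 (le_max_right _ _)
  obtain ⟨c₁, c₂, hc₁, hc₂⟩ := hlim3 r0 hr01
  have hc₂pos : 0 < c₂ := by
    obtain ⟨x, hx⟩ := hc₂.exists
    linarith [hx.1, hx.2]
  set CL : ℝ := (Lap c₂).toReal with hCL
  have hCL0 : 0 ≤ CL := ENNReal.toReal_nonneg
  have hs0 := hΛs r0 (by
    filter_upwards [hY0] with x hx
    exact le_trans (le_max_left _ _) hx)
  intro ε hε
  -- the error tends to zero
  set s : ℝ := (1 + δ)⁻¹ with hs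
  have hs0' : 0 ≤ s := by rw [hs]; positivity
  have hs1 : s < 1 := inv_lt_one_of_one_lt₀ (by linarith)
  have herr : Tendsto (fun n : ℕ => 2 * ((1 + δ) / δ * s ^ n * (3 * CL + C1) +
      4 * C1 * (1 / 4) ^ (n + 1))) atTop (𝓝 0) := by
    have t1 : Tendsto (fun n : ℕ => s ^ n) atTop (𝓝 0) := tendsto_pow_atTop_nhds_zero_of_lt_one hs0' hs1
    have t2 : Tendsto (fun n : ℕ => ((1 : ℝ) / 4) ^ (n + 1)) atTop (𝓝 0) :=
      (tendsto_pow_atTop_nhds_zero_of_lt_one (by norm_num) (by norm_num)).comp (tendsto_add_atTop_nat 1)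
    have t3 := (((t1.const_mul ((1 + δ) / δ)).mul_const (3 * CL + C1)).add
      (t2.const_mul (4 * C1))).const_mul 2
    simpa using t3
  obtain ⟨N, hN⟩ := eventually_atTop.mp (herr.eventually_le_const hε)
  rw [eventually_atTop]
  refine ⟨r0 + 1 + N, fun r hr => ?_⟩
  filter_upwards [hY0, hs0, hc₂, tendsto_bigB.eventually_gt_atTop 0,
    (tendsto_mIndex hρ0 hρ1).eventually_ge_atTop (r + r0 + K0 + 2)] with x hx hsx hcx hB hm
  have hΔ : 0 ≤ Sh x := Real.rpow_nonneg hB.le _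
  set K := mIndex ρ x - r0 with hK
  set k := mIndex ρ x - r with hk
  have hkK : k < K := by omega
  have hKk : K - k = r - r0 := by omega
  set B := bigB x with hBd
  set Δ := Sh x with hΔd
  have hYp := Ysc_pos hB K
  have hyΛ : Λ ≤ Ysc B K := le_trans (le_trans (le_max_left _ _) (le_max_right _ _)) hx
  have hy32 : 32 ≤ Ysc B K := le_trans (le_trans (le_max_right _ _) (le_max_right _ _)) hx
  have hyYs : Ys0 ≤ Ysc B K := hΛY.trans hyΛ
  have hposK := hpos B Δ K hB hΔ (by omega) hsx hyΛ 0 (by omega)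
  have hSMtop : ∀ i, SM B Δ i Tot ≠ ⊤ := fun i => SM_ne_top hZ hB hΔ i (le_refl _)
  have hQPtop : ∀ i, QP δ B Δ i Tot ≠ ⊤ := fun i => QP_ne_top hZ hδ0.le hB hΔ i (le_refl _)
  set θ : ℝ := 8 / Ysc B K with hθ
  have hθ0 : 0 < θ := by rw [hθ]; positivity
  have hθ4 : θ ≤ 1 / 4 := by rw [hθ, div_le_iff₀ hYp]; linarith
  have hYk : ∀ i ≤ K, Ys0 ≤ Ysc B i := fun i hi => hyYs.trans (Ysc_ge_of_le hB hi)
  have htail : ∀ v ∈ Tot, IsTot v ∧ (v ≠ 1 → ¬ Sq v → tl v ∈ Tot) :=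
    fun v hv => ⟨hv, fun h1 hsq => (totient_decomp hv h1 hsq).2.1⟩
  have hrec := stmtRec δ C1 θ hδ0 (by linarith) hC1 hθ0 hθ4 K (fun i => (SM B Δ i Tot).toReal)
    (fun i => (QP δ B Δ i Tot).toReal) (fun i => psiP B Δ i 0) (fun i => ENNReal.toReal_nonneg)
    (fun i => ENNReal.toReal_nonneg) (fun i => psiP_nonneg _ _ _ _)
    (fun i hi => e_step hB hΔ hsx hi)
    (by
      intro i hi
      have h1 := QP_up hO hB hΔ (slack_mono hB hΔ hsx hi.le) (hYk i hi.le) hδ0.le (by linarith)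
        (A := Tot) (D := Tot) htail
      have h2 := ENNReal.toReal_mono (ENNReal.add_ne_top.mpr
        ⟨ENNReal.mul_ne_top ENNReal.ofReal_ne_top (hQPtop _), ENNReal.ofReal_ne_top⟩) h1
      rw [ENNReal.toReal_add (ENNReal.mul_ne_top ENNReal.ofReal_ne_top (hQPtop _))
        ENNReal.ofReal_ne_top, ENNReal.toReal_mul, ENNReal.toReal_ofReal (by positivity),
        ENNReal.toReal_ofReal (mul_nonneg hC1.le (psiP_nonneg _ _ _ _))] at h2
      exact h2)
    (by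
      intro i hi
      have h1 := SM_low_viol hO hB hΔ (slack_mono hB hΔ hsx (show i ≤ K by omega))
        (slack_mono hB hΔ hsx (show i + 1 ≤ K by omega)) (hYk i (by omega)) (hYk (i + 1) (by omega))
        hδ (D := Tot) (D2 := Tot) (fun v hv => hv) (fun v hv => (htail v hv).2)
      have h1' : SM B Δ (i + 1) Tot ≤ SM B Δ i Tot + QP δ B Δ (i + 2) Tot +
          (ENNReal.ofReal (C1 * psiM B Δ i 0) + ENNReal.ofReal (C1 * psiP B Δ (i + 1) 0)) := by
        refine h1.trans ?_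
        gcongr
        exact wsum_mono_set _ (fun v hv => hv.1)
      have h2 := ENNReal.toReal_mono (ENNReal.add_ne_top.mpr
        ⟨ENNReal.add_ne_top.mpr ⟨hSMtop _, hQPtop _⟩,
          ENNReal.add_ne_top.mpr ⟨ENNReal.ofReal_ne_top, ENNReal.ofReal_ne_top⟩⟩) h1'
      rw [ENNReal.toReal_add (ENNReal.add_ne_top.mpr ⟨hSMtop _, hQPtop _⟩)
        (ENNReal.add_ne_top.mpr ⟨ENNReal.ofReal_ne_top, ENNReal.ofReal_ne_top⟩),
        ENNReal.toReal_add (hSMtop _) (hQPtop _),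
        ENNReal.toReal_add ENNReal.ofReal_ne_top ENNReal.ofReal_ne_top,
        ENNReal.toReal_ofReal (mul_nonneg hC1.le (psiM_nonneg _ _ _ _)),
        ENNReal.toReal_ofReal (mul_nonneg hC1.le (psiP_nonneg _ _ _ _))] at h2
      have h3 := psiM_le_psiP hB hΔ i 0
      have h4 : C1 * psiM B Δ i 0 ≤ C1 * psiP B Δ i 0 := mul_le_mul_of_nonneg_left h3 hC1.le
      linarith)
  have hr := hrec.2 0 k (Nat.zero_le _) hkK
  -- bound for q_K
  have hqK : (QP δ B Δ K Tot).toReal ≤ 3 * CL * psiP B Δ K 0 := by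
    have h4 : QP δ B Δ K Tot ≤ ENNReal.ofReal (3 * psiP B Δ K 0) * Lap c₂ :=
      (QP_le_SP hδ0.le B Δ K Tot).trans ((SP_le_Lap hB hΔ hsx).trans
        (mul_le_mul_right (Lap_mono hYp hcx.2) _))
    have h5 := ENNReal.toReal_mono (ENNReal.mul_ne_top ENNReal.ofReal_ne_top
      (Lap_ne_top hZ hc₂pos)) h4
    rw [ENNReal.toReal_mul, ENNReal.toReal_ofReal
      (mul_nonneg (by norm_num) (psiP_nonneg _ _ _ _))] at h5
    linarith
  have hx0 : psiP B Δ K 0 / 2 ≤ (SM B Δ 0 Tot).toReal := by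
    have := ENNReal.toReal_mono (hSMtop 0) hposK
    rwa [ENNReal.toReal_ofReal (by have := psiP_nonneg B Δ K 0; positivity)] at this
  have he0 := psiP_nonneg B Δ K 0
  -- the relative error
  set n := r - r0 - 1 with hn
  have hn1 : K - (k + 1) = n := by omega
  have hn2 : K - k = n + 1 := by omega
  rw [hn1, hn2] at hr
  have hNn := hN n (by omega)
  have hθn : θ ^ (n + 1) ≤ (1 / 4) ^ (n + 1) := pow_le_pow_left₀ hθ0.le hθ4 _
  have hkey : (SM B Δ k Tot).toReal ≤ (1 + ε) * (SM B Δ 0 Tot).toReal := by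
    have hA : 0 < (1 + δ) / δ := by positivity
    have hsn : 0 ≤ s ^ n := pow_nonneg hs0' n
    have h5 : (QP δ B Δ K Tot).toReal + 4 * C1 * θ * psiP B Δ K 0 ≤
        (3 * CL + C1) * psiP B Δ K 0 := by
      have : 4 * C1 * θ * psiP B Δ K 0 ≤ C1 * psiP B Δ K 0 := by
        apply mul_le_mul_of_nonneg_right _ he0
        nlinarith
      linarith
    have h6 : (1 + δ) / δ * s ^ n * ((QP δ B Δ K Tot).toReal + 4 * C1 * θ * psiP B Δ K 0) ≤
        (1 + δ) / δ * s ^ n * ((3 * CL + C1) * psiP B Δ K 0) :=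
      mul_le_mul_of_nonneg_left h5 (by positivity)
    have h7 : 4 * C1 * θ ^ (n + 1) * psiP B Δ K 0 ≤ 4 * C1 * (1 / 4) ^ (n + 1) * psiP B Δ K 0 := by
      apply mul_le_mul_of_nonneg_right _ he0
      exact mul_le_mul_of_nonneg_left hθn (by positivity)
    set E : ℝ := (1 + δ) / δ * s ^ n * (3 * CL + C1) + 4 * C1 * (1 / 4) ^ (n + 1) with hE
    have hE0 : 0 ≤ E := by positivity
    have h8 : (SM B Δ k Tot).toReal ≤ (SM B Δ 0 Tot).toReal + E * psiP B Δ K 0 := by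
      have h9 : E * psiP B Δ K 0 = (1 + δ) / δ * s ^ n * ((3 * CL + C1) * psiP B Δ K 0) +
          4 * C1 * (1 / 4) ^ (n + 1) * psiP B Δ K 0 := by rw [hE]; ring
      rw [h9]
      linarith
    have h10 : E * psiP B Δ K 0 ≤ 2 * E * (SM B Δ 0 Tot).toReal := by
      have := mul_le_mul_of_nonneg_left hx0 hE0
      linarith
    have h11 : 2 * E * (SM B Δ 0 Tot).toReal ≤ ε * (SM B Δ 0 Tot).toReal :=
      mul_le_mul_of_nonneg_right hNn ENNReal.toReal_nonneg
    linarith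
  rw [← ENNReal.ofReal_toReal (hSMtop k), ← ENNReal.ofReal_toReal (hSMtop 0),
    ← ENNReal.ofReal_mul (by linarith)]
  exact ENNReal.ofReal_le_ofReal hkey

end Crest.Agent.R020
end
end

-- ▼ part R020/ChainAsy
section

/-!
Row 20 (helper826): `StmtAsy`, the asymptotics at the fundamental range.
-/

set_option autoImplicit false

open scoped ENNReal Topology
open Filter Crest.NumberTheoryR.TotientScale

noncomputable section

namespace Crest.Agent.R020

namespace Asy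

theorem psi_eq_max (R : ℝ) {k : ℕ} (hk : 1 ≤ k) (t : ℝ) :
    psi R k t = (max 0 (R - 1 * t)) ^ k /
      ((k.factorial : ℝ) * ∏ i ∈ Finset.range k, gSeq (i + 1)) := by
  rw [psi, one_mul]
  by_cases h : t ≤ R
  · rw [if_pos h, scaleAt, max_eq_right (by linarith)]
  · rw [if_neg h, max_eq_left (by linarith), zero_pow (by omega), zero_div]

section

variable {ρ : ℝ} (hρ0 : 0 < ρ) (hρ1 : ρ < 1)

include hρ0 hρ1

theorem SP_eq (hD : Laplace.Data wtot (Htot ρ)) (B Δ : ℝ) {k : ℕ} (hk : 1 ≤ k) :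
    SP B Δ k Tot = ENNReal.ofReal (Ssum wtot (Ttot k) k (B + Del B Δ k)) := by
  have h := wsum_eq_Ssum hρ0 hρ1 hD hk (B + Del B Δ k) one_pos
  have e : (fun v => (1 : ℝ) * Ttot k v) = Ttot k := by funext v; rw [one_mul]
  rw [e] at h
  rw [← h, SP]
  congr 1
  funext v
  rw [psiP, psi_eq_max _ hk, FF_cc]

theorem SM_eq (hD : Laplace.Data wtot (Htot ρ)) (B Δ : ℝ) {k : ℕ} (hk : 1 ≤ k) :
    SM B Δ k Tot = ENNReal.ofReal (Ssum wtot (Ttot k) k (B - Del B Δ k)) := by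
  have h := wsum_eq_Ssum hρ0 hρ1 hD hk (B - Del B Δ k) one_pos
  have e : (fun v => (1 : ℝ) * Ttot k v) = Ttot k := by funext v; rw [one_mul]
  rw [e] at h
  rw [← h, SM]
  congr 1
  funext v
  rw [psiM, psi_eq_max _ hk, FF_cc]

/-- `(m - r + 1) B^{0.97} / B → 0`. -/
theorem tendsto_mul_Sh_div (r : ℕ) :
    Tendsto (fun x => (((mIndex ρ x - r : ℕ) : ℝ) + 1) * Sh x / bigB x) atTop (𝓝 0) := by
  have h1 := tendsto_mIndex_sub_div hρ0 hρ1 r
  have h2 : Tendsto (fun x => Real.log (bigB x) / bigB x ^ (3 / 100 : ℝ)) atTop (𝓝 0) :=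
    ((isLittleO_log_rpow_atTop (show (0 : ℝ) < 3 / 100 by norm_num)).tendsto_div_nhds_zero).comp
      tendsto_bigB
  have h3 : Tendsto (fun x => (bigB x ^ (3 / 100 : ℝ))⁻¹) atTop (𝓝 0) :=
    ((tendsto_rpow_atTop (show (0 : ℝ) < 3 / 100 by norm_num)).comp tendsto_bigB).inv_tendsto_atTop
  have h4 := (h1.mul h2).add h3
  rw [mul_zero, add_zero] at h4
  refine h4.congr' ?_
  filter_upwards [tendsto_bigB.eventually_gt_atTop 0,
    (Real.tendsto_log_atTop.comp tendsto_bigB).eventually_gt_atTop 0] with x hx hl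
  have hl' : Real.log (bigB x) ≠ 0 := ne_of_gt hl
  have e1 : Sh x / bigB x = (bigB x ^ (3 / 100 : ℝ))⁻¹ := by
    rw [Sh, ← Real.rpow_neg hx.le]
    nth_rw 2 [← Real.rpow_one (bigB x)]
    rw [← Real.rpow_sub hx]
    norm_num
  rw [mul_div_assoc, e1]
  field_simp

/-- The total slack is small at the fundamental range. -/
theorem eventually_Del_le (hρ : HasSum (fun j : ℕ => aCoef (j + 1) * ρ ^ (j + 1)) 1)
    (hZ : StmtZ) (hR3 : StmtR3) {t : ℝ} (ht : 0 < t) :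
    ∀ᶠ r : ℕ in atTop, ∀ᶠ x in atTop,
      (((mIndex ρ x - r : ℕ) : ℝ) + 1) * Del (bigB x) (Sh x) (mIndex ρ x - r) / bigB x ≤ t := by
  obtain ⟨C, hC, hR⟩ := hR3
  obtain ⟨_, _, _, _, _, h4⟩ := stmtLim hZ ρ hρ0 hρ1 hρ
  obtain ⟨r₀, hr₀⟩ := h4 ((2 * C / t) ^ (25 : ℕ))
  refine eventually_atTop.2 ⟨r₀, fun r hr => ?_⟩
  filter_upwards [hr₀ r hr, tendsto_bigB.eventually_gt_atTop 0,
    (tendsto_mul_Sh_div hρ0 hρ1 r).eventually (gt_mem_nhds (half_pos ht))] with x h1 h2 h3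
  have hq : 0 < 2 * C / t := by positivity
  have h5 := hR (bigB x) (Sh x) h2 (Real.rpow_nonneg h2.le _) (mIndex ρ x - r)
  have h6 : Ysc (bigB x) (mIndex ρ x - r) ^ (-(1 / 25) : ℝ) ≤ t / (2 * C) := by
    have h7 : Ysc (bigB x) (mIndex ρ x - r) ^ (-(1 / 25) : ℝ) ≤
        ((2 * C / t) ^ (25 : ℕ)) ^ (-(1 / 25) : ℝ) :=
      Real.rpow_le_rpow_of_nonpos (by positivity) h1 (by norm_num)
    refine h7.trans (le_of_eq ?_)
    rw [← Real.rpow_natCast, ← Real.rpow_mul hq.le]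
    have e : ((25 : ℕ) : ℝ) * (-(1 / 25)) = -1 := by norm_num
    rw [e, Real.rpow_neg_one, inv_div]
  have h8 : C * bigB x * Ysc (bigB x) (mIndex ρ x - r) ^ (-(1 / 25) : ℝ) ≤ bigB x * (t / 2) := by
    calc C * bigB x * Ysc (bigB x) (mIndex ρ x - r) ^ (-(1 / 25) : ℝ)
        ≤ C * bigB x * (t / (2 * C)) := mul_le_mul_of_nonneg_left h6 (by positivity)
      _ = bigB x * (t / 2) := by field_simp
  rw [div_lt_iff₀ h2] at h3
  rw [div_le_iff₀ h2]
  linarith

end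

end Asy

open Asy

/-- **(ASY).** -/
theorem exists_asy (hZ : StmtZ) (hR3 : StmtR3) {ρ : ℝ} (hρ0 : 0 < ρ) (hρ1 : ρ < 1)
    (hρ : HasSum (fun j : ℕ => aCoef (j + 1) * ρ ^ (j + 1)) 1) :
    ∃ μ : ℝ, 0 < μ ∧
      (∀ r : ℕ, ∃ c₁ c₂ : ℝ, 0 < c₁ ∧
        ∀ θ ∈ Set.Ico (0 : ℝ) 1, c₁ ≤ Ar ρ μ r θ ∧ Ar ρ μ r θ ≤ c₂) ∧
      StmtAsy ρ μ := by
  have hD := dataTot hρ0 hρ1 hρ hZ
  obtain ⟨μ, C, q, hμ, hC, hq0, hq1, hg, hc⟩ := exists_cSeq_rate hρ0 hρ1 hρ
  have hgt : Tendsto (fun n : ℕ => gSeq n * ρ ^ n) atTop (𝓝 μ) := by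
    rw [tendsto_iff_norm_sub_tendsto_zero]
    have h1 : Tendsto (fun n : ℕ => C * q ^ n) atTop (𝓝 0) := by
      simpa using (tendsto_pow_atTop_nhds_zero_of_lt_one hq0.le hq1).const_mul C
    exact squeeze_zero (fun n => norm_nonneg _) (fun n => by
      rw [Real.norm_eq_abs]; exact hg n) h1
  have hbd : ∀ r : ℕ, ∃ c₁ c₂ : ℝ, 0 < c₁ ∧
      ∀ θ ∈ Set.Ico (0 : ℝ) 1, c₁ ≤ Ar ρ μ r θ ∧ Ar ρ μ r θ ≤ c₂ := fun r => by
    obtain ⟨c₁, c₂, h1, h2⟩ := Aprof_bounds hρ0 hρ1 hD hμ r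
    exact ⟨c₁, c₂, h1, fun θ hθ => by rw [Ar_eq]; exact h2 θ hθ⟩
  refine ⟨μ, hμ, hbd, fun ε hε => ?_⟩
  set t : ℝ := min ε 1 / 5 with htdef
  have hm0 : 0 < min ε 1 := lt_min hε one_pos
  have ht : 0 < t := by positivity
  have ht1 : t ≤ 1 / 5 := by
    have := min_le_right ε 1
    rw [htdef]; linarith
  have htε : 5 * t ≤ ε := by
    have := min_le_left ε 1
    rw [htdef]; linarith
  filter_upwards [eventually_Del_le hρ0 hρ1 hρ hZ hR3 ht] with r hr
  -- the slack function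
  have hΔ0 : ∀ᶠ x in atTop, 0 ≤ Del (bigB x) (Sh x) (mIndex ρ x - r) := by
    filter_upwards [tendsto_bigB.eventually_gt_atTop 0] with x hx
    refine add_nonneg (Real.rpow_nonneg hx.le _) (Finset.sum_nonneg fun i _ => ?_)
    have h1 := gSeq_pos (i + 1)
    have h2 : 0 ≤ Ysc (bigB x) i := by rw [Ysc]; positivity
    positivity
  have hk : Tendsto (fun x => ((mIndex ρ x - r : ℕ) : ℝ) + 1) atTop atTop :=
    tendsto_atTop_add_const_right _ _ (tendsto_natCast_atTop_atTop.comp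
      ((tendsto_sub_atTop_nat r).comp (tendsto_mIndex hρ0 hρ1)))
  have hΔB : Tendsto (fun x => Del (bigB x) (Sh x) (mIndex ρ x - r) / bigB x) atTop (𝓝 0) := by
    have h1 : Tendsto (fun x => t / (((mIndex ρ x - r : ℕ) : ℝ) + 1)) atTop (𝓝 0) :=
      tendsto_const_nhds.div_atTop hk
    refine squeeze_zero' ?_ ?_ h1
    · filter_upwards [hΔ0, tendsto_bigB.eventually_gt_atTop 0] with x h2 h3
      exact div_nonneg h2 h3.le
    · filter_upwards [hr, tendsto_bigB.eventually_gt_atTop 0] with x h2 h3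
      have h4 : (0 : ℝ) < ((mIndex ρ x - r : ℕ) : ℝ) + 1 := by positivity
      rw [le_div_iff₀ h4]
      refine le_trans (le_of_eq ?_) h2
      ring
  have hΔt : ∀ᶠ x in atTop, ((mIndex ρ x - r : ℕ) : ℝ) *
      Del (bigB x) (Sh x) (mIndex ρ x - r) / bigB x ≤ t := by
    filter_upwards [hr, hΔ0, tendsto_bigB.eventually_gt_atTop 0] with x h1 h2 h3
    refine le_trans (div_le_div_of_nonneg_right ?_ h3.le) h1
    exact mul_le_mul_of_nonneg_right (by linarith) h2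
  obtain ⟨ha, hb⟩ := Ssum_asymp hρ0 hρ1 hD hμ hq0 hq1 hgt
    (fun k v => Ttot_rate hρ0 hρ1 hc k v) r hΔ0 hΔB hΔt ht (by linarith)
  have hk1 : ∀ᶠ x in atTop, 1 ≤ mIndex ρ x - r :=
    ((tendsto_sub_atTop_nat r).comp (tendsto_mIndex hρ0 hρ1)).eventually_ge_atTop 1
  obtain ⟨c₁, c₂, hc₁, hAr⟩ := hbd r
  filter_upwards [ha, hb, hk1, eventually_phase_mem hρ0 hρ1,
    tendsto_bigB.eventually_gt_atTop 0] with x h1 h2 h3 h4 h5
  have hA : 0 < Ar ρ μ r (phase ρ x) := hc₁.trans_le (hAr _ h4).1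
  have hG : 0 < scaleG ρ x := by rw [scaleG_eq]; exact scaleAt_pos h5 _
  have hAG : 0 < Ar ρ μ r (phase ρ x) * scaleG ρ x := mul_pos hA hG
  rw [← Ar_eq] at h1 h2
  constructor
  · rw [SP_eq hρ0 hρ1 hD _ _ h3]
    refine ENNReal.ofReal_le_ofReal (h1.2.trans ?_)
    have hexp : Real.exp t ≤ 1 + 2 * t := by
      have h6 := Real.exp_bound_div_one_sub_of_interval ht.le (by linarith : t < 1)
      refine h6.trans ?_
      rw [div_le_iff₀ (by linarith)]
      nlinarith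
    have h7 : (1 + t) * Real.exp t ≤ 1 + ε := by
      have : (1 + t) * Real.exp t ≤ (1 + t) * (1 + 2 * t) :=
        mul_le_mul_of_nonneg_left hexp (by linarith)
      nlinarith
    calc (1 + t) * Real.exp t * Ar ρ μ r (phase ρ x) * scaleG ρ x
        = ((1 + t) * Real.exp t) * (Ar ρ μ r (phase ρ x) * scaleG ρ x) := by ring
      _ ≤ (1 + ε) * (Ar ρ μ r (phase ρ x) * scaleG ρ x) :=
        mul_le_mul_of_nonneg_right h7 hAG.le
  · rw [SM_eq hρ0 hρ1 hD _ _ h3]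
    refine ENNReal.ofReal_le_ofReal (le_trans ?_ h2.1)
    have h7 : 1 - ε ≤ (1 - t) * (1 - t) := by nlinarith
    calc (1 - ε) * (Ar ρ μ r (phase ρ x) * scaleG ρ x)
        ≤ ((1 - t) * (1 - t)) * (Ar ρ μ r (phase ρ x) * scaleG ρ x) :=
          mul_le_mul_of_nonneg_right h7 hAG.le
      _ = (1 - t) * (1 - t) * Ar ρ μ r (phase ρ x) * scaleG ρ x := by ring

end Crest.Agent.R020
end
end

-- ▼ part R020/ChainS1

/-!
Row 20 (helper984): `StmtS1` from the chain.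
-/

set_option autoImplicit false

open scoped ENNReal Topology
open MeasureTheory Filter Crest.NumberTheoryR.TotientScale

noncomputable section

namespace Crest.Agent.R020.ChainS1

/-! ### The scale at neighbouring levels -/

section

variable {ρ : ℝ} (hρ0 : 0 < ρ) (hρ1 : ρ < 1)
  (hρ : HasSum (fun j : ℕ => aCoef (j + 1) * ρ ^ (j + 1)) 1)

include hρ0 hρ1 hρ

/-- `n g_n / B ≤ 1/λ + 1` for `n ≤ m`. -/
theorem eventually_mul_gSeq_div_le : ∀ᶠ x in atTop, ∀ n ≤ mIndex ρ x,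
    (n:ℝ) * gSeq n / bigB x ≤ 1 / lam ρ + 1 := by
  have hL : Tendsto (fun x => Real.log (bigB x)) atTop atTop :=
    Real.tendsto_log_atTop.comp tendsto_bigB
  have h1 := (tendsto_mIndex_sub_div hρ0 hρ1 0).eventually_le_const
    (show 1 / lam ρ < 1 / lam ρ + 1 by linarith)
  filter_upwards [h1, eventually_rpow_mIndex hρ0 hρ1, hL.eventually_gt_atTop 0,
    tendsto_bigB.eventually_gt_atTop 0, eventually_phase_mem hρ0 hρ1] with x hx hx2 hl hB hph
  intro n hn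
  rw [Nat.sub_zero] at hx
  set m := mIndex ρ x with hm
  have hpow : (0:ℝ) < ρ ^ n := by positivity
  have hpowm : (0:ℝ) < ρ ^ m := by positivity
  have hg1 := gSeq_mul_pow_le_one hρ0 hρ1 hρ n
  have hpow2 : ρ ^ m ≤ ρ ^ n := pow_le_pow_of_le_one hρ0.le hρ1.le hn
  have hg := gSeq_pos n
  -- `g_n ρ^m ≤ 1`
  have hg2 : gSeq n * ρ ^ m ≤ 1 := (mul_le_mul_of_nonneg_left hpow2 hg.le).trans hg1
  have he : Real.exp (-(lam ρ * phase ρ x)) ≤ 1 := by
    rw [Real.exp_le_one_iff]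
    have := mul_nonneg (lam_pos hρ0 hρ1).le hph.1
    linarith
  -- `1 ≤ ρ^m B / log B`
  have h3 : 1 ≤ ρ ^ m * (bigB x / Real.log (bigB x)) := by
    rw [← hx2]
    apply mul_le_mul_of_nonneg_left _ hpowm.le
    exact mul_le_of_le_one_right (div_nonneg hB.le hl.le) he
  -- `g_n ≤ B / log B`
  have h4 : gSeq n ≤ bigB x / Real.log (bigB x) := by
    have h5 : gSeq n * ρ ^ m ≤ (bigB x / Real.log (bigB x)) * ρ ^ m := by
      rw [mul_comm (bigB x / _)]; exact hg2.trans h3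
    exact le_of_mul_le_mul_right h5 hpowm
  have hnm : (n:ℝ) ≤ m := by exact_mod_cast hn
  rw [div_le_iff₀ hB]
  calc (n:ℝ) * gSeq n ≤ m * (bigB x / Real.log (bigB x)) :=
        mul_le_mul hnm h4 hg.le (Nat.cast_nonneg m)
    _ = (m / Real.log (bigB x)) * bigB x := by ring
    _ ≤ (1 / lam ρ + 1) * bigB x := mul_le_mul_of_nonneg_right hx hB.le

/-- `scaleAt B (m - j) ≤ K^j G`. -/
theorem eventually_scaleAt_sub_le : ∀ᶠ x in atTop, ∀ j ≤ mIndex ρ x,
    scaleAt (bigB x) (mIndex ρ x - j) ≤ (1 / lam ρ + 1) ^ j * scaleG ρ x := by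
  filter_upwards [eventually_mul_gSeq_div_le hρ0 hρ1 hρ, tendsto_bigB.eventually_gt_atTop 0]
    with x hx hB
  intro j
  induction j with
  | zero => intro _; simp [scaleG_eq]
  | succ j ih =>
    intro hj
    have ih' := ih (by omega)
    obtain ⟨k, hk⟩ : ∃ k, mIndex ρ x - j = k + 1 := ⟨mIndex ρ x - j - 1, by omega⟩
    have h1 := hx (k + 1) (by omega)
    rw [hk, scaleAt_succ] at ih'
    rw [show mIndex ρ x - (j + 1) = k by omega]
    have hg := gSeq_pos (k + 1)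
    have hs := (scaleAt_pos hB k).le
    have hlam := lam_pos hρ0 hρ1
    have e : scaleAt (bigB x) k = (scaleAt (bigB x) k * (bigB x / (((k:ℝ) + 1) * gSeq (k + 1)))) *
        (((k + 1 : ℕ):ℝ) * gSeq (k + 1) / bigB x) := by
      push_cast
      field_simp
    rw [e, pow_succ]
    have h2 : 0 ≤ ((k + 1 : ℕ):ℝ) * gSeq (k + 1) / bigB x := by positivity
    have h3 : 0 ≤ scaleG ρ x := by rw [scaleG_eq]; exact (scaleAt_pos hB _).le
    calc _ ≤ ((1 / lam ρ + 1) ^ j * scaleG ρ x) * (1 / lam ρ + 1) :=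
          mul_le_mul ih' h1 h2 (by positivity)
      _ = _ := by ring

omit hρ in
/-- comparison of the indices of `B` and `0.95 B`. -/
theorem eventually_mIndex_compare : ∃ J : ℕ, ∀ᶠ B : ℝ in atTop,
    mIndex ρ (Real.exp (Real.exp (95 / 100 * B))) ≤ mIndex ρ (Real.exp (Real.exp B)) ∧
    mIndex ρ (Real.exp (Real.exp B)) - mIndex ρ (Real.exp (Real.exp (95 / 100 * B))) ≤ J := by
  have hlam := lam_pos hρ0 hρ1
  obtain ⟨J, hJ⟩ := exists_nat_ge (1 / lam ρ + 1)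
  refine ⟨J, ?_⟩
  have hbig : ∀ B : ℝ, bigB (Real.exp (Real.exp B)) = B := fun B => by
    unfold bigB; rw [Real.log_exp, Real.log_exp]
  filter_upwards [eventually_ge_atTop (100:ℝ),
    (Real.tendsto_log_atTop.comp Real.tendsto_log_atTop).eventually_ge_atTop (1:ℝ)] with B hB hB2
  have hlog95 : -(6 / 100 : ℝ) ≤ Real.log (95 / 100) := by
    have h1 := Real.one_sub_inv_le_log_of_pos (show (0:ℝ) < 95 / 100 by norm_num)
    norm_num at h1 ⊢
    linarith
  have hlog95' : Real.log (95 / 100 : ℝ) ≤ 0 := Real.log_nonpos (by norm_num) (by norm_num)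
  have hlogB : Real.log (95 / 100 * B) = Real.log (95 / 100) + Real.log B :=
    Real.log_mul (by norm_num) (by linarith)
  have hlB : 4 ≤ Real.log B := by
    have h1 : Real.exp 4 ≤ 100 := by
      have h2 := Real.exp_one_lt_d9
      have h3 : Real.exp 4 = (Real.exp 1) ^ 4 := by rw [← Real.exp_nat_mul]; norm_num
      rw [h3]
      have h4 : (Real.exp 1) ^ 4 ≤ (2.7182818286 : ℝ) ^ 4 :=
        pow_le_pow_left₀ (Real.exp_pos 1).le h2.le 4
      refine h4.trans (by norm_num)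
    rw [Real.le_log_iff_exp_le (by linarith)]
    linarith
  -- the two phase arguments
  have e1 : phaseArg ρ (Real.exp (Real.exp B)) =
      (Real.log B - Real.log (Real.log B)) / lam ρ := by unfold phaseArg; rw [hbig]
  have e2 : phaseArg ρ (Real.exp (Real.exp (95 / 100 * B))) =
      (Real.log (95 / 100) + Real.log B - Real.log (Real.log (95 / 100) + Real.log B)) / lam ρ := by
    unfold phaseArg; rw [hbig, hlogB]
  set L := Real.log B with hL
  set ℓ := Real.log (95 / 100 : ℝ) with hℓ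
  -- `log L - log (L + ℓ) ∈ [0, -ℓ]`
  have hLℓ : 0 < ℓ + L := by linarith
  have h1 : Real.log (ℓ + L) ≤ Real.log L := Real.log_le_log hLℓ (by linarith)
  have h2 : Real.log L - Real.log (ℓ + L) ≤ -ℓ := by
    rw [← Real.log_div (by linarith) (by linarith)]
    have h3 := Real.log_le_sub_one_of_pos (show 0 < L / (ℓ + L) by positivity)
    refine h3.trans ?_
    rw [div_sub_one (by linarith), div_le_iff₀ hLℓ]
    nlinarith
  have h5 : phaseArg ρ (Real.exp (Real.exp (95 / 100 * B))) ≤ phaseArg ρ (Real.exp (Real.exp B)) := by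
    rw [e1, e2]
    apply div_le_div_of_nonneg_right _ hlam.le
    linarith
  have h6 : phaseArg ρ (Real.exp (Real.exp B)) ≤
      phaseArg ρ (Real.exp (Real.exp (95 / 100 * B))) + 1 / lam ρ := by
    rw [e1, e2, ← add_div]
    apply div_le_div_of_nonneg_right _ hlam.le
    linarith
  refine ⟨Nat.floor_mono h5, ?_⟩
  have h8 : mIndex ρ (Real.exp (Real.exp B)) ≤
      mIndex ρ (Real.exp (Real.exp (95 / 100 * B))) + J := by
    by_cases h0 : mIndex ρ (Real.exp (Real.exp B)) = 0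
    · omega
    · have h9 : 0 ≤ phaseArg ρ (Real.exp (Real.exp B)) := by
        by_contra hneg
        apply h0
        unfold mIndex
        exact Nat.floor_eq_zero.2 (by linarith)
      have h10 : (mIndex ρ (Real.exp (Real.exp B)) : ℝ) ≤ phaseArg ρ (Real.exp (Real.exp B)) :=
        Nat.floor_le h9
      have h11 := Nat.lt_floor_add_one (phaseArg ρ (Real.exp (Real.exp (95 / 100 * B))))
      have h12 : (mIndex ρ (Real.exp (Real.exp B)) : ℝ) ≤
          (mIndex ρ (Real.exp (Real.exp (95 / 100 * B))) : ℝ) + J := by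
        unfold mIndex at h10 ⊢
        linarith
      exact_mod_cast h12
  omega

/-- `scaleG (0.95 B) ≤ C 0.95^{m'} scaleG (B)`. -/
theorem exists_scaleG_le : ∃ C : ℝ, 0 < C ∧ ∀ᶠ B : ℝ in atTop,
    scaleG ρ (Real.exp (Real.exp (95 / 100 * B))) ≤
      C * (95 / 100 : ℝ) ^ mIndex ρ (Real.exp (Real.exp (95 / 100 * B))) *
        scaleG ρ (Real.exp (Real.exp B)) := by
  have hlam := lam_pos hρ0 hρ1
  obtain ⟨J, hJ⟩ := eventually_mIndex_compare hρ0 hρ1
  have hbig : ∀ B : ℝ, bigB (Real.exp (Real.exp B)) = B := fun B => by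
    unfold bigB; rw [Real.log_exp, Real.log_exp]
  have hexp : Tendsto (fun B : ℝ => Real.exp (Real.exp B)) atTop atTop :=
    Real.tendsto_exp_atTop.comp Real.tendsto_exp_atTop
  have hK : 1 ≤ 1 / lam ρ + 1 := by
    have : 0 ≤ 1 / lam ρ := by positivity
    linarith
  refine ⟨(1 / lam ρ + 1) ^ J, by positivity, ?_⟩
  filter_upwards [hJ, hexp.eventually (eventually_scaleAt_sub_le hρ0 hρ1 hρ),
    eventually_gt_atTop (0:ℝ)] with B hB h1 hB0
  set m := mIndex ρ (Real.exp (Real.exp B)) with hm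
  set m' := mIndex ρ (Real.exp (Real.exp (95 / 100 * B))) with hm'
  rw [hbig] at h1
  have h2 := h1 (m - m') (by omega)
  rw [show m - (m - m') = m' by omega] at h2
  have h3 : scaleG ρ (Real.exp (Real.exp (95 / 100 * B))) =
      (95 / 100 : ℝ) ^ m' * scaleAt B m' := by
    rw [scaleG_eq, hbig, ← hm']
    unfold scaleAt
    rw [mul_pow]
    ring
  have hG : 0 ≤ scaleG ρ (Real.exp (Real.exp B)) := by
    rw [scaleG_eq, hbig]; exact (scaleAt_pos hB0 _).le
  rw [h3]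
  have h4 : (1 / lam ρ + 1) ^ (m - m') ≤ (1 / lam ρ + 1) ^ J := pow_le_pow_right₀ hK hB.2
  calc (95 / 100 : ℝ) ^ m' * scaleAt B m'
      ≤ (95 / 100 : ℝ) ^ m' * ((1 / lam ρ + 1) ^ J * scaleG ρ (Real.exp (Real.exp B))) := by
        apply mul_le_mul_of_nonneg_left _ (by positivity)
        exact h2.trans (mul_le_mul_of_nonneg_right h4 hG)
    _ = _ := by ring

end

/-! ### `S_1` and `S` against the chain sums -/

theorem S1B_eq (R : ℝ) :
    S1B R = ENNReal.ofReal (gSeq 1) * wsum (fun v => psi R 1 (FF (cc 1) v)) Tot := by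
  rw [← wsum_const_mul (gSeq_pos 1).le]
  unfold S1B
  apply wsum_congr
  intro v _
  have h1 : Tc aa = cc 1 := by rw [← cc_zero, ← cc_succ]
  rw [h1]
  unfold psi
  have hg := gSeq_pos 1
  split_ifs with h
  · rw [max_eq_right (by linarith)]
    unfold scaleAt
    simp
    field_simp
  · rw [max_eq_left (by linarith), mul_zero]

theorem S1B_mono {R R' : ℝ} (h : R ≤ R') : S1B R ≤ S1B R' := by
  unfold S1B
  apply wsum_mono_fun
  intro v _
  exact max_le_max le_rfl (by linarith)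

theorem S1B_le_SP {B Δ : ℝ} (hB : 0 ≤ B) (hΔ : 0 ≤ Δ) :
    S1B B ≤ ENNReal.ofReal (gSeq 1) * SP B Δ 1 Tot := by
  rw [S1B_eq]
  apply mul_le_mul_right
  unfold SP psiP
  apply wsum_mono_fun
  intro v _
  apply psi_mono_R
  have := Del_nonneg hB hΔ 1
  linarith

theorem SM_zero_le_SB {B Δ : ℝ} (hΔ : 0 ≤ Δ) : SM B Δ 0 Tot ≤ SB B := by
  unfold SM SB wsum wt ws
  apply ENNReal.tsum_le_tsum
  intro v
  by_cases hv : v ∈ Tot
  · rw [Set.indicator_of_mem hv]
    have hv' : IsTot v := hv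
    unfold psiM psi
    rw [Del_zero, cc_zero]
    beta_reduce
    split_ifs with h
    · rw [scaleAt_zero', ENNReal.ofReal_one, one_mul, Set.indicator_of_mem]
      exact ⟨hv', by linarith⟩
    · simp
  · rw [Set.indicator_of_notMem hv]; exact zero_le

theorem SB_le_SP_zero {B Δ : ℝ} (hΔ : 0 ≤ Δ) : SB B ≤ SP B Δ 0 Tot := by
  unfold SP SB wsum wt ws
  apply ENNReal.tsum_le_tsum
  intro v
  by_cases hv : v ∈ {d | IsTot d ∧ FF aa d ≤ B}
  · have hv' : v ∈ Tot := hv.1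
    rw [Set.indicator_of_mem hv, Set.indicator_of_mem hv']
    unfold psiP psi
    rw [Del_zero, cc_zero]
    beta_reduce
    have h9 : FF aa v ≤ B + Δ := by
      have := hv.2
      linarith
    rw [if_pos h9, scaleAt_zero', ENNReal.ofReal_one, one_mul]
  · rw [Set.indicator_of_notMem hv]; exact zero_le

theorem Sh_nonneg' {x : ℝ} (h : 0 ≤ bigB x) : 0 ≤ Sh x := Real.rpow_nonneg h _

theorem scaleG_pos'' {ρ x : ℝ} (hB : 0 < bigB x) : 0 < scaleG ρ x := by
  rw [scaleG_eq]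
  exact scaleAt_pos hB _

/-- The two-sided bounds used for `StmtS1`. -/
theorem exists_bounds {ρ μ : ℝ} (hρ0 : 0 < ρ) (hρ1 : ρ < 1)
    (hUp : StmtUpChain ρ) (hLow : StmtLowChain ρ)
    (hA : ∀ r : ℕ, ∃ c₁ c₂ : ℝ, 0 < c₁ ∧ ∀ θ ∈ Set.Ico (0 : ℝ) 1,
      c₁ ≤ Ar ρ μ r θ ∧ Ar ρ μ r θ ≤ c₂)
    (hAsy : StmtAsy ρ μ) :
    ∃ c C : ℝ, 0 < c ∧ 0 < C ∧ ∀ᶠ x in atTop,
      S1B (bigB x) ≤ ENNReal.ofReal (C * scaleG ρ x) ∧ SB (bigB x) ≠ ⊤ ∧
      c * scaleG ρ x ≤ (SB (bigB x)).toReal := by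
  obtain ⟨r, ⟨h1, h2⟩, h3⟩ := ((hUp 1 one_pos).and (hLow 1 one_pos)).and
    (hAsy (1 / 2) (by norm_num)) |>.exists
  obtain ⟨c₁, c₂, hc₁, hc⟩ := hA r
  have hc2 : 0 < c₂ := lt_of_lt_of_le hc₁ ((hc 0 (by simp)).1.trans (hc 0 (by simp)).2)
  have hg := gSeq_pos 1
  refine ⟨c₁ / 4, 3 * gSeq 1 * c₂, by positivity, by positivity, ?_⟩
  filter_upwards [h1, h2, h3, tendsto_bigB.eventually_gt_atTop 0, eventually_phase_mem hρ0 hρ1]
    with x hx1 hx2 hx3 hB hph
  have hS := Sh_nonneg' hB.le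
  have hG : 0 < scaleG ρ x := scaleG_pos'' hB
  obtain ⟨hAl, hAu⟩ := hc _ hph
  have hAr : 0 < Ar ρ μ r (phase ρ x) := lt_of_lt_of_le hc₁ hAl
  -- the common upper bound
  have hup : SP (bigB x) (Sh x) (mIndex ρ x - r) Tot ≤ ENNReal.ofReal (3 / 2 * (c₂ * scaleG ρ x)) := by
    refine hx3.1.trans (ENNReal.ofReal_le_ofReal ?_)
    have := mul_le_mul_of_nonneg_right hAu hG.le
    linarith
  refine ⟨?_, ?_, ?_⟩
  · refine (S1B_le_SP hB.le hS).trans ?_
    calc ENNReal.ofReal (gSeq 1) * SP (bigB x) (Sh x) 1 Tot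
        ≤ ENNReal.ofReal (gSeq 1) * (ENNReal.ofReal (1 + 1) *
            ENNReal.ofReal (3 / 2 * (c₂ * scaleG ρ x))) := by
          apply mul_le_mul_right
          exact hx1.2.trans (mul_le_mul_right hup _)
      _ = ENNReal.ofReal (3 * gSeq 1 * c₂ * scaleG ρ x) := by
          rw [← ENNReal.ofReal_mul (by norm_num), ← ENNReal.ofReal_mul hg.le]
          congr 1
          ring
  · refine ne_top_of_le_ne_top ?_ ((SB_le_SP_zero hS).trans hx1.1)
    exact ENNReal.mul_ne_top ENNReal.ofReal_ne_top (ne_top_of_le_ne_top ENNReal.ofReal_ne_top hup)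
  · have hfin : SB (bigB x) ≠ ⊤ := by
      refine ne_top_of_le_ne_top ?_ ((SB_le_SP_zero hS).trans hx1.1)
      exact ENNReal.mul_ne_top ENNReal.ofReal_ne_top (ne_top_of_le_ne_top ENNReal.ofReal_ne_top hup)
    have h4 : ENNReal.ofReal ((1 - 1 / 2) * (Ar ρ μ r (phase ρ x) * scaleG ρ x)) ≤
        ENNReal.ofReal (1 + 1) * SB (bigB x) :=
      (hx3.2.trans hx2).trans (mul_le_mul_right (SM_zero_le_SB hS) _)
    have h5 : (1 - 1 / 2) * (Ar ρ μ r (phase ρ x) * scaleG ρ x) ≤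
        (1 + 1) * (SB (bigB x)).toReal := by
      have h6 : ENNReal.ofReal (1 + 1) * SB (bigB x) ≠ ⊤ :=
        ENNReal.mul_ne_top ENNReal.ofReal_ne_top hfin
      have h7 := (ENNReal.ofReal_le_iff_le_toReal h6).1 h4
      rw [ENNReal.toReal_mul, ENNReal.toReal_ofReal (by norm_num)] at h7
      exact h7
    have h8 : c₁ * scaleG ρ x ≤ Ar ρ μ r (phase ρ x) * scaleG ρ x :=
      mul_le_mul_of_nonneg_right hAl hG.le
    linarith

/-- `StmtS1` from the outputs of the chain. -/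
theorem stmtS1_of
    (h : ∀ ρ : ℝ, 0 < ρ → ρ < 1 → HasSum (fun j : ℕ => aCoef (j + 1) * ρ ^ (j + 1)) 1 →
      StmtUpChain ρ ∧ StmtLowChain ρ ∧ ∃ μ : ℝ,
        (∀ r : ℕ, ∃ c₁ c₂ : ℝ, 0 < c₁ ∧ ∀ θ ∈ Set.Ico (0 : ℝ) 1,
          c₁ ≤ Ar ρ μ r θ ∧ Ar ρ μ r θ ≤ c₂) ∧ StmtAsy ρ μ) : StmtS1 := by
  obtain ⟨ρ, hρ0, hρ1, hρ⟩ := exists_rho
  obtain ⟨hUp, hLow, μ, hA, hAsy⟩ := h ρ hρ0 hρ1 hρ
  obtain ⟨c, C, hc, hC, hb⟩ := exists_bounds hρ0 hρ1 hUp hLow hA hAsy
  obtain ⟨K, hK, hsc⟩ := exists_scaleG_le hρ0 hρ1 hρ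
  have hbig : ∀ B : ℝ, bigB (Real.exp (Real.exp B)) = B := fun B => by
    unfold bigB; rw [Real.log_exp, Real.log_exp]
  have hexp : Tendsto (fun B : ℝ => Real.exp (Real.exp B)) atTop atTop :=
    Real.tendsto_exp_atTop.comp Real.tendsto_exp_atTop
  have hbB : ∀ᶠ B : ℝ in atTop, S1B B ≤ ENNReal.ofReal (C * scaleG ρ (Real.exp (Real.exp B))) ∧
      SB B ≠ ⊤ ∧ c * scaleG ρ (Real.exp (Real.exp B)) ≤ (SB B).toReal := by
    filter_upwards [hexp.eventually hb] with B hB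
    rwa [hbig] at hB
  have h95 : Tendsto (fun B : ℝ => 95 / 100 * B) atTop atTop :=
    tendsto_id.const_mul_atTop (by norm_num)
  refine ⟨fun R => ?_, ?_⟩
  · obtain ⟨B, hB1, hB2⟩ := (hbB.and (eventually_ge_atTop R)).exists
    exact ne_top_of_le_ne_top ENNReal.ofReal_ne_top ((S1B_mono hB2).trans hB1.1)
  · -- the ratio
    have hm : Tendsto (fun B : ℝ => mIndex ρ (Real.exp (Real.exp (95 / 100 * B)))) atTop atTop :=
      (tendsto_mIndex hρ0 hρ1).comp (hexp.comp h95)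
    have hlim : Tendsto (fun B : ℝ => C * K / c *
        (95 / 100 : ℝ) ^ mIndex ρ (Real.exp (Real.exp (95 / 100 * B)))) atTop (𝓝 0) := by
      have := ((tendsto_pow_atTop_nhds_zero_of_lt_one (r := (95 / 100 : ℝ)) (by norm_num)
        (by norm_num)).comp hm).const_mul (C * K / c)
      simpa using this
    refine squeeze_zero' (Eventually.of_forall fun B => by positivity) ?_ hlim
    filter_upwards [hbB, h95.eventually hbB, hsc, eventually_gt_atTop (0:ℝ)] with B h1 h2 h3 hB0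
    have hG : 0 < scaleG ρ (Real.exp (Real.exp B)) := scaleG_pos'' (by rw [hbig]; exact hB0)
    have hG' : 0 < scaleG ρ (Real.exp (Real.exp (95 / 100 * B))) :=
      scaleG_pos'' (by rw [hbig]; positivity)
    have h4 : (S1B (95 / 100 * B)).toReal ≤ C * scaleG ρ (Real.exp (Real.exp (95 / 100 * B))) :=
      ENNReal.toReal_le_of_le_ofReal (by positivity) h2.1
    have h5 : 0 < (SB B).toReal := lt_of_lt_of_le (by positivity) h1.2.2
    rw [div_le_iff₀ h5]
    calc (S1B (95 / 100 * B)).toReal ≤ C * scaleG ρ (Real.exp (Real.exp (95 / 100 * B))) := h4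
      _ ≤ C * (K * (95 / 100 : ℝ) ^ mIndex ρ (Real.exp (Real.exp (95 / 100 * B))) *
            scaleG ρ (Real.exp (Real.exp B))) := mul_le_mul_of_nonneg_left h3 hC.le
      _ = C * K / c * (95 / 100 : ℝ) ^ mIndex ρ (Real.exp (Real.exp (95 / 100 * B))) *
            (c * scaleG ρ (Real.exp (Real.exp B))) := by field_simp
      _ ≤ _ := mul_le_mul_of_nonneg_left h1.2.2 (by positivity)

end Crest.Agent.R020.ChainS1
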