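import Crest.Agent.R020.CollSum

-- ▼ part R020/CollCore
section

/-!
Row 20, module E (collisions): the core inequality.
-/

set_option autoImplicit false

namespace Crest.Agent.R020.CollM

open Finset

variable {s t : ℕ} {X : ℕ} {r : Fin s → ℝ} {r' : Fin t → ℝ} {ρ0 ρt L κ : ℝ}
  {W : ℕ → ℝ} {m : Mat s t}

theorem gpf_le {N : ℕ} (hN : 0 < N) : gpf N ≤ N := by
  unfold gpf
  apply Finset.sup_le
  intro q hq
  exact Nat.le_of_dvd hN (Nat.dvd_of_mem_primeFactors hq)

/-- data attached to a matrix -/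
def Data (X : ℕ) (r : Fin s → ℝ) (r' : Fin t → ℝ) (ρt : ℝ) (W : ℕ → ℝ) (m : Mat s t)
    (p : Str s t × Mat s t × (Fin s ⊕ Fin t → ℕ)) : Prop :=
  p.1.Valid ∧ m = p.1.expand p.2.1 p.2.2 ∧ (∀ i j, p.2.1 i j ∣ m i j ∧ 0 < p.2.1 i j) ∧
    p.2.2 ∈ Fintype.piFinset (TT p.1 X r r' ρt) ∧
    W (vp m) = 1 / (vp p.2.1 : ℝ) * ∏ e, ff p.1 X W p.2.1 e p.2.2

theorem exists_data (hS : Sieve X ρ0 ρt L κ W) (hr : ∀ i, ρ0 ≤ r i) (hr' : ∀ j, ρ0 ≤ r' j)
    (h : Good X r r' m) (i0 : Fin s) (htop : ρt ≤ r i0) :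
    ∃ p, Data X r r' ρt W m p := by
  classical
  have hr1 : ∀ i, 1 < r i := fun i => lt_of_lt_of_le hS.one_lt (hr i)
  have hr1' : ∀ i, 1 < r' i := fun i => lt_of_lt_of_le hS.one_lt (hr' i)
  obtain ⟨σ, hσ, R, m', hm, hdvd, hpos, hRl, hRlb, hRr, hRd, hmax⟩ := exists_str h hr1 hr1'
  have hpl : ∀ i, (gpf (rowp m i)) ∈ (rowp m i).primeFactors := by
    intro i
    apply gpf_mem
    have := lt_of_lt_of_le (hr1 i) (h.rowG i)
    have : (0:ℝ) < (gpf (rowp m i) : ℝ) := by linarith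
    exact_mod_cast this
  have hpc : ∀ j, (gpf (colp m j)) ∈ (colp m j).primeFactors := by
    intro j
    apply gpf_mem
    have := lt_of_lt_of_le (hr1' j) (h.colG j)
    have : (0:ℝ) < (gpf (colp m j) : ℝ) := by linarith
    exact_mod_cast this
  have hprime : ∀ i, (R (Sum.inl i)).Prime := by
    intro i; rw [hRl]; exact Nat.prime_of_mem_primeFactors (hpl i)
  have hprime' : ∀ j, ¬ σ.dummy j → (R (Sum.inr j)).Prime := by
    intro j hj; rw [hRr j hj]; exact Nat.prime_of_mem_primeFactors (hpc j)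
  have hRpos : ∀ e, 0 < R e := by
    intro e
    rcases e with i | j
    · exact (hprime i).pos
    · by_cases hj : σ.dummy j
      · rw [hRd j hj]; norm_num
      · exact (hprime' j hj).pos
  have htopR : ∀ e, (σ.rk e : ℕ) = 0 → ρt ≤ (R e : ℝ) := by
    intro e he
    have h1 := hmax e (Sum.inl i0) he
    have h2 := h.rowG i0
    rw [← hRl i0] at h2
    have h3 : (R (Sum.inl i0) : ℝ) ≤ (R e : ℝ) := by exact_mod_cast h1
    linarith
  have hTT : ∀ e, R e ∈ TT σ X r r' ρt e := by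
    intro e
    rcases e with i | j
    · unfold TT primesIn
      dsimp only
      rw [Finset.mem_filter, Finset.mem_range]
      refine ⟨?_, hprime i, ?_⟩
      · rw [hRl]
        have := gpf_le (h.rowp_pos i)
        have := h.rowLe i
        omega
      · unfold lo
        apply max_le
        · split_ifs with h0
          · exact htopR _ h0
          · exact Nat.cast_nonneg _
        · dsimp only
          split_ifs with hb
          · apply max_le
            · rw [hRl]; exact h.rowG i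
            · rw [hRlb i hb]; exact h.colG _
          · rw [hRl]; exact h.rowG i
    · unfold TT primesIn
      dsimp only
      by_cases hj : σ.dummy j
      · rw [if_pos hj, hRd j hj]
        simp
      · rw [if_neg hj, Finset.mem_filter, Finset.mem_range]
        refine ⟨?_, hprime' j hj, ?_⟩
        · rw [hRr j hj]
          have := gpf_le (h.colp_pos j)
          have := h.colLe j
          omega
        · unfold lo
          apply max_le
          · split_ifs with h0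
            · exact htopR _ h0
            · exact Nat.cast_nonneg _
          · dsimp only
            rw [hRr j hj]; exact h.colG j
  have hrow : ∀ i, rowp m i = R (Sum.inl i) * σ.rowA m' R i := by
    intro i; rw [hm]; exact σ.rowp_expand m' R i
  have hcol : ∀ j, ¬ σ.dummy j → colp m j = R (Sum.inr j) * σ.colA m' R j := by
    intro j hj; rw [hm]; exact σ.colp_expand m' R j hj
  have hcolB : ∀ i, σ.β i = true → colp m (σ.c i) = R (Sum.inl i) * σ.colB m' R i := by
    intro i hi; rw [hm]; exact σ.colp_expand' hσ m' R i hi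
  have hcond : ∀ i, cond σ X m' (Sum.inl i) R := by
    intro i
    refine ⟨?_, ?_⟩
    · unfold C1
      rw [← hrow i]
      exact ⟨h.rowPrime i, h.rowLe i⟩
    · intro hb
      refine ⟨?_, ?_⟩
      · unfold C1
        rw [← hcolB i hb]
        exact ⟨h.colPrime _, h.colLe _⟩
      · intro hAB
        apply h.ne i (σ.c i)
        rw [hrow i, hcolB i hb, hAB]
  have hcond' : ∀ j, ¬ σ.dummy j → cond σ X m' (Sum.inr j) R := by
    intro j hj
    unfold cond C1
    dsimp only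
    rw [← hcol j hj]
    exact ⟨h.colPrime _, h.colLe _⟩
  have hvp : vp m = vp m' * ∏ e, R e := by
    conv_lhs => rw [hm]
    exact σ.vp_expand m' R hRd
  have hs : 0 < s + t := by have := i0.pos; omega
  let e0 : Fin s ⊕ Fin t := σ.ord ⟨0, hs⟩
  have he0 : ∀ e, (σ.rk e : ℕ) = 0 ↔ e = e0 := by
    intro e
    constructor
    · intro h
      have : σ.rk e = ⟨0, hs⟩ := Fin.ext h
      show e = σ.ord ⟨0, hs⟩
      rw [← this]
      simp [Str.rk]
    · intro h
      rw [h]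
      simp [Str.rk, e0]
  have hff : ∀ e, ff σ X W m' e R = if e = e0 then (Mof m' e0 R : ℝ) * W (vp m)
      else 1 / (R e : ℝ) := by
    intro e
    have hwt : wt σ W m' e R = if e = e0 then (Mof m' e0 R : ℝ) * W (vp m)
      else 1 / (R e : ℝ) := by
      unfold wt
      by_cases h0 : e = e0
      · rw [if_pos ((he0 e).mpr h0), if_pos h0, h0]
        congr 2
        unfold Mof
        rw [hvp, mul_assoc, Finset.prod_erase_mul _ _ (Finset.mem_univ e0)]
      · rw [if_neg (fun h => h0 ((he0 e).mp h)), if_neg h0]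
    rcases e with i | j
    · unfold ff
      dsimp only
      rw [if_pos (hcond i), hwt]
    · unfold ff
      dsimp only
      by_cases hj : σ.dummy j
      · rw [if_pos hj]
        have : Sum.inr j ≠ e0 := by
          intro h
          exact hσ.v5 j ((he0 _).mpr h) hj
        rw [if_neg this, hRd j hj]
        simp
      · rw [if_neg hj, if_pos (hcond' j hj), hwt]
  refine ⟨(σ, m', R), hσ, hm, fun i j => ⟨hdvd i j, hpos i j⟩, ?_, ?_⟩
  · rw [Fintype.mem_piFinset]
    exact hTT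
  · dsimp only
    have hvpos : 0 < vp m' := Finset.prod_pos (fun i _ => Finset.prod_pos (fun j _ => hpos i j))
    rw [← Finset.mul_prod_erase _ _ (Finset.mem_univ e0)]
    rw [hff e0, if_pos rfl]
    have h5 : ∏ e ∈ univ.erase e0, ff σ X W m' e R = 1 / ((∏ e ∈ univ.erase e0, R e : ℕ) : ℝ) := by
      rw [Nat.cast_prod, one_div, ← Finset.prod_inv_distrib]
      apply Finset.prod_congr rfl
      intro e he
      rw [hff e, if_neg (Finset.ne_of_mem_erase he), one_div]
    rw [h5]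
    have h6 : (0:ℝ) < ((∏ e ∈ univ.erase e0, R e : ℕ) : ℝ) := by
      exact_mod_cast Finset.prod_pos (fun e _ => hRpos e)
    have h7 : (0:ℝ) < (vp m' : ℝ) := by exact_mod_cast hvpos
    unfold Mof
    push_cast
    push_cast at h6
    field_simp

/-- The core inequality: sum over matrices ≤ (number of structures) * (sieve savings) *
(sum over cofactor matrices). -/
theorem coll_core (hS : Sieve X ρ0 ρt L κ W) (hr : ∀ i, ρ0 ≤ r i) (hr' : ∀ j, ρ0 ≤ r' j)
    (i0 : Fin s) (htop : ρt ≤ r i0) (MM : Finset (Mat s t)) (hMM : ∀ m ∈ MM, Good X r r' m) :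
    ∃ D : Finset (Mat s t), (∀ m' ∈ D, ∃ m ∈ MM, ∀ i j, m' i j ∣ m i j ∧ 0 < m' i j) ∧
      ∑ m ∈ MM, W (vp m) ≤ (Fintype.card (Str s t) : ℝ) *
        (κ * L ^ (s + t) * (∏ i, (1 / Real.log (r i))) * ∏ j, (1 / Real.log (r' j))) *
        ∑ m' ∈ D, 1 / (vp m' : ℝ) := by
  classical
  rcases MM.eq_empty_or_nonempty with hE | ⟨m0, hm0⟩
  · refine ⟨∅, by simp, ?_⟩
    rw [hE]
    simp
  have hex : ∀ m ∈ MM, ∃ p, Data X r r' ρt W m p := fun m hm =>
    exists_data hS hr hr' (hMM m hm) i0 htop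
  obtain ⟨p0, hp0⟩ := hex m0 hm0
  have : Nonempty (Str s t × Mat s t × (Fin s ⊕ Fin t → ℕ)) := ⟨p0⟩
  choose! Φ hΦ using hex
  let D : Finset (Mat s t) := MM.image (fun m => (Φ m).2.1)
  refine ⟨D, ?_, ?_⟩
  · intro m' hm'
    obtain ⟨m, hm, rfl⟩ := Finset.mem_image.mp hm'
    exact ⟨m, hm, (hΦ m hm).2.2.1⟩
  have hinj : Set.InjOn Φ (MM : Set (Mat s t)) := by
    intro m hm m1 hm1 he
    rw [(hΦ m hm).2.1, (hΦ m1 hm1).2.1, he]
  let VS : Finset (Str s t) := univ.filter (fun σ => σ.Valid)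
  let G : Str s t × Mat s t × (Fin s ⊕ Fin t → ℕ) → ℝ := fun p =>
    1 / (vp p.2.1 : ℝ) * ∏ e, ff p.1 X W p.2.1 e p.2.2
  have hG : ∀ p, 0 ≤ G p := by
    intro p
    apply mul_nonneg (by positivity)
    exact Finset.prod_nonneg (fun e _ => ff_nonneg hS _ _ _)
  have h1 : ∑ m ∈ MM, W (vp m) = ∑ p ∈ MM.image Φ, G p := by
    rw [Finset.sum_image hinj]
    apply Finset.sum_congr rfl
    intro m hm
    exact (hΦ m hm).2.2.2.2
  have h2 : ∑ p ∈ MM.image Φ, G p ≤ ∑ σ ∈ VS, ∑ m' ∈ D,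
      ∑ R ∈ Fintype.piFinset (TT σ X r r' ρt), G (σ, m', R) := by
    have h3 : ∑ σ ∈ VS, ∑ m' ∈ D, ∑ R ∈ Fintype.piFinset (TT σ X r r' ρt), G (σ, m', R)
        = ∑ y ∈ VS.sigma (fun σ => D ×ˢ Fintype.piFinset (TT σ X r r' ρt)),
          G (y.1, y.2.1, y.2.2) := by
      rw [Finset.sum_sigma]
      apply Finset.sum_congr rfl
      intro σ _
      rw [Finset.sum_product]
    rw [h3]
    have h4 : ∑ p ∈ MM.image Φ, G p
        = ∑ y ∈ (MM.image Φ).image
            (fun p => (⟨p.1, p.2⟩ : (_ : Str s t) × (Mat s t × (Fin s ⊕ Fin t → ℕ)))),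
          G (y.1, y.2.1, y.2.2) := by
      symm
      rw [Finset.sum_image]
      intro p _ q _ hpq
      simp only [Sigma.mk.injEq, heq_eq_eq] at hpq
      exact Prod.ext hpq.1 hpq.2
    rw [h4]
    apply Finset.sum_le_sum_of_subset_of_nonneg
    · intro y hy
      obtain ⟨p, hp, rfl⟩ := Finset.mem_image.mp hy
      obtain ⟨m, hm, rfl⟩ := Finset.mem_image.mp hp
      rw [Finset.mem_sigma, Finset.mem_product]
      refine ⟨?_, ?_, ?_⟩
      · exact Finset.mem_filter.mpr ⟨Finset.mem_univ _, (hΦ m hm).1⟩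
      · exact Finset.mem_image.mpr ⟨m, hm, rfl⟩
      · exact (hΦ m hm).2.2.2.1
    · intro y _ _
      exact hG _
  have hlr : ∀ i, 0 < Real.log (r i) := fun i => Real.log_pos (by linarith [hS.one_lt, hr i])
  have hlr' : ∀ j, 0 < Real.log (r' j) := fun j => Real.log_pos (by linarith [hS.one_lt, hr' j])
  set BBB : ℝ := κ * L ^ (s + t) * (∏ i, (1 / Real.log (r i))) * ∏ j, (1 / Real.log (r' j))
    with hBBB
  have hB0 : 0 ≤ BBB := by
    have := hS.κ0
    have := hS.L1
    have h5 : 0 ≤ ∏ i, (1 / Real.log (r i)) := Finset.prod_nonneg (fun i _ => by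
      have := hlr i; positivity)
    have h6 : 0 ≤ ∏ j, (1 / Real.log (r' j)) := Finset.prod_nonneg (fun i _ => by
      have := hlr' i; positivity)
    positivity
  have h5 : ∀ σ ∈ VS, ∑ m' ∈ D, ∑ R ∈ Fintype.piFinset (TT σ X r r' ρt), G (σ, m', R)
      ≤ BBB * ∑ m' ∈ D, 1 / (vp m' : ℝ) := by
    intro σ hσ
    have hσv : σ.Valid := (Finset.mem_filter.mp hσ).2
    rw [Finset.mul_sum]
    apply Finset.sum_le_sum
    intro m' _
    show ∑ R ∈ Fintype.piFinset (TT σ X r r' ρt),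
      (1 / (vp m' : ℝ) * ∏ e, ff σ X W m' e R) ≤ _
    rw [← Finset.mul_sum, mul_comm BBB]
    apply mul_le_mul_of_nonneg_left _ (by positivity)
    exact le_trans (sum_marks hS hσv m' hr hr') (prod_BB_le hS hσv i0.pos hr hr')
  rw [h1]
  refine le_trans h2 (le_trans (Finset.sum_le_sum h5) ?_)
  rw [Finset.sum_const, nsmul_eq_mul]
  have h6 : (VS.card : ℝ) ≤ (Fintype.card (Str s t) : ℝ) := by
    have : VS.card ≤ Fintype.card (Str s t) := Finset.card_le_univ _
    exact_mod_cast this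
  have h7 : 0 ≤ BBB * ∑ m' ∈ D, 1 / (vp m' : ℝ) :=
    mul_nonneg hB0 (Finset.sum_nonneg (fun _ _ => by positivity))
  calc (VS.card : ℝ) * (BBB * ∑ m' ∈ D, 1 / (vp m' : ℝ))
      ≤ (Fintype.card (Str s t) : ℝ) * (BBB * ∑ m' ∈ D, 1 / (vp m' : ℝ)) :=
        mul_le_mul_of_nonneg_right h6 h7
    _ = _ := by ring

end Crest.Agent.R020.CollM
end

-- ▼ part R020/CollRankin

/-!
Row 20, module E (collisions): the Rankin bound for the cofactor matrices.
-/

set_option autoImplicit false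

namespace Crest.Agent.R020.CollM

open Finset

/-- completely multiplicative extension of `g` (on positive integers) -/
noncomputable def GG (g : ℕ → ℝ) (n : ℕ) : ℝ := n.factorization.prod (fun q k => g q ^ k)

theorem GG_one (g : ℕ → ℝ) : GG g 1 = 1 := by simp [GG]

theorem GG_mul (g : ℕ → ℝ) {a b : ℕ} (ha : a ≠ 0) (hb : b ≠ 0) :
    GG g (a * b) = GG g a * GG g b := by
  unfold GG
  rw [Nat.factorization_mul ha hb]
  exact Finsupp.prod_add_index' (fun _ => pow_zero _) (fun _ _ _ => pow_add _ _ _)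

theorem GG_prime (g : ℕ → ℝ) {p : ℕ} (hp : p.Prime) : GG g p = g p := by
  unfold GG
  rw [hp.factorization]
  simp

theorem GG_nonneg {g : ℕ → ℝ} (h0 : ∀ q, 0 ≤ g q) (n : ℕ) : 0 ≤ GG g n := by
  unfold GG
  exact Finset.prod_nonneg (fun q _ => pow_nonneg (h0 q) _)

theorem GG_le_one {g : ℕ → ℝ} (h0 : ∀ q, 0 ≤ g q) (h1 : ∀ q, g q ≤ 1) (n : ℕ) : GG g n ≤ 1 := by
  unfold GG
  exact Finset.prod_le_one (fun q _ => pow_nonneg (h0 q) _)
    (fun q _ => pow_le_one₀ (h0 q) (h1 q))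

theorem GG_anti {g : ℕ → ℝ} (h0 : ∀ q, 0 ≤ g q) (h1 : ∀ q, g q ≤ 1) {a b : ℕ} (hab : a ∣ b)
    (hb : 0 < b) : GG g b ≤ GG g a := by
  obtain ⟨c, rfl⟩ := hab
  have hc : c ≠ 0 := by rintro rfl; simp at hb
  have ha : a ≠ 0 := by rintro rfl; simp at hb
  rw [GG_mul g ha hc]
  exact mul_le_of_le_one_right (GG_nonneg h0 a) (GG_le_one h0 h1 c)

/-- `GG g n / n` as a monoid homomorphism -/
noncomputable def GGhom (g : ℕ → ℝ) : ℕ →* ℝ where
  toFun n := if n = 0 then 0 else GG g n / n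
  map_one' := by simp [GG_one]
  map_mul' a b := by
    by_cases ha : a = 0
    · simp [ha]
    · by_cases hb : b = 0
      · simp [hb]
      · simp only [ha, hb, mul_eq_zero, or_self, if_false]
        rw [GG_mul g ha hb]
        push_cast
        field_simp

theorem inv_one_sub_le_exp {q : ℕ} (hq : 2 ≤ q) {x : ℝ} (h0 : 0 ≤ x) (h1 : x ≤ 1) :
    (1 - x / q)⁻¹ ≤ Real.exp (x / ((q : ℝ) - 1)) := by
  have hq' : (2:ℝ) ≤ (q : ℝ) := by exact_mod_cast hq
  have hqx : 0 < (q : ℝ) - x := by linarith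
  have h2 : (1 - x / q)⁻¹ = x / ((q : ℝ) - x) + 1 := by
    have h3 : (1 - x / q) = ((q : ℝ) - x) / q := by field_simp
    rw [h3, inv_div]
    field_simp
    ring
  rw [h2]
  refine le_trans (Real.add_one_le_exp _) (Real.exp_le_exp.mpr ?_)
  exact div_le_div_of_nonneg_left h0 (by linarith) (by linarith)

/-- Rankin bound for one cell -/
theorem sum_GG_le {g : ℕ → ℝ} (h0 : ∀ q, 0 ≤ g q) (h1 : ∀ q, g q ≤ 1) (P : Finset ℕ)
    (hP : ∀ q ∈ P, q.Prime) (F : Finset ℕ)
    (hF : ∀ n ∈ F, 0 < n ∧ ∀ q, q.Prime → q ∣ n → q ∈ P) :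
    ∑ n ∈ F, GG g n / n ≤ Real.exp (∑ q ∈ P, g q / ((q : ℝ) - 1)) := by
  classical
  have hlt : ∀ {p : ℕ}, p.Prime → ‖GGhom g p‖ < 1 := by
    intro p hp
    have hp2 : (2:ℝ) ≤ (p : ℝ) := by exact_mod_cast hp.two_le
    have : GGhom g p = g p / p := by
      show (if p = 0 then (0:ℝ) else GG g p / p) = _
      rw [if_neg hp.ne_zero, GG_prime g hp]
    rw [this, Real.norm_of_nonneg (div_nonneg (h0 p) (by linarith)), div_lt_one (by linarith)]
    linarith [h1 p]
  obtain ⟨_, hsum⟩ :=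
    EulerProduct.summable_and_hasSum_factoredNumbers_prod_filter_prime_geometric
      (f := GGhom g) hlt P
  have hnn : ∀ n : ℕ, 0 ≤ GGhom g n := by
    intro n
    show 0 ≤ (if n = 0 then (0:ℝ) else GG g n / n)
    split_ifs
    · exact le_rfl
    · exact div_nonneg (GG_nonneg h0 n) (Nat.cast_nonneg _)
  have hFmem : ∀ n ∈ F, n ∈ Nat.factoredNumbers P := by
    intro n hn
    rw [Nat.mem_factoredNumbers']
    intro p hp hpn
    exact (hF n hn).2 p hp hpn
  let F' : Finset (Nat.factoredNumbers P) := F.attach.image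
    (fun n => (⟨n.1, hFmem n.1 n.2⟩ : Nat.factoredNumbers P))
  have h2 : ∑ n ∈ F, GG g n / n = ∑ n ∈ F', GGhom g n := by
    have : ∑ n ∈ F', GGhom g n = ∑ n ∈ F.attach, GGhom g n.1 := by
      rw [Finset.sum_image]
      intro a _ b _ hab
      simp only [Subtype.mk.injEq] at hab
      exact Subtype.ext hab
    rw [this, Finset.sum_attach F (fun n => GGhom g n)]
    apply Finset.sum_congr rfl
    intro n hn
    show _ = (if n = 0 then (0:ℝ) else GG g n / n)
    rw [if_neg (hF n hn).1.ne']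
  rw [h2]
  refine le_trans (sum_le_hasSum F' (fun n _ => hnn n) hsum) ?_
  rw [Finset.filter_true_of_mem hP, Real.exp_sum]
  apply Finset.prod_le_prod
  · intro q hq
    have := hlt (hP q hq)
    rw [Real.norm_of_nonneg (hnn q)] at this
    exact inv_nonneg.mpr (by linarith)
  · intro q hq
    have h3 : GGhom g q = g q / q := by
      show (if q = 0 then (0:ℝ) else GG g q / q) = _
      rw [if_neg (hP q hq).ne_zero, GG_prime g (hP q hq)]
    rw [h3]
    exact inv_one_sub_le_exp (hP q hq).two_le (h0 q) (h1 q)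

variable {s t : ℕ}

/-- Rankin bound for the cofactor matrices -/
theorem rankin_mat {g : ℕ → ℝ} (h0 : ∀ q, 0 ≤ g q) (h1 : ∀ q, g q ≤ 1) {Z : ℝ} (hZ : 0 < Z)
    (Ok : Option (Fin s) → Option (Fin t) → Finset ℕ) (hOk : ∀ i j, ∀ q ∈ Ok i j, q.Prime)
    (D : Finset (Mat s t)) (hpos : ∀ m ∈ D, ∀ i j, 0 < m i j)
    (hD : ∀ m ∈ D, ∀ i j q, q.Prime → q ∣ m i j → q ∈ Ok i j)
    (hG : ∀ m ∈ D, Z ≤ ∏ i, ∏ j, GG g (m i j)) :
    ∑ m ∈ D, 1 / (vp m : ℝ) ≤ Z⁻¹ *
      ∏ i, ∏ j, Real.exp (∑ q ∈ Ok i j, g q / ((q : ℝ) - 1)) := by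
  classical
  let F : Option (Fin s) × Option (Fin t) → Finset ℕ := fun p => D.image (fun m => m p.1 p.2)
  let h : Option (Fin s) × Option (Fin t) → ℕ → ℝ := fun _ n => GG g n / n
  have hh : ∀ p n, 0 ≤ h p n := fun p n => div_nonneg (GG_nonneg h0 n) (Nat.cast_nonneg _)
  have hstep : ∀ m ∈ D, 1 / (vp m : ℝ) ≤ Z⁻¹ * ∏ p, h p (m p.1 p.2) := by
    intro m hm
    have hv : (0:ℝ) < (vp m : ℝ) := by
      exact_mod_cast Finset.prod_pos (fun i _ => Finset.prod_pos (fun j _ => hpos m hm i j))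
    have e1 : ∏ p : Option (Fin s) × Option (Fin t), h p (m p.1 p.2)
        = (∏ i, ∏ j, GG g (m i j)) / (vp m : ℝ) := by
      rw [Fintype.prod_prod_type]
      unfold vp
      push_cast
      rw [← Finset.prod_div_distrib]
      apply Finset.prod_congr rfl
      intro i _
      rw [← Finset.prod_div_distrib]
    rw [e1, ← mul_div_assoc]
    apply div_le_div_of_nonneg_right _ hv.le
    rw [← div_eq_inv_mul, le_div_iff₀ hZ, one_mul]
    exact hG m hm
  refine le_trans (Finset.sum_le_sum hstep) ?_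
  rw [← Finset.mul_sum]
  apply mul_le_mul_of_nonneg_left _ (inv_nonneg.mpr hZ.le)
  have h2 : ∑ m ∈ D, ∏ p : Option (Fin s) × Option (Fin t), h p (m p.1 p.2)
      ≤ ∑ x ∈ Fintype.piFinset F, ∏ p, h p (x p) := by
    have e2 : ∑ m ∈ D, ∏ p : Option (Fin s) × Option (Fin t), h p (m p.1 p.2)
        = ∑ x ∈ D.image (fun m => fun p : Option (Fin s) × Option (Fin t) => m p.1 p.2),
          ∏ p, h p (x p) := by
      rw [Finset.sum_image]
      intro m _ m1 _ hmm
      funext i j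
      exact congrFun hmm (i, j)
    rw [e2]
    apply Finset.sum_le_sum_of_subset_of_nonneg
    · intro x hx
      obtain ⟨m, hm, rfl⟩ := Finset.mem_image.mp hx
      rw [Fintype.mem_piFinset]
      intro p
      exact Finset.mem_image.mpr ⟨m, hm, rfl⟩
    · intro x _ _
      exact Finset.prod_nonneg (fun p _ => hh p (x p))
  refine le_trans h2 ?_
  rw [← Finset.prod_univ_sum]
  rw [← Fintype.prod_prod_type (fun p : Option (Fin s) × Option (Fin t) =>
    Real.exp (∑ q ∈ Ok p.1 p.2, g q / ((q : ℝ) - 1)))]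
  apply Finset.prod_le_prod
  · intro p _
    exact Finset.sum_nonneg (fun n _ => hh p n)
  · intro p _
    apply sum_GG_le h0 h1 (Ok p.1 p.2) (hOk p.1 p.2)
    intro n hn
    obtain ⟨m, hm, rfl⟩ := Finset.mem_image.mp hn
    exact ⟨hpos m hm _ _, fun q hq hqn => hD m hm _ _ q hq hqn⟩

/-- THE ABSTRACT COLLISION THEOREM. -/
theorem coll_bound {X : ℕ} {r : Fin s → ℝ} {r' : Fin t → ℝ} {ρ0 ρt L κ : ℝ}
    {W : ℕ → ℝ} (hS : Sieve X ρ0 ρt L κ W) (hr : ∀ i, ρ0 ≤ r i) (hr' : ∀ j, ρ0 ≤ r' j)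
    (i0 : Fin s) (htop : ρt ≤ r i0) (MM : Finset (Mat s t)) (hMM : ∀ m ∈ MM, Good X r r' m)
    {g : ℕ → ℝ} (h0 : ∀ q, 0 ≤ g q) (h1 : ∀ q, g q ≤ 1) {Z : ℝ} (hZ : 0 < Z)
    (Ok : Option (Fin s) → Option (Fin t) → Finset ℕ) (hOk : ∀ i j, ∀ q ∈ Ok i j, q.Prime)
    (hD : ∀ m ∈ MM, ∀ i j q, q.Prime → q ∣ m i j → q ∈ Ok i j)
    (hG : ∀ m ∈ MM, Z ≤ ∏ i, ∏ j, GG g (m i j)) :
    ∑ m ∈ MM, W (vp m) ≤ (Fintype.card (Str s t) : ℝ) *
        (κ * L ^ (s + t) * (∏ i, (1 / Real.log (r i))) * ∏ j, (1 / Real.log (r' j))) *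
        (Z⁻¹ * ∏ i, ∏ j, Real.exp (∑ q ∈ Ok i j, g q / ((q : ℝ) - 1))) := by
  obtain ⟨D, hD1, hD2⟩ := coll_core hS hr hr' i0 htop MM hMM
  refine le_trans hD2 ?_
  have hlr : ∀ i, 0 < Real.log (r i) := fun i => Real.log_pos (by linarith [hS.one_lt, hr i])
  have hlr' : ∀ j, 0 < Real.log (r' j) := fun j => Real.log_pos (by linarith [hS.one_lt, hr' j])
  apply mul_le_mul_of_nonneg_left
  · apply rankin_mat h0 h1 hZ Ok hOk D
    · intro m hm i j
      obtain ⟨m1, _, h2⟩ := hD1 m hm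
      exact (h2 i j).2
    · intro m hm i j q hq hqm
      obtain ⟨m1, hm1, h2⟩ := hD1 m hm
      exact hD m1 hm1 i j q hq (hqm.trans (h2 i j).1)
    · intro m hm
      obtain ⟨m1, hm1, h2⟩ := hD1 m hm
      refine le_trans (hG m1 hm1) ?_
      apply Finset.prod_le_prod
      · intro i _
        exact Finset.prod_nonneg (fun j _ => GG_nonneg h0 _)
      · intro i _
        apply Finset.prod_le_prod
        · intro j _
          exact GG_nonneg h0 _
        · intro j _
          exact GG_anti h0 h1 (h2 i j).1 ((hMM m1 hm1).pos i j)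
  · have := hS.κ0
    have := hS.L1
    have h5 : 0 ≤ ∏ i, (1 / Real.log (r i)) := Finset.prod_nonneg (fun i _ => by
      have := hlr i; positivity)
    have h6 : 0 ≤ ∏ j, (1 / Real.log (r' j)) := Finset.prod_nonneg (fun i _ => by
      have := hlr' i; positivity)
    positivity

/-- number of structures -/
theorem card_Str (s t : ℕ) : Fintype.card (Str s t) ≤ t ^ s * (s ^ t * (2 ^ s * (s + t).factorial)) := by
  unfold Str
  rw [Fintype.card_prod, Fintype.card_prod, Fintype.card_prod, Fintype.card_fun, Fintype.card_fun,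
    Fintype.card_fun, Fintype.card_fin, Fintype.card_fin, Fintype.card_bool]
  have : Fintype.card (Fin (s + t) ≃ (Fin s ⊕ Fin t)) = (s + t).factorial := by
    rw [Fintype.card_equiv finSumFinEquiv.symm, Fintype.card_fin]
  rw [this]

end Crest.Agent.R020.CollM
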