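import Crest.Agent.R020.CollSum
import Crest.Agent.Lib.LinSieve.Cor2
import Crest.Agent.R020.CollRankin
import Crest.Agent.R020.CollDefs
import Crest.Agent.R020.Cells

-- ▼ part R020/CollSieveInst
section

/-!
Row 20, module E (collisions): instances of the sieve hypotheses.
-/

set_option autoImplicit false

namespace Crest.Agent.R020.CollM

open Finset

/-- `log log (X + 10)` -/
noncomputable def ll (X : ℕ) : ℝ := Real.log (Real.log ((X : ℝ) + 10))

theorem ll_ge (X : ℕ) : 4 / 5 ≤ ll X := by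
  unfold ll
  have h1 : (2.302 : ℝ) ≤ Real.log ((X : ℝ) + 10) := by
    have h2 : Real.log 10 ≤ Real.log ((X : ℝ) + 10) :=
      Real.log_le_log (by norm_num) (by linarith [Nat.cast_nonneg (α := ℝ) X])
    have h3 : Real.log 10 = Real.log 2 + Real.log 5 := by
      rw [← Real.log_mul (by norm_num) (by norm_num)]; norm_num
    have h4 := Real.log_two_gt_d9
    have h5 : (1.609 : ℝ) ≤ Real.log 5 := by
      rw [Real.le_log_iff_exp_le (by norm_num)]
      have h6 : Real.exp 1.609 = Real.exp 1 * Real.exp 0.609 := by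
        rw [← Real.exp_add]; norm_num
      have h7 := Real.exp_one_lt_d9
      have h8 : Real.exp 0.609 ≤ 1.8387 := by
        have := Real.exp_bound' (x := (0.609 : ℝ)) (by norm_num) (by norm_num) (n := 8) (by norm_num)
        refine le_trans this ?_
        simp only [Finset.sum_range_succ, Finset.sum_range_zero, Nat.factorial]
        norm_num
      rw [h6]
      have h9 := Real.exp_pos (0.609 : ℝ)
      nlinarith
    linarith
  rw [Real.le_log_iff_exp_le (by linarith)]
  refine le_trans ?_ h1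
  have h6 : Real.exp (4/5) ≤ 2.26 := by
    have := Real.exp_bound' (x := (4/5 : ℝ)) (by norm_num) (by norm_num) (n := 8) (by norm_num)
    refine le_trans this ?_
    simp only [Finset.sum_range_succ, Finset.sum_range_zero, Nat.factorial]
    norm_num
  linarith

theorem ll_mono {A X : ℕ} (h : A ≤ X) : ll A ≤ ll X := by
  unfold ll
  have h0 : (0:ℝ) ≤ (A : ℝ) := Nat.cast_nonneg _
  have h1 : (A : ℝ) ≤ (X : ℝ) := by exact_mod_cast h
  apply Real.log_le_log (Real.log_pos (by linarith))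
  exact Real.log_le_log (by linarith) (by linarith)

theorem log_half {ρ : ℝ} (hρ : 4 ≤ ρ) : Real.log ρ ≤ 2 * Real.log (ρ / 2) := by
  have h1 : ρ ≤ (ρ / 2) ^ 2 := by nlinarith
  have h2 := Real.log_le_log (by linarith) h1
  rw [Real.log_pow] at h2
  push_cast at h2
  linarith

theorem log4_pos {ρ : ℝ} (hρ : 4 ≤ ρ) : 1 ≤ Real.log ρ := by
  rw [Real.le_log_iff_exp_le (by linarith)]
  linarith [Real.exp_one_lt_d9]

/-- plain sums -/
theorem plain_sums : ∃ C : ℝ, 2 ≤ C ∧ ∀ X : ℕ,
    (∀ (A : ℕ) (ρ : ℝ), 4 ≤ ρ →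
      ∑ x ∈ (primesIn ρ X).filter (fun x => C1 X A x), (1 / (x : ℝ))
        ≤ C * ll X ^ 3 / Real.log ρ) ∧
    (∀ (A B : ℕ) (ρ : ℝ), A ≠ B → 4 ≤ ρ →
      ∑ x ∈ (primesIn ρ X).filter (fun x => C1 X A x ∧ C1 X B x), (1 / (x : ℝ))
        ≤ C * ll X ^ 3 / (Real.log ρ) ^ 2) := by
  obtain ⟨C1', hC1, h1⟩ := Crest.Agent.Lib.LinSieve.sieve_two_finset
  obtain ⟨C2', hC2, h2⟩ := Crest.Agent.Lib.LinSieve.sieve_three_finset
  refine ⟨3 * C1' + 32 * C2' + 2, by linarith, fun X => ⟨?_, ?_⟩⟩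
  · intro A ρ hρ
    have hlog := log4_pos hρ
    have hll := ll_ge X
    rcases ((primesIn ρ X).filter (fun x => C1 X A x)).eq_empty_or_nonempty with hE | ⟨x0, hx0⟩
    · rw [hE, Finset.sum_empty]
      positivity
    · rw [Finset.mem_filter] at hx0
      unfold primesIn C1 at hx0
      rw [Finset.mem_filter] at hx0
      obtain ⟨⟨_, hxp, hxρ⟩, hp, hX⟩ := hx0
      have hx1 : 1 ≤ x0 := hxp.one_lt.le
      have hA1 : 1 ≤ A := by
        rcases Nat.eq_zero_or_pos A with h | h
        · subst h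
          simp at hp
          exact absurd hp Nat.not_prime_one
        · exact h
      have hAX : A ≤ X := by nlinarith
      have h3 := h1 A hA1 (ρ / 2) (by linarith)
        ((primesIn ρ X).filter (fun x => C1 X A x)) (by
          intro R hR
          rw [Finset.mem_filter] at hR
          unfold primesIn C1 at hR
          rw [Finset.mem_filter] at hR
          refine ⟨by linarith [hR.1.2.2], hR.1.2.1, ?_⟩
          rw [mul_comm A R]
          exact hR.2.1)
      refine le_trans h3 ?_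
      have h4 : Real.log (Real.log ((A : ℝ) + 10)) ≤ ll X := ll_mono hAX
      have h4' : 4 / 5 ≤ Real.log (Real.log ((A : ℝ) + 10)) := ll_ge A
      have h5 := log_half hρ
      rw [div_le_div_iff₀ (by linarith) (by linarith)]
      have h6 : Real.log (Real.log ((A : ℝ) + 10)) ^ 2 ≤ ll X ^ 2 := by
        apply pow_le_pow_left₀ (by linarith) h4
      have h7 : ll X ^ 2 * (4/5) ≤ ll X ^ 3 := by
        have : 0 ≤ ll X ^ 2 := by positivity
        nlinarith
      calc C1' * Real.log (Real.log ((A : ℝ) + 10)) ^ 2 * Real.log ρ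
          ≤ C1' * ll X ^ 2 * (2 * Real.log (ρ / 2)) := by
            apply mul_le_mul _ h5 (by linarith) (by positivity)
            exact mul_le_mul_of_nonneg_left h6 hC1.le
        _ ≤ (3 * C1' + 32 * C2' + 2) * ll X ^ 3 * Real.log (ρ / 2) := by
            have h8 : C1' * ll X ^ 2 * 2 ≤ (3 * C1' + 32 * C2' + 2) * ll X ^ 3 := by
              have : 0 ≤ ll X ^ 3 := by positivity
              nlinarith
            have h9 : 0 ≤ Real.log (ρ / 2) := by linarith
            nlinarith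
  · intro A B ρ hAB hρ
    have hlog := log4_pos hρ
    have hll := ll_ge X
    rcases ((primesIn ρ X).filter (fun x => C1 X A x ∧ C1 X B x)).eq_empty_or_nonempty
      with hE | ⟨x0, hx0⟩
    · rw [hE, Finset.sum_empty]
      positivity
    · rw [Finset.mem_filter] at hx0
      unfold primesIn C1 at hx0
      rw [Finset.mem_filter] at hx0
      obtain ⟨⟨_, hxp, hxρ⟩, ⟨hp, hX⟩, ⟨hp', hX'⟩⟩ := hx0
      have hx1 : 2 ≤ x0 := hxp.two_le
      have hA1 : 1 ≤ A := by
        rcases Nat.eq_zero_or_pos A with h | h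
        · subst h
          simp at hp
          exact absurd hp Nat.not_prime_one
        · exact h
      have hB1 : 1 ≤ B := by
        rcases Nat.eq_zero_or_pos B with h | h
        · subst h
          simp at hp'
          exact absurd hp' Nat.not_prime_one
        · exact h
      have hAX : A + B ≤ X := by nlinarith
      have h3 := h2 A B hA1 hB1 hAB (ρ / 2) (by linarith)
        ((primesIn ρ X).filter (fun x => C1 X A x ∧ C1 X B x)) (by
          intro R hR
          rw [Finset.mem_filter] at hR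
          unfold primesIn C1 at hR
          rw [Finset.mem_filter] at hR
          refine ⟨by linarith [hR.1.2.2], hR.1.2.1, ?_, ?_⟩
          · rw [mul_comm A R]
            exact hR.2.1.1
          · rw [mul_comm B R]
            exact hR.2.2.1)
      refine le_trans h3 ?_
      have h4 : Real.log (Real.log ((A : ℝ) + B + 10)) ≤ ll X := by
        have := ll_mono hAX
        unfold ll at this ⊢
        push_cast at this
        exact this
      have h4' : 4 / 5 ≤ Real.log (Real.log ((A : ℝ) + B + 10)) := by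
        have := ll_ge (A + B)
        unfold ll at this
        push_cast at this
        exact this
      have h5 := log_half hρ
      have hlh : 0 < Real.log (ρ / 2) := by linarith
      rw [div_le_div_iff₀ (by positivity) (by positivity)]
      have h6 : Real.log (Real.log ((A : ℝ) + B + 10)) ^ 3 ≤ ll X ^ 3 := by
        apply pow_le_pow_left₀ (by linarith) h4
      have h7 : Real.log ρ ^ 2 ≤ 4 * Real.log (ρ / 2) ^ 2 := by
        have := pow_le_pow_left₀ (by linarith) h5 2
        nlinarith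
      calc C2' * Real.log (Real.log ((A : ℝ) + B + 10)) ^ 3 * Real.log ρ ^ 2
          ≤ C2' * ll X ^ 3 * (4 * Real.log (ρ / 2) ^ 2) := by
            apply mul_le_mul _ h7 (by positivity) (by positivity)
            exact mul_le_mul_of_nonneg_left h6 hC2.le
        _ ≤ (3 * C1' + 32 * C2' + 2) * ll X ^ 3 * Real.log (ρ / 2) ^ 2 := by
            have h8 : C2' * ll X ^ 3 * 4 ≤ (3 * C1' + 32 * C2' + 2) * ll X ^ 3 := by
              have : 0 ≤ ll X ^ 3 := by positivity
              nlinarith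
            have h9 : 0 ≤ Real.log (ρ / 2) ^ 2 := by positivity
            nlinarith

/-- counting versions -/
theorem count_sums : ∃ C : ℝ, 2 ≤ C ∧ ∀ X : ℕ, ∀ z : ℝ, 0 < z →
    (∀ (M A : ℕ) (ρ : ℝ), 0 < M → 4 ≤ ρ →
      ∑ x ∈ (primesIn ρ X).filter (fun x => C1 X A x),
        (M : ℝ) * (if ((M * x : ℕ) : ℝ) ≤ z then 1 / z else 0)
        ≤ C * ll X ^ 3 / (Real.log ρ) ^ 2) ∧
    (∀ (M A B : ℕ) (ρ : ℝ), 0 < M → A ≠ B → 4 ≤ ρ →
      ∑ x ∈ (primesIn ρ X).filter (fun x => C1 X A x ∧ C1 X B x),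
        (M : ℝ) * (if ((M * x : ℕ) : ℝ) ≤ z then 1 / z else 0)
        ≤ C * ll X ^ 3 / (Real.log ρ) ^ 3) := by
  obtain ⟨C2', hC2, h2⟩ := Crest.Agent.Lib.LinSieve.sieve_two
  obtain ⟨C3', hC3, h3⟩ := Crest.Agent.Lib.LinSieve.sieve_three
  obtain ⟨D, hD, hr⟩ := Crest.Agent.Lib.LinSieve.ratio_le_loglog
  -- reduction to a count
  have key : ∀ (X M : ℕ) (ρ z : ℝ) (P : ℕ → Prop) [DecidablePred P] (b : ℝ) (k : ℕ), 0 < M →
      0 < z → 4 ≤ ρ → 0 ≤ b → (∀ n : ℕ, 2 ≤ n → (∃ x0 ∈ (primesIn ρ X).filter P, x0 ≤ n) →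
        (((Finset.Ioc 0 n).filter (fun R => R.Prime ∧ P R)).card : ℝ)
          ≤ b * (n / Real.log n ^ k)) →
      ∑ x ∈ (primesIn ρ X).filter P, (M : ℝ) * (if ((M * x : ℕ) : ℝ) ≤ z then 1 / z else 0)
        ≤ b / Real.log ρ ^ k := by
    intro X M ρ z P _ b k hM hz hρ hb hcount
    have hM' : (0:ℝ) < (M : ℝ) := by exact_mod_cast hM
    have hlog := log4_pos hρ
    set S := ((primesIn ρ X).filter P).filter (fun x => ((M * x : ℕ) : ℝ) ≤ z) with hS
    have e1 : ∑ x ∈ (primesIn ρ X).filter P, (M : ℝ) * (if ((M * x : ℕ) : ℝ) ≤ z then 1 / z else 0)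
        = (S.card : ℝ) * ((M : ℝ) * (1 / z)) := by
      have : ∀ x : ℕ, (M : ℝ) * (if ((M * x : ℕ) : ℝ) ≤ z then 1 / z else 0)
          = if ((M * x : ℕ) : ℝ) ≤ z then (M : ℝ) * (1 / z) else 0 := by
        intro x; split_ifs <;> simp
      simp_rw [this]
      rw [← Finset.sum_filter, Finset.sum_const, nsmul_eq_mul]
    rw [e1]
    rcases S.eq_empty_or_nonempty with hE | ⟨x0, hx0⟩
    · rw [hE, Finset.card_empty, Nat.cast_zero, zero_mul]
      positivity
    · have hx0' := hx0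
      rw [hS, Finset.mem_filter] at hx0'
      obtain ⟨hx01, hx02⟩ := hx0'
      have hx0p : x0.Prime ∧ ρ ≤ (x0 : ℝ) := by
        unfold primesIn at hx01
        rw [Finset.mem_filter, Finset.mem_filter] at hx01
        exact hx01.1.2
      set n : ℕ := ⌊z / M⌋₊ with hn
      have hle : ∀ x : ℕ, ((M * x : ℕ) : ℝ) ≤ z → x ≤ n := by
        intro x hx
        rw [hn]
        apply Nat.le_floor
        rw [le_div_iff₀ hM']
        push_cast at hx
        linarith
      have hnx : x0 ≤ n := hle x0 hx02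
      have hn2 : 2 ≤ n := le_trans hx0p.1.two_le hnx
      have hnρ : ρ ≤ (n : ℝ) := le_trans hx0p.2 (by exact_mod_cast hnx)
      have hnz : (n : ℝ) ≤ z / M := Nat.floor_le (by positivity)
      have hcard : (S.card : ℝ) ≤ b * (n / Real.log n ^ k) := by
        refine le_trans ?_ (hcount n hn2 ⟨x0, hx01, hnx⟩)
        have : S ⊆ (Finset.Ioc 0 n).filter (fun R => R.Prime ∧ P R) := by
          intro x hx
          rw [hS, Finset.mem_filter] at hx
          obtain ⟨hx1, hx2⟩ := hx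
          unfold primesIn at hx1
          rw [Finset.mem_filter, Finset.mem_filter] at hx1
          rw [Finset.mem_filter, Finset.mem_Ioc]
          exact ⟨⟨hx1.1.2.1.pos, hle x hx2⟩, hx1.1.2.1, hx1.2⟩
        exact_mod_cast Finset.card_le_card this
      have hlogn : Real.log ρ ≤ Real.log n := Real.log_le_log (by linarith) hnρ
      have h7 : (n : ℝ) / Real.log n ^ k ≤ (z / M) / Real.log ρ ^ k := by
        apply div_le_div₀ (by positivity) hnz (by positivity)
        exact pow_le_pow_left₀ (by linarith) hlogn k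
      calc (S.card : ℝ) * ((M : ℝ) * (1 / z))
          ≤ (b * ((z / M) / Real.log ρ ^ k)) * ((M : ℝ) * (1 / z)) := by
            apply mul_le_mul_of_nonneg_right _ (by positivity)
            exact le_trans hcard (mul_le_mul_of_nonneg_left h7 hb)
        _ = b / Real.log ρ ^ k := by
            field_simp
  refine ⟨2 * C2' * D ^ 2 + 27 * C3' * D ^ 3 + 2, ?_, fun X z hz => ⟨?_, ?_⟩⟩
  · have : 0 ≤ C2' * D ^ 2 := by positivity
    have : 0 ≤ C3' * D ^ 3 := by positivity
    linarith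
  · intro M A ρ hM hρ
    have hlog := log4_pos hρ
    have hll := ll_ge X
    have hA0 : 0 ≤ C2' * D ^ 2 := by positivity
    have hA1 : 0 ≤ C3' * D ^ 3 := by positivity
    refine key X M ρ z (fun x => C1 X A x) _ 2 hM hz hρ (by positivity) ?_
    intro n hn ⟨x0, hx0, _⟩
    rw [Finset.mem_filter] at hx0
    unfold primesIn C1 at hx0
    rw [Finset.mem_filter] at hx0
    obtain ⟨⟨_, hxp, hxρ⟩, hp, hX⟩ := hx0
    have hx1 : 1 ≤ x0 := hxp.one_lt.le
    have hA1' : 1 ≤ A := by
      rcases Nat.eq_zero_or_pos A with h | h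
      · subst h
        simp at hp
        exact absurd hp Nat.not_prime_one
      · exact h
    have hAX : A ≤ X := by nlinarith
    have h4 := h2 A hA1' n hn
    have h5 : (((Finset.Ioc 0 n).filter (fun R => R.Prime ∧ C1 X A R)).card : ℝ)
        ≤ (((Finset.Ioc 0 n).filter (fun R => R.Prime ∧ (A * R + 1).Prime)).card : ℝ) := by
      have : (Finset.Ioc 0 n).filter (fun R => R.Prime ∧ C1 X A R)
          ⊆ (Finset.Ioc 0 n).filter (fun R => R.Prime ∧ (A * R + 1).Prime) := by
        intro R hR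
        rw [Finset.mem_filter] at hR ⊢
        refine ⟨hR.1, hR.2.1, ?_⟩
        rw [mul_comm A R]
        exact hR.2.2.1
      exact_mod_cast Finset.card_le_card this
    refine le_trans h5 (le_trans h4 ?_)
    apply mul_le_mul_of_nonneg_right _ (by positivity)
    have h6 := hr A (by omega)
    have h7 : Real.log (Real.log ((A : ℝ) + 10)) ≤ ll X := ll_mono hAX
    have h8 : (A : ℝ) / Nat.totient A ≤ D * ll X :=
      le_trans h6 (mul_le_mul_of_nonneg_left h7 hD.le)
    have h9 : ((A : ℝ) / Nat.totient A) ^ 2 ≤ (D * ll X) ^ 2 :=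
      pow_le_pow_left₀ (by positivity) h8 2
    have h10 : ll X ^ 2 * (4/5) ≤ ll X ^ 3 := by
      have : 0 ≤ ll X ^ 2 := by positivity
      nlinarith
    have h11 : C2' * ((A : ℝ) / Nat.totient A) ^ 2 ≤ C2' * D ^ 2 * ll X ^ 2 := by
      calc C2' * ((A : ℝ) / Nat.totient A) ^ 2 ≤ C2' * (D * ll X) ^ 2 :=
            mul_le_mul_of_nonneg_left h9 hC2.le
        _ = _ := by ring
    have h12 : 0 ≤ ll X ^ 3 := by positivity
    have h13 : 0 ≤ ll X ^ 2 := by positivity
    nlinarith
  · intro M A B ρ hM hAB hρ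
    have hlog := log4_pos hρ
    have hll := ll_ge X
    have hA0 : 0 ≤ C2' * D ^ 2 := by positivity
    have hA1 : 0 ≤ C3' * D ^ 3 := by positivity
    refine key X M ρ z (fun x => C1 X A x ∧ C1 X B x) _ 3 hM hz hρ (by positivity) ?_
    intro n hn ⟨x0, hx0, _⟩
    rw [Finset.mem_filter] at hx0
    unfold primesIn C1 at hx0
    rw [Finset.mem_filter] at hx0
    obtain ⟨⟨_, hxp, hxρ⟩, ⟨hp, hX⟩, ⟨hp', hX'⟩⟩ := hx0
    have hx1 : 1 ≤ x0 := hxp.one_lt.le
    have hA1' : 1 ≤ A := by
      rcases Nat.eq_zero_or_pos A with h | h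
      · subst h
        simp at hp
        exact absurd hp Nat.not_prime_one
      · exact h
    have hB1' : 1 ≤ B := by
      rcases Nat.eq_zero_or_pos B with h | h
      · subst h
        simp at hp'
        exact absurd hp' Nat.not_prime_one
      · exact h
    have hAX : A ≤ X := by nlinarith
    have hBX : B ≤ X := by nlinarith
    have h4 := h3 A B hA1' hB1' hAB n hn
    have h5 : (((Finset.Ioc 0 n).filter (fun R => R.Prime ∧ (C1 X A R ∧ C1 X B R))).card : ℝ)
        ≤ (((Finset.Ioc 0 n).filter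
          (fun R => R.Prime ∧ (A * R + 1).Prime ∧ (B * R + 1).Prime)).card : ℝ) := by
      have : (Finset.Ioc 0 n).filter (fun R => R.Prime ∧ (C1 X A R ∧ C1 X B R))
          ⊆ (Finset.Ioc 0 n).filter
            (fun R => R.Prime ∧ (A * R + 1).Prime ∧ (B * R + 1).Prime) := by
        intro R hR
        rw [Finset.mem_filter] at hR ⊢
        refine ⟨hR.1, hR.2.1, ?_, ?_⟩
        · rw [mul_comm A R]
          exact hR.2.2.1.1
        · rw [mul_comm B R]
          exact hR.2.2.2.1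
      exact_mod_cast Finset.card_le_card this
    refine le_trans h5 (le_trans h4 ?_)
    apply mul_le_mul_of_nonneg_right _ (by positivity)
    set E : ℕ := A * B * ((A : ℤ) - B).natAbs with hE
    have hne : ((A : ℤ) - B).natAbs ≠ 0 := by
      rw [Ne, Int.natAbs_eq_zero]
      omega
    have hE0 : E ≠ 0 := Nat.mul_ne_zero (Nat.mul_ne_zero (by omega) (by omega)) hne
    have hEX : E ≤ X ^ 3 := by
      have h6 : ((A : ℤ) - B).natAbs ≤ X := by omega
      calc E ≤ X * X * X := Nat.mul_le_mul (Nat.mul_le_mul hAX hBX) h6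
        _ = X ^ 3 := by ring
    have h6 := hr E hE0
    have h7 : Real.log (Real.log ((E : ℝ) + 10)) ≤ 3 * ll X := by
      have hX0 : (0:ℝ) ≤ (X : ℝ) := Nat.cast_nonneg _
      have h8 : (E : ℝ) + 10 ≤ ((X : ℝ) + 10) ^ 3 := by
        have : (E : ℝ) ≤ (X : ℝ) ^ 3 := by exact_mod_cast hEX
        nlinarith [pow_nonneg hX0 2, pow_nonneg hX0 3]
      have h9 : Real.log ((E : ℝ) + 10) ≤ 3 * Real.log ((X : ℝ) + 10) := by
        have := Real.log_le_log (by positivity) h8
        rw [Real.log_pow] at this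
        push_cast at this
        exact this
      have h10 : 0 < Real.log ((E : ℝ) + 10) :=
        Real.log_pos (by linarith [Nat.cast_nonneg (α := ℝ) E])
      have h11 : 0 < Real.log ((X : ℝ) + 10) := Real.log_pos (by linarith)
      have h12 := Real.log_le_log h10 h9
      rw [Real.log_mul (by norm_num) h11.ne'] at h12
      have h13 : Real.log 3 ≤ 1.1 := by
        rw [Real.log_le_iff_le_exp (by norm_num)]
        have h14 : Real.exp 1.1 = Real.exp 1 * Real.exp 0.1 := by
          rw [← Real.exp_add]; norm_num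
        have h15 := Real.exp_one_gt_d9
        have h16 : (1.1051 : ℝ) ≤ Real.exp 0.1 := by
          have := Real.sum_le_exp_of_nonneg (x := (0.1 : ℝ)) (by norm_num) 4
          refine le_trans ?_ this
          simp only [Finset.sum_range_succ, Finset.sum_range_zero, Nat.factorial]
          norm_num
        rw [h14]
        nlinarith
      have h17 : Real.log (Real.log ((X : ℝ) + 10)) = ll X := rfl
      rw [h17] at h12
      linarith
    have h8 : (E : ℝ) / Nat.totient E ≤ D * (3 * ll X) :=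
      le_trans h6 (mul_le_mul_of_nonneg_left h7 hD.le)
    have h9 : ((E : ℝ) / Nat.totient E) ^ 3 ≤ (D * (3 * ll X)) ^ 3 :=
      pow_le_pow_left₀ (by positivity) h8 3
    calc C3' * ((E : ℝ) / Nat.totient E) ^ 3 ≤ C3' * (D * (3 * ll X)) ^ 3 :=
          mul_le_mul_of_nonneg_left h9 hC3.le
      _ = (27 * C3' * D ^ 3) * ll X ^ 3 := by ring
      _ ≤ _ := by
          apply mul_le_mul_of_nonneg_right _ (by positivity)
          linarith

/-- plain instance: `W v = 1/v`, `κ = 1` -/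
theorem exists_sieve : ∃ C : ℝ, 2 ≤ C ∧ ∀ (X : ℕ) (ρt : ℝ),
    Sieve X 4 ρt (C * ll X ^ 3) 1 (fun v => 1 / (v : ℝ)) := by
  obtain ⟨C, hC, h⟩ := plain_sums
  refine ⟨C, hC, fun X ρt => ?_⟩
  have hll := ll_ge X
  have h3 : (64/125 : ℝ) ≤ ll X ^ 3 := by
    have := pow_le_pow_left₀ (by norm_num) hll 3
    norm_num at this
    linarith
  refine ⟨by norm_num, by nlinarith, by norm_num, fun v => by positivity, (h X).1, (h X).2, ?_, ?_⟩
  · intro M A ρ hM hρ _
    rw [one_mul]
    refine le_trans (le_of_eq ?_) ((h X).1 A ρ hρ)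
    apply Finset.sum_congr rfl
    intro x hx
    have hx0 : 0 < x := by
      unfold primesIn at hx
      rw [Finset.mem_filter, Finset.mem_filter] at hx
      exact hx.1.2.1.pos
    have hM' : (0:ℝ) < (M : ℝ) := by exact_mod_cast hM
    have hx' : (0:ℝ) < (x : ℝ) := by exact_mod_cast hx0
    push_cast
    field_simp
  · intro M A B ρ hM hAB hρ _
    rw [one_mul]
    refine le_trans (le_of_eq ?_) ((h X).2 A B ρ hAB hρ)
    apply Finset.sum_congr rfl
    intro x hx
    have hx0 : 0 < x := by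
      unfold primesIn at hx
      rw [Finset.mem_filter, Finset.mem_filter] at hx
      exact hx.1.2.1.pos
    have hM' : (0:ℝ) < (M : ℝ) := by exact_mod_cast hM
    have hx' : (0:ℝ) < (x : ℝ) := by exact_mod_cast hx0
    push_cast
    field_simp

/-- counting instance: `W v = [v ≤ z]/z`, `κ = 1/log ρt` -/
theorem exists_sieve_count : ∃ C : ℝ, 2 ≤ C ∧ ∀ (X : ℕ) (ρt z : ℝ), 4 ≤ ρt → 0 < z →
    Sieve X 4 ρt (C * ll X ^ 3) (1 / Real.log ρt)
      (fun v => if (v : ℝ) ≤ z then 1 / z else 0) := by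
  obtain ⟨C, hC, h⟩ := plain_sums
  obtain ⟨C', hC', h'⟩ := count_sums
  refine ⟨C + C', by linarith, fun X ρt z hρt hz => ?_⟩
  have hll := ll_ge X
  have h3 : (64/125 : ℝ) ≤ ll X ^ 3 := by
    have := pow_le_pow_left₀ (by norm_num) hll 3
    norm_num at this
    linarith
  have hlogt := log4_pos hρt
  refine ⟨by norm_num, by nlinarith, by positivity, fun v => by positivity, ?_, ?_, ?_, ?_⟩
  · intro A ρ hρ
    have := log4_pos hρ
    refine le_trans ((h X).1 A ρ hρ) ?_
    apply div_le_div_of_nonneg_right _ (by linarith)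
    nlinarith
  · intro A B ρ hAB hρ
    have := log4_pos hρ
    refine le_trans ((h X).2 A B ρ hAB hρ) ?_
    apply div_le_div_of_nonneg_right _ (by positivity)
    nlinarith
  · intro M A ρ hM hρ hρ'
    have h4 := log4_pos hρ
    refine le_trans ((h' X z hz).1 M A ρ hM hρ) ?_
    have h5 : Real.log ρt ≤ Real.log ρ := Real.log_le_log (by linarith) hρ'
    rw [div_mul_div_comm, one_mul]
    apply div_le_div₀ (by positivity)
    · nlinarith
    · positivity
    · nlinarith
  · intro M A B ρ hM hAB hρ hρ'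
    have h4 := log4_pos hρ
    refine le_trans ((h' X z hz).2 M A B ρ hM hAB hρ) ?_
    have h5 : Real.log ρt ≤ Real.log ρ := Real.log_le_log (by linarith) hρ'
    rw [div_mul_div_comm, one_mul]
    apply div_le_div₀ (by positivity)
    · nlinarith
    · positivity
    · have : 0 ≤ Real.log ρ ^ 2 := by positivity
      nlinarith

end Crest.Agent.R020.CollM
end

-- ▼ part R020/CollNet

/-!
Row 20, module (L), step S5: the matrix sum for a fixed profile (net exponent cell by cell).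
-/

set_option autoImplicit false

namespace Crest.Agent.R020.CollM

open Finset

/-- `#{a : i ≤ α a}` -/
def kp {s : ℕ} (α : Fin s → ℕ) (i : ℕ) : ℕ := (univ.filter (fun a => i ≤ α a)).card

theorem kp_le {s : ℕ} (α : Fin s → ℕ) (i : ℕ) : kp α i ≤ s := by
  unfold kp
  refine (card_filter_le _ _).trans ?_
  rw [card_univ, Fintype.card_fin]

theorem kp_eq_of_le {s : ℕ} {α : Fin s → ℕ} {i : ℕ} (h : ∀ a, i ≤ α a) : kp α i = s := by
  unfold kp
  rw [filter_true_of_mem (fun a _ => h a), card_univ, Fintype.card_fin]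

theorem kp_zero {s : ℕ} (α : Fin s → ℕ) : kp α 0 = s := kp_eq_of_le (fun _ => Nat.zero_le _)



theorem kp_sum {s : ℕ} (α : Fin s → ℕ) (i : ℕ) :
    (kp α i : ℝ) = ∑ a, (if i ≤ α a then (1:ℝ) else 0) := by
  unfold kp
  rw [card_filter]
  push_cast
  rfl

theorem sum_eq_kp {s : ℕ} (α : Fin s → ℕ) {J : ℕ} (h : ∀ a, α a < J) :
    ∑ a, (α a : ℝ) = ∑ i ∈ Ico 1 J, (kp α i : ℝ) := by
  have h1 : ∑ i ∈ Ico 1 J, (kp α i : ℝ) = ∑ i ∈ Ico 1 J, ∑ a, (if i ≤ α a then (1:ℝ) else 0) :=
    sum_congr rfl (fun i _ => kp_sum α i)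
  rw [h1, sum_comm]
  apply sum_congr rfl
  intro a _
  rw [← sum_filter, sum_const, nsmul_eq_mul, mul_one]
  have : (Ico 1 J).filter (fun i => i ≤ α a) = Ico 1 (α a + 1) := by
    ext i
    rw [mem_filter, mem_Ico, mem_Ico]
    have := h a
    omega
  rw [this, Nat.card_Ico]
  norm_num

/-! ### The weights -/

theorem st_mul (l : ℕ → ℝ) {a b : ℕ} (ha : a ≠ 0) (hb : b ≠ 0) :
    Coll.st l (a * b) = Coll.st l a + Coll.st l b := by
  unfold Coll.st
  rw [((Nat.perm_primeFactorsList_mul ha hb).map _).sum_eq, List.map_append, List.sum_append]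

theorem st_one (l : ℕ → ℝ) : Coll.st l 1 = 0 := by simp [Coll.st]

theorem st_prime (l : ℕ → ℝ) {p : ℕ} (hp : p.Prime) : Coll.st l p = l (Coll.cl p) := by
  simp [Coll.st, Nat.primeFactorsList_prime hp]

theorem GG_eq_exp (l : ℕ → ℝ) (n : ℕ) (hn : n ≠ 0) :
    GG (fun q => Real.exp (-(l (Coll.cl q)))) n = Real.exp (-(Coll.st l n)) := by
  induction n using Nat.recOnMul with
  | zero => exact absurd rfl hn
  | one => rw [GG_one, st_one, neg_zero, Real.exp_zero]
  | prime p hp => rw [GG_prime _ hp, st_prime l hp]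
  | mul a b iha ihb =>
    have ha : a ≠ 0 := left_ne_zero_of_mul hn
    have hb : b ≠ 0 := right_ne_zero_of_mul hn
    rw [GG_mul _ ha hb, iha ha, ihb hb, st_mul l ha hb, ← Real.exp_add]
    congr 1
    ring

theorem GG_prod {ι : Type*} (g : ℕ → ℝ) (S : Finset ι) (h : ι → ℕ) (hh : ∀ i ∈ S, h i ≠ 0) :
    GG g (∏ i ∈ S, h i) = ∏ i ∈ S, GG g (h i) := by
  classical
  induction S using Finset.induction_on with
  | empty => simp [GG_one]
  | insert a S ha ih =>
    rw [prod_insert ha, prod_insert ha, GG_mul, ih (fun i hi => hh i (mem_insert_of_mem hi))]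
    · exact hh a (mem_insert_self _ _)
    · exact prod_ne_zero_iff.mpr (fun i hi => hh i (mem_insert_of_mem hi))

theorem GG_vp {s t : ℕ} (g : ℕ → ℝ) (m : Mat s t) (hm : ∀ i j, 0 < m i j) :
    ∏ i, ∏ j, GG g (m i j) = GG g (vp m) := by
  unfold vp
  rw [GG_prod g univ _ (fun i _ => prod_ne_zero_iff.mpr (fun j _ => (hm i j).ne'))]
  apply prod_congr rfl
  intro i _
  rw [GG_prod g univ _ (fun j _ => (hm i j).ne')]

theorem ell_nonneg (w : ℕ) (k : ℕ → ℕ) (i : ℕ) : 0 ≤ Coll.ell w k i := by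
  unfold Coll.ell
  split_ifs
  · apply Real.log_nonneg
    have : (0:ℝ) ≤ (k 0 : ℝ) := Nat.cast_nonneg _
    linarith
  · exact Real.log_nonneg (le_max_left _ _)

/-! ### The cell sums -/

/-- `∑_{q in cell i} 1/(q-1)` -/
noncomputable def cc1 (i : ℕ) : ℝ := ∑ q ∈ LS.CL i, 1 / ((q : ℝ) - 1)

theorem cc1_nonneg (i : ℕ) : 0 ≤ cc1 i := by
  unfold cc1
  apply sum_nonneg
  intro q hq
  have h := (LS.mem_CL.mp hq).1.two_le
  have h' : (2:ℝ) ≤ (q : ℝ) := by exact_mod_cast h
  have : 0 < (q : ℝ) - 1 := by linarith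
  positivity

theorem cc1_le (i : ℕ) : cc1 i ≤ 1 + 56 * Real.exp (-(i : ℝ)) := by
  have h1 := LS.sum_inv_CL i
  have he0 : 0 < Real.exp (-(i : ℝ)) := Real.exp_pos _
  have he1 : Real.exp (-(i : ℝ)) ≤ 1 := by
    rw [Real.exp_le_one_iff]
    have : (0:ℝ) ≤ (i : ℝ) := Nat.cast_nonneg _
    linarith
  have h2 : cc1 i ≤ ∑ q ∈ LS.CL i, ((1 + 2 * Real.exp (-(i : ℝ))) * ((1 : ℝ) / q)) := by
    unfold cc1
    apply sum_le_sum
    intro q hq
    obtain ⟨hqp, hqc⟩ := LS.mem_CL.mp hq
    have h' : (2:ℝ) ≤ (q : ℝ) := by exact_mod_cast hqp.two_le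
    have hq1 : 0 < (q : ℝ) - 1 := by linarith
    have hqe : Real.exp (i : ℝ) ≤ (q : ℝ) := by
      rcases Nat.eq_zero_or_pos i with h | h
      · rw [h]; simp; exact hqp.one_lt.le
      · have h3 : (i : ℝ) < yy q := by
          have := LS.cl_lt_yy (p := q) (by omega)
          rwa [hqc] at this
        have h4 := (LS.lt_yy_iff (p := q) (U := (i:ℝ)) (Nat.cast_nonneg _)).mp h3
        have h5 : (i : ℝ) ≤ Real.exp (i : ℝ) := by
          have := Real.add_one_le_exp (i : ℝ)
          linarith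
        exact (Real.exp_le_exp.mpr h5).trans h4.le
    have h6 : 1 / (q : ℝ) ≤ Real.exp (-(i : ℝ)) := by
      rw [Real.exp_neg, one_div]
      exact inv_anti₀ (Real.exp_pos _) hqe
    have h7 : 1 / ((q : ℝ) - 1) = 1 / q + (1 / ((q : ℝ) - 1)) * (1 / q) := by
      field_simp
      ring
    have h8 : 1 / ((q : ℝ) - 1) ≤ 2 * (1 / q) := by
      rw [mul_one_div, div_le_div_iff₀ hq1 (by linarith)]
      linarith
    have h9 : 0 ≤ 1 / (q : ℝ) := by positivity
    rw [h7]
    nlinarith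
  rw [← mul_sum] at h2
  have h3 : (1 + 2 * Real.exp (-(i : ℝ))) * ∑ q ∈ LS.CL i, ((1 : ℝ) / q)
      ≤ (1 + 2 * Real.exp (-(i : ℝ))) * (1 + 18 * Real.exp (-(i : ℝ))) :=
    mul_le_mul_of_nonneg_left h1 (by positivity)
  nlinarith

/-! ### Elementary inequalities -/

theorem log_le_aux {K x : ℝ} (hK : 0 < K) (hx : 0 < x) :
    K * Real.log x - x ≤ K * Real.log K - K := by
  have h1 : Real.log (x / K) ≤ x / K - 1 := Real.log_le_sub_one_of_pos (by positivity)
  rw [Real.log_div hx.ne' hK.ne'] at h1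
  have h2 : K * (Real.log x - Real.log K) ≤ K * (x / K - 1) := mul_le_mul_of_nonneg_left h1 hK.le
  have h3 : K * (x / K - 1) = x - K := by field_simp
  nlinarith

theorem net_low {K T : ℕ} :
    (K : ℝ) * Real.log ((T : ℝ) + 1) - K - T + (K + 1) ≤ K * Real.log K - K + 2 := by
  rcases Nat.eq_zero_or_pos K with h | h
  · subst h
    have : (0:ℝ) ≤ (T:ℝ) := Nat.cast_nonneg _
    simp
    linarith
  · have hK : (0:ℝ) < (K : ℝ) := by exact_mod_cast h
    have := log_le_aux hK (x := (T : ℝ) + 1) (by positivity)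
    linarith

theorem net_high {K T : ℕ} :
    (K : ℝ) * Real.log (max 1 (T : ℝ)) - K - T + (if T = 0 then 0 else (K : ℝ))
      ≤ K * Real.log K - K := by
  have hKn : 0 ≤ (K : ℝ) * Real.log K := by
    rcases Nat.eq_zero_or_pos K with h | h
    · subst h; simp
    · have : (1:ℝ) ≤ (K : ℝ) := by exact_mod_cast h
      exact mul_nonneg (by linarith) (Real.log_nonneg this)
  rcases Nat.eq_zero_or_pos T with h | h
  · subst h
    simp
    exact hKn
  · have hT : (1:ℝ) ≤ (T : ℝ) := by exact_mod_cast h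
    rw [if_neg h.ne', max_eq_right hT]
    rcases Nat.eq_zero_or_pos K with h' | h'
    · subst h'
      simp
    · have hK : (0:ℝ) < (K : ℝ) := by exact_mod_cast h'
      have := log_le_aux hK (x := (T : ℝ)) (by linarith)
      linarith


/-! ### The allowed primes -/

/-- exclusive upper bound for the cells of the primes dividing the entry `(i,j)` -/
def lim {s t : ℕ} (w : ℕ) (α : Fin s → ℕ) (β : Fin t → ℕ) :
    Option (Fin s) → Option (Fin t) → ℕ
  | some a, some b => min (α a) (β b) + 1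
  | _, _ => w

/-- primes of cell `< k` -/
noncomputable def PC (k : ℕ) : Finset ℕ := (range k).biUnion LS.CL

theorem mem_PC {k q : ℕ} : q ∈ PC k ↔ q.Prime ∧ Coll.cl q < k := by
  unfold PC
  rw [mem_biUnion]
  constructor
  · rintro ⟨i, hi, hq⟩
    obtain ⟨h1, h2⟩ := LS.mem_CL.mp hq
    refine ⟨h1, ?_⟩
    have : Coll.cl q = i := h2
    rw [this]
    exact mem_range.mp hi
  · rintro ⟨h1, h2⟩
    exact ⟨Coll.cl q, mem_range.mpr h2, LS.mem_CL.mpr ⟨h1, rfl⟩⟩

theorem sum_PC (f : ℕ → ℝ) (k : ℕ) :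
    ∑ q ∈ PC k, f (Coll.cl q) / ((q : ℝ) - 1) = ∑ i ∈ range k, f i * cc1 i := by
  unfold PC
  rw [sum_biUnion]
  · apply sum_congr rfl
    intro i _
    unfold cc1
    rw [mul_sum]
    apply sum_congr rfl
    intro q hq
    have : Coll.cl q = i := (LS.mem_CL.mp hq).2
    rw [this]
    ring
  · intro i _ j _ hij
    rw [Function.onFun, Finset.disjoint_left]
    intro q hq hq'
    exact hij ((LS.mem_CL.mp hq).2.symm.trans (LS.mem_CL.mp hq').2)

theorem sum_lim_high {s t w : ℕ} (α : Fin s → ℕ) (β : Fin t → ℕ) {k : ℕ} (hk : w ≤ k) :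
    ∑ i, ∑ j, (if k < lim w α β i j then (1:ℝ) else 0) = (kp α k : ℝ) * kp β k := by
  have h1 : ¬ k < w := by omega
  rw [Fintype.sum_option]
  have h2 : ∀ j : Option (Fin t), (if k < lim w α β none j then (1:ℝ) else 0) = 0 := by
    intro j
    exact if_neg h1
  rw [sum_congr rfl (fun j _ => h2 j), sum_const_zero, zero_add]
  have h3 : ∀ a : Fin s, ∑ j, (if k < lim w α β (some a) j then (1:ℝ) else 0)
      = ∑ b : Fin t, (if k ≤ α a then (1:ℝ) else 0) * (if k ≤ β b then (1:ℝ) else 0) := by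
    intro a
    rw [Fintype.sum_option]
    have h4 : (if k < lim w α β (some a) none then (1:ℝ) else 0) = 0 := if_neg h1
    rw [h4, zero_add]
    apply sum_congr rfl
    intro b _
    have h5 : lim w α β (some a) (some b) = min (α a) (β b) + 1 := rfl
    rw [h5]
    by_cases ha : k ≤ α a <;> by_cases hb : k ≤ β b
    · rw [if_pos (by omega), if_pos ha, if_pos hb, mul_one]
    · rw [if_neg (by omega), if_neg hb, mul_zero]
    · rw [if_neg (by omega), if_neg ha, zero_mul]
    · rw [if_neg (by omega), if_neg ha, zero_mul]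
  rw [sum_congr rfl (fun a _ => h3 a), kp_sum, kp_sum, sum_mul_sum]

theorem sum_lim_low {s t w : ℕ} (α : Fin s → ℕ) (β : Fin t → ℕ) (k : ℕ) :
    ∑ i, ∑ j, (if k < lim w α β i j then (1:ℝ) else 0) ≤ ((s : ℝ) + 1) * (t + 1) := by
  have h1 : ∑ i, ∑ j, (if k < lim w α β i j then (1:ℝ) else 0)
      ≤ ∑ _i : Option (Fin s), ∑ _j : Option (Fin t), (1:ℝ) := by
    apply sum_le_sum
    intro i _
    apply sum_le_sum
    intro j _
    split_ifs <;> norm_num
  refine h1.trans (le_of_eq ?_)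
  simp [Fintype.card_option]
  ring

/-- the exponent of the Euler products -/
theorem sum_cells_le {s t w J : ℕ} (hs : 0 < s) (α : Fin s → ℕ) (β : Fin t → ℕ)
    (hα : ∀ a, w ≤ α a ∧ α a < J) :
    ∑ i, ∑ j, ∑ q ∈ PC (lim w α β i j), Real.exp (-(Coll.ell w (kp β) (Coll.cl q))) / ((q:ℝ) - 1)
      ≤ ∑ k ∈ range J, (if k < w then ((s : ℝ) + 1) else if kp β k = 0 then 0 else (kp α k : ℝ))
        + 112 * ((s : ℝ) + 1) := by
  have hwJ : w < J := by
    have := hα ⟨0, hs⟩
    omega
  have hlimJ : ∀ i j, lim w α β i j ≤ J := by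
    intro i j
    rcases i with _ | a
    · exact hwJ.le
    · rcases j with _ | b
      · exact hwJ.le
      · show min (α a) (β b) + 1 ≤ J
        have := hα a
        omega
  set f : ℕ → ℝ := fun i => Real.exp (-(Coll.ell w (kp β) i)) with hf
  have hf0 : ∀ i, 0 ≤ f i := fun i => (Real.exp_pos _).le
  have h1 : ∑ i, ∑ j, ∑ q ∈ PC (lim w α β i j), f (Coll.cl q) / ((q:ℝ) - 1)
      = ∑ k ∈ range J, (f k * cc1 k) * ∑ i, ∑ j, (if k < lim w α β i j then (1:ℝ) else 0) := by
    have h2 : ∀ i j, ∑ q ∈ PC (lim w α β i j), f (Coll.cl q) / ((q:ℝ) - 1)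
        = ∑ k ∈ range J, (f k * cc1 k) * (if k < lim w α β i j then (1:ℝ) else 0) := by
      intro i j
      rw [sum_PC]
      rw [← sum_filter_add_sum_filter_not (range J) (fun k => k < lim w α β i j)]
      have e1 : (range J).filter (fun k => k < lim w α β i j) = range (lim w α β i j) := by
        ext k
        rw [mem_filter, mem_range, mem_range]
        have := hlimJ i j
        omega
      have e2 : ∑ x ∈ (range J).filter (fun k => ¬ k < lim w α β i j),
          (f x * cc1 x) * (if x < lim w α β i j then (1:ℝ) else 0) = 0 := by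
        apply sum_eq_zero
        intro x hx
        rw [if_neg (mem_filter.mp hx).2, mul_zero]
      rw [e2, add_zero, e1]
      apply sum_congr rfl
      intro x hx
      rw [if_pos (mem_range.mp hx), mul_one]
    rw [sum_congr rfl (fun i _ => sum_congr rfl (fun j _ => h2 i j))]
    have h3 : ∀ i, ∑ j, ∑ k ∈ range J, (f k * cc1 k) * (if k < lim w α β i j then (1:ℝ) else 0)
        = ∑ k ∈ range J, ∑ j, (f k * cc1 k) * (if k < lim w α β i j then (1:ℝ) else 0) :=
      fun i => sum_comm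
    rw [sum_congr rfl (fun i _ => h3 i), sum_comm]
    apply sum_congr rfl
    intro k _
    rw [mul_sum]
    apply sum_congr rfl
    intro i _
    rw [mul_sum]
  rw [h1]
  have hbase : ∀ k ∈ range J, (f k * cc1 k) * ∑ i, ∑ j, (if k < lim w α β i j then (1:ℝ) else 0)
      ≤ (if k < w then ((s : ℝ) + 1) else if kp β k = 0 then 0 else (kp α k : ℝ))
        + (56 * ((s : ℝ) + 1)) * Real.exp (-(k : ℝ)) := by
    intro k _
    have hc0 := cc1_nonneg k
    have hc1 := cc1_le k
    have he0 := Real.exp_pos (-(k : ℝ))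
    have hs0 : (0:ℝ) ≤ (s : ℝ) := Nat.cast_nonneg _
    by_cases hkw : k < w
    · rw [if_pos hkw]
      have hfk : f k = 1 / ((t : ℝ) + 1) := by
        rw [hf]
        simp only
        unfold Coll.ell
        rw [if_pos hkw, kp_zero, Real.exp_neg, Real.exp_log (by positivity), one_div]
      have h4 := sum_lim_low (w := w) α β k
      have h5 : (f k * cc1 k) * ∑ i, ∑ j, (if k < lim w α β i j then (1:ℝ) else 0)
          ≤ (f k * cc1 k) * (((s : ℝ) + 1) * (t + 1)) :=
        mul_le_mul_of_nonneg_left h4 (mul_nonneg (hf0 k) hc0)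
      have h6 : (f k * cc1 k) * (((s : ℝ) + 1) * (t + 1)) = ((s : ℝ) + 1) * cc1 k := by
        rw [hfk]
        field_simp
      rw [h6] at h5
      have h7 : ((s : ℝ) + 1) * cc1 k ≤ ((s : ℝ) + 1) * (1 + 56 * Real.exp (-(k : ℝ))) :=
        mul_le_mul_of_nonneg_left hc1 (by positivity)
      linarith
    · rw [if_neg hkw, sum_lim_high α β (not_lt.mp hkw)]
      have hKs : (kp α k : ℝ) ≤ s := by exact_mod_cast kp_le α k
      have hK0 : (0:ℝ) ≤ (kp α k : ℝ) := Nat.cast_nonneg _
      by_cases h0 : kp β k = 0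
      · rw [if_pos h0, h0]
        simp only [Nat.cast_zero, mul_zero, zero_add]
        positivity
      · rw [if_neg h0]
        have hT : (1:ℝ) ≤ (kp β k : ℝ) := by exact_mod_cast Nat.one_le_iff_ne_zero.mpr h0
        have hfk : f k = 1 / (kp β k : ℝ) := by
          rw [hf]
          simp only
          unfold Coll.ell
          rw [if_neg hkw, max_eq_right hT, Real.exp_neg, Real.exp_log (by linarith), one_div]
        have h6 : (f k * cc1 k) * ((kp α k : ℝ) * kp β k) = (kp α k : ℝ) * cc1 k := by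
          rw [hfk]
          field_simp
        rw [h6]
        have h7 : (kp α k : ℝ) * cc1 k ≤ (kp α k : ℝ) * (1 + 56 * Real.exp (-(k : ℝ))) :=
          mul_le_mul_of_nonneg_left hc1 hK0
        nlinarith
  refine (sum_le_sum hbase).trans ?_
  rw [sum_add_distrib, ← mul_sum]
  have h8 := LS.sum_exp_neg_le J
  have h9 : (56 * ((s : ℝ) + 1)) * ∑ i ∈ range J, Real.exp (-(i : ℝ)) ≤ (56 * ((s : ℝ) + 1)) * 2 :=
    mul_le_mul_of_nonneg_left h8 (by positivity)
  linarith

/-- the net exponent -/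
theorem net_exponent {s t w J : ℕ} (hs : 0 < s) (α : Fin s → ℕ) (β : Fin t → ℕ)
    (hα : ∀ a, w ≤ α a ∧ α a < J) (hβ : ∀ b, w ≤ β b ∧ β b < J) :
    ∑ i ∈ range J, (kp α i : ℝ) * Coll.ell w (kp β) i
      - ∑ a, (α a : ℝ) - ∑ b, (β b : ℝ)
      + ∑ k ∈ range J, (if k < w then ((s : ℝ) + 1) else if kp β k = 0 then 0 else (kp α k : ℝ))
      ≤ ∑ i ∈ Ico 1 J, ((kp α i : ℝ) * Real.log (kp α i) - kp α i) + 2 * w
        + (s * Real.log ((t : ℝ) + 1) + s + 1) := by
  have hwJ : w < J := by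
    have := hα ⟨0, hs⟩
    omega
  have hJ : 0 < J := by omega
  rw [sum_eq_kp α (fun a => (hα a).2), sum_eq_kp β (fun b => (hβ b).2)]
  have hr : ∀ F : ℕ → ℝ, ∑ i ∈ range J, F i = F 0 + ∑ i ∈ Ico 1 J, F i := by
    intro F
    rw [range_eq_Ico, sum_eq_sum_Ico_succ_bot hJ]
  rw [hr, hr]
  have h0 : (kp α 0 : ℝ) * Coll.ell w (kp β) 0
      + (if 0 < w then ((s : ℝ) + 1) else if kp β 0 = 0 then 0 else (kp α 0 : ℝ))
      ≤ s * Real.log ((t : ℝ) + 1) + s + 1 := by
    rw [kp_zero, kp_zero]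
    have hs0 : (0:ℝ) ≤ (s : ℝ) := Nat.cast_nonneg _
    have ht0 : (0:ℝ) ≤ (t : ℝ) := Nat.cast_nonneg _
    unfold Coll.ell
    rw [kp_zero]
    by_cases hw : 0 < w
    · rw [if_pos hw, if_pos hw]
      linarith
    · rw [if_neg hw, if_neg hw]
      have h1 : Real.log (max 1 (t : ℝ)) ≤ Real.log ((t : ℝ) + 1) := by
        apply Real.log_le_log (by positivity)
        exact max_le (by linarith) (by linarith)
      have h2 := mul_le_mul_of_nonneg_left h1 hs0
      split_ifs <;> linarith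
  have h1 : ∑ i ∈ Ico 1 J, ((kp α i : ℝ) * Coll.ell w (kp β) i - kp α i - kp β i
      + (if i < w then ((s : ℝ) + 1) else if kp β i = 0 then 0 else (kp α i : ℝ)))
      ≤ ∑ i ∈ Ico 1 J, (((kp α i : ℝ) * Real.log (kp α i) - kp α i) + (if i < w then 2 else 0)) := by
    apply sum_le_sum
    intro i _
    by_cases hiw : i < w
    · have e1 : kp α i = s := kp_eq_of_le (fun a => hiw.le.trans (hα a).1)
      have e2 : kp β i = t := kp_eq_of_le (fun b => hiw.le.trans (hβ b).1)
      unfold Coll.ell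
      rw [if_pos hiw, if_pos hiw, if_pos hiw, e1, e2, kp_zero]
      have := net_low (K := s) (T := t)
      linarith
    · unfold Coll.ell
      rw [if_neg hiw, if_neg hiw, if_neg hiw, add_zero]
      exact net_high
  rw [sum_add_distrib, sum_sub_distrib, sum_sub_distrib, sum_add_distrib] at h1
  have h2 : ∑ i ∈ Ico 1 J, (if i < w then (2:ℝ) else 0) ≤ 2 * w := by
    rw [← sum_filter, sum_const, nsmul_eq_mul]
    have h3 : ((Ico 1 J).filter (fun i => i < w)).card ≤ w := by
      have : (Ico 1 J).filter (fun i => i < w) ⊆ range w := by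
        intro i hi
        rw [mem_filter] at hi
        exact mem_range.mpr hi.2
      have := card_le_card this
      rwa [card_range] at this
    have h3' : (((Ico 1 J).filter (fun i => i < w)).card : ℝ) ≤ w := by exact_mod_cast h3
    linarith
  linarith


/-! ### Crude factors -/

theorem card_le {s t N : ℕ} {Y : ℝ} (hN : (N : ℝ) ≤ Y) (hs : s ≤ N) (ht : t ≤ N) (hY : 2 ≤ Y) :
    (Fintype.card (Str s t) : ℝ) ≤ Real.exp (7 * N * Real.log Y) := by
  have hY0 : 0 < Y := by linarith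
  have h0 : Real.exp (7 * N * Real.log Y) = Y ^ (7 * N) := by
    rw [← Real.rpow_natCast, Real.rpow_def_of_pos hY0]
    congr 1
    push_cast
    ring
  rw [h0]
  have hc : (Fintype.card (Str s t) : ℝ) ≤ (t : ℝ) ^ s * ((s : ℝ) ^ t * (2 ^ s * ((s + t).factorial : ℝ))) := by
    exact_mod_cast card_Str s t
  refine hc.trans ?_
  have hsY : (s : ℝ) ≤ Y := le_trans (by exact_mod_cast hs) hN
  have htY : (t : ℝ) ≤ Y := le_trans (by exact_mod_cast ht) hN
  have h1 : (t : ℝ) ^ s ≤ Y ^ N :=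
    (pow_le_pow_left₀ (Nat.cast_nonneg _) htY s).trans (pow_le_pow_right₀ (by linarith) hs)
  have h2 : (s : ℝ) ^ t ≤ Y ^ N :=
    (pow_le_pow_left₀ (Nat.cast_nonneg _) hsY t).trans (pow_le_pow_right₀ (by linarith) ht)
  have h3 : (2 : ℝ) ^ s ≤ Y ^ N :=
    (pow_le_pow_left₀ (by norm_num) hY s).trans (pow_le_pow_right₀ (by linarith) hs)
  have h4 : ((s + t).factorial : ℝ) ≤ Y ^ (4 * N) := by
    have e1 : ((s + t).factorial : ℝ) ≤ ((s + t : ℕ) : ℝ) ^ (s + t) := by
      exact_mod_cast Nat.factorial_le_pow (s + t)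
    have e2 : ((s + t : ℕ) : ℝ) ≤ Y ^ 2 := by
      push_cast
      nlinarith
    calc ((s + t).factorial : ℝ) ≤ ((s + t : ℕ) : ℝ) ^ (s + t) := e1
      _ ≤ (Y ^ 2) ^ (s + t) := pow_le_pow_left₀ (Nat.cast_nonneg _) e2 _
      _ = Y ^ (2 * (s + t)) := by rw [← pow_mul]
      _ ≤ Y ^ (4 * N) := pow_le_pow_right₀ (by linarith) (by omega)
  have e7 : Y ^ (7 * N) = Y ^ N * (Y ^ N * (Y ^ N * Y ^ (4 * N))) := by
    rw [← pow_add, ← pow_add, ← pow_add]
    congr 1
    ring
  rw [e7]
  have p0 : 0 ≤ Y ^ N := by positivity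
  apply mul_le_mul h1 _ (by positivity) p0
  apply mul_le_mul h2 _ (by positivity) p0
  exact mul_le_mul h3 h4 (by positivity) p0

theorem exp_sqrt_large {Y : ℝ} (hY : 10000 ≤ Y) : 80 * Y ≤ Real.exp (⌊Real.sqrt Y⌋₊ : ℝ) := by
  set u := Real.sqrt Y with hu
  have hY0 : 0 ≤ Y := by linarith
  have hu2 : u ^ 2 = Y := Real.sq_sqrt hY0
  have hu100 : 100 ≤ u := by
    rw [hu, Real.le_sqrt' (by norm_num)]
    linarith
  have hfl : u - 1 ≤ (⌊u⌋₊ : ℝ) := by
    have := Nat.lt_floor_add_one u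
    linarith
  have h1 : Real.exp (u - 1) ≤ Real.exp (⌊u⌋₊ : ℝ) := Real.exp_le_exp.mpr hfl
  refine le_trans ?_ h1
  have h2 := Real.pow_div_factorial_le_exp (u - 1) (by linarith) 4
  refine le_trans ?_ h2
  have h3 : ((Nat.factorial 4 : ℕ) : ℝ) = 24 := by norm_num [Nat.factorial]
  rw [h3, ← hu2, le_div_iff₀ (by norm_num)]
  have h4 : 44 * u ≤ (u - 1) ^ 2 := by nlinarith
  have h5 : (44 * u) ^ 2 ≤ ((u - 1) ^ 2) ^ 2 := pow_le_pow_left₀ (by linarith) h4 2
  nlinarith

theorem prod_log_le {s N : ℕ} {Y : ℝ} (hY : 10000 ≤ Y) (hs : s ≤ N) {α : Fin s → ℕ}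
    {r : Fin s → ℝ} (hr : ∀ a, Real.exp (Real.exp (α a) / (40 * Y)) ≤ r a) :
    ∏ a, (1 / Real.log (r a)) ≤ Real.exp (2 * N * Real.log Y - ∑ a, (α a : ℝ)) := by
  have hY0 : 0 < Y := by linarith
  have hlY : 0 ≤ Real.log Y := Real.log_nonneg (by linarith)
  have h1 : ∀ a, 1 / Real.log (r a) ≤ Real.exp (2 * Real.log Y - α a) := by
    intro a
    have h2 : Real.exp (α a) / (40 * Y) ≤ Real.log (r a) := by
      rw [Real.le_log_iff_exp_le (lt_of_lt_of_le (Real.exp_pos _) (hr a))]
      exact hr a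
    have h3 : 0 < Real.exp (α a) / (40 * Y) := by positivity
    refine (one_div_le_one_div_of_le h3 h2).trans ?_
    rw [one_div, inv_div, Real.exp_sub]
    apply div_le_div_of_nonneg_right _ (Real.exp_pos _).le
    have h4 : Real.exp (2 * Real.log Y) = Y ^ 2 := by
      rw [← Real.rpow_natCast, Real.rpow_def_of_pos hY0]
      congr 1
      push_cast
      ring
    rw [h4]
    nlinarith
  have h0 : ∀ a, 0 ≤ 1 / Real.log (r a) := by
    intro a
    have h2 : Real.exp (α a) / (40 * Y) ≤ Real.log (r a) := by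
      rw [Real.le_log_iff_exp_le (lt_of_lt_of_le (Real.exp_pos _) (hr a))]
      exact hr a
    have h3 : 0 < Real.exp (α a) / (40 * Y) := by positivity
    have : 0 < Real.log (r a) := lt_of_lt_of_le h3 h2
    positivity
  refine (prod_le_prod (fun a _ => h0 a) (fun a _ => h1 a)).trans ?_
  rw [← Real.exp_sum, sum_sub_distrib, sum_const, card_univ, Fintype.card_fin, nsmul_eq_mul]
  apply Real.exp_le_exp.mpr
  have h5 : (s : ℝ) ≤ N := by exact_mod_cast hs
  have : (s : ℝ) * (2 * Real.log Y) ≤ N * (2 * Real.log Y) :=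
    mul_le_mul_of_nonneg_right h5 (by linarith)
  linarith

theorem four_le_exp_two : (4:ℝ) ≤ Real.exp 2 := by
  have h := Real.exp_one_gt_d9
  have h2 : Real.exp 2 = Real.exp 1 * Real.exp 1 := by rw [← Real.exp_add]; norm_num
  rw [h2]
  nlinarith

/-- conditions on a factor matrix for the profile `(α, β)` -/
structure MOk {s t : ℕ} (w X J : ℕ) (r : Fin s → ℝ) (r' : Fin t → ℝ) (α : Fin s → ℕ)
    (β : Fin t → ℕ) (F : ℝ) (m : Mat s t) : Prop where
  good : Good X r r' m
  rowC : ∀ a, Coll.cl (rowp m a + 1) ≤ α a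
  colC : ∀ b, Coll.cl (colp m b + 1) ≤ β b
  smallR : ∀ i (q : ℕ), q.Prime → q ∣ m i none → yy q ≤ w
  smallC : ∀ j (q : ℕ), q.Prime → q ∣ m none j → yy q ≤ w
  stat : Coll.st (Coll.ell w (kp β)) (vp m)
    ≤ ∑ i ∈ range J, (kp α i : ℝ) * Coll.ell w (kp β) i + F

/-- S5, general weight `W`, fixed profile. -/
theorem net (C1 : ℕ) {Y : ℝ} (hY : 10000 ≤ Y) {N J s t X : ℕ} {α : Fin s → ℕ} {β : Fin t → ℕ}
    (hN : (N : ℝ) ≤ Y) (hsN : s ≤ N) (htN : t ≤ N)
    (hα : ∀ a, ⌊Real.sqrt Y⌋₊ ≤ α a ∧ α a < J) (hβ : ∀ b, ⌊Real.sqrt Y⌋₊ ≤ β b ∧ β b < J)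
    {r : Fin s → ℝ} {r' : Fin t → ℝ} {ρt L κ : ℝ} {W : ℕ → ℝ}
    (hS : Sieve X 4 ρt L κ W) (hL : L ≤ Y ^ C1)
    (hr : ∀ a, Real.exp (Real.exp (α a) / (40 * Y)) ≤ r a)
    (hr' : ∀ b, Real.exp (Real.exp (β b) / (40 * Y)) ≤ r' b)
    (i0 : Fin s) (htop : ρt ≤ r i0) {F : ℝ} (MM : Finset (Mat s t))
    (hMM : ∀ m ∈ MM, MOk ⌊Real.sqrt Y⌋₊ X J r r' α β F m) :
    ∑ m ∈ MM, W (vp m) ≤ κ * Real.exp (∑ i ∈ Ico 1 J, ((kp α i : ℝ) * Real.log (kp α i) - kp α i)
      + F + 2 * ⌊Real.sqrt Y⌋₊ + (2 * C1 + 130) * ((N : ℝ) + 1) * Real.log Y) := by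
  set w := ⌊Real.sqrt Y⌋₊ with hw
  have hY0 : 0 < Y := by linarith
  have hs0 : 0 < s := i0.pos
  have hlog1 : 1 ≤ Real.log Y := by
    rw [Real.le_log_iff_exp_le hY0]
    have := Real.exp_one_lt_d9
    linarith
  have hw1 : 1 ≤ w := by
    rw [hw, Nat.one_le_floor_iff, Real.one_le_sqrt]
    linarith
  have hexpw : 80 * Y ≤ Real.exp (w : ℝ) := exp_sqrt_large hY
  have h4 : ∀ k : ℕ, w ≤ k → 4 ≤ Real.exp (Real.exp (k : ℝ) / (40 * Y)) := by
    intro k hk
    refine four_le_exp_two.trans (Real.exp_le_exp.mpr ?_)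
    rw [le_div_iff₀ (by positivity)]
    have h5 : Real.exp (w : ℝ) ≤ Real.exp (k : ℝ) := Real.exp_le_exp.mpr (by exact_mod_cast hk)
    linarith
  have hr4 : ∀ a, 4 ≤ r a := fun a => (h4 _ (hα a).1).trans (hr a)
  have hr4' : ∀ b, 4 ≤ r' b := fun b => (h4 _ (hβ b).1).trans (hr' b)
  set l := Coll.ell w (kp β) with hl
  set g : ℕ → ℝ := fun q => Real.exp (-(l (Coll.cl q))) with hg
  have hg0 : ∀ q, 0 ≤ g q := fun q => (Real.exp_pos _).le
  have hg1 : ∀ q, g q ≤ 1 := by
    intro q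
    rw [hg]
    simp only
    rw [Real.exp_le_one_iff]
    have := ell_nonneg w (kp β) (Coll.cl q)
    linarith
  set S := ∑ i ∈ range J, (kp α i : ℝ) * l i with hSdef
  have hmain := coll_bound hS hr4 hr4' i0 htop MM (fun m hm => (hMM m hm).good) hg0 hg1
    (Z := Real.exp (-(S + F))) (Real.exp_pos _) (fun i j => PC (lim w α β i j))
    (fun i j q hq => (mem_PC.mp hq).1)
    (by
      intro m hm i j q hq hqm
      rw [mem_PC]
      refine ⟨hq, ?_⟩
      have hO := hMM m hm
      have hsmall : yy q ≤ w → Coll.cl q < w := by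
        intro h
        unfold Coll.cl
        have := Nat.ceil_le.mpr h
        omega
      rcases i with _ | a
      · exact hsmall (hO.smallC j q hq hqm)
      · rcases j with _ | b
        · exact hsmall (hO.smallR (some a) q hq hqm)
        · show Coll.cl q < min (α a) (β b) + 1
          have h6 : Coll.cl q ≤ α a := by
            refine le_trans ?_ (hO.rowC a)
            apply LS.cl_mono
            have := Nat.le_of_dvd (hO.good.rowp_pos a) (hqm.trans (dvd_rowp m a (some b)))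
            omega
          have h7 : Coll.cl q ≤ β b := by
            refine le_trans ?_ (hO.colC b)
            apply LS.cl_mono
            have := Nat.le_of_dvd (hO.good.colp_pos b) (hqm.trans (dvd_colp m (some a) b))
            omega
          omega)
    (by
      intro m hm
      have hO := hMM m hm
      rw [GG_vp g m hO.good.pos]
      have hv : vp m ≠ 0 := by
        unfold vp
        exact prod_ne_zero_iff.mpr (fun i _ => prod_ne_zero_iff.mpr (fun j _ => (hO.good.pos i j).ne'))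
      rw [hg, GG_eq_exp l _ hv]
      apply Real.exp_le_exp.mpr
      have := hO.stat
      linarith)
  refine hmain.trans ?_
  have hκ := hS.κ0
  have hL1 := hS.L1
  have hA := card_le hN hsN htN (by linarith : (2:ℝ) ≤ Y)
  have hB : L ^ (s + t) ≤ Real.exp (2 * N * C1 * Real.log Y) := by
    have h5 : Real.exp (2 * N * C1 * Real.log Y) = (Y ^ C1) ^ (2 * N) := by
      rw [← pow_mul, ← Real.rpow_natCast, Real.rpow_def_of_pos hY0]
      congr 1
      push_cast
      ring
    rw [h5]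
    calc L ^ (s + t) ≤ (Y ^ C1) ^ (s + t) := pow_le_pow_left₀ (by linarith) hL _
      _ ≤ (Y ^ C1) ^ (2 * N) := pow_le_pow_right₀ (one_le_pow₀ (by linarith)) (by omega)
  have hC := prod_log_le hY hsN hr
  have hD := prod_log_le hY htN hr'
  have hE : ∏ i, ∏ j, Real.exp (∑ q ∈ PC (lim w α β i j), g q / ((q : ℝ) - 1))
      ≤ Real.exp (∑ k ∈ range J, (if k < w then ((s : ℝ) + 1) else if kp β k = 0 then 0
        else (kp α k : ℝ)) + 112 * ((s : ℝ) + 1)) := by
    have h5 : ∏ i, ∏ j, Real.exp (∑ q ∈ PC (lim w α β i j), g q / ((q : ℝ) - 1))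
        = Real.exp (∑ i, ∑ j, ∑ q ∈ PC (lim w α β i j), g q / ((q : ℝ) - 1)) := by
      rw [Real.exp_sum]
      apply prod_congr rfl
      intro i _
      rw [Real.exp_sum]
    rw [h5]
    exact Real.exp_le_exp.mpr (sum_cells_le hs0 α β hα)
  have hr0 : 0 ≤ ∏ a, (1 / Real.log (r a)) := prod_nonneg (fun a _ => by
    have : 0 < Real.log (r a) := Real.log_pos (by linarith [hr4 a])
    positivity)
  have hr0' : 0 ≤ ∏ b, (1 / Real.log (r' b)) := prod_nonneg (fun b _ => by
    have : 0 < Real.log (r' b) := Real.log_pos (by linarith [hr4' b])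
    positivity)
  have hnet := net_exponent hs0 α β hα hβ
  have hZ : (Real.exp (-(S + F)))⁻¹ = Real.exp (S + F) := by
    rw [← Real.exp_neg, neg_neg]
  rw [hZ]
  have hfin : (Fintype.card (Str s t) : ℝ) *
        (κ * L ^ (s + t) * (∏ i, (1 / Real.log (r i))) * ∏ j, (1 / Real.log (r' j))) *
        (Real.exp (S + F) * ∏ i, ∏ j, Real.exp (∑ q ∈ PC (lim w α β i j), g q / ((q : ℝ) - 1)))
      ≤ Real.exp (7 * N * Real.log Y) *
        (κ * Real.exp (2 * N * C1 * Real.log Y) * Real.exp (2 * N * Real.log Y - ∑ a, (α a : ℝ))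
          * Real.exp (2 * N * Real.log Y - ∑ b, (β b : ℝ))) *
        (Real.exp (S + F) * Real.exp (∑ k ∈ range J, (if k < w then ((s : ℝ) + 1)
          else if kp β k = 0 then 0 else (kp α k : ℝ)) + 112 * ((s : ℝ) + 1))) := by
    have hL0 : 0 ≤ L ^ (s + t) := by positivity
    apply mul_le_mul
    · apply mul_le_mul hA _ (by positivity) (Real.exp_pos _).le
      apply mul_le_mul _ hD hr0' (by positivity)
      apply mul_le_mul _ hC hr0 (by positivity)
      exact mul_le_mul_of_nonneg_left hB hκ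
    · exact mul_le_mul_of_nonneg_left hE (Real.exp_pos _).le
    · apply mul_nonneg (Real.exp_pos _).le
      exact prod_nonneg (fun i _ => prod_nonneg (fun j _ => (Real.exp_pos _).le))
    · positivity
  refine hfin.trans ?_
  have hcomb : Real.exp (7 * N * Real.log Y) *
        (κ * Real.exp (2 * N * C1 * Real.log Y) * Real.exp (2 * N * Real.log Y - ∑ a, (α a : ℝ))
          * Real.exp (2 * N * Real.log Y - ∑ b, (β b : ℝ))) *
        (Real.exp (S + F) * Real.exp (∑ k ∈ range J, (if k < w then ((s : ℝ) + 1)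
          else if kp β k = 0 then 0 else (kp α k : ℝ)) + 112 * ((s : ℝ) + 1)))
      = κ * Real.exp (7 * N * Real.log Y + 2 * N * C1 * Real.log Y
          + (2 * N * Real.log Y - ∑ a, (α a : ℝ)) + (2 * N * Real.log Y - ∑ b, (β b : ℝ))
          + (S + F) + (∑ k ∈ range J, (if k < w then ((s : ℝ) + 1)
          else if kp β k = 0 then 0 else (kp α k : ℝ)) + 112 * ((s : ℝ) + 1))) := by
    simp only [Real.exp_add]
    ring
  rw [hcomb]
  apply mul_le_mul_of_nonneg_left _ hκ
  apply Real.exp_le_exp.mpr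
  have hsN' : (s : ℝ) ≤ N := by exact_mod_cast hsN
  have htN' : (t : ℝ) ≤ N := by exact_mod_cast htN
  have hlt : Real.log ((t : ℝ) + 1) ≤ 2 * Real.log Y := by
    have h5 : (2:ℝ) * Real.log Y = Real.log (Y ^ 2) := by rw [Real.log_pow]; norm_num
    rw [h5]
    apply Real.log_le_log (by positivity)
    nlinarith
  have hlt0 : 0 ≤ Real.log ((t : ℝ) + 1) := by
    apply Real.log_nonneg
    have : (0:ℝ) ≤ (t : ℝ) := Nat.cast_nonneg _
    linarith
  have h5 : (s : ℝ) * Real.log ((t : ℝ) + 1) ≤ N * (2 * Real.log Y) :=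
    mul_le_mul hsN' hlt hlt0 (Nat.cast_nonneg _)
  have h6 : 113 * ((N : ℝ) + 1) ≤ 113 * ((N : ℝ) + 1) * Real.log Y := by
    have h7 : 0 ≤ 113 * ((N : ℝ) + 1) := by positivity
    nlinarith
  have h8 : 0 ≤ Real.log Y := by linarith
  have h9 : (0:ℝ) ≤ N := Nat.cast_nonneg _
  have h10 : 0 ≤ (C1 : ℝ) * Real.log Y := by positivity
  nlinarith


/-! ### The two instances -/

theorem ll_le {X : ℕ} {Y : ℝ} (hY : 1 ≤ Y) (hX : yy X ≤ Y + 1) : ll X ≤ Y + 4 := by
  unfold ll
  have h1 : (X : ℝ) ≤ Real.exp (Real.exp (Y + 1)) := (LS.yy_le_iff (by linarith)).mp hX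
  have he : Real.exp 1 ≤ Real.exp (Real.exp (Y + 1)) :=
    Real.exp_le_exp.mpr (Real.one_le_exp (by linarith))
  have he1 := Real.exp_one_gt_d9
  have h2 : (X : ℝ) + 10 ≤ 6 * Real.exp (Real.exp (Y + 1)) := by linarith
  have h6 : (6:ℝ) ≤ Real.exp 2 := by
    have h2 : Real.exp 2 = Real.exp 1 * Real.exp 1 := by rw [← Real.exp_add]; norm_num
    rw [h2]
    nlinarith
  have h3 : (X : ℝ) + 10 ≤ Real.exp (Real.exp (Y + 1) + 2) := by
    rw [Real.exp_add]
    have := Real.exp_pos (Real.exp (Y + 1))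
    nlinarith
  have hX0 : (0:ℝ) ≤ (X : ℝ) := Nat.cast_nonneg _
  have h4 : Real.log ((X : ℝ) + 10) ≤ Real.exp (Y + 1) + 2 := by
    rw [Real.log_le_iff_le_exp (by linarith)]
    exact h3
  have h5 : Real.exp (Y + 1) + 2 ≤ Real.exp (Y + 4) := by
    have e1 : Real.exp (Y + 4) = Real.exp (Y + 1) * Real.exp 3 := by rw [← Real.exp_add]; ring_nf
    have e2 : (3:ℝ) + 1 ≤ Real.exp 3 := Real.add_one_le_exp 3
    have e3 : 1 ≤ Real.exp (Y + 1) := Real.one_le_exp (by linarith)
    rw [e1]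
    nlinarith
  have h7 : 0 < Real.log ((X : ℝ) + 10) := Real.log_pos (by linarith)
  rw [Real.log_le_iff_le_exp h7]
  exact h4.trans h5

theorem L_le {C Y : ℝ} (hC : 0 ≤ C) (hY : 16 ≤ Y) (hCY : C ≤ Y) {X : ℕ} (hX : yy X ≤ Y + 1) :
    C * ll X ^ 3 ≤ Y ^ 7 := by
  have h1 := ll_le (by linarith) hX
  have h0 := ll_ge X
  have h2 : ll X ≤ Y ^ 2 := by nlinarith
  have h3 : ll X ^ 3 ≤ (Y ^ 2) ^ 3 := pow_le_pow_left₀ (by linarith) h2 3
  calc C * ll X ^ 3 ≤ Y * (Y ^ 2) ^ 3 := mul_le_mul hCY h3 (by positivity) (by linarith)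
    _ = Y ^ 7 := by ring



end Crest.Agent.R020.CollM
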