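import Mathlib

-- ▼ part R020/CollIter
section

/-!
Row 20, module E (collisions): iterated sum lemma and the Rankin bound.
-/

set_option autoImplicit false

namespace Crest.Agent.R020.CollM

open Finset

/-- Iterated sum: `f a` depends only on the coordinates `b ≥ a`; sum over coordinate `0` first. -/
theorem iter_sum_fin : ∀ (r : ℕ) (T : Fin r → Finset ℕ) (f : Fin r → (Fin r → ℕ) → ℝ)
    (B : Fin r → ℝ) (_hf0 : ∀ a R, 0 ≤ f a R)
    (_hdep : ∀ a R R', (∀ b, a ≤ b → R b = R' b) → f a R = f a R')
    (_hB : ∀ a R, ∑ x ∈ T a, f a (Function.update R a x) ≤ B a),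
    ∑ R ∈ Fintype.piFinset T, ∏ a, f a R ≤ ∏ a, B a := by
  intro r
  induction r with
  | zero =>
    intro T f B _ _ _
    simp
  | succ r ih =>
    intro T f B hf0 hdep hB
    have hB0 : ∀ a, 0 ≤ B a := fun a =>
      le_trans (Finset.sum_nonneg (fun x _ => hf0 a _)) (hB a (fun _ => 0))
    -- rewrite the sum over Fin (r+1) as a double sum
    have key : ∑ R ∈ Fintype.piFinset T, ∏ a, f a R
        = ∑ R' ∈ Fintype.piFinset (fun a : Fin r => T a.succ), ∑ x ∈ T 0,
            ∏ a, f a (Fin.cons x R' : Fin (r+1) → ℕ) := by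
      rw [Finset.sum_sigma']
      refine Finset.sum_bij'
        (i := fun R _ => (⟨fun a : Fin r => R a.succ, R 0⟩ :
          (_ : Fin r → ℕ) × ℕ))
        (j := fun y _ => (Fin.cons y.2 y.1 : Fin (r+1) → ℕ)) ?_ ?_ ?_ ?_ ?_
      · intro R hR
        rw [Fintype.mem_piFinset] at hR
        rw [Finset.mem_sigma]
        refine ⟨?_, hR 0⟩
        rw [Fintype.mem_piFinset]
        intro a
        exact hR a.succ
      · intro y hy
        rw [Finset.mem_sigma, Fintype.mem_piFinset] at hy
        rw [Fintype.mem_piFinset]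
        intro a
        refine Fin.cases ?_ ?_ a
        · simpa using hy.2
        · intro b
          simpa using hy.1 b
      · intro R _
        funext a
        refine Fin.cases ?_ ?_ a
        · simp
        · intro b; simp
      · intro y _
        simp
      · intro R _
        apply Finset.prod_congr rfl
        intro a _
        congr 1
        funext b
        refine Fin.cases ?_ ?_ b
        · simp
        · intro c; simp
    rw [key]
    have hsplit : ∀ (R' : Fin r → ℕ) (x : ℕ),
        ∏ a, f a (Fin.cons x R' : Fin (r+1) → ℕ)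
          = f 0 (Fin.cons x R') * ∏ a : Fin r, f a.succ (Fin.cons 0 R' : Fin (r+1) → ℕ) := by
      intro R' x
      rw [Fin.prod_univ_succ]
      congr 1
      apply Finset.prod_congr rfl
      intro a _
      apply hdep
      intro b hb
      have hb0 : b ≠ 0 := by
        intro h
        subst h
        exact absurd hb (by simp [Fin.le_def])
      obtain ⟨c, rfl⟩ := Fin.exists_succ_eq.mpr hb0
      simp
    have h1 : ∀ R' : Fin r → ℕ, ∑ x ∈ T 0, ∏ a, f a (Fin.cons x R' : Fin (r+1) → ℕ)
        ≤ B 0 * ∏ a : Fin r, f a.succ (Fin.cons 0 R' : Fin (r+1) → ℕ) := by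
      intro R'
      simp_rw [hsplit]
      rw [← Finset.sum_mul]
      apply mul_le_mul_of_nonneg_right _ (Finset.prod_nonneg (fun a _ => hf0 _ _))
      have := hB 0 (Fin.cons 0 R')
      refine le_trans (le_of_eq ?_) this
      apply Finset.sum_congr rfl
      intro x _
      congr 1
      funext b
      refine Fin.cases ?_ ?_ b
      · simp
      · intro c
        simp [Function.update]
    calc ∑ R' ∈ Fintype.piFinset (fun a : Fin r => T a.succ), ∑ x ∈ T 0,
            ∏ a, f a (Fin.cons x R' : Fin (r+1) → ℕ)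
        ≤ ∑ R' ∈ Fintype.piFinset (fun a : Fin r => T a.succ),
            B 0 * ∏ a : Fin r, f a.succ (Fin.cons 0 R' : Fin (r+1) → ℕ) :=
          Finset.sum_le_sum (fun R' _ => h1 R')
      _ = B 0 * ∑ R' ∈ Fintype.piFinset (fun a : Fin r => T a.succ),
            ∏ a : Fin r, f a.succ (Fin.cons 0 R' : Fin (r+1) → ℕ) := by
          rw [Finset.mul_sum]
      _ ≤ B 0 * ∏ a : Fin r, B a.succ := by
          apply mul_le_mul_of_nonneg_left _ (hB0 0)
          apply ih (fun a => T a.succ)
            (fun a R' => f a.succ (Fin.cons 0 R' : Fin (r+1) → ℕ)) (fun a => B a.succ)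
          · intro a R; exact hf0 _ _
          · intro a R R' h
            apply hdep
            intro b hb
            have hb0 : b ≠ 0 := by
              intro h
              subst h
              exact absurd hb (by simp [Fin.le_def])
            obtain ⟨c, rfl⟩ := Fin.exists_succ_eq.mpr hb0
            simp only [Fin.cons_succ]
            exact h c (Fin.succ_le_succ_iff.mp hb)
          · intro a R
            have := hB a.succ (Fin.cons 0 R)
            refine le_trans (le_of_eq ?_) this
            apply Finset.sum_congr rfl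
            intro x _
            congr 1
            funext b
            refine Fin.cases ?_ ?_ b
            · rw [Function.update_of_ne (Fin.succ_ne_zero a).symm]
              simp
            · intro c
              simp only [Fin.cons_succ, Function.update_apply, Fin.succ_inj]
      _ = ∏ a, B a := by rw [Fin.prod_univ_succ]

/-- Iterated sum over a finite type with an enumeration `e`. -/
theorem iter_sum {E : Type*} [Fintype E] [DecidableEq E] {n : ℕ} (e : Fin n ≃ E)
    (T : E → Finset ℕ) (f : E → (E → ℕ) → ℝ)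
    (B : E → ℝ) (hf0 : ∀ a R, 0 ≤ f a R)
    (hdep : ∀ a R R', (∀ b, e.symm a ≤ e.symm b → R b = R' b) → f a R = f a R')
    (hB : ∀ a R, ∑ x ∈ T a, f a (Function.update R a x) ≤ B a) :
    ∑ R ∈ Fintype.piFinset T, ∏ a, f a R ≤ ∏ a, B a := by
  have h := iter_sum_fin n (fun a => T (e a)) (fun a R => f (e a) (fun b => R (e.symm b)))
    (fun a => B (e a)) (fun a R => hf0 _ _)
    (fun a R R' h => hdep _ _ _ (fun b hb => h _ (by simpa using hb)))
    (fun a R => by
      refine le_trans (le_of_eq ?_) (hB (e a) (fun b => R (e.symm b)))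
      apply Finset.sum_congr rfl
      intro x _
      congr 1
      funext b
      by_cases hb : b = e a
      · subst hb; simp
      · rw [Function.update_of_ne hb, Function.update_of_ne]
        intro h
        apply hb
        rw [← h]; simp)
  rw [Equiv.prod_comp e B] at h
  refine le_trans (le_of_eq ?_) h
  refine Finset.sum_bij' (i := fun R _ => fun a => R (e a)) (j := fun R _ => fun b => R (e.symm b))
    ?_ ?_ ?_ ?_ ?_
  · intro R hR
    rw [Fintype.mem_piFinset] at hR ⊢
    intro a
    exact hR _
  · intro R hR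
    rw [Fintype.mem_piFinset] at hR ⊢
    intro b
    simpa using hR (e.symm b)
  · intro R _
    funext a; simp
  · intro R _
    funext b; simp
  · intro R _
    rw [← Equiv.prod_comp e (fun a => f a R)]
    apply Finset.prod_congr rfl
    intro a _
    congr 1
    funext b
    simp

end Crest.Agent.R020.CollM
end

-- ▼ part R020/CollStr
section

/-!
Row 20, module E (collisions): structures (marked cells), expansion of a matrix.
-/

set_option autoImplicit false

namespace Crest.Agent.R020.CollM

open Finset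

/-- matrices with a "small" row and column `none` -/
abbrev Mat (s t : ℕ) := Option (Fin s) → Option (Fin t) → ℕ

/-- product of the entries of a row -/
def rowp {s t : ℕ} (m : Mat s t) (i : Fin s) : ℕ := ∏ j, m (some i) j
/-- product of the entries of a column -/
def colp {s t : ℕ} (m : Mat s t) (j : Fin t) : ℕ := ∏ i, m i (some j)
/-- product of all entries -/
def vp {s t : ℕ} (m : Mat s t) : ℕ := ∏ i, ∏ j, m i j

/-- combinatorial structure of the marks: column of the mark of row `i`, row of the mark of
column `j`, flag "the mark of row `i` is also the mark of its column", order of elimination. -/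
abbrev Str (s t : ℕ) :=
  (Fin s → Fin t) × (Fin t → Fin s) × (Fin s → Bool) × (Fin (s + t) ≃ (Fin s ⊕ Fin t))

namespace Str

variable {s t : ℕ} (σ : Str s t)

/-- column of the mark of row `i` -/
def c : Fin s → Fin t := σ.1
/-- row of the mark of column `j` -/
def r : Fin t → Fin s := σ.2.1
/-- flag -/
def β : Fin s → Bool := σ.2.2.1
/-- the order -/
def ord : Fin (s + t) ≃ (Fin s ⊕ Fin t) := σ.2.2.2
/-- rank -/
def rk (e : Fin s ⊕ Fin t) : Fin (s + t) := σ.ord.symm e

/-- column `j` has its mark in common with row `r j` -/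
def dummy (j : Fin t) : Prop := σ.β (σ.r j) = true ∧ σ.c (σ.r j) = j

instance : DecidablePred σ.dummy := fun _ => by unfold dummy; infer_instance

/-- validity of a structure -/
structure Valid : Prop where
  v1 : ∀ i, σ.β i = true → σ.r (σ.c i) = i
  v2 : ∀ j, ¬ σ.dummy j → σ.rk (Sum.inl (σ.r j)) < σ.rk (Sum.inr j)
  v3 : ∀ i, ¬ σ.dummy (σ.c i) → σ.rk (Sum.inr (σ.c i)) < σ.rk (Sum.inl i)
  v4 : ∀ i i', i ≠ i' → σ.β i = true → σ.c i' = σ.c i → σ.rk (Sum.inl i) < σ.rk (Sum.inl i')
  v5 : ∀ j, (σ.rk (Sum.inr j) : ℕ) = 0 → ¬ σ.dummy j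

variable {σ}

theorem Valid.dummy_c (h : σ.Valid) {i : Fin s} (hi : σ.β i = true) : σ.dummy (σ.c i) := by
  have := h.v1 i hi
  refine ⟨?_, ?_⟩ <;> rw [this]
  exact hi

variable (σ)

/-- multiplier of the cell `(i,j)` -/
def mulc (R : Fin s ⊕ Fin t → ℕ) (i : Fin s) (j : Fin t) : ℕ :=
  (if σ.c i = j then R (Sum.inl i) else 1) * (if σ.r j = i ∧ ¬ σ.dummy j then R (Sum.inr j) else 1)

/-- put the marks back -/
def expand (m : Mat s t) (R : Fin s ⊕ Fin t → ℕ) : Mat s t := fun i j =>
  match i, j with
  | some i, some j => m (some i) (some j) * σ.mulc R i j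
  | none, j => m none j
  | i, none => m i none

/-- cofactor of the mark in row `i` -/
def rowA (m : Mat s t) (R : Fin s ⊕ Fin t → ℕ) (i : Fin s) : ℕ :=
  rowp m i * ∏ j, (if σ.r j = i ∧ ¬ σ.dummy j then R (Sum.inr j) else 1)

/-- cofactor of the mark in a non-dummy column `j` -/
def colA (m : Mat s t) (R : Fin s ⊕ Fin t → ℕ) (j : Fin t) : ℕ :=
  colp m j * ∏ i, (if σ.c i = j then R (Sum.inl i) else 1)

/-- cofactor of the mark of row `i` in its column, if this mark is shared -/
def colB (m : Mat s t) (R : Fin s ⊕ Fin t → ℕ) (i : Fin s) : ℕ :=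
  colp m (σ.c i) * ∏ i', (if i' ≠ i ∧ σ.c i' = σ.c i then R (Sum.inl i') else 1)

theorem rowp_expand (m : Mat s t) (R : Fin s ⊕ Fin t → ℕ) (i : Fin s) :
    rowp (σ.expand m R) i = R (Sum.inl i) * σ.rowA m R i := by
  unfold rowp rowA rowp
  rw [Fintype.prod_option, Fintype.prod_option]
  have h1 : ∀ j : Fin t, σ.expand m R (some i) (some j) = m (some i) (some j) *
      ((if σ.c i = j then R (Sum.inl i) else 1) *
        (if σ.r j = i ∧ ¬ σ.dummy j then R (Sum.inr j) else 1)) := fun j => rfl
  have h2 : σ.expand m R (some i) none = m (some i) none := rfl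
  simp_rw [h1, h2, Finset.prod_mul_distrib]
  rw [Finset.prod_ite_eq]
  simp only [Finset.mem_univ, if_true]
  ring

theorem colp_expand (m : Mat s t) (R : Fin s ⊕ Fin t → ℕ) (j : Fin t) (hj : ¬ σ.dummy j) :
    colp (σ.expand m R) j = R (Sum.inr j) * σ.colA m R j := by
  unfold colp colA colp
  rw [Fintype.prod_option, Fintype.prod_option]
  have h1 : ∀ i : Fin s, σ.expand m R (some i) (some j) = m (some i) (some j) *
      ((if σ.c i = j then R (Sum.inl i) else 1) *
        (if σ.r j = i then R (Sum.inr j) else 1)) := by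
    intro i
    show _ * σ.mulc R i j = _
    unfold mulc
    simp [hj]
  have h2 : σ.expand m R none (some j) = m none (some j) := rfl
  simp_rw [h1, h2, Finset.prod_mul_distrib]
  rw [Finset.prod_ite_eq Finset.univ (σ.r j) (fun _ => R (Sum.inr j))]
  simp only [Finset.mem_univ, if_true]
  ring

theorem colp_expand' (hσ : σ.Valid) (m : Mat s t) (R : Fin s ⊕ Fin t → ℕ) (i : Fin s)
    (hi : σ.β i = true) :
    colp (σ.expand m R) (σ.c i) = R (Sum.inl i) * σ.colB m R i := by
  have hd : σ.dummy (σ.c i) := hσ.dummy_c hi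
  unfold colp colB colp
  rw [Fintype.prod_option, Fintype.prod_option]
  have h1 : ∀ i' : Fin s, σ.expand m R (some i') (some (σ.c i)) = m (some i') (some (σ.c i)) *
      (if σ.c i' = σ.c i then R (Sum.inl i') else 1) := by
    intro i'
    show _ * σ.mulc R i' (σ.c i) = _
    unfold mulc
    simp [hd]
  have h2 : σ.expand m R none (some (σ.c i)) = m none (some (σ.c i)) := rfl
  simp_rw [h1, h2, Finset.prod_mul_distrib]
  have h3 : ∏ i', (if σ.c i' = σ.c i then R (Sum.inl i') else 1)
      = R (Sum.inl i) * ∏ i', (if i' ≠ i ∧ σ.c i' = σ.c i then R (Sum.inl i') else 1) := by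
    have : ∀ i', (if σ.c i' = σ.c i then R (Sum.inl i') else 1)
        = (if i = i' then R (Sum.inl i') else 1) *
          (if i' ≠ i ∧ σ.c i' = σ.c i then R (Sum.inl i') else 1) := by
      intro i'
      by_cases h : i' = i
      · subst h; simp
      · by_cases h' : σ.c i' = σ.c i
        · simp [h, h', Ne.symm h]
        · simp [h', Ne.symm h]
    simp_rw [this, Finset.prod_mul_distrib]
    rw [Finset.prod_ite_eq]
    simp
  rw [h3]
  ring

theorem vp_expand (m : Mat s t) (R : Fin s ⊕ Fin t → ℕ)
    (hR : ∀ j, σ.dummy j → R (Sum.inr j) = 1) :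
    vp (σ.expand m R) = vp m * ∏ e, R e := by
  have h0 : ∀ i j, σ.expand m R i j = m i j *
      (match i, j with
        | some i, some j => σ.mulc R i j
        | none, _ => 1
        | _, none => 1) := by
    intro i j
    cases i <;> cases j <;> simp [expand]
  unfold vp
  simp_rw [h0, Finset.prod_mul_distrib]
  congr 1
  rw [Fintype.prod_option]
  have hn : (∏ j : Option (Fin t), (match (none : Option (Fin s)), j with
        | some i, some j => σ.mulc R i j
        | none, _ => 1
        | _, none => 1)) = 1 := by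
    apply Finset.prod_eq_one
    intro j _
    rfl
  rw [hn, one_mul]
  have h1 : ∀ i : Fin s, (∏ j : Option (Fin t), (match (some i : Option (Fin s)), j with
        | some i, some j => σ.mulc R i j
        | none, _ => 1
        | _, none => 1)) = R (Sum.inl i) *
          ∏ j, (if σ.r j = i ∧ ¬ σ.dummy j then R (Sum.inr j) else 1) := by
    intro i
    rw [Fintype.prod_option]
    simp only [one_mul]
    unfold mulc
    rw [Finset.prod_mul_distrib, Finset.prod_ite_eq]
    simp
  simp_rw [h1, Finset.prod_mul_distrib]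
  rw [Fintype.prod_sum_type]
  congr 1
  rw [Finset.prod_comm]
  apply Finset.prod_congr rfl
  intro j _
  by_cases hd : σ.dummy j
  · simp [hd, hR j hd]
  · simp only [hd, not_false_eq_true, and_true]
    rw [Finset.prod_ite_eq]
    simp

end Str

end Crest.Agent.R020.CollM
private theorem rz_4d4055b9c4 : type_of% @_root_.Crest.Agent.R020.CollM.Str.expand.eq_1 := @_root_.Crest.Agent.R020.CollM.Str.expand.eq_1 -- L70
end

-- ▼ part R020/CollExt
section

/-!
Row 20, module E (collisions): extraction of the marks of a matrix.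
-/

set_option autoImplicit false

namespace Crest.Agent.R020.CollM

open Finset

/-- greatest prime factor (`0` if there is none) -/
def gpf (N : ℕ) : ℕ := N.primeFactors.sup id

theorem gpf_mem {N : ℕ} (h : 0 < gpf N) : gpf N ∈ N.primeFactors := by
  have hne : N.primeFactors.Nonempty := by
    by_contra hne
    rw [Finset.not_nonempty_iff_eq_empty] at hne
    simp [gpf, hne] at h
  obtain ⟨q, hq, h2⟩ := Finset.exists_mem_eq_sup _ hne id
  unfold gpf
  rw [h2]
  exact hq

theorem le_gpf {N q : ℕ} (hq : q ∈ N.primeFactors) : q ≤ gpf N :=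
  Finset.le_sup (f := id) hq

/-- conditions on the matrices -/
structure Good {s t : ℕ} (X : ℕ) (r : Fin s → ℝ) (r' : Fin t → ℝ) (m : Mat s t) : Prop where
  pos : ∀ i j, 0 < m i j
  rowPrime : ∀ i, (rowp m i + 1).Prime
  rowLe : ∀ i, rowp m i + 1 ≤ X
  colPrime : ∀ j, (colp m j + 1).Prime
  colLe : ∀ j, colp m j + 1 ≤ X
  ne : ∀ i j, rowp m i ≠ colp m j
  rowG : ∀ i, r i ≤ (gpf (rowp m i) : ℝ)
  colG : ∀ j, r' j ≤ (gpf (colp m j) : ℝ)
  smallRow : ∀ i (q : ℕ), q.Prime → q ∣ m (some i) none → (q : ℝ) < r i
  smallCol : ∀ j (q : ℕ), q.Prime → q ∣ m none (some j) → (q : ℝ) < r' j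

variable {s t : ℕ} {X : ℕ} {r : Fin s → ℝ} {r' : Fin t → ℝ} {m : Mat s t}

theorem Good.rowp_pos (h : Good X r r' m) (i : Fin s) : 0 < rowp m i :=
  Finset.prod_pos (fun j _ => h.pos _ _)

theorem Good.colp_pos (h : Good X r r' m) (j : Fin t) : 0 < colp m j :=
  Finset.prod_pos (fun i _ => h.pos _ _)

theorem dvd_rowp (m : Mat s t) (i : Fin s) (j : Option (Fin t)) : m (some i) j ∣ rowp m i :=
  Finset.dvd_prod_of_mem (fun j => m (some i) j) (Finset.mem_univ j)

theorem dvd_colp (m : Mat s t) (i : Option (Fin s)) (j : Fin t) : m i (some j) ∣ colp m j :=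
  Finset.dvd_prod_of_mem (fun i => m i (some j)) (Finset.mem_univ i)

/-- extraction of the marks -/
theorem exists_str (h : Good X r r' m) (hr : ∀ i, 1 < r i) (hr' : ∀ j, 1 < r' j) :
    ∃ σ : Str s t, σ.Valid ∧ ∃ (R : Fin s ⊕ Fin t → ℕ) (m' : Mat s t),
      m = σ.expand m' R ∧ (∀ i j, m' i j ∣ m i j) ∧ (∀ i j, 0 < m' i j) ∧
      (∀ i, R (Sum.inl i) = gpf (rowp m i)) ∧
      (∀ i, σ.β i = true → R (Sum.inl i) = gpf (colp m (σ.c i))) ∧
      (∀ j, ¬ σ.dummy j → R (Sum.inr j) = gpf (colp m j)) ∧
      (∀ j, σ.dummy j → R (Sum.inr j) = 1) ∧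
      (∀ e e', (σ.rk e : ℕ) = 0 → R e' ≤ R e) := by
  classical
  have hgr : ∀ i, gpf (rowp m i) ∈ (rowp m i).primeFactors := by
    intro i
    apply gpf_mem
    have := lt_of_lt_of_le (hr i) (h.rowG i)
    have : (0:ℝ) < (gpf (rowp m i) : ℝ) := by linarith
    exact_mod_cast this
  have hgc : ∀ j, gpf (colp m j) ∈ (colp m j).primeFactors := by
    intro j
    apply gpf_mem
    have := lt_of_lt_of_le (hr' j) (h.colG j)
    have : (0:ℝ) < (gpf (colp m j) : ℝ) := by linarith
    exact_mod_cast this
  have hpr : ∀ i, (gpf (rowp m i)).Prime := fun i => Nat.prime_of_mem_primeFactors (hgr i)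
  have hpc : ∀ j, (gpf (colp m j)).Prime := fun j => Nat.prime_of_mem_primeFactors (hgc j)
  have hex : ∀ j, ∃ i : Fin s, gpf (colp m j) ∣ m (some i) (some j) := by
    intro j
    have h1 : gpf (colp m j) ∣ colp m j := Nat.dvd_of_mem_primeFactors (hgc j)
    unfold colp at h1
    obtain ⟨i, _, hi⟩ := ((hpc j).prime.dvd_finsetProd_iff _).mp h1
    cases i with
    | none =>
      exfalso
      have := h.smallCol j _ (hpc j) hi
      have h2 := h.colG j
      linarith
    | some i => exact ⟨i, hi⟩
  have hex' : ∀ i, ∃ j : Fin t, gpf (rowp m i) ∣ m (some i) (some j) := by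
    intro i
    have h1 : gpf (rowp m i) ∣ rowp m i := Nat.dvd_of_mem_primeFactors (hgr i)
    unfold rowp at h1
    obtain ⟨j, _, hj⟩ := ((hpr i).prime.dvd_finsetProd_iff _).mp h1
    cases j with
    | none =>
      exfalso
      have := h.smallRow i _ (hpr i) hj
      have h2 := h.rowG i
      linarith
    | some j => exact ⟨j, hj⟩
  choose rr hrr using hex
  choose c0 hc0 using hex'
  have hle1 : ∀ i j, gpf (rowp m i) ∣ m (some i) (some j) → gpf (rowp m i) ≤ gpf (colp m j) := by
    intro i j hd
    apply le_gpf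
    rw [Nat.mem_primeFactors]
    exact ⟨hpr i, hd.trans (dvd_colp m _ j), (h.colp_pos j).ne'⟩
  have hle2 : ∀ j, gpf (colp m j) ≤ gpf (rowp m (rr j)) := by
    intro j
    apply le_gpf
    rw [Nat.mem_primeFactors]
    exact ⟨hpc j, (hrr j).trans (dvd_rowp m _ _), (h.rowp_pos _).ne'⟩
  let paired : Fin s → Prop := fun i => ∃ j, rr j = i ∧ gpf (colp m j) = gpf (rowp m i)
  let c : Fin s → Fin t := fun i => if hp : paired i then Classical.choose hp else c0 i
  let β : Fin s → Bool := fun i => decide (paired i)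
  have hβ : ∀ i, β i = true ↔ paired i := fun i => by simp [β]
  have hcp : ∀ i, paired i → rr (c i) = i ∧ gpf (colp m (c i)) = gpf (rowp m i) := by
    intro i hp
    have := Classical.choose_spec hp
    simp only [c, hp, dif_pos]
    exact this
  have hc : ∀ i, gpf (rowp m i) ∣ m (some i) (some (c i)) := by
    intro i
    by_cases hp : paired i
    · obtain ⟨h1, h2⟩ := hcp i hp
      rw [← h2]
      have := hrr (c i)
      rw [h1] at this
      exact this
    · have : c i = c0 i := by simp only [c, hp, dif_neg, not_false_eq_true]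
      rw [this]
      exact hc0 i
  let dmy : Fin t → Prop := fun j => β (rr j) = true ∧ c (rr j) = j
  let R : Fin s ⊕ Fin t → ℕ := fun e => match e with
    | Sum.inl i => gpf (rowp m i)
    | Sum.inr j => if dmy j then 1 else gpf (colp m j)
  let ty : Fin s ⊕ Fin t → ℤ := fun e => match e with
    | Sum.inl i => if paired i then 0 else 2
    | Sum.inr j => 1
  let key : Fin s ⊕ Fin t → ℤ := fun e => -4 * (R e : ℤ) + ty e
  let f : Fin (s + t) → ℤ := fun a => key (finSumFinEquiv.symm a)
  let ord : Fin (s + t) ≃ (Fin s ⊕ Fin t) := (Tuple.sort f).trans finSumFinEquiv.symm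
  let σ : Str s t := (c, rr, β, ord)
  have hmono := Tuple.monotone_sort f
  have hkey : ∀ e, f (Tuple.sort f (σ.rk e)) = key e := by
    intro e
    have : ord (σ.rk e) = e := by
      show ord (ord.symm e) = e
      simp
    show key (finSumFinEquiv.symm (Tuple.sort f (σ.rk e))) = key e
    have h2 : ord (σ.rk e) = finSumFinEquiv.symm (Tuple.sort f (σ.rk e)) := rfl
    rw [← h2, this]
  have hle : ∀ e e', σ.rk e ≤ σ.rk e' → key e ≤ key e' := by
    intro e e' hh
    have := hmono hh
    simp only [Function.comp] at this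
    rw [hkey, hkey] at this
    exact this
  have hlt : ∀ e e', key e < key e' → σ.rk e < σ.rk e' := by
    intro e e' hh
    by_contra hcon
    push Not at hcon
    exact absurd (hle _ _ hcon) (not_le.mpr hh)
  have hty : ∀ e, 0 ≤ ty e ∧ ty e ≤ 2 := by
    intro e
    rcases e with i | j
    · simp only [ty]
      split_ifs <;> norm_num
    · simp only [ty]; norm_num
  have hdm : ∀ j, σ.dummy j ↔ dmy j := fun j => Iff.rfl
  have hσβ : ∀ i, σ.β i = β i := fun i => rfl
  have hσc : ∀ i, σ.c i = c i := fun i => rfl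
  have hσr : ∀ j, σ.r j = rr j := fun i => rfl
  -- key facts
  have hkl1 : ∀ i, paired i → key (Sum.inl i) = -4 * (gpf (rowp m i) : ℤ) := by
    intro i hp
    simp only [key, R, ty, hp, if_true, add_zero]
  have hkl2 : ∀ i, ¬ paired i → key (Sum.inl i) = -4 * (gpf (rowp m i) : ℤ) + 2 := by
    intro i hp
    simp only [key, R, ty, hp, if_false]
  have hkr1 : ∀ j, dmy j → key (Sum.inr j) = -3 := by
    intro j hp
    simp only [key, R, ty, hp, if_true]
    norm_num
  have hkr2 : ∀ j, ¬ dmy j → key (Sum.inr j) = -4 * (gpf (colp m j) : ℤ) + 1 := by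
    intro j hp
    simp only [key, R, ty, hp, if_false]
  have hvalid : σ.Valid := by
    refine ⟨?_, ?_, ?_, ?_, ?_⟩
    · intro i hi
      exact (hcp i ((hβ i).mp hi)).1
    · intro j hj
      apply hlt
      have hj' : ¬ dmy j := hj
      rw [hkr2 j hj', hσr]
      have h1 := hle2 j
      rcases h1.lt_or_eq with h2 | h2
      · have h3 : key (Sum.inl (rr j)) ≤ -4 * (gpf (rowp m (rr j)) : ℤ) + 2 := by
          have := (hty (Sum.inl (rr j))).2
          show -4 * (gpf (rowp m (rr j)) : ℤ) + ty (Sum.inl (rr j)) ≤ _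
          linarith
        have h4 : (gpf (colp m j) : ℤ) + 1 ≤ (gpf (rowp m (rr j)) : ℤ) := by exact_mod_cast h2
        linarith
      · have hp : paired (rr j) := ⟨j, rfl, h2⟩
        rw [hkl1 _ hp, h2]
        linarith
    · intro i hi
      apply hlt
      have hj' : ¬ dmy (c i) := hi
      rw [hσc, hkr2 _ hj']
      have h1 := hle1 i (c i) (hc i)
      have hnp : ¬ paired i := by
        intro hp
        apply hj'
        have h5 := (hcp i hp).1
        refine ⟨?_, ?_⟩
        · rw [h5]; exact (hβ i).mpr hp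
        · rw [h5]
      rw [hkl2 i hnp]
      have h4 : (gpf (rowp m i) : ℤ) ≤ (gpf (colp m (c i)) : ℤ) := by exact_mod_cast h1
      linarith
    · intro i i' hne hi hcc
      apply hlt
      have hp := (hβ i).mp hi
      have hcc' : c i' = c i := hcc
      have hnp : ¬ paired i' := by
        intro hp'
        apply hne
        rw [← (hcp i hp).1, ← (hcp i' hp').1, hcc']
      rw [hkl1 i hp, hkl2 i' hnp]
      have h1 := hle1 i' (c i') (hc i')
      rw [hcc', (hcp i hp).2] at h1
      have h4 : (gpf (rowp m i') : ℤ) ≤ (gpf (rowp m i) : ℤ) := by exact_mod_cast h1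
      linarith
    · intro j hj hd
      have hd' : dmy j := hd
      have h1 : key (Sum.inl (rr j)) < key (Sum.inr j) := by
        rw [hkr1 j hd', hkl1 _ ((hβ _).mp hd'.1)]
        have := (hpr (rr j)).two_le
        have h2 : (2:ℤ) ≤ (gpf (rowp m (rr j)) : ℤ) := by exact_mod_cast this
        linarith
      have h2 := hlt (Sum.inl (rr j)) (Sum.inr j) h1
      rw [Fin.lt_def, hj] at h2
      omega
  -- the cofactor matrix
  have hmul : ∀ i j, σ.mulc R i j ∣ m (some i) (some j) := by
    intro i j
    unfold Str.mulc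
    by_cases h1 : σ.c i = j
    · by_cases h2 : σ.r j = i ∧ ¬ σ.dummy j
      · exfalso
        apply h2.2
        have h1' : c i = j := h1
        have h2' : rr j = i := h2.1
        have h3 := hle1 i (c i) (hc i)
        rw [h1'] at h3
        have h4 := hle2 j
        rw [h2'] at h4
        have hp : paired i := ⟨j, h2', le_antisymm h4 h3⟩
        refine ⟨?_, ?_⟩
        · show β (rr j) = true
          rw [h2']
          exact (hβ i).mpr hp
        · show c (rr j) = j
          rw [h2', h1']
      · rw [if_pos h1, if_neg h2, mul_one]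
        have := hc i
        have h1' : c i = j := h1
        rw [h1'] at this
        exact this
    · rw [if_neg h1, one_mul]
      by_cases h2 : σ.r j = i ∧ ¬ σ.dummy j
      · rw [if_pos h2]
        have h2' : rr j = i := h2.1
        have h3 : ¬ dmy j := h2.2
        have : R (Sum.inr j) = gpf (colp m j) := by
          simp only [R, h3, if_false]
        rw [this, ← h2']
        exact hrr j
      · rw [if_neg h2]
        exact one_dvd _
  let m' : Mat s t := fun i j => match i, j with
    | some i, some j => m (some i) (some j) / σ.mulc R i j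
    | none, j => m none j
    | i, none => m i none
  have hm' : m = σ.expand m' R := by
    funext i j
    cases i with
    | none => rfl
    | some i =>
      cases j with
      | none => rfl
      | some j =>
        show m (some i) (some j) = m (some i) (some j) / σ.mulc R i j * σ.mulc R i j
        rw [Nat.div_mul_cancel (hmul i j)]
  have hdvd : ∀ i j, m' i j ∣ m i j := by
    intro i j
    cases i with
    | none => exact dvd_refl _
    | some i =>
      cases j with
      | none => exact dvd_refl _
      | some j =>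
        show m (some i) (some j) / σ.mulc R i j ∣ _
        exact Nat.div_dvd_of_dvd (hmul i j)
  refine ⟨σ, hvalid, R, m', hm', hdvd, ?_, ?_, ?_, ?_, ?_, ?_⟩
  · intro i j
    exact Nat.pos_of_dvd_of_pos (hdvd i j) (h.pos i j)
  · intro i; rfl
  · intro i hi
    show gpf (rowp m i) = gpf (colp m (c i))
    exact ((hcp i ((hβ i).mp hi)).2).symm
  · intro j hj
    have h3 : ¬ dmy j := hj
    show (if dmy j then 1 else gpf (colp m j)) = _
    rw [if_neg h3]
  · intro j hj
    have h3 : dmy j := hj
    show (if dmy j then 1 else gpf (colp m j)) = _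
    rw [if_pos h3]
  · intro e e' he
    have h1 : σ.rk e ≤ σ.rk e' := by
      rw [Fin.le_def, he]
      exact Nat.zero_le _
    have h2 := hle e e' h1
    have h3 := hty e
    have h4 := hty e'
    have h5 : -4 * (R e : ℤ) + ty e ≤ -4 * (R e' : ℤ) + ty e' := h2
    have h7 : 4 * (R e' : ℤ) ≤ 4 * (R e : ℤ) + 2 := by linarith [h3.1, h4.2]
    have h6 : (R e' : ℤ) ≤ (R e : ℤ) := by omega
    exact_mod_cast h6

end Crest.Agent.R020.CollM
end

-- ▼ part R020/CollSum

/-!
Row 20, module E (collisions): the iterated sum over the marks.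
-/

set_option autoImplicit false

namespace Crest.Agent.R020.CollM

open Finset

/-- primes in `[ρ, X]` -/
noncomputable def primesIn (ρ : ℝ) (X : ℕ) : Finset ℕ := (range (X + 1)).filter (fun x => x.Prime ∧ ρ ≤ (x : ℝ))

/-- one linear form condition -/
def C1 (X A x : ℕ) : Prop := (x * A + 1).Prime ∧ x * A + 1 ≤ X

instance (X A x : ℕ) : Decidable (C1 X A x) := by unfold C1; infer_instance

variable {s t : ℕ}

section
variable (σ : Str s t) (X : ℕ) (r : Fin s → ℝ) (r' : Fin t → ℝ) (ρt : ℝ)
  (W : ℕ → ℝ) (m : Mat s t)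

/-- lower bound for the mark `e` -/
noncomputable def lo (e : Fin s ⊕ Fin t) : ℝ :=
  max (if (σ.rk e : ℕ) = 0 then ρt else 0)
    (match e with
      | Sum.inl i => if σ.β i = true then max (r i) (r' (σ.c i)) else r i
      | Sum.inr j => r' j)

/-- range of the mark `e` -/
noncomputable def TT (e : Fin s ⊕ Fin t) : Finset ℕ :=
  match e with
    | Sum.inl i => primesIn (lo σ r r' ρt (Sum.inl i)) X
    | Sum.inr j => if σ.dummy j then {1} else primesIn (lo σ r r' ρt (Sum.inr j)) X

/-- product of everything except the mark `e` -/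
def Mof (e : Fin s ⊕ Fin t) (R : Fin s ⊕ Fin t → ℕ) : ℕ := vp m * ∏ e' ∈ univ.erase e, R e'

/-- weight of the mark `e` -/
noncomputable def wt (e : Fin s ⊕ Fin t) (R : Fin s ⊕ Fin t → ℕ) : ℝ :=
  if (σ.rk e : ℕ) = 0 then (Mof m e R : ℝ) * W (Mof m e R * R e) else 1 / (R e : ℝ)

/-- the condition attached to the mark `e` -/
def cond (e : Fin s ⊕ Fin t) (R : Fin s ⊕ Fin t → ℕ) : Prop :=
  match e with
    | Sum.inl i => C1 X (σ.rowA m R i) (R (Sum.inl i)) ∧
        (σ.β i = true → C1 X (σ.colB m R i) (R (Sum.inl i)) ∧ σ.rowA m R i ≠ σ.colB m R i)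
    | Sum.inr j => C1 X (σ.colA m R j) (R (Sum.inr j))

open Classical in
/-- the factor attached to the mark `e` -/
noncomputable def ff (e : Fin s ⊕ Fin t) (R : Fin s ⊕ Fin t → ℕ) : ℝ :=
  match e with
    | Sum.inl i => if cond σ X m (Sum.inl i) R then wt σ W m (Sum.inl i) R else 0
    | Sum.inr j => if σ.dummy j then 1 else
        if cond σ X m (Sum.inr j) R then wt σ W m (Sum.inr j) R else 0

/-- the bound attached to the mark `e` -/
noncomputable def BB (L κ : ℝ) (e : Fin s ⊕ Fin t) : ℝ :=
  (if (σ.rk e : ℕ) = 0 then κ else 1) *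
    (match e with
      | Sum.inl i => if σ.β i = true then L / (Real.log (r i) * Real.log (r' (σ.c i)))
          else L / Real.log (r i)
      | Sum.inr j => if σ.dummy j then 1 else L / Real.log (r' j))

end

/-- sieve hypotheses -/
structure Sieve (X : ℕ) (ρ0 ρt L κ : ℝ) (W : ℕ → ℝ) : Prop where
  one_lt : 1 < ρ0
  L1 : 1 ≤ L
  κ0 : 0 ≤ κ
  W0 : ∀ v, 0 ≤ W v
  S1 : ∀ (A : ℕ) (ρ : ℝ), ρ0 ≤ ρ →
    ∑ x ∈ (primesIn ρ X).filter (fun x => C1 X A x), (1 / (x : ℝ)) ≤ L / Real.log ρ
  S2 : ∀ (A B : ℕ) (ρ : ℝ), A ≠ B → ρ0 ≤ ρ →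
    ∑ x ∈ (primesIn ρ X).filter (fun x => C1 X A x ∧ C1 X B x), (1 / (x : ℝ))
      ≤ L / (Real.log ρ) ^ 2
  top1 : ∀ (M A : ℕ) (ρ : ℝ), 0 < M → ρ0 ≤ ρ → ρt ≤ ρ →
    ∑ x ∈ (primesIn ρ X).filter (fun x => C1 X A x), (M : ℝ) * W (M * x)
      ≤ κ * (L / Real.log ρ)
  top2 : ∀ (M A B : ℕ) (ρ : ℝ), 0 < M → A ≠ B → ρ0 ≤ ρ → ρt ≤ ρ →
    ∑ x ∈ (primesIn ρ X).filter (fun x => C1 X A x ∧ C1 X B x), (M : ℝ) * W (M * x)
      ≤ κ * (L / (Real.log ρ) ^ 2)

variable {σ : Str s t} {X : ℕ} {r : Fin s → ℝ} {r' : Fin t → ℝ} {ρ0 ρt L κ : ℝ}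
  {W : ℕ → ℝ}

theorem wt_nonneg (hS : Sieve X ρ0 ρt L κ W) (m : Mat s t) (e) (R) : 0 ≤ wt σ W m e R := by
  unfold wt
  split_ifs
  · exact mul_nonneg (Nat.cast_nonneg _) (hS.W0 _)
  · positivity

theorem ff_nonneg (hS : Sieve X ρ0 ρt L κ W) (m : Mat s t) (e) (R) : 0 ≤ ff σ X W m e R := by
  unfold ff
  rcases e with i | j
  · dsimp only
    split_ifs
    · exact wt_nonneg hS m _ _
    · exact le_rfl
  · dsimp only
    split_ifs
    · norm_num
    · exact wt_nonneg hS m _ _
    · exact le_rfl

/-- dependence of the factors -/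
theorem ff_dep (hσ : σ.Valid) (m : Mat s t) (e) (R R' : Fin s ⊕ Fin t → ℕ)
    (h : ∀ b, σ.rk e ≤ σ.rk b → R b = R' b) : ff σ X W m e R = ff σ X W m e R' := by
  have he : R e = R' e := h e le_rfl
  have hwt : wt σ W m e R = wt σ W m e R' := by
    unfold wt
    by_cases h0 : (σ.rk e : ℕ) = 0
    · have : R = R' := by
        funext b
        apply h
        rw [Fin.le_def, h0]
        exact Nat.zero_le _
      rw [this]
    · rw [if_neg h0, if_neg h0, he]
  rcases e with i | j
  · have hA : σ.rowA m R i = σ.rowA m R' i := by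
      unfold Str.rowA
      congr 1
      apply Finset.prod_congr rfl
      intro j _
      by_cases hj : σ.r j = i ∧ ¬ σ.dummy j
      · rw [if_pos hj, if_pos hj]
        apply h
        have := hσ.v2 j hj.2
        rw [hj.1] at this
        exact this.le
      · rw [if_neg hj, if_neg hj]
    have hB : σ.β i = true → σ.colB m R i = σ.colB m R' i := by
      intro hb
      unfold Str.colB
      congr 1
      apply Finset.prod_congr rfl
      intro i' _
      by_cases hi : i' ≠ i ∧ σ.c i' = σ.c i
      · rw [if_pos hi, if_pos hi]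
        apply h
        exact (hσ.v4 i i' hi.1.symm hb hi.2).le
      · rw [if_neg hi, if_neg hi]
    have hc : cond σ X m (Sum.inl i) R ↔ cond σ X m (Sum.inl i) R' := by
      unfold cond
      dsimp only
      rw [hA, he]
      constructor
      · rintro ⟨h1, h2⟩
        refine ⟨h1, fun hb => ?_⟩
        rw [← hB hb]
        exact h2 hb
      · rintro ⟨h1, h2⟩
        refine ⟨h1, fun hb => ?_⟩
        rw [hB hb]
        exact h2 hb
    unfold ff
    dsimp only
    rw [hwt]
    by_cases h1 : cond σ X m (Sum.inl i) R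
    · rw [if_pos h1, if_pos (hc.mp h1)]
    · rw [if_neg h1, if_neg (fun h2 => h1 (hc.mpr h2))]
  · by_cases hd : σ.dummy j
    · unfold ff
      dsimp only
      rw [if_pos hd, if_pos hd]
    · have hA : σ.colA m R j = σ.colA m R' j := by
        unfold Str.colA
        congr 1
        apply Finset.prod_congr rfl
        intro i _
        by_cases hi : σ.c i = j
        · rw [if_pos hi, if_pos hi]
          apply h
          have := hσ.v3 i (by rw [hi]; exact hd)
          rw [hi] at this
          exact this.le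
        · rw [if_neg hi, if_neg hi]
      have hc : cond σ X m (Sum.inr j) R ↔ cond σ X m (Sum.inr j) R' := by
        unfold cond
        dsimp only
        rw [hA, he]
      unfold ff
      dsimp only
      rw [hwt]
      by_cases h1 : cond σ X m (Sum.inr j) R
      · rw [if_pos h1, if_pos (hc.mp h1)]
      · rw [if_neg h1, if_neg (fun h2 => h1 (hc.mpr h2))]

theorem rowA_update (m : Mat s t) (R : Fin s ⊕ Fin t → ℕ) (i : Fin s) (x : ℕ) :
    σ.rowA m (Function.update R (Sum.inl i) x) i = σ.rowA m R i := by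
  unfold Str.rowA
  congr 1

theorem colB_update (m : Mat s t) (R : Fin s ⊕ Fin t → ℕ) (i : Fin s) (x : ℕ) :
    σ.colB m (Function.update R (Sum.inl i) x) i = σ.colB m R i := by
  unfold Str.colB
  congr 1
  apply Finset.prod_congr rfl
  intro i' _
  by_cases hi : i' ≠ i ∧ σ.c i' = σ.c i
  · rw [if_pos hi, if_pos hi, Function.update_of_ne]
    intro hh
    exact hi.1 (Sum.inl_injective hh)
  · rw [if_neg hi, if_neg hi]

theorem colA_update (m : Mat s t) (R : Fin s ⊕ Fin t → ℕ) (j : Fin t) (x : ℕ) :
    σ.colA m (Function.update R (Sum.inr j) x) j = σ.colA m R j := by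
  unfold Str.colA
  congr 1

theorem Mof_update (m : Mat s t) (R : Fin s ⊕ Fin t → ℕ) (e : Fin s ⊕ Fin t) (x : ℕ) :
    Mof m e (Function.update R e x) = Mof m e R := by
  unfold Mof
  congr 1
  apply Finset.prod_congr rfl
  intro e' he'
  rw [Function.update_of_ne (Finset.ne_of_mem_erase he')]

theorem lo_ge (hr : ∀ i, ρ0 ≤ r i) (hr' : ∀ j, ρ0 ≤ r' j) (e : Fin s ⊕ Fin t) :
    ρ0 ≤ lo σ r r' ρt e := by
  unfold lo
  apply le_trans _ (le_max_right _ _)
  rcases e with i | j
  · dsimp only
    split_ifs
    · exact le_trans (hr i) (le_max_left _ _)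
    · exact hr i
  · exact hr' j

theorem lo_top (e : Fin s ⊕ Fin t) (he : (σ.rk e : ℕ) = 0) : ρt ≤ lo σ r r' ρt e := by
  unfold lo
  rw [if_pos he]
  exact le_max_left _ _

/-- weighted sum with one condition -/
theorem sum_wt1 (hS : Sieve X ρ0 ρt L κ W) (m : Mat s t) (e : Fin s ⊕ Fin t)
    (R : Fin s ⊕ Fin t → ℕ) (A : ℕ) (hr : ∀ i, ρ0 ≤ r i) (hr' : ∀ j, ρ0 ≤ r' j) :
    ∑ x ∈ (primesIn (lo σ r r' ρt e) X).filter (fun x => C1 X A x),
      wt σ W m e (Function.update R e x)
      ≤ (if (σ.rk e : ℕ) = 0 then κ else 1) * (L / Real.log (lo σ r r' ρt e)) := by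
  have h0 : ρ0 ≤ lo σ r r' ρt e := lo_ge hr hr' e
  have hlog : 0 ≤ Real.log (lo σ r r' ρt e) := Real.log_nonneg (by linarith [hS.one_lt])
  by_cases he : (σ.rk e : ℕ) = 0
  · simp only [wt, he, if_true, Mof_update, Function.update_self]
    rcases Nat.eq_zero_or_pos (Mof m e R) with hM | hM
    · simp only [hM, Nat.cast_zero, zero_mul, Finset.sum_const_zero]
      have := hS.κ0
      have := hS.L1
      positivity
    · exact hS.top1 _ A _ hM h0 (lo_top e he)
  · simp only [wt, he, if_false, Function.update_self, one_mul]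
    exact hS.S1 A _ h0

/-- weighted sum with two conditions -/
theorem sum_wt2 (hS : Sieve X ρ0 ρt L κ W) (m : Mat s t) (e : Fin s ⊕ Fin t)
    (R : Fin s ⊕ Fin t → ℕ) (A B : ℕ) (hAB : A ≠ B) (hr : ∀ i, ρ0 ≤ r i)
    (hr' : ∀ j, ρ0 ≤ r' j) :
    ∑ x ∈ (primesIn (lo σ r r' ρt e) X).filter (fun x => C1 X A x ∧ C1 X B x),
      wt σ W m e (Function.update R e x)
      ≤ (if (σ.rk e : ℕ) = 0 then κ else 1) * (L / (Real.log (lo σ r r' ρt e)) ^ 2) := by
  have h0 : ρ0 ≤ lo σ r r' ρt e := lo_ge hr hr' e
  by_cases he : (σ.rk e : ℕ) = 0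
  · simp only [wt, he, if_true, Mof_update, Function.update_self]
    rcases Nat.eq_zero_or_pos (Mof m e R) with hM | hM
    · simp only [hM, Nat.cast_zero, zero_mul, Finset.sum_const_zero]
      have := hS.κ0
      have := hS.L1
      positivity
    · exact hS.top2 _ A B _ hM hAB h0 (lo_top e he)
  · simp only [wt, he, if_false, Function.update_self, one_mul]
    exact hS.S2 A B _ hAB h0

theorem sum_ff (hS : Sieve X ρ0 ρt L κ W) (hσ : σ.Valid) (m : Mat s t)
    (hr : ∀ i, ρ0 ≤ r i) (hr' : ∀ j, ρ0 ≤ r' j) (e : Fin s ⊕ Fin t)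
    (R : Fin s ⊕ Fin t → ℕ) :
    ∑ x ∈ TT σ X r r' ρt e, ff σ X W m e (Function.update R e x) ≤ BB σ r r' L κ e := by
  classical
  have hL := hS.L1
  have hκ : 0 ≤ (if (σ.rk e : ℕ) = 0 then κ else 1) := by
    split_ifs
    · exact hS.κ0
    · norm_num
  rcases e with i | j
  · have hloA : r i ≤ lo σ r r' ρt (Sum.inl i) := by
      unfold lo
      apply le_trans _ (le_max_right _ _)
      dsimp only
      split_ifs
      · exact le_max_left _ _
      · exact le_rfl
    have hlogr : 0 < Real.log (r i) := Real.log_pos (by linarith [hS.one_lt, hr i])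
    have hlog1 : Real.log (r i) ≤ Real.log (lo σ r r' ρt (Sum.inl i)) :=
      Real.log_le_log (by linarith [hS.one_lt, hr i]) hloA
    unfold TT ff BB
    dsimp only
    by_cases hb : σ.β i = true
    · rw [if_pos hb]
      have hloB : r' (σ.c i) ≤ lo σ r r' ρt (Sum.inl i) := by
        unfold lo
        apply le_trans _ (le_max_right _ _)
        dsimp only
        rw [if_pos hb]
        exact le_max_right _ _
      have hlogr' : 0 < Real.log (r' (σ.c i)) :=
        Real.log_pos (by linarith [hS.one_lt, hr' (σ.c i)])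
      have hlog2 : Real.log (r' (σ.c i)) ≤ Real.log (lo σ r r' ρt (Sum.inl i)) :=
        Real.log_le_log (by linarith [hS.one_lt, hr' (σ.c i)]) hloB
      by_cases hAB : σ.rowA m R i = σ.colB m R i
      · have : ∀ x, ¬ cond σ X m (Sum.inl i) (Function.update R (Sum.inl i) x) := by
          intro x hc
          unfold cond at hc
          dsimp only at hc
          have := (hc.2 hb).2
          rw [rowA_update, colB_update] at this
          exact this hAB
        simp only [this, if_false, Finset.sum_const_zero]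
        positivity
      · have hiff : ∀ x, cond σ X m (Sum.inl i) (Function.update R (Sum.inl i) x) ↔
            (C1 X (σ.rowA m R i) x ∧ C1 X (σ.colB m R i) x) := by
          intro x
          unfold cond
          dsimp only
          rw [rowA_update, colB_update, Function.update_self]
          constructor
          · rintro ⟨h1, h2⟩
            exact ⟨h1, (h2 hb).1⟩
          · rintro ⟨h1, h2⟩
            exact ⟨h1, fun _ => ⟨h2, hAB⟩⟩
        simp only [hiff]
        rw [← Finset.sum_filter]
        refine le_trans (sum_wt2 hS m (Sum.inl i) R _ _ hAB hr hr') ?_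
        apply mul_le_mul_of_nonneg_left _ hκ
        apply div_le_div_of_nonneg_left (by linarith) (by positivity)
        rw [pow_two]
        exact mul_le_mul hlog1 hlog2 hlogr'.le (by linarith)
    · rw [if_neg hb]
      have hiff : ∀ x, cond σ X m (Sum.inl i) (Function.update R (Sum.inl i) x) ↔
            (C1 X (σ.rowA m R i) x) := by
          intro x
          unfold cond
          dsimp only
          rw [rowA_update, Function.update_self]
          constructor
          · rintro ⟨h1, h2⟩
            exact h1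
          · intro h1
            exact ⟨h1, fun h => absurd h hb⟩
      simp only [hiff]
      rw [← Finset.sum_filter]
      refine le_trans (sum_wt1 hS m (Sum.inl i) R _ hr hr') ?_
      apply mul_le_mul_of_nonneg_left _ hκ
      exact div_le_div_of_nonneg_left (by linarith) hlogr hlog1
  · unfold TT ff BB
    dsimp only
    by_cases hd : σ.dummy j
    · simp only [hd, if_true, Finset.sum_singleton, mul_one]
      have : ¬ ((σ.rk (Sum.inr j) : ℕ) = 0) := fun h => hσ.v5 j h hd
      rw [if_neg this]
    · simp only [hd, if_false]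
      have hloA : r' j ≤ lo σ r r' ρt (Sum.inr j) := by
        unfold lo
        exact le_max_right _ _
      have hlogr : 0 < Real.log (r' j) := Real.log_pos (by linarith [hS.one_lt, hr' j])
      have hlog1 : Real.log (r' j) ≤ Real.log (lo σ r r' ρt (Sum.inr j)) :=
        Real.log_le_log (by linarith [hS.one_lt, hr' j]) hloA
      have hiff : ∀ x, cond σ X m (Sum.inr j) (Function.update R (Sum.inr j) x) ↔
            (C1 X (σ.colA m R j) x) := by
          intro x
          unfold cond
          dsimp only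
          rw [colA_update, Function.update_self]
      simp only [hiff]
      rw [← Finset.sum_filter]
      refine le_trans (sum_wt1 hS m (Sum.inr j) R _ hr hr') ?_
      apply mul_le_mul_of_nonneg_left _ hκ
      exact div_le_div_of_nonneg_left (by linarith) hlogr hlog1

/-- the sum over all marks for a fixed structure and cofactor matrix -/
theorem sum_marks (hS : Sieve X ρ0 ρt L κ W) (hσ : σ.Valid) (m : Mat s t)
    (hr : ∀ i, ρ0 ≤ r i) (hr' : ∀ j, ρ0 ≤ r' j) :
    ∑ R ∈ Fintype.piFinset (TT σ X r r' ρt), ∏ e, ff σ X W m e R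
      ≤ ∏ e, BB σ r r' L κ e := by
  apply iter_sum σ.ord
  · intro e R
    exact ff_nonneg hS m e R
  · intro e R R' h
    exact ff_dep hσ m e R R' h
  · intro e R
    exact sum_ff hS hσ m hr hr' e R

theorem prod_BB_le (hS : Sieve X ρ0 ρt L κ W) (hσ : σ.Valid) (hs : 0 < s)
    (hr : ∀ i, ρ0 ≤ r i) (hr' : ∀ j, ρ0 ≤ r' j) :
    ∏ e, BB σ r r' L κ e ≤ κ * L ^ (s + t) * (∏ i, (1 / Real.log (r i))) *
      ∏ j, (1 / Real.log (r' j)) := by
  have hL := hS.L1
  have hκ := hS.κ0
  have hlr : ∀ i, 0 < Real.log (r i) := fun i => Real.log_pos (by linarith [hS.one_lt, hr i])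
  have hlr' : ∀ j, 0 < Real.log (r' j) := fun j => Real.log_pos (by linarith [hS.one_lt, hr' j])
  unfold BB
  rw [Finset.prod_mul_distrib]
  have h1 : ∏ e : Fin s ⊕ Fin t, (if (σ.rk e : ℕ) = 0 then κ else 1) = κ := by
    have hst : 0 < s + t := by omega
    have : ∀ e : Fin s ⊕ Fin t, ((σ.rk e : ℕ) = 0) ↔ σ.ord ⟨0, hst⟩ = e := by
      intro e
      constructor
      · intro h
        have : σ.rk e = ⟨0, hst⟩ := Fin.ext h
        rw [← this]
        simp [Str.rk]
      · intro h
        rw [← h]
        simp [Str.rk]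
    simp_rw [this]
    rw [Finset.prod_ite_eq]
    simp
  rw [h1, Fintype.prod_sum_type]
  have h2 : ∏ i : Fin s, (if σ.β i = true then L / (Real.log (r i) * Real.log (r' (σ.c i)))
          else L / Real.log (r i))
      = L ^ s * (∏ i, (1 / Real.log (r i))) *
        ∏ i, (if σ.β i = true then 1 / Real.log (r' (σ.c i)) else 1) := by
    have : ∀ i : Fin s, (if σ.β i = true then L / (Real.log (r i) * Real.log (r' (σ.c i)))
          else L / Real.log (r i))
        = L * (1 / Real.log (r i)) * (if σ.β i = true then 1 / Real.log (r' (σ.c i)) else 1) := by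
      intro i
      split_ifs
      · field_simp
      · field_simp
    simp_rw [this, Finset.prod_mul_distrib]
    simp
  have h3 : ∏ i, (if σ.β i = true then 1 / Real.log (r' (σ.c i)) else 1)
      = ∏ j, (if σ.dummy j then 1 / Real.log (r' j) else 1) := by
    rw [← Finset.prod_filter, ← Finset.prod_filter]
    refine Finset.prod_bij' (i := fun i _ => σ.c i) (j := fun j _ => σ.r j) ?_ ?_ ?_ ?_ ?_
    · intro i hi
      rw [Finset.mem_filter] at hi ⊢
      exact ⟨Finset.mem_univ _, hσ.dummy_c hi.2⟩
    · intro j hj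
      rw [Finset.mem_filter] at hj ⊢
      exact ⟨Finset.mem_univ _, hj.2.1⟩
    · intro i hi
      rw [Finset.mem_filter] at hi
      exact hσ.v1 i hi.2
    · intro j hj
      rw [Finset.mem_filter] at hj
      exact hj.2.2
    · intro i _
      rfl
  have h4 : (∏ j, (if σ.dummy j then 1 / Real.log (r' j) else 1)) *
      (∏ j : Fin t, (if σ.dummy j then 1 else L / Real.log (r' j)))
      ≤ L ^ t * ∏ j, (1 / Real.log (r' j)) := by
    rw [← Finset.prod_mul_distrib]
    have : L ^ t * ∏ j, (1 / Real.log (r' j)) = ∏ j : Fin t, (L * (1 / Real.log (r' j))) := by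
      rw [Finset.prod_mul_distrib]
      simp
    rw [this]
    apply Finset.prod_le_prod
    · intro j _
      have := hlr' j
      split_ifs <;> positivity
    · intro j _
      have h5 := hlr' j
      split_ifs
      · rw [mul_one]
        have h6 : 0 ≤ 1 / Real.log (r' j) := by positivity
        nlinarith
      · apply le_of_eq
        field_simp
  rw [h2, h3]
  have h5 : 0 ≤ ∏ i, (1 / Real.log (r i)) := Finset.prod_nonneg (fun i _ => by
    have := hlr i; positivity)
  calc κ * (L ^ s * (∏ i, (1 / Real.log (r i))) *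
        (∏ j, (if σ.dummy j then 1 / Real.log (r' j) else 1)) *
        (∏ j : Fin t, (if σ.dummy j then 1 else L / Real.log (r' j))))
      = κ * (L ^ s * (∏ i, (1 / Real.log (r i)))) *
        ((∏ j, (if σ.dummy j then 1 / Real.log (r' j) else 1)) *
        (∏ j : Fin t, (if σ.dummy j then 1 else L / Real.log (r' j)))) := by ring
    _ ≤ κ * (L ^ s * (∏ i, (1 / Real.log (r i)))) * (L ^ t * ∏ j, (1 / Real.log (r' j))) := by
        apply mul_le_mul_of_nonneg_left h4
        positivity
    _ = _ := by rw [pow_add]; ring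

end Crest.Agent.R020.CollM
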