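import Crest.Agent.R020.Cells
import Crest.Agent.R020.Abn5
import Crest.Agent.R020.CollDefs
import Crest.Agent.R020.CollPair
import Crest.Agent.R020.Stmt
import Crest.Agent.R020.Renewal

-- ▼ part R020/LStat
section

/-!
Row 20 (helper661): the left statistic, Chernoff bounds over tuples of primes in given cells
(note 7137, S4 (ii), (iii)).

* `st ℓ n = ∑_{p | n} ℓ (cl p)` (with multiplicity);
* `tuple_chernoff`: weight (`∏ 1/(q_a - 1)`) of the tuples `q : ι → ℕ` of primes in the cells `α a`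
  with `∑ st ℓ (q_a - 1) ≥ H`;
* `tuple_dev`: deviation from the mean.
-/

set_option autoImplicit false

open scoped ENNReal

noncomputable section

namespace Crest.Agent.R020.LS

/-- the additive statistic with value `ℓ (cl p)` at the prime `p` -/
def st (ℓ : ℕ → ℝ) (n : ℕ) : ℝ := (n.primeFactorsList.map (fun p => ℓ (cl p))).sum


lemma st_eq_coll (ℓ : ℕ → ℝ) (n : ℕ) : st ℓ n = Coll.st ℓ n := rfl

@[simp] lemma st_one (ℓ : ℕ → ℝ) : st ℓ 1 = 0 := by simp [st]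

@[simp] lemma st_zero (ℓ : ℕ → ℝ) : st ℓ 0 = 0 := by simp [st]

lemma st_mul (ℓ : ℕ → ℝ) {m n : ℕ} (hm : m ≠ 0) (hn : n ≠ 0) :
    st ℓ (m * n) = st ℓ m + st ℓ n := by
  unfold st
  rw [((Nat.perm_primeFactorsList_mul hm hn).map _).sum_eq, List.map_append, List.sum_append]

lemma st_prod {ι : Type*} (ℓ : ℕ → ℝ) (s : Finset ι) (m : ι → ℕ) (h : ∀ i ∈ s, m i ≠ 0) :
    st ℓ (∏ i ∈ s, m i) = ∑ i ∈ s, st ℓ (m i) := by
  classical
  induction s using Finset.induction_on with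
  | empty => simp
  | insert a s ha ih =>
    rw [Finset.prod_insert ha, Finset.sum_insert ha, st_mul, ih]
    · intro i hi; exact h i (Finset.mem_insert_of_mem hi)
    · exact h a (Finset.mem_insert_self a s)
    · exact Finset.prod_ne_zero_iff.mpr fun i hi => h i (Finset.mem_insert_of_mem hi)





lemma st_le_card {ℓ : ℕ → ℝ} {Λ : ℝ} (h : ∀ i, ℓ i ≤ Λ) (n : ℕ) :
    st ℓ n ≤ Λ * n.primeFactorsList.length := by
  unfold st
  have h1 : ∀ l : List ℕ, (l.map (fun p => ℓ (cl p))).sum ≤ Λ * l.length := by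
    intro l
    induction l with
    | nil => simp
    | cons a l ih =>
      simp only [List.map_cons, List.sum_cons, List.length_cons]
      have := h (cl a)
      push_cast
      linarith
  exact h1 _

/-- the weight `exp (c * st ℓ n)` is completely multiplicative -/
lemma cm_exp_st (c : ℝ) (ℓ : ℕ → ℝ) {n : ℕ} (hn : n ≠ 0) :
    Coll.cm (fun p => ENNReal.ofReal (Real.exp (c * ℓ (cl p)))) n =
      ENNReal.ofReal (Real.exp (c * st ℓ n)) := by
  unfold Coll.cm st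
  rw [if_neg hn]
  have h1 : ∀ l : List ℕ, (l.map (fun p => ENNReal.ofReal (Real.exp (c * ℓ (cl p))))).prod =
      ENNReal.ofReal (Real.exp (c * (l.map (fun p => ℓ (cl p))).sum)) := by
    intro l
    induction l with
    | nil => simp
    | cons a l ih =>
      simp only [List.map_cons, List.prod_cons, List.sum_cons]
      rw [ih, ← ENNReal.ofReal_mul (Real.exp_pos _).le, ← Real.exp_add]
      congr 2
      ring
  exact h1 _

lemma PL_eq_PU (U : ℝ) : PL U = PU U := by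
  unfold PL PU
  ext p
  rw [Finset.mem_filter, Finset.mem_range, Nat.mem_primesLE, Nat.lt_succ_iff]

lemma exp_two_fifths : Real.exp (2 / 5) ≤ 3 / 2 := by
  have h : Real.exp (2 / 5) ^ 5 ≤ (3 / 2 : ℝ) ^ 5 := by
    rw [← Real.exp_nat_mul]
    have h1 : ((5 : ℕ) : ℝ) * (2 / 5) = 1 + 1 := by norm_num
    rw [h1, Real.exp_add]
    have := Real.exp_one_lt_d9
    have := Real.exp_pos 1
    nlinarith
  exact le_of_pow_le_pow_left₀ (by norm_num) (by norm_num) h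

/-- one coordinate -/
lemma one_coord : ∃ C : ℝ, 0 < C ∧ ∀ (α : ℕ) (ℓ : ℕ → ℝ) (Λ τ : ℝ), (∀ i, 0 ≤ ℓ i) →
    (∀ i, ℓ i ≤ Λ) → 0 ≤ τ → τ * Λ ≤ 2 / 5 →
    ∑' q : ℕ, {q : ℕ | q.Prime ∧ cl q = α}.indicator
      (fun q => ENNReal.ofReal (Real.exp (τ * st ℓ (q - 1))) * ((q - 1 : ℕ) : ℝ≥0∞)⁻¹) q ≤
      ENNReal.ofReal (Real.exp (C + 2 * Real.log (1 + α) +
        ∑ i ∈ Finset.range α, (Real.exp (τ * ℓ i) - 1))) := by
  obtain ⟨C1, hC1, hTS⟩ := twisted_collcm_le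
  refine ⟨max 1 (Real.log C1 + 56), lt_of_lt_of_le one_pos (le_max_left _ _), ?_⟩
  intro α ℓ Λ τ hℓ0 hℓ hτ hτΛ
  set h : ℕ → ℝ≥0∞ := fun p => ENNReal.ofReal (Real.exp (τ * ℓ (cl p))) with hh
  have hle : ∀ i, Real.exp (τ * ℓ i) ≤ 3 / 2 := fun i =>
    (Real.exp_le_exp.mpr ((mul_le_mul_of_nonneg_left (hℓ i) hτ).trans hτΛ)).trans exp_two_fifths
  have h1 := hTS h (fun p _ => ENNReal.ofReal_le_ofReal (hle _)) (α : ℝ) (by positivity)
  have h2 : ∑' q : ℕ, {q : ℕ | q.Prime ∧ cl q = α}.indicator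
      (fun q => ENNReal.ofReal (Real.exp (τ * st ℓ (q - 1))) * ((q - 1 : ℕ) : ℝ≥0∞)⁻¹) q ≤
      ∑' q : ℕ, {q : ℕ | q.Prime ∧ (α : ℝ) ≤ yy q ∧ yy q ≤ α + 1}.indicator
      (fun q => Coll.cm h (q - 1) * ((q - 1 : ℕ) : ℝ≥0∞)⁻¹) q := by
    apply ENNReal.tsum_le_tsum
    intro q
    by_cases hq : q ∈ {q : ℕ | q.Prime ∧ cl q = α}
    · rw [Set.indicator_of_mem hq, Set.indicator_of_mem]
      · rw [hh, cm_exp_st]
        have := hq.1.two_le
        omega
      · refine ⟨hq.1, ?_, ?_⟩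
        · have := cl_le_yy q; rwa [hq.2] at this
        · have := yy_le_cl q; rwa [hq.2] at this
    · rw [Set.indicator_of_notMem hq]; exact zero_le
  refine h2.trans (h1.trans ?_)
  apply ENNReal.ofReal_le_ofReal
  have h3 : ∑ p ∈ PL (α : ℝ), (h p).toReal / p ≤
      ∑ i ∈ Finset.range α, Real.exp (τ * ℓ i) + 37 * (3 / 2) := by
    rw [PL_eq_PU]
    have h4 := sum_cl_div_le (f := fun i => Real.exp (τ * ℓ i)) (B := 3 / 2)
      (fun i => (Real.exp_pos _).le) hle α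
    refine le_trans (le_of_eq ?_) h4
    apply Finset.sum_congr rfl
    intro p _
    rw [hh, ENNReal.toReal_ofReal (Real.exp_pos _).le]
  have h5 : C1 * (1 + (α : ℝ)) ^ 2 * Real.exp (-(α : ℝ)) *
      Real.exp (∑ p ∈ PL (α : ℝ), (h p).toReal / p) =
      Real.exp (Real.log C1 + 2 * Real.log (1 + α) + -(α : ℝ) +
        ∑ p ∈ PL (α : ℝ), (h p).toReal / p) := by
    have hα : (0 : ℝ) < 1 + α := by positivity
    rw [Real.exp_add, Real.exp_add, Real.exp_add, Real.exp_log hC1]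
    congr 3
    rw [two_mul, Real.exp_add, Real.exp_log hα]
    ring
  rw [h5]
  apply Real.exp_le_exp.mpr
  rw [Finset.sum_sub_distrib, Finset.sum_const, Finset.card_range, nsmul_eq_mul, mul_one]
  have h6 := le_max_right 1 (Real.log C1 + 56)
  linarith


lemma exp_sub_one_sub_le {x : ℝ} (h0 : 0 ≤ x) (h1 : x ≤ 1) : Real.exp x - 1 - x ≤ x ^ 2 := by
  have := Real.exp_bound' h0 h1 (n := 2) (by norm_num)
  norm_num [Finset.sum_range_succ, Nat.factorial] at this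
  nlinarith


end Crest.Agent.R020.LS
end
end

-- ▼ part R020/LStatA
section

/-!
Row 20 (helper661): sums over totients through the decomposition of the canonical preimage into
alive primes and dead part.

* `dsum_le`: `∑_d 1/d ∏_{p ∈ alv w (rr d)} g p * h (φ (deadPart))
    ≤ ∏_{p ∈ PU Y} (1 + g p/(p-1)) * ∑_{e ∈ Sm (PU w)} h e / e`;
* `alv_cons`, `deadPart_cons`: `n = q * rr d`.
-/

set_option autoImplicit false

open scoped ENNReal

noncomputable section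

namespace Crest.Agent.R020.LS

open Coll (alv deadPart redv kap ell Alive)

/-- totients whose canonical preimage is squarefree above `w`, with alive primes `≤ Y` -/
def DD (w : ℕ) (Y : ℝ) : Set ℕ :=
  {d | IsTot d ∧ (∀ p : ℕ, p.Prime → (w : ℝ) < yy p → ¬ p ^ 2 ∣ rr d) ∧
    ∀ p ∈ alv w (rr d), yy p ≤ Y}

/-- the dead part of the totient `d` -/
def dd (w d : ℕ) : ℕ := Nat.totient (deadPart w (rr d))

lemma DD_eq {w : ℕ} {Y : ℝ} {d : ℕ} (h : d ∈ DD w Y) :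
    d = (∏ p ∈ alv w (rr d), (p - 1)) * dd w d := by
  have h1 := Coll.totient_decomp_alv (n := rr d) h.2.1
  rw [totient_rr h.1] at h1
  exact h1

lemma dd_mem {w : ℕ} {Y : ℝ} {d : ℕ} (h : d ∈ DD w Y) : dd w d ∈ Sm (PU (w : ℝ) : Set ℕ) := by
  have hr := rr_pos d
  refine ⟨?_, ?_⟩
  · unfold dd
    exact (Nat.totient_pos.mpr (Nat.pos_of_ne_zero (Coll.deadPart_ne_zero hr.ne'))).ne'
  · intro p hp
    rw [Nat.mem_primeFactors] at hp
    rw [Finset.mem_coe, mem_PU (by positivity)]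
    exact ⟨hp.1, Coll.yy_le_of_dvd_dead hr.ne' h.2.1 hp.1 hp.2.1⟩

lemma DD_injOn (w : ℕ) (Y : ℝ) : Set.InjOn (fun d => (alv w (rr d), dd w d)) (DD w Y) := by
  intro d hd d' hd' h
  simp only [Prod.mk.injEq] at h
  rw [DD_eq hd, DD_eq hd', h.1, h.2]

/-- The basic sum over totients. -/
lemma dsum_le (w : ℕ) {Y : ℝ} (hY : 0 ≤ Y) (g h : ℕ → ℝ≥0∞) :
    ∑' d : ℕ, (DD w Y).indicator
        (fun d => (d : ℝ≥0∞)⁻¹ * ((∏ p ∈ alv w (rr d), g p) * h (dd w d))) d ≤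
      (∏ p ∈ PU Y, (1 + g p * ((p - 1 : ℕ) : ℝ≥0∞)⁻¹)) *
        ws (fun e => h e * (e : ℝ≥0∞)⁻¹) (Sm (PU (w : ℝ) : Set ℕ)) := by
  classical
  set a : Finset ℕ → ℝ≥0∞ := fun A =>
    if A ∈ (PU Y).powerset then ∏ p ∈ A, (g p * ((p - 1 : ℕ) : ℝ≥0∞)⁻¹) else 0 with ha
  set b : ℕ → ℝ≥0∞ := (Sm (PU (w : ℝ) : Set ℕ)).indicator (fun e => h e * (e : ℝ≥0∞)⁻¹) with hb
  have h1 : ∑' A : Finset ℕ, a A = ∏ p ∈ PU Y, (1 + g p * ((p - 1 : ℕ) : ℝ≥0∞)⁻¹) := by
    rw [Finset.prod_one_add]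
    rw [tsum_eq_sum (s := (PU Y).powerset)]
    · apply Finset.sum_congr rfl
      intro A hA
      rw [ha]
      simp only [if_pos hA]
    · intro A hA
      rw [ha]
      simp only [if_neg hA]
  have h2 : (∏ p ∈ PU Y, (1 + g p * ((p - 1 : ℕ) : ℝ≥0∞)⁻¹)) *
        ws (fun e => h e * (e : ℝ≥0∞)⁻¹) (Sm (PU (w : ℝ) : Set ℕ)) =
      ∑' x : Finset ℕ × ℕ, a x.1 * b x.2 := by
    rw [ENNReal.tsum_prod (f := fun A e => a A * b e)]
    simp_rw [ENNReal.tsum_mul_left]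
    rw [ENNReal.tsum_mul_right, h1]
    rfl
  rw [h2, ← tsum_subtype (DD w Y)]
  have hinj : Function.Injective (fun d : DD w Y => (alv w (rr (d : ℕ)), dd w (d : ℕ))) := by
    intro d d' hdd
    exact Subtype.ext (DD_injOn w Y d.2 d'.2 hdd)
  refine le_trans (le_of_eq ?_) (ENNReal.tsum_comp_le_tsum_of_injective hinj
    (fun x : Finset ℕ × ℕ => a x.1 * b x.2))
  apply tsum_congr
  rintro ⟨d, hd⟩
  simp only
  have h3 : alv w (rr d) ∈ (PU Y).powerset := by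
    rw [Finset.mem_powerset]
    intro p hp
    rw [mem_PU hY]
    exact ⟨(Coll.mem_alv.mp hp).1.1, hd.2.2 p hp⟩
  rw [ha, hb]
  simp only [if_pos h3]
  rw [Set.indicator_of_mem (dd_mem hd), Finset.prod_mul_distrib]
  have h4 : (d : ℝ≥0∞)⁻¹ = (∏ p ∈ alv w (rr d), ((p - 1 : ℕ) : ℝ≥0∞)⁻¹) *
      ((dd w d : ℕ) : ℝ≥0∞)⁻¹ := by
    conv_lhs => rw [DD_eq hd]
    rw [inv_mul_nat]
    congr 1
    have h5 : ∀ A : Finset ℕ, ((∏ p ∈ A, (p - 1) : ℕ) : ℝ≥0∞)⁻¹ =
        ∏ p ∈ A, ((p - 1 : ℕ) : ℝ≥0∞)⁻¹ := by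
      intro A
      induction A using Finset.induction_on with
      | empty => simp
      | insert p A hp ih => rw [Finset.prod_insert hp, Finset.prod_insert hp, inv_mul_nat, ih]
    exact h5 _
  rw [h4]
  ring

/-! ### The pair `n = q * rr d` -/

lemma coprime_of_Pm {q m : ℕ} (hq : q.Prime) (hm : m ≠ 0) (hP : Pm m < q) : ¬ q ∣ m := by
  intro h
  exact lt_irrefl _ ((Pm_lt_iff hm hq.two_le).mp hP q hq h)

lemma not_mem_alv {w q m : ℕ} (hq : q.Prime) (hm : m ≠ 0) (hP : Pm m < q) : q ∉ alv w m := by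
  intro h
  exact coprime_of_Pm hq hm hP (Coll.mem_alv.mp h).1.2.1

lemma alv_cons {w q m : ℕ} (hq : q.Prime) (hm : m ≠ 0) (ha : Alive w q) :
    alv w (q * m) = insert q (alv w m) := by
  ext p
  rw [Finset.mem_insert, Coll.mem_alv, Coll.mem_alv]
  constructor
  · rintro ⟨⟨hp, hd, h0⟩, hal⟩
    rcases (Nat.Prime.dvd_mul hp).mp hd with h | h
    · left
      exact (Nat.prime_dvd_prime_iff_eq hp hq).mp h
    · right
      exact ⟨⟨hp, h, hm⟩, hal⟩
  · rintro (rfl | ⟨⟨hp, hd, h0⟩, hal⟩)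
    · exact ⟨⟨hq, dvd_mul_right _ _, mul_ne_zero hq.ne_zero hm⟩, ha⟩
    · exact ⟨⟨hp, hd.mul_left _, mul_ne_zero hq.ne_zero hm⟩, hal⟩

lemma deadPart_cons {w q m : ℕ} (hq : q.Prime) (hm : m ≠ 0) (hP : Pm m < q) (ha : Alive w q) :
    deadPart w (q * m) = deadPart w m := by
  have h1 := Coll.deadPart_mul w (q * m)
  have h2 := Coll.deadPart_mul w m
  rw [alv_cons hq hm ha, Finset.prod_insert (not_mem_alv hq hm hP), mul_assoc] at h1
  have h3 := Nat.eq_of_mul_eq_mul_left hq.pos h1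
  have h4 : 0 < ∏ p ∈ alv w m, p := Finset.prod_pos fun p hp => (Coll.mem_alv.mp hp).1.1.pos
  exact Nat.eq_of_mul_eq_mul_left h4 (h3.trans h2.symm)

end Crest.Agent.R020.LS
end
end

-- ▼ part R020/LStatB
section

/-!
Row 20 (helper661): exponential moments of the excess of the left statistic.

* `ex ℓ p = max 0 (st ℓ (p-1) - ∑_{i ≤ cl p} ℓ i)`;
* `cell_ex`: `∑_{q in cell α} exp (τ ex ℓ q)/(q-1) ≤ C (1+α)^2 exp (τ²Λ²α)`;
* `dsum_bound`: sums over totients.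
-/

set_option autoImplicit false

open scoped ENNReal

noncomputable section

namespace Crest.Agent.R020.LS

open Coll (alv deadPart redv kap ell Alive)

/-- excess of the statistic `ℓ` at the prime `p` -/
def ex (ℓ : ℕ → ℝ) (p : ℕ) : ℝ := max 0 (st ℓ (p - 1) - ∑ i ∈ Finset.range (cl p + 1), ℓ i)

lemma ex_nonneg (ℓ : ℕ → ℝ) (p : ℕ) : 0 ≤ ex ℓ p := le_max_left _ _

lemma le_ex (ℓ : ℕ → ℝ) (p : ℕ) :
    st ℓ (p - 1) ≤ ∑ i ∈ Finset.range (cl p + 1), ℓ i + ex ℓ p := by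
  have := le_max_right 0 (st ℓ (p - 1) - ∑ i ∈ Finset.range (cl p + 1), ℓ i)
  unfold ex
  linarith

lemma exp_mul_max_le {τ x : ℝ} :
    Real.exp (τ * max 0 x) ≤ 1 + Real.exp (τ * x) := by
  rcases le_total 0 x with h | h
  · rw [max_eq_right h]
    linarith
  · rw [max_eq_left h, mul_zero, Real.exp_zero]
    linarith [Real.exp_pos (τ * x)]

/-- one cell -/
lemma cell_ex : ∃ C : ℝ, 0 < C ∧ ∀ (α : ℕ) (ℓ : ℕ → ℝ) (Λ τ : ℝ), (∀ i, 0 ≤ ℓ i) →
    (∀ i, ℓ i ≤ Λ) → 0 ≤ τ → τ * Λ ≤ 2 / 5 →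
    ∑' q : ℕ, {q : ℕ | q.Prime ∧ cl q = α}.indicator
      (fun q => ENNReal.ofReal (Real.exp (τ * ex ℓ q)) * ((q - 1 : ℕ) : ℝ≥0∞)⁻¹) q ≤
      ENNReal.ofReal (C * (1 + (α : ℝ)) ^ 2 * Real.exp (τ ^ 2 * Λ ^ 2 * α)) := by
  obtain ⟨C, hC, h1⟩ := one_coord
  refine ⟨2 * Real.exp C, by positivity, ?_⟩
  intro α ℓ Λ τ hℓ0 hℓ hτ hτΛ
  have hΛ : 0 ≤ Λ := (hℓ0 0).trans (hℓ 0)
  have hα : (0 : ℝ) < 1 + α := by positivity
  set m : ℝ := ∑ i ∈ Finset.range (α + 1), ℓ i with hm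
  have h2 : ∀ q : ℕ, {q : ℕ | q.Prime ∧ cl q = α}.indicator
      (fun q => ENNReal.ofReal (Real.exp (τ * ex ℓ q)) * ((q - 1 : ℕ) : ℝ≥0∞)⁻¹) q ≤
      {q : ℕ | q.Prime ∧ cl q = α}.indicator
      (fun q => ENNReal.ofReal (Real.exp (0 * st ℓ (q - 1))) * ((q - 1 : ℕ) : ℝ≥0∞)⁻¹) q +
      ENNReal.ofReal (Real.exp (-(τ * m))) * {q : ℕ | q.Prime ∧ cl q = α}.indicator
      (fun q => ENNReal.ofReal (Real.exp (τ * st ℓ (q - 1))) * ((q - 1 : ℕ) : ℝ≥0∞)⁻¹) q := by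
    intro q
    by_cases hq : q ∈ {q : ℕ | q.Prime ∧ cl q = α}
    · rw [Set.indicator_of_mem hq, Set.indicator_of_mem hq, Set.indicator_of_mem hq, ← mul_assoc,
        ← ENNReal.ofReal_mul (Real.exp_pos _).le, ← add_mul, ← ENNReal.ofReal_add
        (Real.exp_pos _).le (by positivity), ← Real.exp_add]
      apply mul_le_mul' _ le_rfl
      apply ENNReal.ofReal_le_ofReal
      rw [zero_mul, Real.exp_zero]
      have h3 := exp_mul_max_le (τ := τ) (x := st ℓ (q - 1) - m)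
      have h4 : ex ℓ q = max 0 (st ℓ (q - 1) - m) := by
        unfold ex
        rw [hq.2, hm]
      rw [h4]
      refine h3.trans (le_of_eq ?_)
      congr 2
      ring
    · rw [Set.indicator_of_notMem hq]; exact zero_le
  refine (ENNReal.tsum_le_tsum h2).trans ?_
  rw [ENNReal.tsum_add, ENNReal.tsum_mul_left]
  have h3 := h1 α ℓ Λ 0 hℓ0 hℓ le_rfl (by norm_num)
  have h4 := h1 α ℓ Λ τ hℓ0 hℓ hτ hτΛ
  refine (add_le_add h3 (mul_le_mul' le_rfl h4)).trans ?_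
  rw [← ENNReal.ofReal_mul (Real.exp_pos _).le, ← ENNReal.ofReal_add (by positivity) (by positivity)]
  apply ENNReal.ofReal_le_ofReal
  have h5 : Real.exp (2 * Real.log (1 + (α : ℝ))) = (1 + (α : ℝ)) ^ 2 := by
    rw [two_mul, Real.exp_add, Real.exp_log hα]; ring
  have h6 : ∑ i ∈ Finset.range α, (Real.exp (0 * ℓ i) - 1) = 0 := by
    apply Finset.sum_eq_zero
    intro i _
    simp
  have h7 : -(τ * m) + ∑ i ∈ Finset.range α, (Real.exp (τ * ℓ i) - 1) ≤ τ ^ 2 * Λ ^ 2 * α := by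
    have h8 : τ ^ 2 * Λ ^ 2 * (α : ℝ) = ∑ i ∈ Finset.range α, τ ^ 2 * Λ ^ 2 := by
      rw [Finset.sum_const, Finset.card_range, nsmul_eq_mul]; ring
    have h9 : ∑ i ∈ Finset.range α, (Real.exp (τ * ℓ i) - 1) ≤
        ∑ i ∈ Finset.range α, (τ * ℓ i + τ ^ 2 * Λ ^ 2) := by
      apply Finset.sum_le_sum
      intro i _
      have h4 : 0 ≤ τ * ℓ i := mul_nonneg hτ (hℓ0 i)
      have h5 : τ * ℓ i ≤ τ * Λ := mul_le_mul_of_nonneg_left (hℓ i) hτ
      have h6 := exp_sub_one_sub_le h4 (by linarith)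
      have h7 : (τ * ℓ i) ^ 2 ≤ (τ * Λ) ^ 2 := pow_le_pow_left₀ h4 h5 2
      rw [mul_pow τ Λ] at h7
      linarith
    rw [Finset.sum_add_distrib, ← Finset.mul_sum, ← h8] at h9
    have h10 : m = ∑ i ∈ Finset.range α, ℓ i + ℓ α := by rw [hm, Finset.sum_range_succ]
    have h11 := mul_nonneg hτ (hℓ0 α)
    rw [h10, mul_add]
    linarith
  rw [h6, add_zero, Real.exp_add C, h5]
  have h12 : Real.exp (-(τ * m)) * Real.exp (C + 2 * Real.log (1 + (α : ℝ)) +
      ∑ i ∈ Finset.range α, (Real.exp (τ * ℓ i) - 1)) =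
      Real.exp C * (1 + (α : ℝ)) ^ 2 *
        Real.exp (-(τ * m) + ∑ i ∈ Finset.range α, (Real.exp (τ * ℓ i) - 1)) := by
    rw [← h5, ← Real.exp_add, ← Real.exp_add, ← Real.exp_add]
    congr 1
    ring
  rw [h12]
  have h13 := Real.exp_le_exp.mpr h7
  have h14 : (1 : ℝ) ≤ Real.exp (τ ^ 2 * Λ ^ 2 * α) := Real.one_le_exp (by positivity)
  have h15 : 0 < Real.exp C * (1 + (α : ℝ)) ^ 2 := by positivity
  nlinarith

lemma prod_one_add_le (s : Finset ℕ) (x : ℕ → ℝ≥0∞) {S : ℝ} (hS : 0 ≤ S)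
    (h : ∑ p ∈ s, x p ≤ ENNReal.ofReal S) : ∏ p ∈ s, (1 + x p) ≤ ENNReal.ofReal (Real.exp S) := by
  have h1 : ∀ p ∈ s, x p ≠ ⊤ := by
    intro p hp
    have h2 : x p ≤ ∑ p ∈ s, x p := Finset.single_le_sum (fun _ _ => zero_le) hp
    exact ne_top_of_le_ne_top ENNReal.ofReal_ne_top (h2.trans h)
  have h2 : ∑ p ∈ s, (x p).toReal ≤ S := by
    rw [← ENNReal.toReal_sum h1]
    exact ENNReal.toReal_le_of_le_ofReal hS h
  have h3 : ∏ p ∈ s, (1 + x p) ≤ ∏ p ∈ s, ENNReal.ofReal (Real.exp (x p).toReal) := by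
    apply Finset.prod_le_prod'
    intro p hp
    have h4 : 1 + x p = ENNReal.ofReal (1 + (x p).toReal) := by
      rw [ENNReal.ofReal_add zero_le_one ENNReal.toReal_nonneg, ENNReal.ofReal_one,
        ENNReal.ofReal_toReal (h1 p hp)]
    rw [h4]
    apply ENNReal.ofReal_le_ofReal
    rw [add_comm]
    exact Real.add_one_le_exp _
  refine h3.trans ?_
  rw [← ENNReal.ofReal_prod_of_nonneg (fun i _ => (Real.exp_pos _).le), ← Real.exp_sum]
  exact ENNReal.ofReal_le_ofReal (Real.exp_le_exp.mpr h2)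

/-- sums over the primes with `yy ≤ Y` are bounded by sums over cells -/
lemma sum_PU_le_cells {Y : ℝ} (hY : 0 ≤ Y) {J : ℕ} (hJ : 1 ≤ J) (hYJ : Y ≤ J) (f : ℕ → ℝ≥0∞) :
    ∑ p ∈ PU Y, f p ≤ ∑ α ∈ Finset.range J,
      ∑' q : ℕ, {q : ℕ | q.Prime ∧ cl q = α}.indicator f q := by
  have h1 : ∀ p ∈ PU Y, f p ≤ ∑ α ∈ Finset.range J,
      {q : ℕ | q.Prime ∧ cl q = α}.indicator f p := by
    intro p hp
    rw [mem_PU hY] at hp
    have h2 : cl p ∈ Finset.range J := by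
      rw [Finset.mem_range]
      obtain ⟨m, rfl⟩ : ∃ m, J = m + 1 := ⟨J - 1, by omega⟩
      rw [Nat.lt_succ_iff, cl_le_iff]
      push_cast at hYJ
      linarith [hp.2]
    have h3 : p ∈ {q : ℕ | q.Prime ∧ cl q = cl p} := ⟨hp.1, rfl⟩
    calc f p = {q : ℕ | q.Prime ∧ cl q = cl p}.indicator f p := by rw [Set.indicator_of_mem h3]
      _ ≤ _ := Finset.single_le_sum (f := fun α => {q : ℕ | q.Prime ∧ cl q = α}.indicator f p)
        (fun _ _ => zero_le) h2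
  refine (Finset.sum_le_sum h1).trans ?_
  rw [Finset.sum_comm]
  apply Finset.sum_le_sum
  intro α _
  exact ENNReal.sum_le_tsum _

lemma dead_le {w : ℕ} {c : ℝ} (hc : Real.exp c ≤ 3 / 2) :
    ws (fun e => ENNReal.ofReal (Real.exp (c * e.primeFactorsList.length)) * (e : ℝ≥0∞)⁻¹)
      (Sm (PU (w : ℝ) : Set ℕ)) ≤ ENNReal.ofReal (Real.exp (3 / 2 * w + 23)) := by
  have h1 := ws_sm_le (z := fun _ => Real.exp c) (fun _ => (Real.exp_pos _).le) (fun _ => hc)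
    (w : ℝ)
  refine le_trans (ws_mono_fun ?_) (h1.trans ?_)
  · intro e he
    have he0 : (0 : ℝ) < e := by exact_mod_cast Nat.pos_of_ne_zero he.1
    rw [wt_const_eq _ he.1, ← Real.exp_nat_mul, div_eq_mul_inv, ENNReal.ofReal_mul
      (Real.exp_pos _).le, ENNReal.ofReal_inv_of_pos he0, ENNReal.ofReal_natCast, mul_comm c]
  · apply ENNReal.ofReal_le_ofReal
    apply Real.exp_le_exp.mpr
    have h5 := sum_inv_PU (U := (w : ℝ)) (by positivity)
    have h6 : ∑ p ∈ PU (w : ℝ), Real.exp c / p ≤ 3 / 2 * ∑ p ∈ PU (w : ℝ), (1 : ℝ) / p := by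
      rw [Finset.mul_sum]
      apply Finset.sum_le_sum
      intro p _
      rw [mul_one_div]
      exact div_le_div_of_nonneg_right hc (Nat.cast_nonneg p)
    linarith

/-- The exponential moment over totients. -/
theorem dsum_bound : ∃ C : ℝ, 0 < C ∧ ∀ (w J : ℕ) (Y M τ Λ : ℝ) (ℓ : ℕ → ℝ), 1 ≤ w → 0 ≤ Y →
    Y ≤ J → 1 ≤ J → (∀ i, 0 ≤ ℓ i) → (∀ i, ℓ i ≤ Λ) → 0 ≤ τ → τ * Λ ≤ 2 / 5 →
    ∑' d : ℕ, {d | d ∈ DD w Y ∧ ∑ p ∈ alv w (rr d), (cl p : ℝ) ≤ M}.indicator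
      (fun d => (d : ℝ≥0∞)⁻¹ * ENNReal.ofReal (Real.exp (τ * (∑ p ∈ alv w (rr d), ex ℓ p +
        Λ * (dd w d).primeFactorsList.length)))) d ≤
      ENNReal.ofReal (Real.exp ((τ ^ 2 * Λ ^ 2 + 3 * Real.log (J + 1) / w) * M + C +
        3 / 2 * w)) := by
  obtain ⟨C, hC, hcell⟩ := cell_ex
  refine ⟨C + 23, by positivity, ?_⟩
  intro w J Y M τ Λ ℓ hw hY hYJ hJ hℓ0 hℓ hτ hτΛ
  have hΛ : 0 ≤ Λ := (hℓ0 0).trans (hℓ 0)
  have hw0 : (0 : ℝ) < w := by exact_mod_cast hw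
  have hJ0 : (0 : ℝ) < (J : ℝ) + 1 := by positivity
  have hlJ : 0 ≤ Real.log ((J : ℝ) + 1) := Real.log_nonneg (by
    have : (0 : ℝ) ≤ J := by positivity
    linarith)
  set s : ℝ := τ ^ 2 * Λ ^ 2 + 3 * Real.log (J + 1) / w with hs
  have hs0 : 0 ≤ s := by positivity
  set g : ℕ → ℝ≥0∞ := fun p => if w ≤ cl p then
    ENNReal.ofReal (Real.exp (-(s * cl p))) * ENNReal.ofReal (Real.exp (τ * ex ℓ p)) else 0 with hg
  set h : ℕ → ℝ≥0∞ := fun e => ENNReal.ofReal (Real.exp (τ * Λ * e.primeFactorsList.length))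
    with hh
  have key := dsum_le w hY g h
  -- pointwise
  have h1 : ∀ d : ℕ, {d | d ∈ DD w Y ∧ ∑ p ∈ alv w (rr d), (cl p : ℝ) ≤ M}.indicator
      (fun d => (d : ℝ≥0∞)⁻¹ * ENNReal.ofReal (Real.exp (τ * (∑ p ∈ alv w (rr d), ex ℓ p +
        Λ * (dd w d).primeFactorsList.length)))) d ≤ ENNReal.ofReal (Real.exp (s * M)) *
      (DD w Y).indicator
        (fun d => (d : ℝ≥0∞)⁻¹ * ((∏ p ∈ alv w (rr d), g p) * h (dd w d))) d := by
    intro d
    by_cases hd : d ∈ {d | d ∈ DD w Y ∧ ∑ p ∈ alv w (rr d), (cl p : ℝ) ≤ M}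
    · rw [Set.indicator_of_mem hd, Set.indicator_of_mem hd.1]
      have h2 : ∏ p ∈ alv w (rr d), g p = ENNReal.ofReal (Real.exp (∑ p ∈ alv w (rr d),
          (-(s * cl p) + τ * ex ℓ p))) := by
        rw [Real.exp_sum, ENNReal.ofReal_prod_of_nonneg (fun i _ => (Real.exp_pos _).le)]
        apply Finset.prod_congr rfl
        intro p hp
        have h3 : w ≤ cl p := Coll.le_cl_of_lt_yy (Coll.mem_alv.mp hp).2.lt_yy
        rw [hg]
        simp only [if_pos h3]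
        rw [← ENNReal.ofReal_mul (Real.exp_pos _).le, ← Real.exp_add]
      rw [h2, hh]
      simp only
      rw [← ENNReal.ofReal_mul (Real.exp_pos _).le, ← Real.exp_add, mul_left_comm,
        ← ENNReal.ofReal_mul (Real.exp_pos _).le, ← Real.exp_add]
      apply mul_le_mul' le_rfl
      apply ENNReal.ofReal_le_ofReal
      apply Real.exp_le_exp.mpr
      rw [Finset.sum_add_distrib, Finset.sum_neg_distrib, ← Finset.mul_sum, ← Finset.mul_sum]
      have h4 := mul_le_mul_of_nonneg_left hd.2 hs0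
      rw [mul_add]
      linarith
    · rw [Set.indicator_of_notMem hd]; exact zero_le
  refine (ENNReal.tsum_le_tsum h1).trans ?_
  rw [ENNReal.tsum_mul_left]
  -- dead part
  have h2 := dead_le (w := w) (c := τ * Λ)
    ((Real.exp_le_exp.mpr hτΛ).trans exp_two_fifths)
  -- the product
  have h3 : ∑ p ∈ PU Y, g p * ((p - 1 : ℕ) : ℝ≥0∞)⁻¹ ≤ ENNReal.ofReal C := by
    refine (sum_PU_le_cells hY hJ hYJ _).trans ?_
    have h4 : ∀ α ∈ Finset.range J, ∑' q : ℕ, {q : ℕ | q.Prime ∧ cl q = α}.indicator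
        (fun p => g p * ((p - 1 : ℕ) : ℝ≥0∞)⁻¹) q ≤ ENNReal.ofReal (C * ((J : ℝ) + 1)⁻¹) := by
      intro α hα
      rw [Finset.mem_range] at hα
      by_cases hwα : w ≤ α
      · have h5 : ∀ q : ℕ, {q : ℕ | q.Prime ∧ cl q = α}.indicator
            (fun p => g p * ((p - 1 : ℕ) : ℝ≥0∞)⁻¹) q ≤ ENNReal.ofReal (Real.exp (-(s * α))) *
            {q : ℕ | q.Prime ∧ cl q = α}.indicator
            (fun q => ENNReal.ofReal (Real.exp (τ * ex ℓ q)) * ((q - 1 : ℕ) : ℝ≥0∞)⁻¹) q := by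
          intro q
          by_cases hq : q ∈ {q : ℕ | q.Prime ∧ cl q = α}
          · rw [Set.indicator_of_mem hq, Set.indicator_of_mem hq, hg]
            simp only
            rw [hq.2, if_pos hwα, mul_assoc]
          · rw [Set.indicator_of_notMem hq]; exact zero_le
        refine (ENNReal.tsum_le_tsum h5).trans ?_
        rw [ENNReal.tsum_mul_left]
        refine (mul_le_mul' le_rfl (hcell α ℓ Λ τ hℓ0 hℓ hτ hτΛ)).trans ?_
        rw [← ENNReal.ofReal_mul (Real.exp_pos _).le]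
        apply ENNReal.ofReal_le_ofReal
        have h6 : Real.exp (-(s * α)) ≤ Real.exp (-(τ ^ 2 * Λ ^ 2 * α)) *
            (((J : ℝ) + 1) ^ 3)⁻¹ := by
          have h7 : (((J : ℝ) + 1) ^ 3)⁻¹ = Real.exp (-(3 * Real.log ((J : ℝ) + 1))) := by
            rw [Real.exp_neg]
            congr 1
            rw [show (3 : ℝ) * Real.log ((J : ℝ) + 1) = ((3 : ℕ) : ℝ) * Real.log ((J : ℝ) + 1) by
              norm_num, Real.exp_nat_mul, Real.exp_log hJ0]
          rw [h7, ← Real.exp_add]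
          apply Real.exp_le_exp.mpr
          have h8 : 3 * Real.log ((J : ℝ) + 1) ≤ 3 * Real.log ((J : ℝ) + 1) / w * α := by
            rw [div_mul_eq_mul_div, le_div_iff₀ hw0]
            have : (w : ℝ) ≤ α := by exact_mod_cast hwα
            exact mul_le_mul_of_nonneg_left this (by positivity)
          rw [hs, add_mul]
          linarith
        have h9 : (1 + (α : ℝ)) ^ 2 ≤ ((J : ℝ) + 1) ^ 2 := by
          have : (α : ℝ) + 1 ≤ J := by exact_mod_cast hα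
          apply pow_le_pow_left₀ (by positivity)
          linarith
        calc Real.exp (-(s * α)) * (C * (1 + (α : ℝ)) ^ 2 * Real.exp (τ ^ 2 * Λ ^ 2 * α)) ≤
            (Real.exp (-(τ ^ 2 * Λ ^ 2 * α)) * (((J : ℝ) + 1) ^ 3)⁻¹) *
              (C * ((J : ℝ) + 1) ^ 2 * Real.exp (τ ^ 2 * Λ ^ 2 * α)) := by
              apply mul_le_mul h6 _ (by positivity) (by positivity)
              apply mul_le_mul_of_nonneg_right _ (Real.exp_pos _).le
              exact mul_le_mul_of_nonneg_left h9 hC.le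
          _ = (Real.exp (-(τ ^ 2 * Λ ^ 2 * α)) * Real.exp (τ ^ 2 * Λ ^ 2 * α)) * (C *
              ((((J : ℝ) + 1) ^ 3)⁻¹ * ((J : ℝ) + 1) ^ 2)) := by ring
          _ = C * ((J : ℝ) + 1)⁻¹ := by
              rw [← Real.exp_add, neg_add_cancel, Real.exp_zero, one_mul]
              congr 1
              field_simp
      · have h5 : ∀ q : ℕ, {q : ℕ | q.Prime ∧ cl q = α}.indicator
            (fun p => g p * ((p - 1 : ℕ) : ℝ≥0∞)⁻¹) q = 0 := by
          intro q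
          by_cases hq : q ∈ {q : ℕ | q.Prime ∧ cl q = α}
          · rw [Set.indicator_of_mem hq, hg]
            simp only
            rw [hq.2, if_neg hwα, zero_mul]
          · rw [Set.indicator_of_notMem hq]
        rw [tsum_congr h5, tsum_zero]
        exact zero_le
    refine (Finset.sum_le_sum h4).trans ?_
    rw [Finset.sum_const, Finset.card_range, nsmul_eq_mul, ← ENNReal.ofReal_natCast,
      ← ENNReal.ofReal_mul (Nat.cast_nonneg J)]
    apply ENNReal.ofReal_le_ofReal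
    have h10 : (J : ℝ) * ((J : ℝ) + 1)⁻¹ ≤ 1 := by
      rw [← div_eq_mul_inv, div_le_one hJ0]; linarith
    nlinarith
  have h4 := prod_one_add_le (PU Y) _ hC.le h3
  refine (mul_le_mul' le_rfl (key.trans (mul_le_mul' h4 h2))).trans ?_
  rw [← ENNReal.ofReal_mul (Real.exp_pos _).le, ← ENNReal.ofReal_mul (Real.exp_pos _).le,
    ← Real.exp_add, ← Real.exp_add]
  apply ENNReal.ofReal_le_ofReal
  apply Real.exp_le_exp.mpr
  linarith

end Crest.Agent.R020.LS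
end
end

-- ▼ part R020/LStatC
section

/-!
Row 20 (helper661): the field `stat` of `LGood` fails on a thin set of pairs; general form.
-/

set_option autoImplicit false

open scoped ENNReal

noncomputable section

namespace Crest.Agent.R020.LS

open Coll (alv deadPart redv kap ell Alive)

/-- the field `stat` of `Coll.LGood`, for `n = q * rr d` -/
def StatOK (w N J : ℕ) (F : ℝ) (n : ℕ) : Prop :=
  ∀ S ⊆ alv w n, ∀ κ' : ℕ → ℕ, Antitone κ' → κ' 0 ≤ N → (∀ i, J ≤ i → κ' i = 0) →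
    Coll.st (ell w κ') (redv w n S) ≤ ∑ i ∈ Finset.range J, kap S i * ell w κ' i + F

/-- the profile attached to `β : Fin N → Fin (J+1)` -/
def kb {N J : ℕ} (β : Fin N → Fin (J + 1)) (i : ℕ) : ℕ :=
  (Finset.univ.filter (fun b : Fin N => i < (β b : ℕ))).card

lemma kb_le {N J : ℕ} (β : Fin N → Fin (J + 1)) (i : ℕ) : kb β i ≤ N := by
  unfold kb
  refine (Finset.card_le_univ _).trans ?_
  simp

lemma exists_kb {N J : ℕ} {κ' : ℕ → ℕ} (hκ : Antitone κ') (h0 : κ' 0 ≤ N)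
    (hJ : ∀ i, J ≤ i → κ' i = 0) : ∃ β : Fin N → Fin (J + 1), κ' = kb β := by
  classical
  -- `m b = #{i < J : b < κ' i}`
  set m : ℕ → ℕ := fun b => ((Finset.range J).filter (fun i => b < κ' i)).card with hm
  have hmJ : ∀ b, m b < J + 1 := by
    intro b
    rw [Nat.lt_succ_iff]
    exact (Finset.card_filter_le _ _).trans (by simp)
  have hmi : ∀ b i, i < m b ↔ b < κ' i := by
    intro b i
    constructor
    · intro h
      by_contra hle
      push Not at hle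
      -- then the set is contained in `range i`
      have h1 : (Finset.range J).filter (fun i => b < κ' i) ⊆ Finset.range i := by
        intro j hj
        rw [Finset.mem_filter] at hj
        rw [Finset.mem_range]
        by_contra hij
        push Not at hij
        have := hκ hij
        omega
      have h2 := Finset.card_le_card h1
      rw [Finset.card_range] at h2
      have h3 : m b ≤ i := h2
      omega
    · intro h
      have h1 : Finset.range (i + 1) ⊆ (Finset.range J).filter (fun i => b < κ' i) := by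
        intro j hj
        rw [Finset.mem_range] at hj
        have h3 := hκ (show j ≤ i by omega)
        rw [Finset.mem_filter, Finset.mem_range]
        refine ⟨?_, by omega⟩
        by_contra hjJ
        push Not at hjJ
        have := hJ j hjJ
        omega
      have h2 := Finset.card_le_card h1
      rw [Finset.card_range] at h2
      exact h2
  refine ⟨fun b => ⟨m b, hmJ b⟩, ?_⟩
  funext i
  unfold kb
  simp only
  have h1 : (Finset.univ.filter (fun b : Fin N => i < m (b : ℕ))) =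
      (Finset.univ.filter (fun b : Fin N => (b : ℕ) < κ' i)) := by
    apply Finset.filter_congr
    intro b _
    exact hmi b i
  rw [h1]
  have h2 : κ' i ≤ N := (hκ (Nat.zero_le i)).trans h0
  have h3 : (Finset.univ.filter (fun b : Fin N => (b : ℕ) < κ' i)).card = κ' i := by
    rw [← Finset.card_map Fin.valEmbedding]
    have h4 : (Finset.univ.filter (fun b : Fin N => (b : ℕ) < κ' i)).map Fin.valEmbedding =
        Finset.range (κ' i) := by
      ext j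
      simp only [Finset.mem_map, Finset.mem_filter, Finset.mem_univ, true_and,
        Fin.valEmbedding_apply, Finset.mem_range]
      constructor
      · rintro ⟨b, hb, rfl⟩; exact hb
      · intro hj
        exact ⟨⟨j, by omega⟩, hj, rfl⟩
    rw [h4, Finset.card_range]
  exact h3.symm

lemma ell_nonneg (w : ℕ) (κ' : ℕ → ℕ) (i : ℕ) : 0 ≤ ell w κ' i := by
  unfold Coll.ell
  split_ifs
  · apply Real.log_nonneg
    have : (0 : ℝ) ≤ κ' 0 := Nat.cast_nonneg _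
    linarith
  · exact Real.log_nonneg (le_max_left _ _)

lemma ell_kb_le (w : ℕ) {N J : ℕ} (β : Fin N → Fin (J + 1)) (i : ℕ) :
    ell w (kb β) i ≤ Real.log (N + 1) := by
  unfold Coll.ell
  split_ifs
  · apply Real.log_le_log
    · positivity
    · have : (kb β 0 : ℝ) ≤ N := by exact_mod_cast kb_le β 0
      linarith
  · apply Real.log_le_log
    · exact lt_of_lt_of_le one_pos (le_max_left _ _)
    · apply max_le
      · have : (0 : ℝ) ≤ N := Nat.cast_nonneg _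
        linarith
      · have : (kb β i : ℝ) ≤ N := by exact_mod_cast kb_le β i
        linarith

lemma sum_kap (S : Finset ℕ) (J : ℕ) (ℓ : ℕ → ℝ) (hS : ∀ p ∈ S, cl p < J) :
    ∑ i ∈ Finset.range J, (kap S i : ℝ) * ℓ i =
      ∑ p ∈ S, ∑ i ∈ Finset.range (cl p + 1), ℓ i := by
  have h1 : ∀ i, (kap S i : ℝ) * ℓ i = ∑ p ∈ S, if i ≤ cl p then ℓ i else 0 := by
    intro i
    unfold Coll.kap
    rw [← Finset.sum_filter, Finset.sum_const, nsmul_eq_mul]
    rfl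
  simp_rw [h1]
  rw [Finset.sum_comm]
  apply Finset.sum_congr rfl
  intro p hp
  rw [← Finset.sum_filter]
  apply Finset.sum_congr
  · ext i
    have := hS p hp
    simp only [Finset.mem_filter, Finset.mem_range]
    omega
  · intro i _; rfl

/-- The key inequality. -/
lemma st_redv_le {w n J : ℕ} {ℓ : ℕ → ℝ} {Λ : ℝ} (hℓ : ∀ i, ℓ i ≤ Λ) (hn : n ≠ 0)
    {S : Finset ℕ} (hS : S ⊆ alv w n) (hJ : ∀ p ∈ alv w n, cl p < J) :
    st ℓ (redv w n S) ≤ ∑ i ∈ Finset.range J, (kap S i : ℝ) * ℓ i + (∑ p ∈ alv w n, ex ℓ p +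
      Λ * (Nat.totient (deadPart w n)).primeFactorsList.length) := by
  have hD : Nat.totient (deadPart w n) ≠ 0 :=
    (Nat.totient_pos.mpr (Nat.pos_of_ne_zero (Coll.deadPart_ne_zero hn))).ne'
  have hSp : ∀ p ∈ S, p.Prime := fun p hp => (Coll.mem_alv.mp (hS hp)).1.1
  have hP := Coll.prod_sub_one_pos hSp
  unfold Coll.redv
  rw [st_mul ℓ hP.ne' hD, st_prod ℓ S (fun p => p - 1) (by
    intro p hp
    have := (hSp p hp).two_le
    show p - 1 ≠ 0
    omega), sum_kap S J ℓ (fun p hp => hJ p (hS hp))]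
  have h1 : ∑ p ∈ S, st ℓ (p - 1) ≤ ∑ p ∈ S, (∑ i ∈ Finset.range (cl p + 1), ℓ i + ex ℓ p) :=
    Finset.sum_le_sum fun p _ => le_ex ℓ p
  rw [Finset.sum_add_distrib] at h1
  have h2 : ∑ p ∈ S, ex ℓ p ≤ ∑ p ∈ alv w n, ex ℓ p :=
    Finset.sum_le_sum_of_subset_of_nonneg hS (fun p _ _ => ex_nonneg ℓ p)
  have h3 := st_le_card hℓ (Nat.totient (deadPart w n))
  linarith

/-- If `stat` fails then some profile `β` has a large excess. -/
lemma exists_of_not_statOK {w N J : ℕ} {F : ℝ} {n : ℕ} (hn : n ≠ 0)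
    (hJ : ∀ p ∈ alv w n, cl p < J) (h : ¬ StatOK w N J F n) :
    ∃ β : Fin N → Fin (J + 1), F < ∑ p ∈ alv w n, ex (ell w (kb β)) p +
      Real.log (N + 1) * (Nat.totient (deadPart w n)).primeFactorsList.length := by
  unfold StatOK at h
  push Not at h
  obtain ⟨S, hS, κ', hκ, h0, hκJ, hlt⟩ := h
  obtain ⟨β, rfl⟩ := exists_kb hκ h0 hκJ
  refine ⟨β, ?_⟩
  have h1 := st_redv_le (ℓ := ell w (kb β)) (ell_kb_le w β) hn hS hJ
  rw [st_eq_coll] at h1
  linarith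

/-- General bound for weighted sums over the pairs for which `stat` fails. -/
theorem stat_general : ∃ C : ℝ, 0 < C ∧ ∀ (w N J : ℕ) (Y M τ F K : ℝ) (W : ℕ → ℕ → ℝ≥0∞)
    (P : Set (ℕ × ℕ)), 1 ≤ w → 0 ≤ Y → Y ≤ J → 1 ≤ J → 0 ≤ τ → τ * Real.log (N + 1) ≤ 2 / 5 →
    0 ≤ K →
    (∀ x ∈ P, x.1.Prime ∧ IsTot x.2 ∧ Pm (rr x.2) < x.1 ∧ Alive w x.1 ∧ yy x.1 ≤ Y ∧
      (∀ p : ℕ, p.Prime → (w : ℝ) < yy p → ¬ p ^ 2 ∣ rr x.2) ∧
      ∑ p ∈ alv w (rr x.2), (cl p : ℝ) ≤ M ∧ ¬ StatOK w N J F (x.1 * rr x.2)) →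
    (∀ ℓ : ℕ → ℝ, (∀ i, 0 ≤ ℓ i) → (∀ i, ℓ i ≤ Real.log (N + 1)) → ∀ d : ℕ, d ≠ 0 →
      ∑' q : ℕ, {q : ℕ | (q, d) ∈ P}.indicator
        (fun q => W q d * ENNReal.ofReal (Real.exp (τ * ex ℓ q))) q ≤
        ENNReal.ofReal K * (d : ℝ≥0∞)⁻¹) →
    ∑' x : ℕ × ℕ, P.indicator (fun x => W x.1 x.2) x ≤
      ENNReal.ofReal (((J : ℝ) + 1) ^ N * Real.exp (-(τ * F)) * K *
        Real.exp ((τ ^ 2 * Real.log (N + 1) ^ 2 + 3 * Real.log (J + 1) / w) * M + C +
        3 / 2 * w)) := by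
  obtain ⟨C, hC, hd⟩ := dsum_bound
  refine ⟨C, hC, ?_⟩
  intro w N J Y M τ F K W P hw hY hYJ hJ hτ hτΛ hK hP hq
  set Λ : ℝ := Real.log (N + 1) with hΛ
  -- notation
  set A : Set ℕ := {d | d ∈ DD w Y ∧ ∑ p ∈ alv w (rr d), (cl p : ℝ) ≤ M} with hA
  set E : (Fin N → Fin (J + 1)) → ℕ → ℝ≥0∞ := fun β d =>
    ENNReal.ofReal (Real.exp (τ * (∑ p ∈ alv w (rr d), ex (ell w (kb β)) p +
        Λ * (dd w d).primeFactorsList.length))) with hE
  have h1 : ∀ x : ℕ × ℕ, P.indicator (fun x => W x.1 x.2) x ≤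
      ∑ β : Fin N → Fin (J + 1), ENNReal.ofReal (Real.exp (-(τ * F))) *
        (A.indicator (fun d => E β d) x.2 *
        P.indicator (fun x => W x.1 x.2 * ENNReal.ofReal (Real.exp (τ * ex (ell w (kb β)) x.1))) x)
        := by
    rintro ⟨q, d⟩
    by_cases hx : (q, d) ∈ P
    · obtain ⟨hqp, hdt, hPm, hal, hyq, hsq, hM, hbad⟩ := hP _ hx
      simp only at hqp hdt hPm hal hyq hsq hM hbad
      have hr := rr_pos d
      have hn : q * rr d ≠ 0 := mul_ne_zero hqp.ne_zero hr.ne'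
      have hyp : ∀ p ∈ alv w (rr d), yy p ≤ Y := by
        intro p hp
        have h2 := (Coll.mem_alv.mp hp).1
        have h3 := (Pm_lt_iff hr.ne' hqp.two_le).mp hPm p h2.1 h2.2.1
        exact (yy_mono h3.le).trans hyq
      have hdA : d ∈ A := ⟨⟨hdt, hsq, hyp⟩, hM⟩
      have hclJ : ∀ p ∈ alv w (q * rr d), cl p < J := by
        intro p hp
        have h5 : yy p ≤ Y := by
          rw [alv_cons hqp hr.ne' hal, Finset.mem_insert] at hp
          rcases hp with rfl | hp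
          · exact hyq
          · exact hyp p hp
        obtain ⟨m, rfl⟩ : ∃ m, J = m + 1 := ⟨J - 1, by omega⟩
        rw [Nat.lt_succ_iff, cl_le_iff]
        push_cast at hYJ
        linarith
      obtain ⟨β, hβ⟩ := exists_of_not_statOK hn hclJ hbad
      rw [alv_cons hqp hr.ne' hal, Finset.sum_insert (not_mem_alv hqp hr.ne' hPm),
        deadPart_cons hqp hr.ne' hPm hal] at hβ
      rw [Set.indicator_of_mem hx]
      refine le_trans ?_ (Finset.single_le_sum (f := fun β : Fin N → Fin (J + 1) =>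
        ENNReal.ofReal (Real.exp (-(τ * F))) *
        (A.indicator (fun d => E β d) d *
        P.indicator (fun x => W x.1 x.2 * ENNReal.ofReal (Real.exp (τ * ex (ell w (kb β)) x.1)))
          (q, d))) (fun _ _ => zero_le) (Finset.mem_univ β))
      simp only
      rw [Set.indicator_of_mem hdA, Set.indicator_of_mem hx, hE]
      simp only
      have h6 : (1 : ℝ≥0∞) ≤ ENNReal.ofReal (Real.exp (-(τ * F))) *
          (ENNReal.ofReal (Real.exp (τ * (∑ p ∈ alv w (rr d), ex (ell w (kb β)) p +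
            Λ * (dd w d).primeFactorsList.length))) *
          ENNReal.ofReal (Real.exp (τ * ex (ell w (kb β)) q))) := by
        rw [← ENNReal.ofReal_mul (Real.exp_pos _).le, ← Real.exp_add,
          ← ENNReal.ofReal_mul (Real.exp_pos _).le, ← Real.exp_add, ← ENNReal.ofReal_one]
        apply ENNReal.ofReal_le_ofReal
        apply Real.one_le_exp
        have h7 := mul_le_mul_of_nonneg_left hβ.le hτ
        unfold dd
        linarith
      calc W q d = 1 * W q d := (one_mul _).symm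
        _ ≤ _ := mul_le_mul' h6 le_rfl
        _ = _ := by ring
    · rw [Set.indicator_of_notMem hx]; exact zero_le
  refine (ENNReal.tsum_le_tsum h1).trans ?_
  rw [Summable.tsum_finsetSum (fun _ _ => ENNReal.summable)]
  have h2 : ∀ β ∈ (Finset.univ : Finset (Fin N → Fin (J + 1))),
      ∑' x : ℕ × ℕ, ENNReal.ofReal (Real.exp (-(τ * F))) *
        (A.indicator (fun d => E β d) x.2 *
        P.indicator (fun x => W x.1 x.2 * ENNReal.ofReal (Real.exp (τ * ex (ell w (kb β)) x.1))) x)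
      ≤ ENNReal.ofReal (Real.exp (-(τ * F)) * (K *
        Real.exp ((τ ^ 2 * Λ ^ 2 + 3 * Real.log (J + 1) / w) * M + C + 3 / 2 * w))) := by
    intro β _
    rw [ENNReal.tsum_mul_left, ENNReal.ofReal_mul (Real.exp_pos _).le]
    apply mul_le_mul' le_rfl
    rw [ENNReal.tsum_prod (f := fun q d => A.indicator (fun d => E β d) d *
        P.indicator (fun x => W x.1 x.2 * ENNReal.ofReal (Real.exp (τ * ex (ell w (kb β)) x.1)))
          (q, d)), ENNReal.tsum_comm]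
    have h3 : ∀ d : ℕ, ∑' q : ℕ, A.indicator (fun d => E β d) d *
        P.indicator (fun x => W x.1 x.2 * ENNReal.ofReal (Real.exp (τ * ex (ell w (kb β)) x.1)))
          (q, d) ≤ ENNReal.ofReal K * A.indicator (fun d => (d : ℝ≥0∞)⁻¹ * E β d) d := by
      intro d
      rw [ENNReal.tsum_mul_left]
      by_cases hdA : d ∈ A
      · rw [Set.indicator_of_mem hdA, Set.indicator_of_mem hdA]
        have hd0 : d ≠ 0 := hdA.1.1.pos.ne'
        have h4 := hq (ell w (kb β)) (ell_nonneg w _) (ell_kb_le w β) d hd0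
        have h5 : ∀ q : ℕ, P.indicator (fun x : ℕ × ℕ => W x.1 x.2 *
            ENNReal.ofReal (Real.exp (τ * ex (ell w (kb β)) x.1))) (q, d) =
            {q : ℕ | (q, d) ∈ P}.indicator
              (fun q => W q d * ENNReal.ofReal (Real.exp (τ * ex (ell w (kb β)) q))) q := by
          intro q
          by_cases hx : (q, d) ∈ P
          · rw [Set.indicator_of_mem hx, Set.indicator_of_mem (show q ∈ {q : ℕ | (q, d) ∈ P} from hx)]
          · rw [Set.indicator_of_notMem hx,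
              Set.indicator_of_notMem (show q ∉ {q : ℕ | (q, d) ∈ P} from hx)]
        simp_rw [h5]
        refine (mul_le_mul' le_rfl h4).trans (le_of_eq ?_)
        ring
      · rw [Set.indicator_of_notMem hdA, zero_mul]; exact zero_le
    refine (ENNReal.tsum_le_tsum h3).trans ?_
    rw [ENNReal.tsum_mul_left, ENNReal.ofReal_mul hK]
    apply mul_le_mul' le_rfl
    exact hd w J Y M τ Λ (ell w (kb β)) hw hY hYJ hJ (ell_nonneg w _) (ell_kb_le w β) hτ hτΛ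
  refine (Finset.sum_le_sum h2).trans ?_
  rw [Finset.sum_const, Finset.card_univ, Fintype.card_fun, Fintype.card_fin, Fintype.card_fin,
    nsmul_eq_mul, ← ENNReal.ofReal_natCast, ← ENNReal.ofReal_mul (Nat.cast_nonneg _)]
  apply ENNReal.ofReal_le_ofReal
  apply le_of_eq
  push_cast
  ring

end Crest.Agent.R020.LS
end
end

-- ▼ part R020/LStatD
section

/-!
Row 20 (helper661): the field `stat` of `LGood`, final bounds (plain and counting).
-/

set_option autoImplicit false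

open scoped ENNReal

noncomputable section

namespace Crest.Agent.R020.LS

open Coll (alv deadPart redv kap ell Alive)

/-! ### The sum over `q`, plain -/

lemma qsum_plain : ∃ C : ℝ, 0 < C ∧ ∀ (J : ℕ) (Y τ Λ : ℝ) (ℓ : ℕ → ℝ), 0 ≤ Y → Y ≤ J → 1 ≤ J →
    (∀ i, 0 ≤ ℓ i) → (∀ i, ℓ i ≤ Λ) → 0 ≤ τ → τ * Λ ≤ 2 / 5 →
    ∑' q : ℕ, {q : ℕ | q.Prime ∧ yy q ≤ Y}.indicator
      (fun q => ENNReal.ofReal (Real.exp (τ * ex ℓ q)) * ((q - 1 : ℕ) : ℝ≥0∞)⁻¹) q ≤
      ENNReal.ofReal (C * ((J : ℝ) + 1) ^ 3 * Real.exp (τ ^ 2 * Λ ^ 2 * J)) := by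
  classical
  obtain ⟨C, hC, h1⟩ := cell_ex
  refine ⟨C, hC, ?_⟩
  intro J Y τ Λ ℓ hY hYJ hJ hℓ0 hℓ hτ hτΛ
  have h2 : ∑' q : ℕ, {q : ℕ | q.Prime ∧ yy q ≤ Y}.indicator
      (fun q => ENNReal.ofReal (Real.exp (τ * ex ℓ q)) * ((q - 1 : ℕ) : ℝ≥0∞)⁻¹) q =
      ∑ q ∈ PU Y, ENNReal.ofReal (Real.exp (τ * ex ℓ q)) * ((q - 1 : ℕ) : ℝ≥0∞)⁻¹ := by
    rw [tsum_eq_sum (s := PU Y)]
    · apply Finset.sum_congr rfl
      intro q hq
      rw [Set.indicator_of_mem]
      exact (mem_PU hY).mp hq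
    · intro q hq
      rw [Set.indicator_of_notMem]
      intro h
      exact hq ((mem_PU hY).mpr h)
  rw [h2]
  refine (sum_PU_le_cells hY hJ hYJ _).trans ?_
  have h3 : ∀ α ∈ Finset.range J, ∑' q : ℕ, {q : ℕ | q.Prime ∧ cl q = α}.indicator
      (fun q => ENNReal.ofReal (Real.exp (τ * ex ℓ q)) * ((q - 1 : ℕ) : ℝ≥0∞)⁻¹) q ≤
      ENNReal.ofReal (C * ((J : ℝ) + 1) ^ 2 * Real.exp (τ ^ 2 * Λ ^ 2 * J)) := by
    intro α hα
    rw [Finset.mem_range] at hα
    refine (h1 α ℓ Λ τ hℓ0 hℓ hτ hτΛ).trans ?_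
    apply ENNReal.ofReal_le_ofReal
    have hα' : (α : ℝ) + 1 ≤ J := by exact_mod_cast hα
    apply mul_le_mul _ _ (Real.exp_pos _).le (by positivity)
    · apply mul_le_mul_of_nonneg_left _ hC.le
      apply pow_le_pow_left₀ (by positivity)
      linarith
    · apply Real.exp_le_exp.mpr
      apply mul_le_mul_of_nonneg_left _ (by positivity)
      linarith
  refine (Finset.sum_le_sum h3).trans ?_
  rw [Finset.sum_const, Finset.card_range, nsmul_eq_mul, ← ENNReal.ofReal_natCast,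
      ← ENNReal.ofReal_mul (Nat.cast_nonneg J)]
  apply ENNReal.ofReal_le_ofReal
  have h4 : (0 : ℝ) ≤ C * ((J : ℝ) + 1) ^ 2 * Real.exp (τ ^ 2 * Λ ^ 2 * J) := by positivity
  calc (J : ℝ) * (C * ((J : ℝ) + 1) ^ 2 * Real.exp (τ ^ 2 * Λ ^ 2 * J)) ≤
      ((J : ℝ) + 1) * (C * ((J : ℝ) + 1) ^ 2 * Real.exp (τ ^ 2 * Λ ^ 2 * J)) :=
        mul_le_mul_of_nonneg_right (by linarith) h4
    _ = _ := by ring

/-! ### The sum over `q`, counting -/

lemma count_st : ∃ C : ℝ, 0 < C ∧ ∀ (n : ℕ) (τ Λ : ℝ) (ℓ : ℕ → ℝ),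
    (∀ i, 0 ≤ ℓ i) → (∀ i, ℓ i ≤ Λ) → 0 ≤ τ → τ * Λ ≤ 2 / 5 → 2 ≤ n →
    ∀ z : ℝ, Real.exp (Real.exp ((n : ℝ) - 2)) ≤ z → z ≤ Real.exp (Real.exp (n : ℝ)) →
    ∀ A : Finset ℕ, (∀ q ∈ A, q.Prime ∧ (q : ℝ) ≤ z) →
    ∑ q ∈ A, Real.exp (τ * st ℓ (q - 1)) ≤ C * (1 + (n : ℝ)) ^ 2 * (z *
      Real.exp (-(2 * n) + ∑ i ∈ Finset.range n, Real.exp (τ * ℓ i))) := by
  obtain ⟨C, hC, hTS⟩ := shifted_sum_le
  refine ⟨C * Real.exp 60, by positivity, ?_⟩
  intro n τ Λ ℓ hℓ0 hℓ hτ hτΛ hn z hz1 hz2 A hA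
  have hn2 : (2 : ℝ) ≤ n := by exact_mod_cast hn
  have hle : ∀ i, Real.exp (τ * ℓ i) ≤ 3 / 2 := fun i =>
    (Real.exp_le_exp.mpr ((mul_le_mul_of_nonneg_left (hℓ i) hτ).trans hτΛ)).trans exp_two_fifths
  set h : ℕ → ℝ≥0∞ := fun p => ENNReal.ofReal (Real.exp (τ * ℓ (cl p))) with hh
  have hhp : ∀ p : ℕ, p.Prime → Coll.cm h p ≤ ENNReal.ofReal (3 / 2) := by
    intro p hp
    rw [Coll.cm_prime h p hp]
    exact ENNReal.ofReal_le_ofReal (hle _)
  have hmul : ∀ m n : ℕ, m ≠ 0 → n ≠ 0 → Coll.cm h (m * n) = Coll.cm h m * Coll.cm h n :=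
    fun m n _ _ => Coll.cm_mul h m n
  set g := toHom (Coll.cm h) (Coll.cm_one h) hmul with hg
  have hz0 : 0 < z := lt_of_lt_of_le (Real.exp_pos _) hz1
  have he1 : 1 ≤ Real.exp ((n : ℝ) - 2) := Real.one_le_exp (by linarith)
  have hz2' : 2 ≤ z := by
    have := Real.exp_one_gt_d9
    have := Real.exp_le_exp.mpr he1
    linarith
  have hlz1 : Real.exp ((n : ℝ) - 2) ≤ Real.log z := by
    rw [Real.le_log_iff_exp_le hz0]; exact hz1
  have hlz2 : Real.log z ≤ Real.exp (n : ℝ) := by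
    rw [Real.log_le_iff_le_exp hz0]; exact hz2
  have hlz0 : 0 < Real.log z := lt_of_lt_of_le (Real.exp_pos _) hlz1
  have hllz : Real.log (Real.log z) ≤ n := by
    rw [Real.log_le_iff_le_exp hlz0]; exact hlz2
  have h1 := hTS g (toHom_prime_bounds (Coll.cm_one h) hmul hhp) z hz2' A hA
  have h2 : ∀ q ∈ A, g (q - 1) = Real.exp (τ * st ℓ (q - 1)) := by
    intro q hq
    have hq2 := (hA q hq).1.two_le
    have hq1 : q - 1 ≠ 0 := by omega
    rw [hg, toHom_apply _ _ hq1, hh, cm_exp_st τ ℓ hq1, ENNReal.toReal_ofReal (Real.exp_pos _).le]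
  rw [Finset.sum_congr rfl h2] at h1
  refine h1.trans ?_
  have h3 : ∑ p ∈ Finset.range (⌊z⌋₊ + 1) with p.Prime, g p / p ≤
      ∑ i ∈ Finset.range n, Real.exp (τ * ℓ i) + 37 * (3 / 2) := by
    have h4 := sum_cl_div_le (f := fun i => Real.exp (τ * ℓ i)) (B := 3 / 2)
      (fun i => (Real.exp_pos _).le) hle n
    refine le_trans ?_ h4
    have h5 : ∑ p ∈ Finset.range (⌊z⌋₊ + 1) with p.Prime, g p / p =
        ∑ p ∈ Finset.range (⌊z⌋₊ + 1) with p.Prime, Real.exp (τ * ℓ (cl p)) / p := by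
      apply Finset.sum_congr rfl
      intro p hp
      rw [Finset.mem_filter] at hp
      rw [hg, toHom_apply _ _ hp.2.ne_zero, Coll.cm_prime h p hp.2, hh,
        ENNReal.toReal_ofReal (Real.exp_pos _).le]
    rw [h5]
    apply Finset.sum_le_sum_of_subset_of_nonneg
    · intro p hp
      rw [Finset.mem_filter, Finset.mem_range, Nat.lt_succ_iff, Nat.le_floor_iff hz0.le] at hp
      rw [mem_PU (by positivity), yy_le_iff (by positivity)]
      exact ⟨hp.2, hp.1.trans hz2⟩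
    · intro p _ _; positivity
  have hLL : LLx z ≤ 1 + n := by
    unfold LLx
    have : max 0 (Real.log (Real.log z)) ≤ n := max_le (by positivity) hllz
    linarith
  have hLL0 : 0 ≤ LLx z := zero_le_one.trans (one_le_LLx z)
  have h6 : z / Real.log z ^ 2 ≤ z * Real.exp (-(2 * n) + 4) := by
    have h7 : Real.exp (-(2 * (n : ℝ)) + 4) = (Real.exp ((n : ℝ) - 2) ^ 2)⁻¹ := by
      rw [← Real.exp_nat_mul, ← Real.exp_neg]
      congr 1
      push_cast
      ring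
    rw [h7, div_eq_mul_inv]
    apply mul_le_mul_of_nonneg_left _ hz0.le
    apply inv_anti₀ (by positivity)
    exact pow_le_pow_left₀ (Real.exp_pos _).le hlz1 2
  calc C * LLx z ^ 2 * (z / Real.log z ^ 2) *
        Real.exp (∑ p ∈ Finset.range (⌊z⌋₊ + 1) with p.Prime, g p / p) ≤
      C * (1 + (n : ℝ)) ^ 2 * (z * Real.exp (-(2 * n) + 4)) *
        Real.exp (∑ i ∈ Finset.range n, Real.exp (τ * ℓ i) + 37 * (3 / 2)) := by
        apply mul_le_mul _ (Real.exp_le_exp.mpr h3) (Real.exp_pos _).le (by positivity)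
        apply mul_le_mul _ h6 (by positivity) (by positivity)
        apply mul_le_mul_of_nonneg_left _ hC.le
        exact pow_le_pow_left₀ hLL0 hLL 2
    _ = C * (1 + (n : ℝ)) ^ 2 * z * (Real.exp (-(2 * n) + 4) *
        Real.exp (∑ i ∈ Finset.range n, Real.exp (τ * ℓ i) + 37 * (3 / 2))) := by ring
    _ ≤ C * (1 + (n : ℝ)) ^ 2 * z * (Real.exp 60 * Real.exp (-(2 * n) +
        ∑ i ∈ Finset.range n, Real.exp (τ * ℓ i))) := by
        apply mul_le_mul_of_nonneg_left _ (by positivity)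
        rw [← Real.exp_add, ← Real.exp_add]
        apply Real.exp_le_exp.mpr
        linarith
    _ = _ := by ring

lemma count_coord : ∃ C : ℝ, 0 < C ∧ ∀ (n : ℕ) (τ Λ : ℝ) (ℓ : ℕ → ℝ),
    (∀ i, 0 ≤ ℓ i) → (∀ i, ℓ i ≤ Λ) → 0 ≤ τ → τ * Λ ≤ 2 / 5 → 2 ≤ n →
    ∀ z R : ℝ, 0 ≤ z → z ≤ Real.exp (Real.exp (n : ℝ)) → Real.exp (Real.exp ((n : ℝ) - 2)) ≤ R →
    ∑' q : ℕ, {q : ℕ | q.Prime ∧ R < (q : ℝ) ∧ (q : ℝ) ≤ z}.indicator
      (fun q => ENNReal.ofReal (Real.exp (τ * ex ℓ q))) q ≤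
      ENNReal.ofReal (C * (1 + (n : ℝ)) ^ 2 * Real.exp (τ ^ 2 * Λ ^ 2 * n) *
        (z * Real.exp (-(n : ℝ)))) := by
  classical
  obtain ⟨C, hC, h1⟩ := count_st
  refine ⟨C * 3, by positivity, ?_⟩
  intro n τ Λ ℓ hℓ0 hℓ hτ hτΛ hn z R hz0 hz hR
  have hΛ : 0 ≤ Λ := (hℓ0 0).trans (hℓ 0)
  have hn2 : (2 : ℝ) ≤ n := by exact_mod_cast hn
  set A : Finset ℕ := (Finset.range (⌊z⌋₊ + 1)).filter (fun q => q.Prime ∧ R < (q : ℝ)) with hA
  have hmemA : ∀ q, q ∈ A ↔ q.Prime ∧ R < (q : ℝ) ∧ (q : ℝ) ≤ z := by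
    intro q
    rw [hA, Finset.mem_filter, Finset.mem_range, Nat.lt_succ_iff, Nat.le_floor_iff hz0]
    tauto
  have h2 : ∑' q : ℕ, {q : ℕ | q.Prime ∧ R < (q : ℝ) ∧ (q : ℝ) ≤ z}.indicator
      (fun q => ENNReal.ofReal (Real.exp (τ * ex ℓ q))) q =
      ∑ q ∈ A, ENNReal.ofReal (Real.exp (τ * ex ℓ q)) := by
    rw [tsum_eq_sum (s := A)]
    · apply Finset.sum_congr rfl
      intro q hq
      rw [Set.indicator_of_mem]
      exact (hmemA q).mp hq
    · intro q hq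
      rw [Set.indicator_of_notMem]
      intro h
      exact hq ((hmemA q).mpr h)
  rw [h2, ← ENNReal.ofReal_sum_of_nonneg (fun q _ => (Real.exp_pos _).le)]
  apply ENNReal.ofReal_le_ofReal
  rcases A.eq_empty_or_nonempty with hAe | ⟨q0, hq0⟩
  · rw [hAe, Finset.sum_empty]; positivity
  have hRz : R ≤ z := by
    have := (hmemA q0).mp hq0
    linarith [this.2.1, this.2.2]
  have hzl : Real.exp (Real.exp ((n : ℝ) - 2)) ≤ z := hR.trans hRz
  obtain ⟨k, rfl⟩ : ∃ k, n = k + 1 := ⟨n - 1, by omega⟩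
  set m : ℝ := ∑ i ∈ Finset.range k, ℓ i with hm
  have h3 : ∀ q ∈ A, Real.exp (τ * ex ℓ q) ≤ Real.exp (0 * st ℓ (q - 1)) +
      Real.exp (-(τ * m)) * Real.exp (τ * st ℓ (q - 1)) := by
    intro q hq
    have hq' := (hmemA q).mp hq
    have hcl : k ≤ cl q + 1 := by
      have h5 : ((k + 1 : ℕ) : ℝ) - 2 < yy q := by
        rw [lt_yy_iff (by linarith)]
        exact lt_of_le_of_lt hR hq'.2.1
      have h6 := yy_le_cl q
      push_cast at h5
      have h7 : (k : ℝ) < cl q + 2 := by linarith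
      have h8 : k < cl q + 2 := by exact_mod_cast h7
      omega
    have h5 : ex ℓ q ≤ max 0 (st ℓ (q - 1) - m) := by
      unfold ex
      apply max_le_max le_rfl
      have h6 : m ≤ ∑ i ∈ Finset.range (cl q + 1), ℓ i := by
        rw [hm]
        apply Finset.sum_le_sum_of_subset_of_nonneg
        · intro i hi
          rw [Finset.mem_range] at hi ⊢
          omega
        · intro i _ _; exact hℓ0 i
      linarith
    have h6 := exp_mul_max_le (τ := τ) (x := st ℓ (q - 1) - m)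
    rw [zero_mul, Real.exp_zero, ← Real.exp_add]
    refine (Real.exp_le_exp.mpr (mul_le_mul_of_nonneg_left h5 hτ)).trans (h6.trans (le_of_eq ?_))
    congr 2
    ring
  refine (Finset.sum_le_sum h3).trans ?_
  rw [Finset.sum_add_distrib, ← Finset.mul_sum]
  have hA' : ∀ q ∈ A, q.Prime ∧ (q : ℝ) ≤ z := fun q hq =>
    ⟨((hmemA q).mp hq).1, ((hmemA q).mp hq).2.2⟩
  have h4 := h1 (k + 1) 0 Λ ℓ hℓ0 hℓ le_rfl (by norm_num) hn z hzl hz A hA'
  have h5 := h1 (k + 1) τ Λ ℓ hℓ0 hℓ hτ hτΛ hn z hzl hz A hA'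
  have h6 : ∑ i ∈ Finset.range (k + 1), Real.exp (0 * ℓ i) = ((k + 1 : ℕ) : ℝ) := by
    simp
  rw [h6] at h4
  have h7 : -(2 * ((k + 1 : ℕ) : ℝ)) + ((k + 1 : ℕ) : ℝ) = -((k + 1 : ℕ) : ℝ) := by ring
  rw [h7] at h4
  -- second part
  have h9 : ∑ i ∈ Finset.range (k + 1), Real.exp (τ * ℓ i) ≤
      ((k + 1 : ℕ) : ℝ) + τ * m + 2 / 5 + τ ^ 2 * Λ ^ 2 * ((k + 1 : ℕ) : ℝ) := by
    have h10 : ∑ i ∈ Finset.range (k + 1), Real.exp (τ * ℓ i) ≤
        ∑ i ∈ Finset.range (k + 1), (1 + τ * ℓ i + τ ^ 2 * Λ ^ 2) := by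
      apply Finset.sum_le_sum
      intro i _
      have h4 : 0 ≤ τ * ℓ i := mul_nonneg hτ (hℓ0 i)
      have h5 : τ * ℓ i ≤ τ * Λ := mul_le_mul_of_nonneg_left (hℓ i) hτ
      have h6 := exp_sub_one_sub_le h4 (by linarith)
      have h7 : (τ * ℓ i) ^ 2 ≤ (τ * Λ) ^ 2 := pow_le_pow_left₀ h4 h5 2
      rw [mul_pow τ Λ] at h7
      linarith
    rw [Finset.sum_add_distrib, Finset.sum_add_distrib, ← Finset.mul_sum, Finset.sum_const,
      Finset.sum_const, Finset.card_range, nsmul_eq_mul, nsmul_eq_mul, mul_one,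
      Finset.sum_range_succ (fun i => ℓ i) k, ← hm, mul_add] at h10
    have h11 : τ * ℓ k ≤ 2 / 5 := (mul_le_mul_of_nonneg_left (hℓ k) hτ).trans hτΛ
    linarith
  have h12 : Real.exp (-(τ * m)) * Real.exp (-(2 * ((k + 1 : ℕ) : ℝ)) +
      ∑ i ∈ Finset.range (k + 1), Real.exp (τ * ℓ i)) ≤
      2 * Real.exp (τ ^ 2 * Λ ^ 2 * ((k + 1 : ℕ) : ℝ)) * Real.exp (-((k + 1 : ℕ) : ℝ)) := by
    have h13 : Real.exp (2 / 5) ≤ 2 := exp_two_fifths.trans (by norm_num)
    calc Real.exp (-(τ * m)) * Real.exp (-(2 * ((k + 1 : ℕ) : ℝ)) +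
      ∑ i ∈ Finset.range (k + 1), Real.exp (τ * ℓ i)) ≤
        Real.exp (2 / 5) * (Real.exp (τ ^ 2 * Λ ^ 2 * ((k + 1 : ℕ) : ℝ)) *
          Real.exp (-((k + 1 : ℕ) : ℝ))) := by
          rw [← Real.exp_add, ← Real.exp_add, ← Real.exp_add]
          apply Real.exp_le_exp.mpr
          linarith
      _ ≤ 2 * (Real.exp (τ ^ 2 * Λ ^ 2 * ((k + 1 : ℕ) : ℝ)) *
          Real.exp (-((k + 1 : ℕ) : ℝ))) := mul_le_mul_of_nonneg_right h13 (by positivity)
      _ = _ := by ring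
  have h14 : (1 : ℝ) ≤ Real.exp (τ ^ 2 * Λ ^ 2 * ((k + 1 : ℕ) : ℝ)) :=
    Real.one_le_exp (by positivity)
  set E := Real.exp (τ ^ 2 * Λ ^ 2 * ((k + 1 : ℕ) : ℝ)) with hE
  set G := C * (1 + ((k + 1 : ℕ) : ℝ)) ^ 2 with hG
  have hG0 : 0 ≤ G := by positivity
  set e := Real.exp (-((k + 1 : ℕ) : ℝ)) with he
  have he0 : 0 < e := Real.exp_pos _
  have h15 : Real.exp (-(τ * m)) * ∑ q ∈ A, Real.exp (τ * st ℓ (q - 1)) ≤
      G * z * (2 * E * e) := by
    refine (mul_le_mul_of_nonneg_left h5 (Real.exp_pos _).le).trans ?_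
    have h16 := mul_le_mul_of_nonneg_left h12 (mul_nonneg hG0 hz0)
    refine le_trans (le_of_eq ?_) h16
    ring
  have h17 : G * (z * e) ≤ G * z * (1 * E * e) := by
    have h18 : 0 ≤ G * z * e := by positivity
    nlinarith
  have h18 : C * 3 * (1 + ((k + 1 : ℕ) : ℝ)) ^ 2 * E * (z * e) = G * z * (3 * E * e) := by
    rw [hG]; ring
  rw [h18]
  linarith

/-! ### The size of the cells of the alive primes -/

lemma third_le_aa (i : ℕ) : 1 / 3 ≤ aa i := by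
  have h1 : aa 0 ≤ aa i := by
    unfold aa
    exact aCoef_mono (by omega) (by omega)
  refine le_trans ?_ h1
  unfold aa Crest.NumberTheoryR.TotientScale.aCoef
  have := Real.log_two_gt_d9
  norm_num
  linarith

lemma sum_yy_le_FL {c : ℕ → ℝ} (hc : ∀ i, 1 / 3 ≤ c i) (l : List ℕ) :
    1 / 3 * (l.map yy).sum ≤ FL c l := by
  induction l generalizing c with
  | nil => simp
  | cons p l ih =>
    rw [FL_cons, List.map_cons, List.sum_cons, mul_add]
    have := ih (c := fun i => c (i + 1)) (fun i => hc _)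
    have := mul_le_mul_of_nonneg_right (hc 0) (yy_nonneg p)
    linarith

lemma sum_toFinset_le (f : ℕ → ℝ) (hf : ∀ n, 0 ≤ f n) (l : List ℕ) :
    ∑ p ∈ l.toFinset, f p ≤ (l.map f).sum := by
  induction l with
  | nil => simp
  | cons p l ih =>
    rw [List.toFinset_cons, List.map_cons, List.sum_cons]
    by_cases hp : p ∈ l.toFinset
    · rw [Finset.insert_eq_of_mem hp]
      linarith [hf p]
    · rw [Finset.sum_insert hp]
      linarith

end Crest.Agent.R020.LS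
end
end

-- ▼ part R020/LStatE
section

/-!
Row 20 (helper661): the field `stat` of `LGood`, final bounds.

* `stat_bad`: plain version; `stat_bad_count`: counting version.
-/

set_option autoImplicit false

open scoped ENNReal
open Filter Topology

noncomputable section

namespace Crest.Agent.R020.LS

open Coll (alv deadPart redv kap ell Alive)

lemma sum_cl_le {w d : ℕ} {Y : ℝ} (h : FF aa d ≤ Y) :
    ∑ p ∈ alv w (rr d), (cl p : ℝ) ≤ 3 * Y := by
  have h1 : ∑ p ∈ alv w (rr d), (cl p : ℝ) ≤ ∑ p ∈ (rr d).primeFactors, yy p := by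
    have h2 : ∑ p ∈ alv w (rr d), (cl p : ℝ) ≤ ∑ p ∈ alv w (rr d), yy p :=
      Finset.sum_le_sum fun p _ => cl_le_yy p
    refine h2.trans (Finset.sum_le_sum_of_subset_of_nonneg ?_ fun p _ _ => yy_nonneg p)
    intro p hp
    have := (Coll.mem_alv.mp hp).1
    exact Nat.mem_primeFactors.mpr this
  have h2 : ∑ p ∈ (rr d).primeFactors, yy p ≤ ((dl (rr d)).map yy).sum := by
    rw [((dl_perm (rr d)).map yy).sum_eq]
    exact sum_toFinset_le yy yy_nonneg _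
  have h3 := sum_yy_le_FL third_le_aa (dl (rr d))
  unfold FF at h
  linarith

lemma StatOK.mono {w N J n : ℕ} {F F' : ℝ} (hF : F ≤ F') (h : StatOK w N J F n) :
    StatOK w N J F' n := by
  intro S hS κ' h1 h2 h3
  have := h S hS κ' h1 h2 h3
  linarith

/-- the final numerical estimate -/
lemma numeric (c C1 C2 : ℝ) (hc : 0 ≤ c) (hC1 : 0 < C1) : ∃ Y0 : ℝ, 1 ≤ Y0 ∧ ∀ Y : ℝ, Y0 ≤ Y →
    ∀ w N J : ℕ, Real.sqrt Y / 2 ≤ w → (w : ℝ) ≤ Real.sqrt Y → (N : ℝ) ≤ c * Real.sqrt Y →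
    (J : ℝ) ≤ 3 * Y →
    ∃ τ : ℝ, 0 ≤ τ ∧ τ * Real.log (N + 1) ≤ 2 / 5 ∧
      ((J : ℝ) + 1) ^ N * Real.exp (-(τ * Y ^ (9 / 10 : ℝ))) *
        (C1 * ((J : ℝ) + 1) ^ 3 * Real.exp (τ ^ 2 * Real.log (N + 1) ^ 2 * J)) *
        Real.exp ((τ ^ 2 * Real.log (N + 1) ^ 2 + 3 * Real.log (J + 1) / w) * (3 * Y) + C2 +
          3 / 2 * w) ≤ Real.exp (-Y ^ (3 / 4 : ℝ)) := by
  -- thresholds
  have hlog : ∀ Y : ℝ, 1 ≤ Y → Real.log Y ≤ 100 * Y ^ (1 / 100 : ℝ) := by
    intro Y hY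
    have h := Real.log_le_rpow_div (show (0 : ℝ) ≤ Y by linarith) (show (0 : ℝ) < 1 / 100 by norm_num)
    refine h.trans (le_of_eq ?_)
    ring
  set D : ℝ := 400 * c + (|C2| + |Real.log C1|) + 10000 with hD
  have hev : ∀ᶠ Y : ℝ in atTop, D * 250000 ≤ Y ^ (3 / 100 : ℝ) :=
    (tendsto_rpow_atTop (by norm_num : (0 : ℝ) < 3 / 100)).eventually_ge_atTop _
  have hev2 : ∀ᶠ Y : ℝ in atTop, (c + 1) ^ 2 + 3 ≤ Y := eventually_ge_atTop _
  obtain ⟨Y0, hY0⟩ := (hev.and hev2).exists_forall_of_atTop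
  refine ⟨max 1 Y0, le_max_left _ _, ?_⟩
  intro Y hY w N J hw1 hw2 hN hJ
  have hY1 : 1 ≤ Y := (le_max_left _ _).trans hY
  obtain ⟨h250, hYc⟩ := hY0 Y ((le_max_right _ _).trans hY)
  have hYpos : 0 < Y := by linarith
  have hY3 : 3 ≤ Y := by nlinarith [sq_nonneg (c + 1)]
  set L : ℝ := Real.log Y with hL
  have hL1 : 1 ≤ L := by
    rw [hL, Real.le_log_iff_exp_le hYpos]
    have := Real.exp_one_lt_d9
    linarith
  have hLup := hlog Y hY1
  have hsqrt : Real.sqrt Y = Y ^ (1 / 2 : ℝ) := Real.sqrt_eq_rpow Y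
  have hs1 : 1 ≤ Real.sqrt Y := Real.one_le_sqrt.mpr hY1
  have hss : Real.sqrt Y * Real.sqrt Y = Y := Real.mul_self_sqrt hYpos.le
  -- log (N+1) ≤ L
  have hcs : c + 1 ≤ Real.sqrt Y := by
    apply Real.le_sqrt_of_sq_le
    linarith
  have hN1 : (N : ℝ) + 1 ≤ Y := by
    have : (N : ℝ) + 1 ≤ (c + 1) * Real.sqrt Y := by linarith
    refine this.trans ?_
    calc (c + 1) * Real.sqrt Y ≤ Real.sqrt Y * Real.sqrt Y :=
        mul_le_mul_of_nonneg_right hcs (by positivity)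
      _ = Y := hss
  have hlN0 : 0 ≤ Real.log ((N : ℝ) + 1) := Real.log_nonneg (by
    have : (0 : ℝ) ≤ N := Nat.cast_nonneg N
    linarith)
  have hlN : Real.log ((N : ℝ) + 1) ≤ L := Real.log_le_log (by positivity) hN1
  have hlJ0 : 0 ≤ Real.log ((J : ℝ) + 1) := Real.log_nonneg (by
    have : (0 : ℝ) ≤ J := Nat.cast_nonneg J
    linarith)
  have hlJ : Real.log ((J : ℝ) + 1) ≤ 2 * L + 2 := by
    have h1 : (J : ℝ) + 1 ≤ 4 * Y := by linarith
    have h2 : Real.log ((J : ℝ) + 1) ≤ Real.log (4 * Y) := Real.log_le_log (by positivity) h1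
    rw [Real.log_mul (by norm_num) hYpos.ne'] at h2
    have h3 : Real.log 4 ≤ 2 := by
      have : Real.log 4 = 2 * Real.log 2 := by
        rw [show (4 : ℝ) = 2 ^ 2 by norm_num, Real.log_pow]; norm_num
      have := Real.log_two_lt_d9
      linarith
    linarith
  have hlJ' : Real.log ((J : ℝ) + 1) ≤ 4 * L := by linarith
  -- powers
  have e1 : Y ^ (9 / 10 : ℝ) = Y ^ (-(1 / 10) : ℝ) * Y := by
    rw [← Real.rpow_add_one hYpos.ne']; norm_num
  set u : ℝ := Y ^ (-(1 / 10) : ℝ) with hu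
  have hu0 : 0 < u := Real.rpow_pos_of_pos hYpos _
  have hu1 : u ≤ 1 := Real.rpow_le_one_of_one_le_of_nonpos hY1 (by norm_num)
  have hu2 : u ^ 2 * Y = Y ^ (8 / 10 : ℝ) := by
    rw [hu, ← Real.rpow_natCast, ← Real.rpow_mul hYpos.le, ← Real.rpow_add_one hYpos.ne']
    norm_num
  set τ : ℝ := u / (10 * L ^ 2) with hτ
  have hτ0 : 0 ≤ τ := by positivity
  have hτL : τ * L ≤ 1 / 10 := by
    rw [hτ, div_mul_eq_mul_div, div_le_div_iff₀ (by positivity) (by norm_num)]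
    nlinarith
  refine ⟨τ, hτ0, ?_, ?_⟩
  · have := mul_le_mul_of_nonneg_left hlN hτ0
    linarith
  -- write everything as an exponential
  have hJ1 : (0 : ℝ) < (J : ℝ) + 1 := by positivity
  have e2 : ((J : ℝ) + 1) ^ N = Real.exp (N * Real.log ((J : ℝ) + 1)) := by
    rw [Real.exp_nat_mul, Real.exp_log hJ1]
  have e3 : ((J : ℝ) + 1) ^ 3 = Real.exp (3 * Real.log ((J : ℝ) + 1)) := by
    rw [show (3 : ℝ) * Real.log ((J : ℝ) + 1) = ((3 : ℕ) : ℝ) * Real.log ((J : ℝ) + 1) by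
      norm_num, Real.exp_nat_mul, Real.exp_log hJ1]
  have e4 : C1 = Real.exp (Real.log C1) := (Real.exp_log hC1).symm
  rw [e2, e3, e4, ← Real.exp_add, ← Real.exp_add, ← Real.exp_add, ← Real.exp_add, ← Real.exp_add]
  apply Real.exp_le_exp.mpr
  -- estimates of the terms
  have hw0 : (0 : ℝ) < w := by linarith
  have hYw : Y / w ≤ 2 * Real.sqrt Y := by
    rw [div_le_iff₀ hw0]
    have h1 := mul_le_mul_of_nonneg_left hw1 (show 0 ≤ 2 * Real.sqrt Y by positivity)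
    linarith
  have t1 : (N : ℝ) * Real.log ((J : ℝ) + 1) ≤ c * Real.sqrt Y * (4 * L) :=
    mul_le_mul hN hlJ' hlJ0 (by positivity)
  have t2 : τ * Y ^ (9 / 10 : ℝ) = 1 / 10 * (Y ^ (8 / 10 : ℝ) / L ^ 2) := by
    rw [e1, hτ, ← hu2]
    field_simp
  have t3 : τ ^ 2 * Real.log ((N : ℝ) + 1) ^ 2 * Y ≤ 1 / 100 * (Y ^ (8 / 10 : ℝ) / L ^ 2) := by
    have h1 : τ ^ 2 * Real.log ((N : ℝ) + 1) ^ 2 * Y ≤ τ ^ 2 * L ^ 2 * Y := by
      apply mul_le_mul_of_nonneg_right _ hYpos.le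
      apply mul_le_mul_of_nonneg_left _ (by positivity)
      exact pow_le_pow_left₀ hlN0 hlN 2
    refine h1.trans (le_of_eq ?_)
    rw [hτ, ← hu2]
    have hL0 : L ≠ 0 := by linarith
    field_simp
    norm_num
  have t4 : τ ^ 2 * Real.log ((N : ℝ) + 1) ^ 2 * J ≤ 3 * (τ ^ 2 * Real.log ((N : ℝ) + 1) ^ 2 * Y) := by
    have h1 : 0 ≤ τ ^ 2 * Real.log ((N : ℝ) + 1) ^ 2 := by positivity
    have h2 := mul_le_mul_of_nonneg_left hJ h1
    linarith
  have t5 : 3 * Real.log ((J : ℝ) + 1) / w * (3 * Y) ≤ 72 * L * Real.sqrt Y := by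
    have h1 : 3 * Real.log ((J : ℝ) + 1) / w * (3 * Y) = 9 * Real.log ((J : ℝ) + 1) * (Y / w) := by
      ring
    rw [h1]
    calc 9 * Real.log ((J : ℝ) + 1) * (Y / w) ≤ 9 * (4 * L) * (2 * Real.sqrt Y) := by
          apply mul_le_mul _ hYw (by positivity) (by positivity)
          linarith
      _ = _ := by ring
  -- the main inequality
  have hLs : L * Real.sqrt Y ≤ 100 * Y ^ (51 / 100 : ℝ) := by
    rw [hsqrt]
    calc L * Y ^ (1 / 2 : ℝ) ≤ 100 * Y ^ (1 / 100 : ℝ) * Y ^ (1 / 2 : ℝ) :=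
        mul_le_mul_of_nonneg_right hLup (by positivity)
      _ = 100 * Y ^ (51 / 100 : ℝ) := by
        rw [mul_assoc, ← Real.rpow_add hYpos]; norm_num
  have hLs' : L * Real.sqrt Y ≤ 100 * Y ^ (3 / 4 : ℝ) := by
    refine hLs.trans ?_
    apply mul_le_mul_of_nonneg_left _ (by norm_num)
    exact Real.rpow_le_rpow_of_exponent_le hY1 (by norm_num)
  have hP1 : 1 ≤ Y ^ (3 / 4 : ℝ) := Real.one_le_rpow hY1 (by norm_num)
  have hsP : Real.sqrt Y ≤ Y ^ (3 / 4 : ℝ) := by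
    rw [hsqrt]; exact Real.rpow_le_rpow_of_exponent_le hY1 (by norm_num)
  have hmain : D * 25 * Y ^ (3 / 4 : ℝ) ≤ Y ^ (8 / 10 : ℝ) / L ^ 2 := by
    rw [le_div_iff₀ (by positivity)]
    have h1 : L ^ 2 ≤ 10000 * Y ^ (2 / 100 : ℝ) := by
      have h2 : L ^ 2 ≤ (100 * Y ^ (1 / 100 : ℝ)) ^ 2 := pow_le_pow_left₀ (by linarith) hLup 2
      refine h2.trans (le_of_eq ?_)
      rw [mul_pow, ← Real.rpow_natCast (Y ^ (1 / 100 : ℝ)), ← Real.rpow_mul hYpos.le]
      norm_num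
    have hD0 : 0 ≤ D := by rw [hD]; positivity
    calc D * 25 * Y ^ (3 / 4 : ℝ) * L ^ 2 ≤
        D * 25 * Y ^ (3 / 4 : ℝ) * (10000 * Y ^ (2 / 100 : ℝ)) :=
          mul_le_mul_of_nonneg_left h1 (by positivity)
      _ = (D * 250000) * (Y ^ (3 / 4 : ℝ) * Y ^ (2 / 100 : ℝ)) := by ring
      _ ≤ Y ^ (3 / 100 : ℝ) * (Y ^ (3 / 4 : ℝ) * Y ^ (2 / 100 : ℝ)) :=
          mul_le_mul_of_nonneg_right h250 (by positivity)
      _ = Y ^ (8 / 10 : ℝ) := by
          rw [← Real.rpow_add hYpos, ← Real.rpow_add hYpos]; norm_num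
  set P := Y ^ (3 / 4 : ℝ) with hP
  set Q := Y ^ (8 / 10 : ℝ) / L ^ 2 with hQ
  have hC2 : C2 ≤ |C2| * P := by
    have := le_abs_self C2
    have h2 : |C2| ≤ |C2| * P := le_mul_of_one_le_right (abs_nonneg _) hP1
    linarith
  have hC1' : Real.log C1 ≤ |Real.log C1| * P := by
    have := le_abs_self (Real.log C1)
    have h2 : |Real.log C1| ≤ |Real.log C1| * P := le_mul_of_one_le_right (abs_nonneg _) hP1
    linarith
  have hcP : c * Real.sqrt Y * (4 * L) ≤ 400 * c * P := by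
    have : c * Real.sqrt Y * (4 * L) = 4 * c * (L * Real.sqrt Y) := by ring
    rw [this]
    have h2 := mul_le_mul_of_nonneg_left hLs' (show 0 ≤ 4 * c by positivity)
    linarith
  have h72 : 72 * L * Real.sqrt Y ≤ 7200 * P := by
    have : 72 * L * Real.sqrt Y = 72 * (L * Real.sqrt Y) := by ring
    rw [this]
    linarith
  have hLP : 12 * L ≤ 1200 * P := by
    have h2 : L ≤ L * Real.sqrt Y := le_mul_of_one_le_right (by linarith) hs1
    linarith
  rw [t2]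
  rw [add_mul]
  have hDP : D * 25 * P = 10000 * (c * P) + 25 * (|C2| * P) + 25 * (|Real.log C1| * P) +
      250000 * P := by
    rw [hD]; ring
  have ha := abs_nonneg C2
  have hb := abs_nonneg (Real.log C1)
  have ha' : 0 ≤ |C2| * P := by positivity
  have hb' : 0 ≤ |Real.log C1| * P := by positivity
  have hc' : 0 ≤ c * P := by positivity
  have hPp : 0 ≤ P := by linarith
  linarith

end Crest.Agent.R020.LS
end
end

-- ▼ part R020/LStatF

/-!
Row 20 (helper661): the field `stat` of `LGood`, final theorems.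

* `stat_bad`: plain version;
* `stat_bad_count`, `stat_bad_ncard`: counting version.
-/

set_option autoImplicit false

open scoped ENNReal
open Filter Topology

noncomputable section

namespace Crest.Agent.R020.LS

open Coll (alv deadPart redv kap ell Alive)

/-- The pairs `(q, d)` (with the properties that are used) for which the field `stat` of
`Coll.LGood` fails. -/
def BadStat (Y : ℝ) (w N J : ℕ) (F : ℝ) : Set (ℕ × ℕ) :=
  {x | x.1.Prime ∧ IsTot x.2 ∧ Pm (rr x.2) < x.1 ∧ Alive w x.1 ∧ yy x.1 ≤ Y ∧ FF aa x.2 ≤ Y ∧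
    (∀ p : ℕ, p.Prime → (w : ℝ) < yy p → ¬ p ^ 2 ∣ rr x.2) ∧ ¬ StatOK w N J F (x.1 * rr x.2)}

/-- **S4, plain version.** -/
theorem stat_bad (c : ℝ) (hc : 0 ≤ c) : ∃ Y0 : ℝ, 1 ≤ Y0 ∧ ∀ Y : ℝ, Y0 ≤ Y → ∀ (w N J : ℕ) (F : ℝ),
    Real.sqrt Y / 2 ≤ w → (w : ℝ) ≤ Real.sqrt Y → (N : ℝ) ≤ c * Real.sqrt Y → Y ≤ J →
    (J : ℝ) ≤ 3 * Y → Y ^ (9 / 10 : ℝ) ≤ F →
    wt2 (BadStat Y w N J F) ≤ ENNReal.ofReal (Real.exp (-Y ^ (3 / 4 : ℝ))) := by
  obtain ⟨C1, hC1, hq⟩ := qsum_plain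
  obtain ⟨C2, hC2, hgen⟩ := stat_general
  obtain ⟨Y0, hY0, hnum⟩ := numeric c C1 C2 hc hC1
  refine ⟨Y0, hY0, ?_⟩
  intro Y hY w N J F hw1 hw2 hN hYJ hJ hF
  obtain ⟨τ, hτ0, hτL, hfin⟩ := hnum Y hY w N J hw1 hw2 hN hJ
  have hY1 : 1 ≤ Y := hY0.trans hY
  have hYpos : 0 ≤ Y := by linarith
  have hs1 : 1 ≤ Real.sqrt Y := Real.one_le_sqrt.mpr hY1
  have hw : 1 ≤ w := by
    have : (0 : ℝ) < w := by linarith
    exact_mod_cast this
  have hJ1 : 1 ≤ J := by
    have : (1 : ℝ) ≤ J := by linarith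
    exact_mod_cast this
  have h1 := hgen w N J Y (3 * Y) τ (Y ^ (9 / 10 : ℝ))
    (C1 * ((J : ℝ) + 1) ^ 3 * Real.exp (τ ^ 2 * Real.log (N + 1) ^ 2 * J))
    (fun q d => (((q - 1) * d : ℕ) : ℝ≥0∞)⁻¹) (BadStat Y w N J F) hw hYpos hYJ hJ1 hτ0 hτL
    (by positivity)
    (by
      rintro ⟨q, d⟩ ⟨h1, h2, h3, h4, h5, h6, h7, h8⟩
      refine ⟨h1, h2, h3, h4, h5, h7, sum_cl_le h6, ?_⟩
      intro h9
      exact h8 (h9.mono hF))
    (by
      intro ℓ hℓ0 hℓ d hd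
      have h2 : ∀ q : ℕ, {q : ℕ | (q, d) ∈ BadStat Y w N J F}.indicator
          (fun q => (((q - 1) * d : ℕ) : ℝ≥0∞)⁻¹ * ENNReal.ofReal (Real.exp (τ * ex ℓ q))) q ≤
          {q : ℕ | q.Prime ∧ yy q ≤ Y}.indicator
          (fun q => ENNReal.ofReal (Real.exp (τ * ex ℓ q)) * ((q - 1 : ℕ) : ℝ≥0∞)⁻¹) q *
          (d : ℝ≥0∞)⁻¹ := by
        intro q
        by_cases hx : q ∈ {q : ℕ | (q, d) ∈ BadStat Y w N J F}
        · have hx' : q ∈ {q : ℕ | q.Prime ∧ yy q ≤ Y} := ⟨hx.1, hx.2.2.2.2.1⟩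
          rw [Set.indicator_of_mem hx, Set.indicator_of_mem hx', inv_mul_nat]
          apply le_of_eq
          ring
        · rw [Set.indicator_of_notMem hx]; exact zero_le
      refine (ENNReal.tsum_le_tsum h2).trans ?_
      rw [ENNReal.tsum_mul_right]
      exact mul_le_mul' (hq J Y τ (Real.log (N + 1)) ℓ hYpos hYJ hJ1 hℓ0 hℓ hτ0 hτL) le_rfl)
  unfold wt2
  exact h1.trans (ENNReal.ofReal_le_ofReal hfin)


lemma exists_scale {x : ℝ} (hx : 3 ≤ x) (hB : 3 ≤ Real.log (Real.log x)) : ∃ n : ℕ, 2 ≤ n ∧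
    (∀ J : ℕ, Real.log (Real.log x) + 1 ≤ J → n ≤ J) ∧ x + 1 ≤ Real.exp (Real.exp (n : ℝ)) ∧
    Real.exp (Real.exp ((n : ℝ) - 2)) ≤ Real.sqrt x ∧ Real.exp (-(n : ℝ)) ≤ 1 / Real.log x ∧
    0 < Real.log x := by
  have hx0 : 0 < x := by linarith
  have hl0 : 0 < Real.log x := Real.log_pos (by linarith)
  have hl20 : 20 ≤ Real.log x := by
    have h1 : Real.exp 3 ≤ Real.log x := by
      rw [← Real.le_log_iff_exp_le hl0]; exact hB
    have h2 : (20 : ℝ) ≤ Real.exp 3 := by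
      have h3 : Real.exp 3 = Real.exp 1 ^ 3 := by
        rw [← Real.exp_nat_mul]; norm_num
      rw [h3]
      have h4 := Real.exp_one_gt_d9
      have h5 : (2.718 : ℝ) ^ 3 ≤ Real.exp 1 ^ 3 := pow_le_pow_left₀ (by norm_num) (by linarith) 3
      norm_num at h5
      linarith
    linarith
  have h1 : Real.log (x + 1) ≤ Real.log x + 1 := by
    have h2 : x + 1 ≤ Real.exp 1 * x := by
      have := Real.exp_one_gt_d9
      nlinarith
    have h3 := Real.log_le_log (by linarith) h2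
    rw [Real.log_mul (Real.exp_pos 1).ne' hx0.ne', Real.log_exp] at h3
    linarith
  have h1' : Real.log x ≤ Real.log (x + 1) := Real.log_le_log hx0 (by linarith)
  have hl1 : 0 < Real.log (x + 1) := by linarith
  have h2 : Real.log (Real.log (x + 1)) ≤ Real.log (Real.log x) + 1 / 10 := by
    have h3 : Real.log (x + 1) ≤ Real.log x * (1 + 1 / 20) := by linarith
    have h4 := Real.log_le_log hl1 h3
    rw [Real.log_mul hl0.ne' (by norm_num)] at h4
    have h5 : Real.log (1 + 1 / 20 : ℝ) ≤ 1 / 20 := by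
      have := Real.log_le_sub_one_of_pos (show (0 : ℝ) < 1 + 1 / 20 by norm_num)
      linarith
    linarith
  have h2' : Real.log (Real.log x) ≤ Real.log (Real.log (x + 1)) := Real.log_le_log hl0 h1'
  set n : ℕ := ⌈Real.log (Real.log (x + 1))⌉₊ with hn
  have hn1 : Real.log (Real.log (x + 1)) ≤ n := Nat.le_ceil _
  have hn2 : (n : ℝ) < Real.log (Real.log (x + 1)) + 1 := Nat.ceil_lt_add_one (by linarith)
  refine ⟨n, ?_, ?_, ?_, ?_, ?_, hl0⟩
  · have : (2 : ℝ) ≤ n := by linarith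
    exact_mod_cast this
  · intro J hJ
    rw [hn, Nat.ceil_le]
    linarith
  · rw [← Real.log_le_iff_le_exp (by linarith), ← Real.log_le_iff_le_exp hl1]
    exact hn1
  · have h6 : Real.exp ((n : ℝ) - 2) ≤ Real.log x / 2 := by
      have h7 : (n : ℝ) - 2 ≤ Real.log (Real.log x / 2) := by
        rw [Real.log_div hl0.ne' (by norm_num)]
        have := Real.log_two_lt_d9
        linarith
      refine (Real.exp_le_exp.mpr h7).trans ?_
      rw [Real.exp_log (by positivity)]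
    refine (Real.exp_le_exp.mpr h6).trans (le_of_eq ?_)
    rw [Real.sqrt_eq_rpow, Real.rpow_def_of_pos hx0]
    congr 1
    ring
  · rw [Real.exp_neg, one_div]
    apply inv_anti₀ hl0
    rw [← Real.log_le_iff_le_exp hl0]
    linarith

/-- **S4, counting version.** -/
theorem stat_bad_count (c : ℝ) (hc : 0 ≤ c) : ∃ Y0 : ℝ, 1 ≤ Y0 ∧ ∀ (x Y : ℝ), 3 ≤ x →
    3 ≤ Real.log (Real.log x) →
    Y0 ≤ Y → Real.log (Real.log x) + 1 ≤ Y → ∀ (w N J : ℕ) (F : ℝ),
    Real.sqrt Y / 2 ≤ w → (w : ℝ) ≤ Real.sqrt Y → (N : ℝ) ≤ c * Real.sqrt Y → Y ≤ J →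
    (J : ℝ) ≤ 3 * Y → Y ^ (9 / 10 : ℝ) ≤ F →
    ∑' y : ℕ × ℕ, {y : ℕ × ℕ | y ∈ BadStat Y w N J F ∧ Real.sqrt x < y.1 ∧
      (((y.1 - 1) * y.2 : ℕ) : ℝ) ≤ x}.indicator (fun _ => (1 : ℝ≥0∞)) y ≤
      ENNReal.ofReal (x / Real.log x * Real.exp (-Y ^ (3 / 4 : ℝ))) := by
  obtain ⟨C1, hC1, hq⟩ := count_coord
  obtain ⟨C2, hC2, hgen⟩ := stat_general
  obtain ⟨Y0, hY0, hnum⟩ := numeric c (2 * C1) C2 hc (by positivity)
  refine ⟨Y0, hY0, ?_⟩
  intro x Y hx3 hB hY hBY w N J F hw1 hw2 hN hYJ hJ hF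
  obtain ⟨τ, hτ0, hτL, hfin⟩ := hnum Y hY w N J hw1 hw2 hN hJ
  have hY1 : 1 ≤ Y := hY0.trans hY
  have hYpos : 0 ≤ Y := by linarith
  have hs1 : 1 ≤ Real.sqrt Y := Real.one_le_sqrt.mpr hY1
  have hw : 1 ≤ w := by
    have : (0 : ℝ) < w := by linarith
    exact_mod_cast this
  have hJ1 : 1 ≤ J := by
    have : (1 : ℝ) ≤ J := by linarith
    exact_mod_cast this
  have hx0 : 0 < x := by linarith
  obtain ⟨n, hn2, hnJ, hnx, hnR, hnl, hl0⟩ := exists_scale hx3 hB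
  have hnJ' : n ≤ J := hnJ J (by linarith)
  have hnJr : (n : ℝ) ≤ J := by exact_mod_cast hnJ'
  set P : Set (ℕ × ℕ) := {y : ℕ × ℕ | y ∈ BadStat Y w N J F ∧ Real.sqrt x < y.1 ∧
      (((y.1 - 1) * y.2 : ℕ) : ℝ) ≤ x} with hP
  have h1 := hgen w N J Y (3 * Y) τ (Y ^ (9 / 10 : ℝ))
    (2 * C1 * ((J : ℝ) + 1) ^ 3 * Real.exp (τ ^ 2 * Real.log (N + 1) ^ 2 * J) *
      (x / Real.log x))
    (fun _ _ => 1) P hw hYpos hYJ hJ1 hτ0 hτL
    (by positivity)
    (by
      rintro ⟨q, d⟩ ⟨⟨h1, h2, h3, h4, h5, h6, h7, h8⟩, -, -⟩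
      refine ⟨h1, h2, h3, h4, h5, h7, sum_cl_le h6, ?_⟩
      intro h9
      exact h8 (h9.mono hF))
    (by
      intro ℓ hℓ0 hℓ d hd
      have hd1 : (1 : ℝ) ≤ d := by exact_mod_cast Nat.one_le_iff_ne_zero.mpr hd
      have hd0 : (0 : ℝ) < d := by linarith
      rcases le_or_gt (d : ℝ) x with hdx | hdx
      · set z : ℝ := x / d + 1 with hz
        have hz0 : 0 ≤ z := by positivity
        have hz1 : z ≤ x + 1 := by
          rw [hz]
          have : x / d ≤ x := div_le_self hx0.le hd1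
          linarith
        have h2 : ∀ q : ℕ, {q : ℕ | (q, d) ∈ P}.indicator
            (fun q => 1 * ENNReal.ofReal (Real.exp (τ * ex ℓ q))) q ≤
            {q : ℕ | q.Prime ∧ Real.sqrt x < (q : ℝ) ∧ (q : ℝ) ≤ z}.indicator
            (fun q => ENNReal.ofReal (Real.exp (τ * ex ℓ q))) q := by
          intro q
          by_cases hx : q ∈ {q : ℕ | (q, d) ∈ P}
          · have hqp : q.Prime := hx.1.1
            have hx' : q ∈ {q : ℕ | q.Prime ∧ Real.sqrt x < (q : ℝ) ∧ (q : ℝ) ≤ z} := by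
              refine ⟨hqp, hx.2.1, ?_⟩
              have h3 := hx.2.2
              simp only at h3
              rw [Nat.cast_mul, Nat.cast_sub hqp.one_le, Nat.cast_one] at h3
              have h4 : (q : ℝ) - 1 ≤ x / d := by
                rw [le_div_iff₀ hd0]; exact h3
              rw [hz]
              linarith
            rw [Set.indicator_of_mem hx, Set.indicator_of_mem hx', one_mul]
          · rw [Set.indicator_of_notMem hx]; exact zero_le
        refine (ENNReal.tsum_le_tsum h2).trans ?_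
        refine (hq n τ (Real.log (N + 1)) ℓ hℓ0 hℓ hτ0 hτL hn2 z (Real.sqrt x) hz0
          (hz1.trans hnx) hnR).trans ?_
        have h5 : (d : ℝ≥0∞)⁻¹ = ENNReal.ofReal ((d : ℝ)⁻¹) := by
          rw [ENNReal.ofReal_inv_of_pos hd0, ENNReal.ofReal_natCast]
        rw [h5, ← ENNReal.ofReal_mul (by positivity)]
        apply ENNReal.ofReal_le_ofReal
        have h6 : z * Real.exp (-(n : ℝ)) ≤ 2 * (x / Real.log x) * (d : ℝ)⁻¹ := by
          have h7 : z ≤ 2 * (x / d) := by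
            have : 1 ≤ x / d := by rw [le_div_iff₀ hd0]; linarith
            rw [hz]; linarith
          calc z * Real.exp (-(n : ℝ)) ≤ 2 * (x / d) * (1 / Real.log x) :=
                mul_le_mul h7 hnl (Real.exp_pos _).le (by positivity)
            _ = _ := by field_simp
        have h8 : (1 + (n : ℝ)) ^ 2 ≤ ((J : ℝ) + 1) ^ 3 := by
          have h9 : (1 + (n : ℝ)) ^ 2 ≤ ((J : ℝ) + 1) ^ 2 :=
            pow_le_pow_left₀ (by positivity) (by linarith) 2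
          have h10 : ((J : ℝ) + 1) ^ 2 ≤ ((J : ℝ) + 1) ^ 3 := by
            apply pow_le_pow_right₀ _ (by norm_num)
            have : (0 : ℝ) ≤ J := Nat.cast_nonneg J
            linarith
          exact h9.trans h10
        have h11 : Real.exp (τ ^ 2 * Real.log (N + 1) ^ 2 * n) ≤
            Real.exp (τ ^ 2 * Real.log (N + 1) ^ 2 * J) := by
          apply Real.exp_le_exp.mpr
          exact mul_le_mul_of_nonneg_left hnJr (by positivity)
        calc C1 * (1 + (n : ℝ)) ^ 2 * Real.exp (τ ^ 2 * Real.log (N + 1) ^ 2 * n) *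
              (z * Real.exp (-(n : ℝ))) ≤
            C1 * ((J : ℝ) + 1) ^ 3 * Real.exp (τ ^ 2 * Real.log (N + 1) ^ 2 * J) *
              (2 * (x / Real.log x) * (d : ℝ)⁻¹) := by
              apply mul_le_mul _ h6 (by positivity) (by positivity)
              apply mul_le_mul _ h11 (Real.exp_pos _).le (by positivity)
              exact mul_le_mul_of_nonneg_left h8 hC1.le
          _ = _ := by ring
      · have h2 : ∀ q : ℕ, {q : ℕ | (q, d) ∈ P}.indicator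
            (fun q => 1 * ENNReal.ofReal (Real.exp (τ * ex ℓ q))) q = 0 := by
          intro q
          rw [Set.indicator_of_notMem]
          intro hx
          have hqp : q.Prime := hx.1.1
          have h3 := hx.2.2
          simp only at h3
          have h4 : d ≤ (q - 1) * d := Nat.le_mul_of_pos_left d (by
            have := hqp.two_le
            omega)
          have h5 : (d : ℝ) ≤ (((q - 1) * d : ℕ) : ℝ) := by exact_mod_cast h4
          linarith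
        rw [tsum_congr h2, tsum_zero]
        exact zero_le)
  refine h1.trans (ENNReal.ofReal_le_ofReal ?_)
  have hxl : 0 ≤ x / Real.log x := by positivity
  have h2 := mul_le_mul_of_nonneg_left hfin hxl
  refine le_trans (le_of_eq ?_) h2
  ring


/-! ### Relation with `Coll.LGood` -/

lemma lgood_iff {Y : ℝ} {w N J : ℕ} {F : ℝ} {q d : ℕ} : Coll.LGood Y w N J F q d ↔
    ((((q - 1) * d).primeFactorsList.length : ℝ) ≤ 20 * Y ∧
    (alv w (q * rr d)).card ≤ N ∧ (alv w (rr ((q - 1) * d))).card ≤ N ∧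
    (∀ p : ℕ, p.Prime → (w : ℝ) < yy p → ¬ p ^ 2 ∣ q * rr d) ∧
    (∀ p : ℕ, p.Prime → (w : ℝ) < yy p → ¬ p ^ 2 ∣ rr ((q - 1) * d))) ∧
    StatOK w N J F (q * rr d) := by
  constructor
  · intro h
    exact ⟨⟨h.om, h.cardL, h.cardR, h.sqL, h.sqR⟩, h.stat⟩
  · rintro ⟨⟨h1, h2, h3, h4, h5⟩, h6⟩
    exact ⟨h1, h2, h3, h4, h5, h6⟩

end Crest.Agent.R020.LS
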