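import Crest.Agent.R020.CollNet
import Crest.Agent.R020.CollAsm
import Crest.Agent.R020.CollFin
import Crest.Agent.R020.LCrude2
import Crest.Agent.R020.LStatF

-- ▼ part R020/CollNetHyp
section

/-!
Row 20, module (L): `NetHyp` (statement of 638's `CollAsm`) from `net`, and the sieve instances with
`ρ0 = 2`.
-/

set_option autoImplicit false

namespace Crest.Agent.R020.CollM

open Finset

theorem Sieve.four {X : ℕ} {ρt L κ : ℝ} {W : ℕ → ℝ} (h : Sieve X 2 ρt L κ W) :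
    Sieve X 4 ρt L κ W :=
  ⟨by norm_num, h.L1, h.κ0, h.W0, fun A ρ hρ => h.S1 A ρ (by linarith),
    fun A B ρ hAB hρ => h.S2 A B ρ hAB (by linarith),
    fun M A ρ hM hρ hρt => h.top1 M A ρ hM (by linarith) hρt,
    fun M A B ρ hM hAB hρ hρt => h.top2 M A B ρ hM hAB (by linarith) hρt⟩

theorem Sieve.monoL {X : ℕ} {ρ0 ρt L L' κ : ℝ} {W : ℕ → ℝ} (h : Sieve X ρ0 ρt L κ W)
    (hL : L ≤ L') : Sieve X ρ0 ρt L' κ W := by
  have h1 := h.one_lt
  have hlog : ∀ ρ : ℝ, ρ0 ≤ ρ → 0 < Real.log ρ := fun ρ hρ => Real.log_pos (by linarith)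
  refine ⟨h.one_lt, h.L1.trans hL, h.κ0, h.W0, fun A ρ hρ => (h.S1 A ρ hρ).trans ?_,
    fun A B ρ hAB hρ => (h.S2 A B ρ hAB hρ).trans ?_,
    fun M A ρ hM hρ hρt => (h.top1 M A ρ hM hρ hρt).trans ?_,
    fun M A B ρ hM hAB hρ hρt => (h.top2 M A B ρ hM hAB hρ hρt).trans ?_⟩
  · exact div_le_div_of_nonneg_right hL (hlog ρ hρ).le
  · exact div_le_div_of_nonneg_right hL (by positivity)
  · exact mul_le_mul_of_nonneg_left (div_le_div_of_nonneg_right hL (hlog ρ hρ).le) h.κ0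
  · exact mul_le_mul_of_nonneg_left (div_le_div_of_nonneg_right hL (by positivity)) h.κ0

theorem primesIn_two {ρ : ℝ} (h2 : 2 ≤ ρ) (X : ℕ) : primesIn ρ X ⊆ {2, 3} ∪ primesIn 4 X := by
  intro x hx
  unfold primesIn at hx ⊢
  rw [mem_filter] at hx
  rw [mem_union, mem_insert, mem_singleton, mem_filter]
  obtain ⟨h1, h3, h4⟩ := hx
  by_cases h5 : 4 ≤ x
  · right
    exact ⟨h1, h3, by exact_mod_cast h5⟩
  · left
    have := h3.two_le
    omega

theorem sum_small {ρ : ℝ} (h2 : 2 ≤ ρ) (X : ℕ) (P : ℕ → Prop) [DecidablePred P] {b : ℝ}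
    (hb : ∑ x ∈ (primesIn 4 X).filter P, (1 / (x : ℝ)) ≤ b) :
    ∑ x ∈ (primesIn ρ X).filter P, (1 / (x : ℝ)) ≤ 5 / 6 + b := by
  have h1 : (primesIn ρ X).filter P ⊆ {2, 3} ∪ (primesIn 4 X).filter P := by
    intro x hx
    rw [mem_filter] at hx
    have := primesIn_two h2 X hx.1
    rw [mem_union] at this ⊢
    rcases this with h | h
    · left; exact h
    · right; exact mem_filter.mpr ⟨h, hx.2⟩
  refine (sum_le_sum_of_subset_of_nonneg h1 (fun _ _ _ => by positivity)).trans ?_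
  have h2 := sum_union_inter (s₁ := ({2, 3} : Finset ℕ)) (s₂ := (primesIn 4 X).filter P)
    (f := fun x : ℕ => (1 / (x : ℝ)))
  have h3 : 0 ≤ ∑ x ∈ ({2, 3} : Finset ℕ) ∩ (primesIn 4 X).filter P, (1 / (x : ℝ)) :=
    sum_nonneg (fun _ _ => by positivity)
  have h4 : ∑ x ∈ ({2, 3} : Finset ℕ), (1 / (x : ℝ)) = 5 / 6 := by
    rw [sum_pair (by norm_num)]
    norm_num
  linarith

theorem log_four_lt : Real.log 4 < 139 / 100 := by
  have h : Real.log 4 = 2 * Real.log 2 := by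
    rw [show (4:ℝ) = 2 ^ 2 by norm_num, Real.log_pow]
    norm_num
  rw [h]
  have := Real.log_two_lt_d9
  linarith

theorem Sieve.plain_two_S1 {X : ℕ} {ρt L κ : ℝ} {W : ℕ → ℝ} (h : Sieve X 4 ρt L κ W) (A : ℕ)
    (ρ : ℝ) (hρ : 2 ≤ ρ) :
    ∑ x ∈ (primesIn ρ X).filter (fun x => C1 X A x), (1 / (x : ℝ)) ≤ (L + 2) / Real.log ρ := by
  have hlog : 0 < Real.log ρ := Real.log_pos (by linarith)
  rcases le_or_gt 4 ρ with h4 | h4
  · refine (h.S1 A ρ h4).trans ?_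
    exact div_le_div_of_nonneg_right (by linarith) hlog.le
  · refine (sum_small hρ X (fun x => C1 X A x) (h.S1 A 4 le_rfl)).trans ?_
    have h1 : Real.log ρ ≤ Real.log 4 := Real.log_le_log (by linarith) h4.le
    have h2 : 0 < Real.log 4 := Real.log_pos (by norm_num)
    have h3 := log_four_lt
    have hL := h.L1
    have h5 : (L + 2) / Real.log 4 ≤ (L + 2) / Real.log ρ :=
      div_le_div_of_nonneg_left (by linarith) hlog h1
    refine le_trans ?_ h5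
    rw [← sub_nonneg]
    have h6 : (L + 2) / Real.log 4 - (5 / 6 + L / Real.log 4) = 2 / Real.log 4 - 5 / 6 := by
      field_simp
      ring
    rw [h6, sub_nonneg, le_div_iff₀ h2]
    linarith

theorem Sieve.plain_two_S2 {X : ℕ} {ρt L κ : ℝ} {W : ℕ → ℝ} (h : Sieve X 4 ρt L κ W) (A B : ℕ)
    (ρ : ℝ) (hAB : A ≠ B) (hρ : 2 ≤ ρ) :
    ∑ x ∈ (primesIn ρ X).filter (fun x => C1 X A x ∧ C1 X B x), (1 / (x : ℝ))
      ≤ (L + 2) / (Real.log ρ) ^ 2 := by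
  have hlog : 0 < Real.log ρ := Real.log_pos (by linarith)
  rcases le_or_gt 4 ρ with h4 | h4
  · refine (h.S2 A B ρ hAB h4).trans ?_
    exact div_le_div_of_nonneg_right (by linarith) (by positivity)
  · refine (sum_small hρ X (fun x => C1 X A x ∧ C1 X B x) (h.S2 A B 4 hAB le_rfl)).trans ?_
    have h1 : Real.log ρ ≤ Real.log 4 := Real.log_le_log (by linarith) h4.le
    have h2 : 0 < Real.log 4 := Real.log_pos (by norm_num)
    have h3 := log_four_lt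
    have hL := h.L1
    have h1' : Real.log ρ ^ 2 ≤ Real.log 4 ^ 2 := pow_le_pow_left₀ hlog.le h1 2
    have h5 : (L + 2) / Real.log 4 ^ 2 ≤ (L + 2) / Real.log ρ ^ 2 :=
      div_le_div_of_nonneg_left (by linarith) (by positivity) h1'
    refine le_trans ?_ h5
    rw [← sub_nonneg]
    have h6 : (L + 2) / Real.log 4 ^ 2 - (5 / 6 + L / Real.log 4 ^ 2)
        = 2 / Real.log 4 ^ 2 - 5 / 6 := by
      field_simp
      ring
    rw [h6, sub_nonneg, le_div_iff₀ (by positivity)]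
    nlinarith

/-- plain instance, `ρ0 = 2` -/
theorem sieve_plain : ∃ Y0 : ℝ, 1 ≤ Y0 ∧ ∀ Y : ℝ, Y0 ≤ Y → ∀ X : ℕ, yy X ≤ Y + 1 → ∀ ρt : ℝ,
    Sieve X 2 ρt (Y ^ 8) 1 (fun v => 1 / (v : ℝ)) := by
  obtain ⟨C, hC, h⟩ := exists_sieve
  refine ⟨max 10000 C, le_trans (by norm_num) (le_max_left _ _), ?_⟩
  intro Y hY X hX ρt
  have hY1 : 10000 ≤ Y := (le_max_left _ _).trans hY
  have hY2 : C ≤ Y := (le_max_right _ _).trans hY
  have hL := L_le (by linarith : 0 ≤ C) (by linarith : 16 ≤ Y) hY2 hX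
  have hS := h X ρt
  have hL8 : C * ll X ^ 3 + 2 ≤ Y ^ 8 := by
    have h1 : (1:ℝ) ≤ Y ^ 7 := one_le_pow₀ (by linarith)
    have h2 : Y ^ 8 = Y * Y ^ 7 := by ring
    nlinarith
  have hone : 1 ≤ Y ^ 8 := one_le_pow₀ (by linarith)
  have key : Sieve X 2 ρt (C * ll X ^ 3 + 2) 1 (fun v => 1 / (v : ℝ)) := by
    refine ⟨by norm_num, by linarith [hS.L1], by norm_num, fun v => by positivity,
      fun A ρ hρ => hS.plain_two_S1 A ρ hρ, fun A B ρ hAB hρ => hS.plain_two_S2 A B ρ hAB hρ, ?_, ?_⟩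
    · intro M A ρ hM hρ _
      rw [one_mul]
      refine le_trans (le_of_eq ?_) (hS.plain_two_S1 A ρ hρ)
      apply sum_congr rfl
      intro x hx
      have hx1 := (mem_filter.mp hx).1
      unfold primesIn at hx1
      have hx0 : (0:ℝ) < (x : ℝ) := by exact_mod_cast (mem_filter.mp hx1).2.1.pos
      have hM0 : (0:ℝ) < (M : ℝ) := by exact_mod_cast hM
      push_cast
      field_simp
    · intro M A B ρ hM hAB hρ _
      rw [one_mul]
      refine le_trans (le_of_eq ?_) (hS.plain_two_S2 A B ρ hAB hρ)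
      apply sum_congr rfl
      intro x hx
      have hx1 := (mem_filter.mp hx).1
      unfold primesIn at hx1
      have hx0 : (0:ℝ) < (x : ℝ) := by exact_mod_cast (mem_filter.mp hx1).2.1.pos
      have hM0 : (0:ℝ) < (M : ℝ) := by exact_mod_cast hM
      push_cast
      field_simp
  exact key.monoL hL8

/-- counting instance, `ρ0 = 2`, `ρt ≥ 4` -/
theorem sieve_count : ∃ Y0 : ℝ, 1 ≤ Y0 ∧ ∀ Y : ℝ, Y0 ≤ Y → ∀ X : ℕ, yy X ≤ Y + 1 →
    ∀ ρt z : ℝ, 4 ≤ ρt → 0 < z →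
    Sieve X 2 ρt (Y ^ 8) (1 / Real.log ρt) (fun v => if (v : ℝ) ≤ z then 1 / z else 0) := by
  obtain ⟨C, hC, h⟩ := exists_sieve_count
  refine ⟨max 10000 C, le_trans (by norm_num) (le_max_left _ _), ?_⟩
  intro Y hY X hX ρt z hρt hz
  have hY1 : 10000 ≤ Y := (le_max_left _ _).trans hY
  have hY2 : C ≤ Y := (le_max_right _ _).trans hY
  have hL := L_le (by linarith : 0 ≤ C) (by linarith : 16 ≤ Y) hY2 hX
  have hS := h X ρt z hρt hz
  have hL8 : C * ll X ^ 3 + 2 ≤ Y ^ 8 := by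
    have h1 : (1:ℝ) ≤ Y ^ 7 := one_le_pow₀ (by linarith)
    have h2 : Y ^ 8 = Y * Y ^ 7 := by ring
    nlinarith
  have hS' := hS.monoL (show C * ll X ^ 3 ≤ C * ll X ^ 3 + 2 by linarith)
  have key : Sieve X 2 ρt (C * ll X ^ 3 + 2) (1 / Real.log ρt)
      (fun v => if (v : ℝ) ≤ z then 1 / z else 0) := by
    refine ⟨by norm_num, by linarith [hS.L1], hS.κ0, hS.W0,
      fun A ρ hρ => hS.plain_two_S1 A ρ hρ, fun A B ρ hAB hρ => hS.plain_two_S2 A B ρ hAB hρ, ?_, ?_⟩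
    · intro M A ρ hM _ hρt'
      exact hS'.top1 M A ρ hM (by linarith) hρt'
    · intro M A B ρ hM hAB _ hρt'
      exact hS'.top2 M A B ρ hM hAB (by linarith) hρt'
  exact key.monoL hL8

/-- `NetHyp` of `CollAsm`. -/
theorem netHyp (C1 : ℕ) {Y L : ℝ} (hY : 50000 ≤ Y) (hL : L ≤ Y ^ C1) (J : ℕ) :
    Coll.NetHyp (2 * C1 + 130) L Y ⌊Real.sqrt Y⌋₊ ⌈210 * Real.sqrt Y⌉₊ J := by
  intro s t hs hsN htN α β hα hβ X r r' hr hr' W κ ρt hS i0 htop MM hG hrow hcol hsc hsr F hstat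
  have hN : ((⌈210 * Real.sqrt Y⌉₊ : ℕ) : ℝ) ≤ Y := by
    have h0 : 0 ≤ 210 * Real.sqrt Y := by positivity
    have h1 := (Nat.ceil_lt_add_one h0).le
    have h2 : Real.sqrt Y ^ 2 = Y := Real.sq_sqrt (by linarith)
    have h3 : 223 ≤ Real.sqrt Y := by
      rw [Real.le_sqrt' (by norm_num)]
      linarith
    nlinarith
  exact net C1 (by linarith) hN hsN htN hα hβ hS.four hL hr hr' i0 htop MM
    (fun m hm => ⟨hG m hm, fun a => (hrow m hm a).le, fun b => (hcol m hm b).le,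
      fun i q hq hqm => hsr m hm i q hq hqm, fun j q hq hqm => hsc m hm j q hq hqm, hstat m hm⟩)

end Crest.Agent.R020.CollM
end

-- ▼ part R020/CollL
section

/-!
Row 20, module (L): final statements `StmtL`, `StmtLc` from the net bound, the sieve instances and
the left statistic.
-/

set_option autoImplicit false

open scoped ENNReal
open Crest.NumberTheoryR.TotientScale Filter

namespace Crest.Agent.R020.Coll

open Crest.Agent.R020.CollM (Mat rowp colp vp gpf Good Sieve)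

/-- (661) left statistic, plain -/
def StmtStat : Prop := ∃ Y0 : ℝ, ∀ Y : ℝ, Y0 ≤ Y →
  wt2 {p | (p ∈ LCrude.Pr Y ∧ FF aa p.2 + Y ^ (19 / 20 : ℝ) ≤ yy p.1) ∧
    LCrude.SGood Y ⌊√Y⌋₊ ⌈210 * √Y⌉₊ p.1 p.2 ∧
    ¬ LGood Y ⌊√Y⌋₊ ⌈210 * √Y⌉₊ (⌈Y⌉₊ + 1) (Y ^ (91 / 100 : ℝ)) p.1 p.2} ≤
    ENNReal.ofReal (Real.exp (-Y ^ (7 / 10 : ℝ)))

/-- (661) left statistic, counting -/
def StmtStatC : Prop := ∃ B0 : ℝ, ∀ x : ℝ, 3 ≤ x → B0 ≤ Real.log (Real.log x) →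
  ∀ Y : ℝ, Y = Real.log (Real.log x) + 1 →
  ∑' p : ℕ × ℕ, ({p : ℕ × ℕ | p.1.Prime ∧ IsTot p.2 ∧ Pm (rr p.2) < p.1 ∧
      √x < p.1 ∧ (p.2 : ℝ) ≤ x ^ (1 / 10 : ℝ) ∧ (((p.1 - 1) * p.2 : ℕ) : ℝ) ≤ x ∧
      FF aa p.2 + Real.log (Real.log x) ^ (19 / 20 : ℝ) ≤ Real.log (Real.log x) ∧
      LCrude.SGood Y ⌊√Y⌋₊ ⌈210 * √Y⌉₊ p.1 p.2 ∧
      ¬ LGood Y ⌊√Y⌋₊ ⌈210 * √Y⌉₊ (⌈Y⌉₊ + 1) (Y ^ (91 / 100 : ℝ)) p.1 p.2}).indicator
        (fun _ => (1 : ℝ≥0∞)) p ≤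
    ENNReal.ofReal (x / Real.log x * Real.exp (-Real.log (Real.log x) ^ (7 / 10 : ℝ)))

/-! ### numerics -/

lemma eventually_rpow_ge {a : ℝ} (ha : 0 < a) (K : ℝ) : ∃ Y0 : ℝ, ∀ Y : ℝ, Y0 ≤ Y → K ≤ Y ^ a := by
  have h := (tendsto_rpow_atTop ha).eventually_ge_atTop K
  rw [eventually_atTop] at h
  exact h

lemma eventually_log_le : ∃ Y0 : ℝ, ∀ Y : ℝ, Y0 ≤ Y → Real.log Y ≤ Y ^ (1 / 10 : ℝ) := by
  have h := (isLittleO_log_rpow_atTop (by norm_num : (0 : ℝ) < 1 / 10)).bound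
    (by norm_num : (0 : ℝ) < 1)
  rw [eventually_atTop] at h
  obtain ⟨Y0, h⟩ := h
  refine ⟨max Y0 1, fun Y hY => ?_⟩
  have h1 := h Y ((le_max_left _ _).trans hY)
  have h2 : 1 ≤ Y := (le_max_right _ _).trans hY
  rw [one_mul, Real.norm_of_nonneg (Real.log_nonneg h2),
    Real.norm_of_nonneg (Real.rpow_nonneg (by linarith) _)] at h1
  exact h1

/-- the numerical inequality behind `(L)` -/
lemma num_final (C : ℝ) : ∃ Y0 : ℝ, 1 ≤ Y0 ∧ ∀ Y : ℝ, Y0 ≤ Y → ∀ E : ℝ,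
    Y ^ (19 / 20 : ℝ) - 3 ≤ E →
    Real.exp (1 - E + Y ^ (91 / 100 : ℝ) + 2 * (⌊√Y⌋₊ : ℝ) +
        C * (((⌈210 * √Y⌉₊ : ℕ) : ℝ) + 1) * Real.log Y) *
      (((((⌈210 * √Y⌉₊ : ℕ) : ℝ) + 1) ^ 3 * (((⌈Y⌉₊ + 1 : ℕ) : ℝ)) ^ (2 * ⌈210 * √Y⌉₊)) *
        (Real.exp 1 * (2 * Y + 25) ^ ⌈210 * √Y⌉₊)) ≤ Real.exp (-(2 * Y ^ (9 / 10 : ℝ))) := by
  set C' : ℝ := 212 * |C| + 3000 with hC'
  have hC'0 : 0 < C' := by positivity
  obtain ⟨Y1, h1⟩ := eventually_rpow_ge (by norm_num : (0 : ℝ) < 4 / 100) 8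
  obtain ⟨Y2, h2⟩ := eventually_rpow_ge (by norm_num : (0 : ℝ) < 5 / 100) 16
  obtain ⟨Y3, h3⟩ := eventually_rpow_ge (by norm_num : (0 : ℝ) < 35 / 100) (8 * C')
  obtain ⟨Y4, h4⟩ := eventually_rpow_ge (by norm_num : (0 : ℝ) < 19 / 20) 100
  obtain ⟨Y5, h5⟩ := eventually_log_le
  refine ⟨max 100 (max Y1 (max Y2 (max Y3 (max Y4 Y5)))), le_trans (by norm_num) (le_max_left _ _),
    fun Y hY E hE => ?_⟩
  have hY100 : 100 ≤ Y := (le_max_left _ _).trans hY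
  have hY' := (le_max_right _ _).trans hY
  have g1 := h1 Y ((le_max_left _ _).trans hY')
  have hY'' := (le_max_right _ _).trans hY'
  have g2 := h2 Y ((le_max_left _ _).trans hY'')
  have hY3 := (le_max_right _ _).trans hY''
  have g3 := h3 Y ((le_max_left _ _).trans hY3)
  have hY4 := (le_max_right _ _).trans hY3
  have g4 := h4 Y ((le_max_left _ _).trans hY4)
  have g5 := h5 Y ((le_max_right _ _).trans hY4)
  have hY0 : 0 < Y := by linarith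
  set s := √Y with hs
  have hs1 : 10 ≤ s := by
    rw [hs]; apply Real.le_sqrt_of_sq_le; linarith
  have hss : s * s = Y := Real.mul_self_sqrt hY0.le
  have hlogY1 : 1 ≤ Real.log Y := by
    rw [Real.le_log_iff_exp_le hY0]
    have := Real.exp_one_lt_d9
    linarith
  set N := ⌈210 * s⌉₊ with hN
  have hNle : (N : ℝ) ≤ 211 * s := by
    have := Nat.ceil_lt_add_one (by positivity : 0 ≤ 210 * s)
    linarith
  have hN0 : (0 : ℝ) ≤ N := Nat.cast_nonneg N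
  have hfl : (⌊s⌋₊ : ℝ) ≤ s := Nat.floor_le (by linarith)
  have hJ : (((⌈Y⌉₊ + 1 : ℕ)) : ℝ) ≤ Y ^ 2 := by
    have := Nat.ceil_lt_add_one hY0.le
    push_cast
    nlinarith
  have hJ0 : (0 : ℝ) ≤ ((⌈Y⌉₊ + 1 : ℕ) : ℝ) := Nat.cast_nonneg _
  have h25 : 2 * Y + 25 ≤ Y ^ 2 := by nlinarith
  -- bounds of the factors
  have e1 : ((N : ℝ) + 1) ^ 3 ≤ Real.exp (3 * N) := by
    have := Real.add_one_le_exp (N : ℝ)
    calc ((N : ℝ) + 1) ^ 3 ≤ (Real.exp N) ^ 3 := pow_le_pow_left₀ (by positivity) this 3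
      _ = Real.exp (3 * N) := by rw [← Real.exp_nat_mul]; norm_num
  have eY : Y = Real.exp (Real.log Y) := (Real.exp_log hY0).symm
  have e2 : (((⌈Y⌉₊ + 1 : ℕ)) : ℝ) ^ (2 * N) ≤ Real.exp (4 * N * Real.log Y) := by
    calc (((⌈Y⌉₊ + 1 : ℕ)) : ℝ) ^ (2 * N) ≤ (Y ^ 2) ^ (2 * N) := pow_le_pow_left₀ hJ0 hJ _
      _ = Real.exp (4 * N * Real.log Y) := by
        rw [← pow_mul]
        conv_lhs => rw [eY, ← Real.exp_nat_mul]
        congr 1
        push_cast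
        ring
  have e3 : (2 * Y + 25) ^ N ≤ Real.exp (2 * N * Real.log Y) := by
    calc (2 * Y + 25) ^ N ≤ (Y ^ 2) ^ N := pow_le_pow_left₀ (by positivity) h25 _
      _ = Real.exp (2 * N * Real.log Y) := by
        rw [← pow_mul]
        conv_lhs => rw [eY, ← Real.exp_nat_mul]
        congr 1
        push_cast
        ring
  have hCN : C * ((N : ℝ) + 1) * Real.log Y ≤ |C| * (212 * s) * Real.log Y := by
    apply mul_le_mul_of_nonneg_right _ (by linarith)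
    calc C * ((N : ℝ) + 1) ≤ |C| * ((N : ℝ) + 1) :=
          mul_le_mul_of_nonneg_right (le_abs_self C) (by positivity)
      _ ≤ |C| * (212 * s) := mul_le_mul_of_nonneg_left (by linarith) (abs_nonneg C)
  have hNlog : (N : ℝ) * Real.log Y ≤ 211 * s * Real.log Y :=
    mul_le_mul_of_nonneg_right hNle (by linarith)
  have hslog : s ≤ s * Real.log Y := le_mul_of_one_le_right (by linarith) hlogY1
  -- powers of Y
  have hsY : s = Y ^ (1 / 2 : ℝ) := by rw [hs, Real.sqrt_eq_rpow]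
  have hsl : s * Real.log Y ≤ Y ^ (6 / 10 : ℝ) := by
    calc s * Real.log Y ≤ Y ^ (1 / 2 : ℝ) * Y ^ (1 / 10 : ℝ) := by
          rw [hsY]
          exact mul_le_mul_of_nonneg_left g5 (Real.rpow_nonneg hY0.le _)
      _ = Y ^ (6 / 10 : ℝ) := by rw [← Real.rpow_add hY0]; norm_num
  have q0 : 0 ≤ Y ^ (19 / 20 : ℝ) := Real.rpow_nonneg hY0.le _
  have q1 : 8 * Y ^ (91 / 100 : ℝ) ≤ Y ^ (19 / 20 : ℝ) := by
    calc 8 * Y ^ (91 / 100 : ℝ) ≤ Y ^ (4 / 100 : ℝ) * Y ^ (91 / 100 : ℝ) :=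
          mul_le_mul_of_nonneg_right g1 (Real.rpow_nonneg hY0.le _)
      _ = Y ^ (19 / 20 : ℝ) := by rw [← Real.rpow_add hY0]; norm_num
  have q2 : 16 * Y ^ (9 / 10 : ℝ) ≤ Y ^ (19 / 20 : ℝ) := by
    calc 16 * Y ^ (9 / 10 : ℝ) ≤ Y ^ (5 / 100 : ℝ) * Y ^ (9 / 10 : ℝ) :=
          mul_le_mul_of_nonneg_right g2 (Real.rpow_nonneg hY0.le _)
      _ = Y ^ (19 / 20 : ℝ) := by rw [← Real.rpow_add hY0]; norm_num
  have q3 : 8 * C' * Y ^ (6 / 10 : ℝ) ≤ Y ^ (19 / 20 : ℝ) := by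
    calc 8 * C' * Y ^ (6 / 10 : ℝ) ≤ Y ^ (35 / 100 : ℝ) * Y ^ (6 / 10 : ℝ) :=
          mul_le_mul_of_nonneg_right g3 (Real.rpow_nonneg hY0.le _)
      _ = Y ^ (19 / 20 : ℝ) := by rw [← Real.rpow_add hY0]; norm_num
  have hC's : C' * (s * Real.log Y) ≤ C' * Y ^ (6 / 10 : ℝ) :=
    mul_le_mul_of_nonneg_left hsl hC'0.le
  calc Real.exp (1 - E + Y ^ (91 / 100 : ℝ) + 2 * (⌊s⌋₊ : ℝ) +
        C * ((N : ℝ) + 1) * Real.log Y) *
      ((((N : ℝ) + 1) ^ 3 * (((⌈Y⌉₊ + 1 : ℕ) : ℝ)) ^ (2 * N)) *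
        (Real.exp 1 * (2 * Y + 25) ^ N))
      ≤ Real.exp (1 - E + Y ^ (91 / 100 : ℝ) + 2 * (⌊s⌋₊ : ℝ) +
        C * ((N : ℝ) + 1) * Real.log Y) *
      ((Real.exp (3 * N) * Real.exp (4 * N * Real.log Y)) *
        (Real.exp 1 * Real.exp (2 * N * Real.log Y))) := by
        apply mul_le_mul_of_nonneg_left _ (Real.exp_pos _).le
        apply mul_le_mul
        · exact mul_le_mul e1 e2 (by positivity) (Real.exp_pos _).le
        · exact mul_le_mul_of_nonneg_left e3 (Real.exp_pos _).le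
        · positivity
        · positivity
    _ = Real.exp (1 - E + Y ^ (91 / 100 : ℝ) + 2 * (⌊s⌋₊ : ℝ) +
        C * ((N : ℝ) + 1) * Real.log Y + (3 * N + 4 * N * Real.log Y + (1 +
          2 * N * Real.log Y))) := by
        rw [← Real.exp_add, ← Real.exp_add, ← Real.exp_add, ← Real.exp_add]
    _ ≤ Real.exp (-(2 * Y ^ (9 / 10 : ℝ))) := by
        rw [Real.exp_le_exp]
        have hC'e : C' * (s * Real.log Y) = 212 * |C| * (s * Real.log Y) +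
          3000 * (s * Real.log Y) := by rw [hC']; ring
        nlinarith

/-! ### from finite sets to `wt2` -/

lemma wt2_le_of_finset {S : Set (ℕ × ℕ)} {B : ℝ}
    (hpos : ∀ p ∈ S, (p.1 - 1) * p.2 ≠ 0)
    (h : ∀ A : Finset (ℕ × ℕ), (∀ p ∈ A, p ∈ S) →
      ∑ p ∈ A, 1 / (((p.1 - 1) * p.2 : ℕ) : ℝ) ≤ B) : wt2 S ≤ ENNReal.ofReal B := by
  classical
  unfold wt2
  rw [ENNReal.tsum_eq_iSup_sum]
  refine iSup_le fun s => ?_
  have h1 : ∑ p ∈ s, S.indicator (fun p => (((p.1 - 1) * p.2 : ℕ) : ℝ≥0∞)⁻¹) p =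
      ∑ p ∈ s.filter (fun p => p ∈ S), (((p.1 - 1) * p.2 : ℕ) : ℝ≥0∞)⁻¹ := by
    rw [Finset.sum_filter]
    refine Finset.sum_congr rfl fun p _ => ?_
    by_cases hp : p ∈ S
    · rw [Set.indicator_of_mem hp, if_pos hp]
    · rw [Set.indicator_of_notMem hp, if_neg hp]
  rw [h1]
  have h2 : ∑ p ∈ s.filter (fun p => p ∈ S), (((p.1 - 1) * p.2 : ℕ) : ℝ≥0∞)⁻¹ =
      ENNReal.ofReal (∑ p ∈ s.filter (fun p => p ∈ S), 1 / (((p.1 - 1) * p.2 : ℕ) : ℝ)) := by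
    rw [ENNReal.ofReal_sum_of_nonneg (fun p _ => by positivity)]
    refine Finset.sum_congr rfl fun p hp => ?_
    have hp0 := hpos p (Finset.mem_filter.1 hp).2
    rw [one_div, ENNReal.ofReal_inv_of_pos (by exact_mod_cast Nat.pos_of_ne_zero hp0),
      ENNReal.ofReal_natCast]
  rw [h2]
  exact ENNReal.ofReal_le_ofReal (h _ fun p hp => (Finset.mem_filter.1 hp).2)

lemma wt2_union_le (S T : Set (ℕ × ℕ)) : wt2 (S ∪ T) ≤ wt2 S + wt2 T := by
  unfold wt2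
  rw [← ENNReal.tsum_add]
  refine ENNReal.tsum_le_tsum fun p => ?_
  by_cases hS : p ∈ S
  · rw [Set.indicator_of_mem (Set.mem_union_left T hS), Set.indicator_of_mem hS]
    exact le_self_add
  · by_cases hT : p ∈ T
    · rw [Set.indicator_of_mem (Set.mem_union_right S hT), Set.indicator_of_mem hT]
      exact le_add_self
    · rw [Set.indicator_of_notMem (by simp [hS, hT])]
      exact zero_le

lemma wt2_mono' {S T : Set (ℕ × ℕ)} (h : S ⊆ T) : wt2 S ≤ wt2 T := by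
  unfold wt2
  exact ENNReal.tsum_le_tsum fun p => Set.indicator_le_indicator_of_subset h (fun _ => zero_le) p

lemma two_le_gpf {n : ℕ} (hn : 2 ≤ n) : 2 ≤ gpf n := by
  have h1 : n.primeFactors.Nonempty := Nat.nonempty_primeFactors.2 (by omega)
  obtain ⟨p, hp⟩ := h1
  exact (Nat.prime_of_mem_primeFactors hp).two_le.trans (CollM.le_gpf hp)

/-- the good pairs, plain version -/
theorem good_plain : ∃ Y0 : ℝ, ∀ Y : ℝ, Y0 ≤ Y →
    wt2 {p | (NonCan p.1 p.2 ∧ yy p.1 ≤ Y ∧ FF aa p.2 + Y ^ (19 / 20 : ℝ) ≤ yy p.1) ∧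
      LGood Y ⌊√Y⌋₊ ⌈210 * √Y⌉₊ (⌈Y⌉₊ + 1) (Y ^ (91 / 100 : ℝ)) p.1 p.2} ≤
      ENNReal.ofReal (Real.exp (-(2 * Y ^ (9 / 10 : ℝ)))) := by
  obtain ⟨Y1, -, h1⟩ := CollM.sieve_plain
  obtain ⟨Y3, hY3, h3⟩ := num_final (2 * ((8 : ℕ) : ℝ) + 130)
  obtain ⟨Y4, h4⟩ := eventually_log_le
  obtain ⟨Y5, h5⟩ := eventually_rpow_ge (by norm_num : (0 : ℝ) < 9 / 20) 100
  refine ⟨max 50000 (max Y1 (max Y3 (max Y4 Y5))), fun Y hY => ?_⟩
  have hY50000 : 50000 ≤ Y := (le_max_left _ _).trans hY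
  have hY100 : 100 ≤ Y := by linarith
  have hY' := (le_max_right _ _).trans hY
  have g1 := h1 Y ((le_max_left _ _).trans hY')
  have g2 := CollM.netHyp 8 hY50000 (le_refl (Y ^ 8)) (⌈Y⌉₊ + 1)
  have hY3' := (le_max_right _ _).trans hY'
  have g3 := h3 Y ((le_max_left _ _).trans hY3')
  have hY4 := (le_max_right _ _).trans hY3'
  have g4 := h4 Y ((le_max_left _ _).trans hY4)
  have g5 := h5 Y ((le_max_right _ _).trans hY4)
  have hY0 : 0 < Y := by linarith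
  have hYone : 1 ≤ Y := by linarith
  -- `w + log (40 Y) < Y^{19/20}`
  have hE : (⌊√Y⌋₊ : ℝ) + Real.log (40 * Y) < Y ^ (19 / 20 : ℝ) := by
    have a1 : (⌊√Y⌋₊ : ℝ) ≤ √Y := Nat.floor_le (Real.sqrt_nonneg _)
    have a2 : Real.log (40 * Y) ≤ 2 * Y ^ (1 / 10 : ℝ) := by
      have : Real.log (40 * Y) ≤ Real.log (Y ^ 2) := by
        apply Real.log_le_log (by positivity)
        nlinarith
      rw [Real.log_pow] at this
      push_cast at this
      linarith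
    have a3 : Y ^ (1 / 10 : ℝ) ≤ Y ^ (1 / 2 : ℝ) :=
      Real.rpow_le_rpow_of_exponent_le hYone (by norm_num)
    have a4 : √Y = Y ^ (1 / 2 : ℝ) := Real.sqrt_eq_rpow Y
    have a5 : 100 * Y ^ (1 / 2 : ℝ) ≤ Y ^ (19 / 20 : ℝ) := by
      calc 100 * Y ^ (1 / 2 : ℝ) ≤ Y ^ (9 / 20 : ℝ) * Y ^ (1 / 2 : ℝ) :=
            mul_le_mul_of_nonneg_right g5 (Real.rpow_nonneg hY0.le _)
        _ = Y ^ (19 / 20 : ℝ) := by rw [← Real.rpow_add hY0]; norm_num
    have a6 : 0 < Y ^ (1 / 2 : ℝ) := Real.rpow_pos_of_pos hY0 _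
    linarith
  have hJ : Y < ((⌈Y⌉₊ + 1 : ℕ) : ℝ) := by
    push_cast
    have := Nat.le_ceil Y
    linarith
  set X : ℕ := ⌊Real.exp (Real.exp Y)⌋₊ with hX
  have hXle : yy X ≤ Y + 1 := by
    refine le_trans ((LS.yy_le_iff hY0.le).2 ?_) (by linarith : Y ≤ Y + 1)
    exact Nat.floor_le (Real.exp_pos _).le
  have hXp : ∀ p : ℕ, yy p ≤ Y → p ≤ X := by
    intro p hp
    apply Nat.le_floor
    exact (LS.yy_le_iff hY0.le).1 hp
  have hlogE : 0 < Real.log (40 * Y) := Real.log_pos (by linarith)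
  apply wt2_le_of_finset
  · rintro p ⟨⟨⟨hq, hd, -⟩, -⟩, -⟩
    have h1 := hq.two_le
    have h2 := hd.pos
    exact Nat.mul_ne_zero (by omega) (by omega)
  · intro A hA
    have hmb := main_bound (L := Y ^ 8) (Y := Y) (X := X) (F := Y ^ (91 / 100 : ℝ))
      (E := Y ^ (19 / 20 : ℝ)) (ρt := 2) (κ := 1) g2 hYone hE hJ hXp (fun v => 1 / (v : ℝ))
      (fun _ v => 1 / (v : ℝ)) (fun v => by positivity)
      (fun b v _ => by push_cast; rw [one_div, mul_inv, one_div, one_div])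
      (fun b _ => g1 X hXle 2) zero_le_one A ?_
    · refine hmb.trans ?_
      rw [one_mul]
      exact g3 _ (by linarith)
    · intro p hp
      obtain ⟨⟨h1, h2, h3⟩, h4⟩ := hA p hp
      refine ⟨h1, h2, h3, h4, ?_⟩
      have hyq : 0 < yy p.1 := by
        have : 0 ≤ FF aa p.2 := FF_nonneg aa_nonneg p.2
        have : (0 : ℝ) ≤ (⌊√Y⌋₊ : ℝ) := Nat.cast_nonneg _
        linarith
      have := two_lt_of_yy_pos hyq
      have := two_le_gpf (n := p.1 - 1) (by omega)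
      exact_mod_cast this

/-- **(L)** -/
theorem stmtL_of (hst : StmtStat) : StmtL := by
  obtain ⟨Y1, h1⟩ := good_plain
  obtain ⟨Y2, h2⟩ := hst
  obtain ⟨Y3, h3⟩ := LCrude.exists_crude
  obtain ⟨Y4, h4⟩ := eventually_rpow_ge (by norm_num : (0 : ℝ) < 1 / 10) 4
  refine ⟨6 / 10, max 1 (max Y1 (max Y2 (max Y3 Y4))), by norm_num, fun Y hY => ?_⟩
  have hY1 : 1 ≤ Y := (le_max_left _ _).trans hY
  have hY' := (le_max_right _ _).trans hY
  have g1 := h1 Y ((le_max_left _ _).trans hY')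
  have hY'' := (le_max_right _ _).trans hY'
  have g2 := h2 Y ((le_max_left _ _).trans hY'')
  have hY3 := (le_max_right _ _).trans hY''
  have g3 := h3 Y ((le_max_left _ _).trans hY3)
  have g4 := h4 Y ((le_max_right _ _).trans hY3)
  have hY0 : 0 < Y := by linarith
  have hsub : {p : ℕ × ℕ | NonCan p.1 p.2 ∧ yy p.1 ≤ Y ∧
      FF aa p.2 + Y ^ (19 / 20 : ℝ) ≤ yy p.1} ⊆
      ({p | (NonCan p.1 p.2 ∧ yy p.1 ≤ Y ∧ FF aa p.2 + Y ^ (19 / 20 : ℝ) ≤ yy p.1) ∧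
        LGood Y ⌊√Y⌋₊ ⌈210 * √Y⌉₊ (⌈Y⌉₊ + 1) (Y ^ (91 / 100 : ℝ)) p.1 p.2} ∪
      {p | (p ∈ LCrude.Pr Y ∧ FF aa p.2 + Y ^ (19 / 20 : ℝ) ≤ yy p.1) ∧
        LCrude.SGood Y ⌊√Y⌋₊ ⌈210 * √Y⌉₊ p.1 p.2 ∧
        ¬ LGood Y ⌊√Y⌋₊ ⌈210 * √Y⌉₊ (⌈Y⌉₊ + 1) (Y ^ (91 / 100 : ℝ)) p.1 p.2}) ∪
      {p | p ∈ LCrude.Pr Y ∧ ¬ LCrude.SGood Y ⌊√Y⌋₊ ⌈210 * √Y⌉₊ p.1 p.2} := by
    intro p hp
    have hPr : p ∈ LCrude.Pr Y := ⟨hp.1.1, hp.1.2.1, hp.1.2.2.1, hp.2.1⟩
    by_cases hg : LGood Y ⌊√Y⌋₊ ⌈210 * √Y⌉₊ (⌈Y⌉₊ + 1) (Y ^ (91 / 100 : ℝ)) p.1 p.2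
    · exact Or.inl (Or.inl ⟨hp, hg⟩)
    · by_cases hs : LCrude.SGood Y ⌊√Y⌋₊ ⌈210 * √Y⌉₊ p.1 p.2
      · exact Or.inl (Or.inr ⟨⟨hPr, hp.2.2⟩, hs, hg⟩)
      · exact Or.inr ⟨hPr, hs⟩
  refine (wt2_mono' hsub).trans ((wt2_union_le _ _).trans
    ((add_le_add (wt2_union_le _ _) le_rfl).trans ?_))
  refine (add_le_add (add_le_add g1 g2) g3).trans ?_
  rw [← ENNReal.ofReal_add (Real.exp_pos _).le (Real.exp_pos _).le,
    ← ENNReal.ofReal_add (by positivity) (Real.exp_pos _).le]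
  apply ENNReal.ofReal_le_ofReal
  -- numerics
  have p6 : 1 ≤ Y ^ (6 / 10 : ℝ) := Real.one_le_rpow hY1 (by norm_num)
  have p7 : 4 * Y ^ (6 / 10 : ℝ) ≤ Y ^ (7 / 10 : ℝ) := by
    calc 4 * Y ^ (6 / 10 : ℝ) ≤ Y ^ (1 / 10 : ℝ) * Y ^ (6 / 10 : ℝ) :=
          mul_le_mul_of_nonneg_right g4 (Real.rpow_nonneg hY0.le _)
      _ = Y ^ (7 / 10 : ℝ) := by rw [← Real.rpow_add hY0]; norm_num
  have p9 : Y ^ (7 / 10 : ℝ) ≤ Y ^ (9 / 10 : ℝ) :=
    Real.rpow_le_rpow_of_exponent_le hY1 (by norm_num)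
  have p10 : Y ^ (7 / 10 : ℝ) ≤ Y := by
    calc Y ^ (7 / 10 : ℝ) ≤ Y ^ (1 : ℝ) := Real.rpow_le_rpow_of_exponent_le hY1 (by norm_num)
      _ = Y := Real.rpow_one Y
  have b1 : Real.exp (-(2 * Y ^ (9 / 10 : ℝ))) ≤ Real.exp (-(4 * Y ^ (6 / 10 : ℝ))) := by
    rw [Real.exp_le_exp]; linarith
  have b2 : Real.exp (-Y ^ (7 / 10 : ℝ)) ≤ Real.exp (-(4 * Y ^ (6 / 10 : ℝ))) := by
    rw [Real.exp_le_exp]; linarith
  have b3 : Real.exp (-(4 * Y)) ≤ Real.exp (-(4 * Y ^ (6 / 10 : ℝ))) := by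
    rw [Real.exp_le_exp]; linarith
  have b4 : 3 * Real.exp (-(4 * Y ^ (6 / 10 : ℝ))) ≤ Real.exp (-Y ^ (6 / 10 : ℝ)) := by
    have : Real.exp (-Y ^ (6 / 10 : ℝ)) =
        Real.exp (3 * Y ^ (6 / 10 : ℝ)) * Real.exp (-(4 * Y ^ (6 / 10 : ℝ))) := by
      rw [← Real.exp_add]; congr 1; ring
    rw [this]
    apply mul_le_mul_of_nonneg_right _ (Real.exp_pos _).le
    have := Real.add_one_le_exp (3 * Y ^ (6 / 10 : ℝ))
    linarith
  linarith

/-! ### the counting version -/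

lemma card_le_of_tsum {T : Set (ℕ × ℕ)} {B : ℝ} (hB : 0 ≤ B)
    (h : ∑' p : ℕ × ℕ, T.indicator (fun _ => (1 : ℝ≥0∞)) p ≤ ENNReal.ofReal B)
    (A : Finset (ℕ × ℕ)) (hA : ∀ p ∈ A, p ∈ T) : (A.card : ℝ) ≤ B := by
  have h1 : ((A.card : ℕ) : ℝ≥0∞) ≤ ENNReal.ofReal B := by
    refine le_trans ?_ ((ENNReal.sum_le_tsum A).trans h)
    rw [Finset.sum_congr rfl (fun p hp => Set.indicator_of_mem (hA p hp) _)]
    simp
  rw [← ENNReal.ofReal_natCast] at h1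
  exact (ENNReal.ofReal_le_ofReal_iff hB).1 h1

set_option maxHeartbeats 800000 in
/-- the good pairs, counting version -/
theorem good_count : ∃ B0 : ℝ, 0 ≤ B0 ∧ ∀ x : ℝ, 3 ≤ x →
    B0 ≤ Real.log (Real.log x) → ∀ Y : ℝ, Y = Real.log (Real.log x) + 1 →
    ∀ A : Finset (ℕ × ℕ), (∀ p ∈ A, NonCan p.1 p.2 ∧ √x < p.1 ∧
      (((p.1 - 1) * p.2 : ℕ) : ℝ) ≤ x ∧
      FF aa p.2 + Real.log (Real.log x) ^ (19 / 20 : ℝ) ≤ Real.log (Real.log x) ∧
      LGood Y ⌊√Y⌋₊ ⌈210 * √Y⌉₊ (⌈Y⌉₊ + 1) (Y ^ (91 / 100 : ℝ)) p.1 p.2) →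
    (A.card : ℝ) ≤ x / Real.log x * (80 * Y * Real.exp (-(2 * Y ^ (9 / 10 : ℝ)))) := by
  obtain ⟨Y1, -, h1⟩ := CollM.sieve_count
  obtain ⟨Y3, hY3, h3⟩ := num_final (2 * ((8 : ℕ) : ℝ) + 130)
  obtain ⟨Y4, h4⟩ := eventually_log_le
  obtain ⟨Y5, h5⟩ := eventually_rpow_ge (by norm_num : (0 : ℝ) < 9 / 20) 100
  refine ⟨max 50000 (max Y1 (max Y3 (max Y4 Y5))),
    le_trans (by norm_num) (le_max_left _ _), fun x hx hB Y hYB A hA => ?_⟩
  set B := Real.log (Real.log x) with hBdef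
  have hYle : max 50000 (max Y1 (max Y3 (max Y4 Y5))) ≤ Y := by linarith
  have hB100 : 100 ≤ B := le_trans (le_trans (by norm_num) (le_max_left _ _)) hB
  have hY50000 : 50000 ≤ Y := (le_max_left _ _).trans hYle
  have hY100 : 100 ≤ Y := by linarith
  have hY' := (le_max_right _ _).trans hYle
  have g1 := h1 Y ((le_max_left _ _).trans hY')
  have g2 := CollM.netHyp 8 hY50000 (le_refl (Y ^ 8)) (⌈Y⌉₊ + 1)
  have hY3' := (le_max_right _ _).trans hY'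
  have g3 := h3 Y ((le_max_left _ _).trans hY3')
  have hY4 := (le_max_right _ _).trans hY3'
  have g4 := h4 Y ((le_max_left _ _).trans hY4)
  have g5 := h5 Y ((le_max_right _ _).trans hY4)
  have hY0 : 0 < Y := by linarith
  have hYone : 1 ≤ Y := by linarith
  have hx0 : 0 < x := by linarith
  have hlx : 0 < Real.log x := Real.log_pos (by linarith)
  have hexpB : Real.exp B = Real.log x := Real.exp_log hlx
  -- the margin
  set E := B ^ (19 / 20 : ℝ) - Real.log 2 with hEdef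
  have hlog2 := Real.log_two_lt_d9
  have hlog2' := Real.log_two_gt_d9
  have hsubadd : Y ^ (19 / 20 : ℝ) ≤ B ^ (19 / 20 : ℝ) + 1 := by
    rw [hYB]
    have := Real.rpow_add_le_add_rpow (by linarith : 0 ≤ B) (zero_le_one)
      (by norm_num : (0 : ℝ) ≤ 19 / 20) (by norm_num : (19 / 20 : ℝ) ≤ 1)
    rwa [Real.one_rpow] at this
  have hE3 : Y ^ (19 / 20 : ℝ) - 3 ≤ E := by rw [hEdef]; linarith
  have hE : (⌊√Y⌋₊ : ℝ) + Real.log (40 * Y) < E := by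
    have a1 : (⌊√Y⌋₊ : ℝ) ≤ √Y := Nat.floor_le (Real.sqrt_nonneg _)
    have a2 : Real.log (40 * Y) ≤ 2 * Y ^ (1 / 10 : ℝ) := by
      have : Real.log (40 * Y) ≤ Real.log (Y ^ 2) := by
        apply Real.log_le_log (by positivity)
        nlinarith
      rw [Real.log_pow] at this
      push_cast at this
      linarith
    have a3 : Y ^ (1 / 10 : ℝ) ≤ Y ^ (1 / 2 : ℝ) :=
      Real.rpow_le_rpow_of_exponent_le hYone (by norm_num)
    have a4 : √Y = Y ^ (1 / 2 : ℝ) := Real.sqrt_eq_rpow Y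
    have a5 : 100 * Y ^ (1 / 2 : ℝ) ≤ Y ^ (19 / 20 : ℝ) := by
      calc 100 * Y ^ (1 / 2 : ℝ) ≤ Y ^ (9 / 20 : ℝ) * Y ^ (1 / 2 : ℝ) :=
            mul_le_mul_of_nonneg_right g5 (Real.rpow_nonneg hY0.le _)
        _ = Y ^ (19 / 20 : ℝ) := by rw [← Real.rpow_add hY0]; norm_num
    have a6 : 1 ≤ Y ^ (1 / 2 : ℝ) := Real.one_le_rpow hYone (by norm_num)
    linarith
  have hJ : Y < ((⌈Y⌉₊ + 1 : ℕ) : ℝ) := by
    push_cast
    have := Nat.le_ceil Y
    linarith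
  set X : ℕ := ⌊Real.exp (Real.exp Y)⌋₊ with hX
  have hXle : yy X ≤ Y + 1 := by
    refine le_trans ((LS.yy_le_iff hY0.le).2 ?_) (by linarith : Y ≤ Y + 1)
    exact Nat.floor_le (Real.exp_pos _).le
  have hXp : ∀ p : ℕ, yy p ≤ Y → p ≤ X := by
    intro p hp
    apply Nat.le_floor
    exact (LS.yy_le_iff hY0.le).1 hp
  -- the threshold
  set ρt := Real.exp (Real.log x / (80 * Y)) with hρt
  have hlogρ : Real.log ρt = Real.log x / (80 * Y) := Real.log_exp _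
  have hbig : 240 * Y ≤ Real.log x := by
    rw [← hexpB]
    have b1 : (B / 2 + 1) ≤ Real.exp (B / 2) := Real.add_one_le_exp _
    have b2 : Real.exp B = Real.exp (B / 2) * Real.exp (B / 2) := by
      rw [← Real.exp_add]; congr 1; ring
    have b3 : (B / 4 + 1) ≤ Real.exp (B / 4) := Real.add_one_le_exp _
    have b4 : Real.exp (B / 2) = Real.exp (B / 4) * Real.exp (B / 4) := by
      rw [← Real.exp_add]; congr 1; ring
    have b5 : 26 * 26 ≤ Real.exp (B / 2) := by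
      rw [b4]
      apply mul_le_mul <;> linarith [Real.exp_pos (B / 4)]
    rw [b2]
    nlinarith
  have hρ2 : 4 ≤ ρt := by
    rw [hρt]
    have c1 : 3 ≤ Real.log x / (80 * Y) := by
      rw [le_div_iff₀ (by positivity)]; linarith
    have := Real.add_one_le_exp (Real.log x / (80 * Y))
    linarith
  have hκ : 0 ≤ 1 / Real.log ρt := by rw [hlogρ]; positivity
  have hWt0 : ∀ v : ℕ, 0 ≤ (if (v : ℝ) ≤ x then 1 / x else 0) := fun v => by
    split_ifs <;> positivity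
  have hmb := main_bound (L := Y ^ 8) (Y := Y) (X := X) (F := Y ^ (91 / 100 : ℝ))
      (E := E) (ρt := ρt) (κ := 1 / Real.log ρt) g2 hYone hE hJ hXp
      (fun v => if (v : ℝ) ≤ x then 1 / x else 0)
      (fun b v => if (v : ℝ) ≤ x / b then 1 / (x / b) else 0) hWt0
      (fun b v hb => by
        have hb0 : (0 : ℝ) < b := by exact_mod_cast Nat.pos_of_ne_zero hb
        by_cases hc : ((b * v : ℕ) : ℝ) ≤ x
        · have hc' : (v : ℝ) ≤ x / b := by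
            rw [le_div_iff₀ hb0]
            push_cast at hc
            linarith
          simp only [if_pos hc, if_pos hc']
          apply le_of_eq
          field_simp
        · simp only [if_neg hc]
          split_ifs <;> positivity)
      (fun b hb => by
        have hb0 : (0 : ℝ) < b := by exact_mod_cast Nat.pos_of_ne_zero hb
        exact g1 X hXle ρt (x / b) hρ2 (by positivity)) hκ A ?_
  · -- conclusion
    have hcard : (A.card : ℝ) = x * ∑ p ∈ A,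
        (if (((p.1 - 1) * p.2 : ℕ) : ℝ) ≤ x then 1 / x else 0) := by
      have : ∑ p ∈ A, (if (((p.1 - 1) * p.2 : ℕ) : ℝ) ≤ x then 1 / x else 0) =
          ∑ _p ∈ A, 1 / x := Finset.sum_congr rfl fun p hp => by rw [if_pos (hA p hp).2.2.1]
      rw [this, Finset.sum_const, nsmul_eq_mul]
      field_simp
    rw [hcard]
    have hg3 := g3 E hE3
    calc x * ∑ p ∈ A, (if (((p.1 - 1) * p.2 : ℕ) : ℝ) ≤ x then 1 / x else 0)
        ≤ x * (1 / Real.log ρt * Real.exp (-(2 * Y ^ (9 / 10 : ℝ)))) := by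
          apply mul_le_mul_of_nonneg_left _ hx0.le
          refine hmb.trans ?_
          rw [mul_assoc]
          exact mul_le_mul_of_nonneg_left hg3 hκ
      _ = x / Real.log x * (80 * Y * Real.exp (-(2 * Y ^ (9 / 10 : ℝ)))) := by
          rw [hlogρ]
          field_simp
  · intro p hp
    obtain ⟨a1, a2, a3, a4, a5⟩ := hA p hp
    have hq2 := a1.1.two_le
    have hd1 := a1.2.1.pos
    -- q ≤ x + 1
    have hqx : (p.1 : ℝ) ≤ x + 1 := by
      have e1 : p.1 - 1 ≤ (p.1 - 1) * p.2 := Nat.le_mul_of_pos_right _ hd1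
      have e2 : ((p.1 - 1 : ℕ) : ℝ) ≤ x := le_trans (by exact_mod_cast e1) a3
      rw [Nat.cast_sub (by omega)] at e2
      push_cast at e2
      linarith
    have hqpos : (0 : ℝ) < p.1 := by exact_mod_cast a1.1.pos
    have hyq : yy p.1 ≤ Y := by
      unfold yy
      apply max_le hY0.le
      have e3 : Real.log (p.1 : ℝ) ≤ 2 * Real.log x := by
        calc Real.log (p.1 : ℝ) ≤ Real.log (x ^ 2) := by
              apply Real.log_le_log hqpos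
              nlinarith
          _ = 2 * Real.log x := by rw [Real.log_pow]; norm_num
      have e4 : (0 : ℝ) < Real.log (p.1 : ℝ) := Real.log_pos (by exact_mod_cast a1.1.one_lt)
      calc Real.log (Real.log (p.1 : ℝ)) ≤ Real.log (2 * Real.log x) := Real.log_le_log e4 e3
        _ = Real.log 2 + B := by rw [Real.log_mul (by norm_num) hlx.ne']
        _ ≤ Y := by linarith
    have hsx : Real.log x / 2 ≤ Real.log (p.1 : ℝ) := by
      have e5 : Real.log √x = Real.log x / 2 := Real.log_sqrt hx0.le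
      rw [← e5]
      exact Real.log_le_log (Real.sqrt_pos.2 hx0) a2.le
    have hyq2 : B - Real.log 2 ≤ yy p.1 := by
      refine le_trans ?_ (log_log_le_yy p.1)
      have e6 : B - Real.log 2 = Real.log (Real.log x / 2) := by
        rw [Real.log_div hlx.ne' (by norm_num)]
      rw [e6]
      exact Real.log_le_log (by linarith) hsx
    refine ⟨a1, hyq, by rw [hEdef]; linarith, a5, ?_⟩
    have hyq0 : 0 < yy p.1 := by linarith
    have hv0 : (p.1 - 1) * p.2 ≠ 0 := Nat.mul_ne_zero (by omega) (by omega)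
    have hom : ((p.1 - 1).primeFactorsList.length : ℝ) ≤ 20 * Y := by
      refine le_trans ?_ a5.om
      exact_mod_cast length_le_of_dvd hv0 (Dvd.intro _ rfl : p.1 - 1 ∣ (p.1 - 1) * p.2)
    have h10 := log_Pm_ge hyq0 hY0 hom
    have hp3 := two_lt_of_yy_pos hyq0
    rw [← Pm_le_gpf (by omega : 2 ≤ p.1 - 1)]
    have hPpos : (0 : ℝ) < Pm (p.1 - 1) := by exact_mod_cast one_le_Pm (p.1 - 1)
    rw [hρt, ← Real.exp_log hPpos, Real.exp_le_exp]
    refine le_trans ?_ h10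
    rw [exp_yy hyq0, div_le_div_iff₀ (by positivity) (by positivity)]
    have h11 := mul_le_mul_of_nonneg_right hsx (by positivity : (0 : ℝ) ≤ 80 * Y)
    linarith

/-- **(Lc)** -/
theorem stmtLc_of (hst : StmtStatC) : StmtLc := by
  classical
  obtain ⟨B1, hB1, h1⟩ := good_count
  obtain ⟨B2, h2⟩ := hst
  obtain ⟨B3, h3⟩ := LCrude.exists_crude_count
  obtain ⟨B4, h4⟩ := eventually_rpow_ge (by norm_num : (0 : ℝ) < 1 / 10) 4
  obtain ⟨B5, h5⟩ := eventually_log_le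
  obtain ⟨B6, h6⟩ := eventually_rpow_ge (by norm_num : (0 : ℝ) < 8 / 10) 2
  refine ⟨6 / 10, max 100 (max B1 (max B2 (max B3 (max B4 (max B5 B6))))), by norm_num,
    fun x hx hB => ?_⟩
  set B := Real.log (Real.log x) with hBdef
  have hB100 : 100 ≤ B := (le_max_left _ _).trans hB
  have hB' := (le_max_right _ _).trans hB
  have g1 := h1 x hx ((le_max_left _ _).trans hB') (B + 1) rfl
  have hB'' := (le_max_right _ _).trans hB'
  have g2 := h2 x hx ((le_max_left _ _).trans hB'') (B + 1) rfl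
  have hB3' := (le_max_right _ _).trans hB''
  have g3 := h3 x hx ((le_max_left _ _).trans hB3') (B + 1) rfl
  have hB4' := (le_max_right _ _).trans hB3'
  have g4 := h4 B ((le_max_left _ _).trans hB4')
  have hB5' := (le_max_right _ _).trans hB4'
  have g5 := h5 (B + 1) (by linarith [(le_max_left _ _).trans hB5'])
  have g6 := h6 (B + 1) (by linarith [(le_max_right _ _).trans hB5'])
  have hx0 : 0 < x := by linarith
  have hlx : 0 < Real.log x := Real.log_pos (by linarith)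
  have hxl : 0 < x / Real.log x := by positivity
  set S : Set (ℕ × ℕ) := {p : ℕ × ℕ | NonCan p.1 p.2 ∧ Real.sqrt x < p.1 ∧
      (p.2 : ℝ) ≤ x ^ (1 / 10 : ℝ) ∧ (((p.1 - 1) * p.2 : ℕ) : ℝ) ≤ x ∧
      FF aa p.2 + Real.log (Real.log x) ^ (19 / 20 : ℝ) ≤ Real.log (Real.log x)} with hS
  have hfin : S.Finite := by
    apply ((Finset.range (⌊x⌋₊ + 2) ×ˢ Finset.range (⌊x⌋₊ + 1)).finite_toSet).subset
    rintro ⟨q, d⟩ hp
    have hq2 := hp.1.1.two_le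
    have hd1 := hp.1.2.1.pos
    have hle : ((q - 1) * d : ℕ) ≤ ⌊x⌋₊ := Nat.le_floor hp.2.2.2.1
    have e1 : q - 1 ≤ (q - 1) * d := Nat.le_mul_of_pos_right _ hd1
    have e2 : d ≤ (q - 1) * d := Nat.le_mul_of_pos_left _ (by simp only at hq2; omega)
    simp only [Finset.coe_product, Set.mem_prod, Finset.mem_coe, Finset.mem_range]
    constructor <;> omega
  rw [Set.ncard_eq_toFinset_card _ hfin]
  set A := hfin.toFinset with hAdef
  have hAm : ∀ p ∈ A, p ∈ S := fun p hp => by rwa [hAdef, Set.Finite.mem_toFinset] at hp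
  let G : ℕ × ℕ → Prop := fun p =>
    LGood (B + 1) ⌊√(B + 1)⌋₊ ⌈210 * √(B + 1)⌉₊ (⌈B + 1⌉₊ + 1) ((B + 1) ^ (91 / 100 : ℝ)) p.1 p.2
  let G' : ℕ × ℕ → Prop := fun p => LCrude.SGood (B + 1) ⌊√(B + 1)⌋₊ ⌈210 * √(B + 1)⌉₊ p.1 p.2
  have hsplit : A ⊆ (A.filter G ∪ A.filter (fun p => G' p ∧ ¬ G p)) ∪
      A.filter (fun p => ¬ G' p) := by
    intro p hp
    rw [Finset.mem_union, Finset.mem_union, Finset.mem_filter, Finset.mem_filter,
      Finset.mem_filter]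
    tauto
  have hc : (A.card : ℝ) ≤ (A.filter G).card + (A.filter (fun p => G' p ∧ ¬ G p)).card +
      (A.filter (fun p => ¬ G' p)).card := by
    have := (Finset.card_le_card hsplit).trans ((Finset.card_union_le _ _).trans
      (Nat.add_le_add_right (Finset.card_union_le _ _) _))
    exact_mod_cast this
  have c1 : ((A.filter G).card : ℝ) ≤
      x / Real.log x * (80 * (B + 1) * Real.exp (-(2 * (B + 1) ^ (9 / 10 : ℝ)))) := by
    apply g1
    intro p hp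
    rw [Finset.mem_filter] at hp
    obtain ⟨a1, a2, a3, a4, a5⟩ := hAm p hp.1
    exact ⟨a1, a2, a4, a5, hp.2⟩
  have c2 : ((A.filter (fun p => G' p ∧ ¬ G p)).card : ℝ) ≤
      x / Real.log x * Real.exp (-B ^ (7 / 10 : ℝ)) := by
    apply card_le_of_tsum (by positivity) g2
    intro p hp
    rw [Finset.mem_filter] at hp
    obtain ⟨a1, a2, a3, a4, a5⟩ := hAm p hp.1
    exact ⟨a1.1, a1.2.1, a1.2.2.1, a2, a3, a4, a5, hp.2.1, hp.2.2⟩
  have c3 : ((A.filter (fun p => ¬ G' p)).card : ℝ) ≤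
      x / Real.log x * Real.exp (-B) := by
    apply card_le_of_tsum (by positivity) g3
    intro p hp
    rw [Finset.mem_filter] at hp
    obtain ⟨a1, a2, a3, a4, a5⟩ := hAm p hp.1
    exact ⟨a1.1, a1.2.1, a1.2.2.1, a4, hp.2⟩
  -- numerics
  have hB0 : 0 < B := by linarith
  have hB1' : 1 ≤ B := by linarith
  have hY0 : 0 < B + 1 := by linarith
  have hY1 : 1 ≤ B + 1 := by linarith
  have p6 : 1 ≤ B ^ (6 / 10 : ℝ) := Real.one_le_rpow hB1' (by norm_num)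
  have p7 : 4 * B ^ (6 / 10 : ℝ) ≤ B ^ (7 / 10 : ℝ) := by
    calc 4 * B ^ (6 / 10 : ℝ) ≤ B ^ (1 / 10 : ℝ) * B ^ (6 / 10 : ℝ) :=
          mul_le_mul_of_nonneg_right g4 (Real.rpow_nonneg hB0.le _)
      _ = B ^ (7 / 10 : ℝ) := by rw [← Real.rpow_add hB0]; norm_num
  have p9 : B ^ (7 / 10 : ℝ) ≤ (B + 1) ^ (9 / 10 : ℝ) := by
    calc B ^ (7 / 10 : ℝ) ≤ B ^ (9 / 10 : ℝ) :=
          Real.rpow_le_rpow_of_exponent_le hB1' (by norm_num)
      _ ≤ (B + 1) ^ (9 / 10 : ℝ) := Real.rpow_le_rpow hB0.le (by linarith) (by norm_num)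
  have p10 : B ^ (7 / 10 : ℝ) ≤ B := by
    calc B ^ (7 / 10 : ℝ) ≤ B ^ (1 : ℝ) := Real.rpow_le_rpow_of_exponent_le hB1' (by norm_num)
      _ = B := Real.rpow_one B
  -- 80 Y ≤ exp(Y^{0.9})
  have p11 : 80 * (B + 1) ≤ Real.exp ((B + 1) ^ (9 / 10 : ℝ)) := by
    rw [← Real.log_le_iff_le_exp (by positivity)]
    have e1 : Real.log (80 * (B + 1)) ≤ 2 * Real.log (B + 1) := by
      calc Real.log (80 * (B + 1)) ≤ Real.log ((B + 1) ^ 2) := by
            apply Real.log_le_log (by positivity)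
            nlinarith
        _ = 2 * Real.log (B + 1) := by rw [Real.log_pow]; norm_num
    have e2 : 2 * (B + 1) ^ (1 / 10 : ℝ) ≤ (B + 1) ^ (9 / 10 : ℝ) := by
      calc 2 * (B + 1) ^ (1 / 10 : ℝ) ≤ (B + 1) ^ (8 / 10 : ℝ) * (B + 1) ^ (1 / 10 : ℝ) :=
            mul_le_mul_of_nonneg_right g6 (Real.rpow_nonneg hY0.le _)
        _ = (B + 1) ^ (9 / 10 : ℝ) := by rw [← Real.rpow_add hY0]; norm_num
    linarith
  have b1 : 80 * (B + 1) * Real.exp (-(2 * (B + 1) ^ (9 / 10 : ℝ))) ≤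
      Real.exp (-(4 * B ^ (6 / 10 : ℝ))) := by
    calc 80 * (B + 1) * Real.exp (-(2 * (B + 1) ^ (9 / 10 : ℝ)))
        ≤ Real.exp ((B + 1) ^ (9 / 10 : ℝ)) * Real.exp (-(2 * (B + 1) ^ (9 / 10 : ℝ))) :=
          mul_le_mul_of_nonneg_right p11 (Real.exp_pos _).le
      _ = Real.exp (-(B + 1) ^ (9 / 10 : ℝ)) := by rw [← Real.exp_add]; congr 1; ring
      _ ≤ Real.exp (-(4 * B ^ (6 / 10 : ℝ))) := by rw [Real.exp_le_exp]; linarith
  have b2 : Real.exp (-B ^ (7 / 10 : ℝ)) ≤ Real.exp (-(4 * B ^ (6 / 10 : ℝ))) := by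
    rw [Real.exp_le_exp]; linarith
  have b3 : Real.exp (-B) ≤ Real.exp (-(4 * B ^ (6 / 10 : ℝ))) := by
    rw [Real.exp_le_exp]; linarith
  have b4 : 3 * Real.exp (-(4 * B ^ (6 / 10 : ℝ))) ≤ Real.exp (-B ^ (6 / 10 : ℝ)) := by
    have : Real.exp (-B ^ (6 / 10 : ℝ)) =
        Real.exp (3 * B ^ (6 / 10 : ℝ)) * Real.exp (-(4 * B ^ (6 / 10 : ℝ))) := by
      rw [← Real.exp_add]; congr 1; ring
    rw [this]
    apply mul_le_mul_of_nonneg_right _ (Real.exp_pos _).le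
    have := Real.add_one_le_exp (3 * B ^ (6 / 10 : ℝ))
    linarith
  calc (A.card : ℝ) ≤ x / Real.log x * (80 * (B + 1) * Real.exp (-(2 * (B + 1) ^ (9 / 10 : ℝ)))) +
        x / Real.log x * Real.exp (-B ^ (7 / 10 : ℝ)) + x / Real.log x * Real.exp (-B) := by
        linarith
    _ = x / Real.log x * (80 * (B + 1) * Real.exp (-(2 * (B + 1) ^ (9 / 10 : ℝ))) +
        Real.exp (-B ^ (7 / 10 : ℝ)) + Real.exp (-B)) := by ring
    _ ≤ x / Real.log x * Real.exp (-B ^ (6 / 10 : ℝ)) := by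
        apply mul_le_mul_of_nonneg_left _ hxl.le
        linarith

end Crest.Agent.R020.Coll
end

-- ▼ part R020/LStatG

/-!
Row 20 (helper661): the field `stat` of `LGood` in the shape used by the final assembly of (L), (Lc).

* `alive_of_om`: `q` is alive;
* `statPlain`, `statCount`.
-/

set_option autoImplicit false

open scoped ENNReal
open Filter Topology

noncomputable section

namespace Crest.Agent.R020.LS

open Coll (alv deadPart redv kap ell Alive)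

lemma le_pow_of_primeFactorsList {n P : ℕ} (hn : n ≠ 0) (h : ∀ p ∈ n.primeFactorsList, p ≤ P) :
    n ≤ P ^ n.primeFactorsList.length := by
  conv_lhs => rw [← Nat.prod_primeFactorsList hn]
  exact List.prod_le_pow_card _ _ h

/-- `q` is alive if `(q-1)d` has few prime factors. -/
lemma alive_of_om : ∃ Y0 : ℝ, 1 ≤ Y0 ∧ ∀ Y : ℝ, Y0 ≤ Y → ∀ q d : ℕ, q.Prime → d ≠ 0 →
    (((q - 1) * d).primeFactorsList.length : ℝ) ≤ 20 * Y → Y ^ (19 / 20 : ℝ) ≤ yy q →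
    Alive ⌊Real.sqrt Y⌋₊ q := by
  have hev : ∀ᶠ Y : ℝ in atTop, (2 : ℝ) < Y ^ (45 / 100 : ℝ) :=
    (tendsto_rpow_atTop (by norm_num : (0 : ℝ) < 45 / 100)).eventually_gt_atTop _
  have hev2 : ∀ᶠ Y : ℝ in atTop, (8 : ℝ) ≤ Y ^ (1 / 4 : ℝ) :=
    (tendsto_rpow_atTop (by norm_num : (0 : ℝ) < 1 / 4)).eventually_ge_atTop _
  obtain ⟨Y0, hY0⟩ := (hev.and hev2).exists_forall_of_atTop
  refine ⟨max 1 Y0, le_max_left _ _, ?_⟩
  intro Y hY q d hq hd hom hyq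
  have hY1 : 1 ≤ Y := (le_max_left _ _).trans hY
  have hYpos : 0 < Y := by linarith
  obtain ⟨h45, h14⟩ := hY0 Y ((le_max_right _ _).trans hY)
  have hq2 := hq.two_le
  have hq1 : q - 1 ≠ 0 := by omega
  -- `Y^(19/20) > 2 √Y`
  have hsq : Real.sqrt Y = Y ^ (1 / 2 : ℝ) := Real.sqrt_eq_rpow Y
  have h1 : 2 * Real.sqrt Y < Y ^ (19 / 20 : ℝ) := by
    have h2 : Y ^ (19 / 20 : ℝ) = Y ^ (45 / 100 : ℝ) * Y ^ (1 / 2 : ℝ) := by
      rw [← Real.rpow_add hYpos]; norm_num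
    rw [h2, hsq]
    exact mul_lt_mul_of_pos_right h45 (Real.rpow_pos_of_pos hYpos _)
  -- `log (40 Y) ≤ √Y`
  have h2 : Real.log (40 * Y) ≤ Real.sqrt Y := by
    rw [Real.log_mul (by norm_num) hYpos.ne']
    have h3 : Real.log 40 ≤ 4 := by
      have h4 : (40 : ℝ) ≤ Real.exp 4 := by
        have h5 : Real.exp 4 = Real.exp 1 ^ 4 := by
          rw [← Real.exp_nat_mul]; norm_num
        rw [h5]
        have h6 := Real.exp_one_gt_d9
        have h7 : (2.7 : ℝ) ^ 4 ≤ Real.exp 1 ^ 4 := pow_le_pow_left₀ (by norm_num) (by linarith) 4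
        norm_num at h7
        linarith
      rw [Real.log_le_iff_le_exp (by norm_num)]
      exact h4
    have h4 := Real.log_le_rpow_div hYpos.le (show (0 : ℝ) < 1 / 4 by norm_num)
    have h5 : Real.sqrt Y = Y ^ (1 / 4 : ℝ) * Y ^ (1 / 4 : ℝ) := by
      rw [hsq, ← Real.rpow_add hYpos]; norm_num
    rw [h5]
    nlinarith
  -- `yy q > 0`
  have hyq0 : 0 < yy q := by
    have : 0 ≤ Real.sqrt Y := Real.sqrt_nonneg Y
    linarith
  have hlq := Coll.exp_yy hyq0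
  have hlq0 : 0 < Real.log q := by rw [← hlq]; exact Real.exp_pos _
  have hyq' : yy q = Real.log (Real.log q) := Coll.yy_eq hyq0
  have hsY : 1 ≤ Real.sqrt Y := Real.one_le_sqrt.mpr hY1
  have hq3 : 3 ≤ q := Coll.two_lt_of_yy_pos hyq0
  have hq3r : (3 : ℝ) ≤ q := by exact_mod_cast hq3
  -- `log (q-1) ≥ log q / 2`
  have h6 : Real.log q / 2 ≤ Real.log ((q - 1 : ℕ) : ℝ) := by
    rw [Nat.cast_sub hq.one_le, Nat.cast_one]
    have h7 : (q : ℝ) ≤ ((q : ℝ) - 1) ^ 2 := by nlinarith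
    have h8 := Real.log_le_log (by linarith) h7
    rw [Real.log_pow] at h8
    push_cast at h8
    linarith
  -- `log (q-1) ≤ 20 Y log P`
  set P := Pm (q - 1) with hP
  have hPp : ∀ p ∈ (q - 1).primeFactorsList, p ≤ P := by
    intro p hp
    rw [Nat.mem_primeFactorsList hq1] at hp
    have h9 : 1 ≤ P := by
      rw [hP]
      unfold Pm
      rcases hd' : dl (q - 1) with _ | ⟨a, t⟩
      · simp
      · simp only [List.headD_cons]
        have : a ∈ dl (q - 1) := by rw [hd']; simp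
        exact (prime_of_mem_dl this).one_le
    exact (Pm_le_iff hq1 h9).mp le_rfl p hp.1 hp.2
  have h10 := le_pow_of_primeFactorsList hq1 hPp
  have hq1pos : (0 : ℝ) < ((q - 1 : ℕ) : ℝ) := by exact_mod_cast Nat.pos_of_ne_zero hq1
  have h11 : Real.log ((q - 1 : ℕ) : ℝ) ≤ (q - 1).primeFactorsList.length * Real.log P := by
    have h12 : ((q - 1 : ℕ) : ℝ) ≤ (P : ℝ) ^ (q - 1).primeFactorsList.length := by
      exact_mod_cast h10
    have h13 := Real.log_le_log hq1pos h12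
    rwa [Real.log_pow] at h13
  have hlP0 : 0 ≤ Real.log (P : ℝ) := Real.log_natCast_nonneg P
  have h12 : ((q - 1).primeFactorsList.length : ℝ) ≤ 20 * Y := by
    refine le_trans ?_ hom
    have h13 := (Nat.perm_primeFactorsList_mul hq1 hd).length_eq
    rw [List.length_append] at h13
    exact_mod_cast (by omega : (q - 1).primeFactorsList.length ≤
      ((q - 1) * d).primeFactorsList.length)
  have h13 : Real.log q / 2 ≤ 20 * Y * Real.log P :=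
    h6.trans (h11.trans (mul_le_mul_of_nonneg_right h12 hlP0))
  have h14' : Real.log q / (40 * Y) ≤ Real.log P := by
    rw [div_le_iff₀ (by positivity)]
    linarith
  have h15 : yy q - Real.log (40 * Y) ≤ yy P := by
    rw [hyq', ← Real.log_div hlq0.ne' (by positivity)]
    refine le_trans (Real.log_le_log (by positivity) h14') (log_log_le_yy P)
  unfold Coll.Alive
  have h16 : (⌊Real.sqrt Y⌋₊ : ℝ) ≤ Real.sqrt Y := Nat.floor_le (Real.sqrt_nonneg _)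
  linarith

lemma params {Y : ℝ} (hY : 4 ≤ Y) : Real.sqrt Y / 2 ≤ (⌊Real.sqrt Y⌋₊ : ℝ) ∧
    (⌊Real.sqrt Y⌋₊ : ℝ) ≤ Real.sqrt Y ∧ (⌈210 * Real.sqrt Y⌉₊ : ℝ) ≤ 211 * Real.sqrt Y ∧
    Y ≤ ((⌈Y⌉₊ + 1 : ℕ) : ℝ) ∧ ((⌈Y⌉₊ + 1 : ℕ) : ℝ) ≤ 3 * Y ∧
    Y ^ (9 / 10 : ℝ) ≤ Y ^ (91 / 100 : ℝ) := by
  have hs : 2 ≤ Real.sqrt Y := by
    apply Real.le_sqrt_of_sq_le
    linarith
  refine ⟨?_, Nat.floor_le (Real.sqrt_nonneg _), ?_, ?_, ?_, ?_⟩
  · have := Nat.lt_floor_add_one (Real.sqrt Y)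
    linarith
  · have := Nat.ceil_lt_add_one (show 0 ≤ 210 * Real.sqrt Y by positivity)
    linarith
  · have := Nat.le_ceil Y
    push_cast
    linarith
  · have := Nat.ceil_lt_add_one (show 0 ≤ Y by linarith)
    push_cast
    linarith
  · exact Real.rpow_le_rpow_of_exponent_le (by linarith) (by norm_num)

/-- **S4 for (L)**. -/
theorem statPlain : ∃ Y0 : ℝ, ∀ Y : ℝ, Y0 ≤ Y →
    wt2 {p | p ∈ LCrude.Pr Y ∧ FF aa p.2 + Y ^ (19 / 20 : ℝ) ≤ yy p.1 ∧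
      LCrude.SGood Y ⌊Real.sqrt Y⌋₊ ⌈210 * Real.sqrt Y⌉₊ p.1 p.2 ∧
      ¬ Coll.LGood Y ⌊Real.sqrt Y⌋₊ ⌈210 * Real.sqrt Y⌉₊ (⌈Y⌉₊ + 1) (Y ^ (91 / 100 : ℝ)) p.1 p.2} ≤
      ENNReal.ofReal (Real.exp (-Y ^ (7 / 10 : ℝ))) := by
  obtain ⟨Y1, hY1, h1⟩ := stat_bad 211 (by norm_num)
  obtain ⟨Y2, hY2, h2⟩ := alive_of_om
  refine ⟨max 4 (max Y1 Y2), ?_⟩
  intro Y hY
  have hY4 : 4 ≤ Y := (le_max_left _ _).trans hY
  have hYY1 : Y1 ≤ Y := (le_max_left _ _).trans ((le_max_right _ _).trans hY)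
  have hYY2 : Y2 ≤ Y := (le_max_right _ _).trans ((le_max_right _ _).trans hY)
  obtain ⟨hw1, hw2, hN, hJ1, hJ2, hF⟩ := params hY4
  have h3 := h1 Y hYY1 ⌊Real.sqrt Y⌋₊ ⌈210 * Real.sqrt Y⌉₊ (⌈Y⌉₊ + 1) (Y ^ (91 / 100 : ℝ))
    hw1 hw2 hN hJ1 hJ2 hF
  refine le_trans ?_ (h3.trans (ENNReal.ofReal_le_ofReal (Real.exp_le_exp.mpr (neg_le_neg
    (Real.rpow_le_rpow_of_exponent_le (by linarith) (by norm_num))))))
  unfold wt2
  refine ENNReal.tsum_le_tsum fun p => ?_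
  refine Set.indicator_le_indicator_of_subset ?_ (fun _ => zero_le) p
  rintro ⟨q, d⟩ ⟨⟨hq, hd, hP, hy⟩, hFF, hS, hL⟩
  simp only at hq hd hP hy hFF hS hL
  have hF0 : 0 ≤ FF aa d := FF_nonneg (fun i => by linarith [third_le_aa i]) d
  have hpow : 0 ≤ Y ^ (19 / 20 : ℝ) := by positivity
  refine ⟨hq, hd, hP, h2 Y hYY2 q d hq hd.pos.ne' hS.om (by linarith), hy, ?_, ?_, ?_⟩
  · simp only
    linarith
  · intro p hp hwp hdvd
    exact hS.sqL p hp hwp (hdvd.mul_left q)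
  · intro hst
    exact hL (lgood_iff.mpr ⟨⟨hS.om, hS.cardL, hS.cardR, hS.sqL, hS.sqR⟩, hst⟩)

/-- **S4 for (Lc)**. -/
theorem statCount : ∃ B0 : ℝ, ∀ x : ℝ, 3 ≤ x → B0 ≤ Real.log (Real.log x) →
    ∀ Y : ℝ, Y = Real.log (Real.log x) + 1 →
    ∑' p : ℕ × ℕ, ({p : ℕ × ℕ | p.1.Prime ∧ IsTot p.2 ∧ Pm (rr p.2) < p.1 ∧
      Real.sqrt x < p.1 ∧ (((p.1 - 1) * p.2 : ℕ) : ℝ) ≤ x ∧
      FF aa p.2 + Real.log (Real.log x) ^ (19 / 20 : ℝ) ≤ Real.log (Real.log x) ∧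
      LCrude.SGood Y ⌊Real.sqrt Y⌋₊ ⌈210 * Real.sqrt Y⌉₊ p.1 p.2 ∧
      ¬ Coll.LGood Y ⌊Real.sqrt Y⌋₊ ⌈210 * Real.sqrt Y⌉₊ (⌈Y⌉₊ + 1) (Y ^ (91 / 100 : ℝ)) p.1
        p.2}).indicator (fun _ => (1 : ℝ≥0∞)) p ≤
      ENNReal.ofReal (x / Real.log x * Real.exp (-Real.log (Real.log x) ^ (7 / 10 : ℝ))) := by
  obtain ⟨Y1, hY1, h1⟩ := stat_bad_count 211 (by norm_num)
  obtain ⟨Y2, hY2, h2⟩ := alive_of_om
  have hev : ∀ᶠ Y : ℝ in atTop, (2 : ℝ) ≤ Y ^ (1 / 20 : ℝ) :=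
    (tendsto_rpow_atTop (by norm_num : (0 : ℝ) < 1 / 20)).eventually_ge_atTop _
  obtain ⟨Y3, hY3⟩ := hev.exists_forall_of_atTop
  refine ⟨max 4 (max Y1 (max Y2 Y3)), ?_⟩
  intro x hx3 hB Y hY
  set B := Real.log (Real.log x) with hBdef
  have hB4 : 4 ≤ B := (le_max_left _ _).trans hB
  have hBY1 : Y1 ≤ B := (le_max_left _ _).trans ((le_max_right _ _).trans hB)
  have hBY2 : Y2 ≤ B := (le_max_left _ _).trans ((le_max_right _ _).trans
    ((le_max_right _ _).trans hB))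
  have hBY3 : Y3 ≤ B := (le_max_right _ _).trans ((le_max_right _ _).trans
    ((le_max_right _ _).trans hB))
  have hY4 : 4 ≤ Y := by linarith
  have hYpos : 0 < Y := by linarith
  have hx0 : 0 < x := by linarith
  have hlx : 0 < Real.log x := Real.log_pos (by linarith)
  obtain ⟨hw1, hw2, hN, hJ1, hJ2, hF⟩ := params hY4
  have h3 := h1 x Y hx3 (by linarith) (by linarith) (by linarith) ⌊Real.sqrt Y⌋₊
    ⌈210 * Real.sqrt Y⌉₊ (⌈Y⌉₊ + 1) (Y ^ (91 / 100 : ℝ)) hw1 hw2 hN hJ1 hJ2 hF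
  refine le_trans ?_ (h3.trans (ENNReal.ofReal_le_ofReal ?_))
  · refine ENNReal.tsum_le_tsum fun p => ?_
    refine Set.indicator_le_indicator_of_subset ?_ (fun _ => zero_le) p
    rintro ⟨q, d⟩ ⟨hq, hd, hP, hqx, hv, hFF, hS, hL⟩
    simp only at hq hd hP hqx hv hFF hS hL
    have hF0 : 0 ≤ FF aa d := FF_nonneg (fun i => by linarith [third_le_aa i]) d
    have hpow : 0 ≤ B ^ (19 / 20 : ℝ) := by positivity
    -- `yy q ≥ B - log 2`
    have hyq : B - Real.log 2 ≤ yy q := by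
      have h4 : Real.log x / 2 ≤ Real.log q := by
        have h5 : Real.log (Real.sqrt x) ≤ Real.log q :=
          Real.log_le_log (Real.sqrt_pos.mpr hx0) hqx.le
        rwa [Real.log_sqrt hx0.le] at h5
      have h6 : Real.log (Real.log x / 2) ≤ Real.log (Real.log q) :=
        Real.log_le_log (by positivity) h4
      rw [Real.log_div hlx.ne' (by norm_num)] at h6
      exact h6.trans (log_log_le_yy q)
    have hyq2 : Y ^ (19 / 20 : ℝ) ≤ yy q := by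
      have h4 : 2 ≤ Y ^ (1 / 20 : ℝ) := hY3 Y (by linarith)
      have h5 : Y = Y ^ (1 / 20 : ℝ) * Y ^ (19 / 20 : ℝ) := by
        rw [← Real.rpow_add hYpos]; norm_num
      have h6 : 2 * Y ^ (19 / 20 : ℝ) ≤ Y := by
        have h7 : 0 ≤ Y ^ (19 / 20 : ℝ) := by positivity
        have h8 := mul_le_mul_of_nonneg_right h4 h7
        rw [← h5] at h8
        exact h8
      have := Real.log_two_lt_d9
      linarith
    refine ⟨⟨hq, hd, hP, h2 Y (by linarith) q d hq hd.pos.ne' hS.om hyq2, ?_, ?_, ?_, ?_⟩, hqx, hv⟩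
    · rw [hY]
      exact LCrude.yy_le_of_le hx3 hq hd.pos hv (by linarith)
    · simp only
      linarith
    · intro p hp hwp hdvd
      exact hS.sqL p hp hwp (hdvd.mul_left q)
    · intro hst
      exact hL (lgood_iff.mpr ⟨⟨hS.om, hS.cardL, hS.cardR, hS.sqL, hS.sqR⟩, hst⟩)
  · apply mul_le_mul_of_nonneg_left _ (by positivity)
    apply Real.exp_le_exp.mpr
    apply neg_le_neg
    have h4 : B ^ (7 / 10 : ℝ) ≤ Y ^ (7 / 10 : ℝ) :=
      Real.rpow_le_rpow (by linarith) (by linarith) (by norm_num)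
    exact h4.trans (Real.rpow_le_rpow_of_exponent_le (by linarith) (by norm_num))

end Crest.Agent.R020.LS
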