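import Crest.Agent.R020.OneStep0
import Crest.Agent.Lib.Mertens
import Crest.Agent.R020.Stmt
import Crest.Agent.R020.PreU

-- ▼ part R020/PS
section

/-!
Row 20 (helper107): the comparison (PS) between prime sums `∑ f(y_q)/(q-1)` and integrals, for antitone `f`.
-/

set_option autoImplicit false

open scoped ENNReal
open MeasureTheory Finset Crest.Agent.Lib

noncomputable section

namespace Crest.Agent.R020

namespace PS

/-- `1/(k-1)` on primes -/
def w1 (k : ℕ) : ℝ := if k.Prime then 1 / ((k : ℝ) - 1) else 0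

def T1 (n : ℕ) : ℝ := ∑ k ∈ range n, w1 k

lemma w1_nonneg (k : ℕ) : 0 ≤ w1 k := by
  unfold w1
  split_ifs with h
  · have : (2 : ℝ) ≤ k := by exact_mod_cast h.two_le
    apply one_div_nonneg.2
    linarith
  · exact le_refl 0

lemma T1_two : T1 2 = 0 := by
  simp [T1, Finset.sum_range_succ, w1, Nat.not_prime_zero, Nat.not_prime_one]

lemma T1_succ (n : ℕ) : T1 (n + 1) = T1 n + w1 n := Finset.sum_range_succ _ _

lemma T1_mono : Monotone T1 := by
  apply monotone_nat_of_le_succ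
  intro n
  rw [T1_succ]
  have := w1_nonneg n
  linarith

lemma T1_nonneg (n : ℕ) : 0 ≤ T1 n := Finset.sum_nonneg fun k _ => w1_nonneg k

lemma loglog_two_bounds : -(1 / 2) ≤ Real.log (Real.log 2) ∧ Real.log (Real.log 2) ≤ 0 := by
  have h1 := Real.log_two_gt_d9
  have h2 := Real.log_two_lt_d9
  constructor
  · rw [Real.le_log_iff_exp_le (by linarith)]
    have h3 : (1.5 : ℝ) ≤ Real.exp (1 / 2) := by
      have := Real.add_one_le_exp (1 / 2 : ℝ)
      linarith
    rw [Real.exp_neg]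
    have h4 : (Real.exp (1 / 2))⁻¹ ≤ (1.5 : ℝ)⁻¹ := inv_anti₀ (by norm_num) h3
    have h5 : (1.5 : ℝ)⁻¹ ≤ 0.68 := by norm_num
    linarith
  · apply Real.log_nonpos (by linarith) (by linarith)

lemma yy_sub_bounds {n : ℕ} (hn : 2 ≤ n) :
    0 ≤ yy n - Real.log (Real.log n) ∧ yy n - Real.log (Real.log n) ≤ 1 / 2 := by
  have h0 := loglog_two_bounds.1
  have h1 : Real.log (Real.log 2) ≤ Real.log (Real.log n) := by
    apply Real.log_le_log (Real.log_pos (by norm_num))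
    exact Real.log_le_log (by norm_num) (by exact_mod_cast hn)
  constructor
  · have := log_log_le_yy n
    linarith
  · unfold yy
    rcases max_cases (0 : ℝ) (Real.log (Real.log n)) with ⟨h, _⟩ | ⟨h, _⟩ <;> rw [h] <;> linarith

lemma T1_bounds {n : ℕ} (hn : 2 ≤ n) : |T1 (n + 1) - yy n| ≤ 13 := by
  have h1 : T1 (n + 1) = 1 + ∑ k ∈ Finset.Ioc 2 n, w1 k := by
    induction n, hn using Nat.le_induction with
    | base =>
      rw [T1_succ, T1_two]
      simp only [Finset.Ioc_self, Finset.sum_empty]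
      unfold w1
      rw [if_pos Nat.prime_two]
      norm_num
    | succ n hn ih =>
      rw [T1_succ, ih, ← Finset.insert_Ioc_right_eq_Ioc_add_one hn, Finset.sum_insert (by simp)]
      ring
  have h2 : ∑ k ∈ Finset.Ioc 2 n, w1 k = ∑ p ∈ Mertens.primesIoc 2 n, 1 / ((p : ℝ) - 1) := by
    unfold Mertens.primesIoc w1
    rw [Finset.sum_filter]
  have h3 : Mertens.S 2 n ≤ ∑ p ∈ Mertens.primesIoc 2 n, 1 / ((p : ℝ) - 1) := by
    unfold Mertens.S
    refine Finset.sum_le_sum fun p hp => ?_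
    have hpp := (Mertens.mem_primesIoc.1 hp).2
    have h2 : (2 : ℝ) ≤ p := by exact_mod_cast hpp.two_le
    apply one_div_le_one_div_of_le <;> linarith
  have h4 : ∑ p ∈ Mertens.primesIoc 2 n, 1 / ((p : ℝ) - 1) ≤ Mertens.S 2 n + 1 / 2 := by
    have h5 : ∑ p ∈ Mertens.primesIoc 2 n, 1 / ((p : ℝ) - 1) =
        ∑ p ∈ Mertens.primesIoc 2 n, ((1 : ℝ) / p + 1 / ((p : ℝ) * (p - 1))) := by
      refine Finset.sum_congr rfl fun p hp => ?_
      have hpp := (Mertens.mem_primesIoc.1 hp).2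
      have h2 : (2 : ℝ) ≤ p := by exact_mod_cast hpp.two_le
      have h6 : (p : ℝ) - 1 ≠ 0 := by linarith
      have h7 : (p : ℝ) ≠ 0 := by linarith
      field_simp
      ring
    rw [h5, Finset.sum_add_distrib]
    have h6 : ∑ p ∈ Mertens.primesIoc 2 n, 1 / ((p : ℝ) * (p - 1)) ≤
        ∑ k ∈ Finset.Ioc 2 n, 1 / ((k : ℝ) * (k - 1)) := by
      apply Finset.sum_le_sum_of_subset_of_nonneg
      · exact Finset.filter_subset _ _
      · intro k hk _
        have : (2 : ℝ) < k := by exact_mod_cast (Finset.mem_Ioc.1 hk).1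
        apply one_div_nonneg.2
        apply mul_nonneg <;> linarith
    have h7 := Mertens.sum_inv_mul_le 2 n (by norm_num) hn
    have h8 : Mertens.S 2 n = ∑ p ∈ Mertens.primesIoc 2 n, (1 : ℝ) / p := rfl
    push_cast at h7
    linarith
  have h5 := abs_le.1 (Mertens.mertens_two_nat 2 n le_rfl hn)
  have h6 : 7 / Real.log ((2 : ℕ) : ℝ) ≤ 10.2 := by
    push_cast
    have h1 := Real.log_two_gt_d9
    rw [div_le_iff₀ (by linarith)]
    linarith
  have h7 := loglog_two_bounds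
  have h8 := yy_sub_bounds hn
  push_cast at h5 h6
  rw [abs_le]
  constructor <;> linarith [h5.1, h5.2, h8.1, h8.2, h7.1, h7.2]

lemma yy_succ_le {n : ℕ} (hn : 2 ≤ n) : yy (n + 1) ≤ yy n + 1 := by
  have hn' : (2 : ℝ) ≤ n := by exact_mod_cast hn
  have h1 : Real.log ((n : ℝ) + 1) ≤ 2 * Real.log n := by
    rw [show (2 : ℝ) * Real.log n = Real.log ((n : ℝ) ^ 2) by rw [Real.log_pow]; norm_num]
    apply Real.log_le_log (by linarith)
    nlinarith
  have hl : 0 < Real.log n := Real.log_pos (by linarith)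
  have hl' : 0 < Real.log ((n : ℝ) + 1) := Real.log_pos (by linarith)
  have h2 : Real.log (Real.log ((n : ℝ) + 1)) ≤ Real.log 2 + Real.log (Real.log n) := by
    rw [← Real.log_mul (by norm_num) hl.ne']
    exact Real.log_le_log hl' h1
  have h3 := Real.log_two_lt_d9
  have h4 := log_log_le_yy n
  unfold yy at h4 ⊢
  push_cast
  apply max_le
  · have := le_max_left 0 (Real.log (Real.log (n : ℝ)))
    linarith
  · linarith

lemma exists_yy_ge (t : ℝ) : ∃ n : ℕ, t ≤ yy n := by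
  refine ⟨⌈Real.exp (Real.exp t)⌉₊, le_trans ?_ (log_log_le_yy _)⟩
  have h1 : Real.exp (Real.exp t) ≤ (⌈Real.exp (Real.exp t)⌉₊ : ℝ) := Nat.le_ceil _
  have h2 : Real.exp t ≤ Real.log (⌈Real.exp (Real.exp t)⌉₊ : ℝ) := by
    rw [Real.le_log_iff_exp_le (lt_of_lt_of_le (Real.exp_pos _) h1)]
    exact h1
  rw [Real.le_log_iff_exp_le (lt_of_lt_of_le (Real.exp_pos _) h2)]
  exact h2

/-- threshold -/
lemma exists_threshold (t : ℝ) : ∃ nt : ℕ, ∀ k : ℕ, t ≤ yy k ↔ nt ≤ k := by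
  classical
  refine ⟨Nat.find (exists_yy_ge t), fun k => ⟨fun h => Nat.find_min' _ h, fun h => ?_⟩⟩
  exact le_trans (Nat.find_spec (exists_yy_ge t)) (yy_mono h)

open Classical in
def wq (t : ℝ) (k : ℕ) : ℝ := if t ≤ yy k then w1 k else 0

def G (t : ℝ) (n : ℕ) : ℝ := ∑ k ∈ range n, wq t k

lemma wq_nonneg (t : ℝ) (k : ℕ) : 0 ≤ wq t k := by
  unfold wq
  split_ifs
  · exact w1_nonneg k
  · exact le_refl 0

lemma G_succ (t : ℝ) (n : ℕ) : G t (n + 1) = G t n + wq t n := Finset.sum_range_succ _ _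

lemma G_zero (t : ℝ) : G t 0 = 0 := by simp [G]

lemma G_mono (t : ℝ) : Monotone (G t) := by
  apply monotone_nat_of_le_succ
  intro n
  rw [G_succ]
  have := wq_nonneg t n
  linarith

lemma G_nonneg (t : ℝ) (n : ℕ) : 0 ≤ G t n := Finset.sum_nonneg fun k _ => wq_nonneg t k

lemma G_eq {t : ℝ} {nt : ℕ} (hnt : ∀ k : ℕ, t ≤ yy k ↔ nt ≤ k) {n : ℕ} (hn : nt ≤ n) :
    G t n = T1 n - T1 nt := by
  induction n, hn using Nat.le_induction with
  | base =>
    rw [sub_self]
    apply Finset.sum_eq_zero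
    intro k hk
    unfold wq
    rw [if_neg]
    rw [hnt]
    exact not_le.2 (Finset.mem_range.1 hk)
  | succ n hn ih =>
    rw [G_succ, T1_succ, ih]
    unfold wq
    rw [if_pos ((hnt n).2 hn)]
    ring

/-- (A) -/
lemma G_succ_le {t : ℝ} {n : ℕ} (hp : n.Prime) (ht : t ≤ yy n) : G t (n + 1) ≤ yy n - t + 27 := by
  obtain ⟨nt, hnt⟩ := exists_threshold t
  have h1 : nt ≤ n := (hnt n).1 ht
  rw [G_eq hnt (by omega)]
  have h2 := (abs_le.1 (T1_bounds hp.two_le)).2
  have h3 : t - 14 ≤ T1 nt := by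
    rcases Nat.lt_or_ge nt 3 with h | h
    · have h4 : t ≤ 0 := by
        have h5 : t ≤ yy 2 := (hnt 2).2 (by omega)
        rwa [yy_two] at h5
      have := T1_nonneg nt
      linarith
    · obtain ⟨m, rfl⟩ : ∃ m, nt = m + 1 := ⟨nt - 1, by omega⟩
      have h4 := (abs_le.1 (T1_bounds (n := m) (by omega))).1
      have h5 := yy_succ_le (n := m) (by omega)
      have h6 : t ≤ yy (m + 1) := (hnt (m + 1)).2 le_rfl
      linarith
  linarith

/-- (B) -/
lemma le_G {t : ℝ} (ht0 : 0 ≤ t) {n : ℕ} (hp : n.Prime) (ht : t ≤ yy n) :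
    yy n - t - 27 ≤ G t n := by
  obtain ⟨nt, hnt⟩ := exists_threshold t
  have h1 : nt ≤ n := (hnt n).1 ht
  rw [G_eq hnt h1]
  have h2 : yy n - 14 ≤ T1 n := by
    rcases Nat.lt_or_ge n 3 with h | h
    · have h3 : n = 2 := by have := hp.two_le; omega
      rw [h3, yy_two, T1_two]
      norm_num
    · obtain ⟨m, rfl⟩ : ∃ m, n = m + 1 := ⟨n - 1, by omega⟩
      have h4 := (abs_le.1 (T1_bounds (n := m) (by omega))).1
      have h5 := yy_succ_le (n := m) (by omega)
      linarith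
  have h3 : T1 nt ≤ t + 13 := by
    rcases Nat.lt_or_ge nt 3 with h | h
    · have h4 : T1 nt ≤ T1 2 := T1_mono (by omega)
      rw [T1_two] at h4
      linarith
    · obtain ⟨m, rfl⟩ : ∃ m, nt = m + 1 := ⟨nt - 1, by omega⟩
      have h4 := (abs_le.1 (T1_bounds (n := m) (by omega))).2
      have h5 : yy m ≤ t := by
        by_contra h6
        push Not at h6
        have := (hnt m).1 h6.le
        omega
      linarith
  linarith

lemma wq_eq_zero_or {t : ℝ} {n : ℕ} : (n.Prime ∧ t ≤ yy n ∧ wq t n = 1 / ((n : ℝ) - 1)) ∨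
    (¬ (n.Prime ∧ t ≤ yy n) ∧ wq t n = 0) := by
  unfold wq w1
  by_cases h1 : t ≤ yy n
  · by_cases h2 : n.Prime
    · left; rw [if_pos h1, if_pos h2]; exact ⟨h2, h1, rfl⟩
    · right; rw [if_pos h1, if_neg h2]; exact ⟨fun h => h2 h.1, rfl⟩
  · right; rw [if_neg h1]; exact ⟨fun h => h1 h.2, rfl⟩

lemma ofReal_wq {t : ℝ} {n : ℕ} (hp : n.Prime) (ht : t ≤ yy n) :
    ENNReal.ofReal (wq t n) = ((n - 1 : ℕ) : ℝ≥0∞)⁻¹ := by
  have h2 := hp.two_le
  have h3 : (0 : ℝ) < ((n - 1 : ℕ) : ℝ) := by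
    have : 0 < n - 1 := by omega
    exact_mod_cast this
  have h4 : wq t n = (((n - 1 : ℕ) : ℝ))⁻¹ := by
    unfold wq w1
    rw [if_pos ht, if_pos hp, Nat.cast_sub (by omega), Nat.cast_one, one_div]
  rw [h4, ENNReal.ofReal_inv_of_pos h3, ENNReal.ofReal_natCast]

end PS

open PS

/-- (PS), upper half. -/
theorem psUp : PSup 27 := by
  classical
  intro f hf t
  let g : ℕ → ℝ := fun n => t - 27 + G t n
  have hg : Monotone g := fun a b h => by
    have := G_mono t h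
    simp only [g]; linarith
  have hg0 : ∀ n, t - 27 ≤ g n := fun n => by
    have := G_nonneg t n
    simp only [g]; linarith
  have hterm : ∀ n : ℕ, (if n.Prime ∧ t ≤ yy n then f (yy n) * ((n - 1 : ℕ) : ℝ≥0∞)⁻¹ else 0) ≤
      ∫⁻ u in Set.Ioc (g n) (g (n + 1)), f u := by
    intro n
    split_ifs with h
    · have h1 : ∫⁻ u in Set.Ioc (g n) (g (n + 1)), f (yy n) ≤
          ∫⁻ u in Set.Ioc (g n) (g (n + 1)), f u := by
        apply setLIntegral_mono' measurableSet_Ioc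
        intro u hu
        apply hf
        have h2 := G_succ_le h.1 h.2
        have h3 : u ≤ t - 27 + G t (n + 1) := hu.2
        linarith
      refine le_trans (le_of_eq ?_) h1
      rw [setLIntegral_const, Real.volume_Ioc, ← ofReal_wq h.1 h.2]
      congr 2
      simp only [g]
      rw [G_succ]
      ring
    · exact zero_le
  calc (∑' q : ℕ, if q.Prime ∧ t ≤ yy q then f (yy q) * ((q - 1 : ℕ) : ℝ≥0∞)⁻¹ else 0)
      ≤ ∑' n : ℕ, ∫⁻ u in Set.Ioc (g n) (g (n + 1)), f u := ENNReal.tsum_le_tsum hterm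
    _ = ∫⁻ u in ⋃ n : ℕ, Set.Ioc (g n) (g (n + 1)), f u := by
        rw [lintegral_iUnion (fun n => measurableSet_Ioc)]
        exact hg.pairwise_disjoint_on_Ioc_succ
    _ ≤ ∫⁻ u in Set.Ioi (t - 27), f u := by
        apply lintegral_mono_set
        intro u hu
        rw [Set.mem_iUnion] at hu
        obtain ⟨n, hn⟩ := hu
        exact lt_of_le_of_lt (hg0 n) hn.1

/-- (PS), lower half. -/
theorem psLow : PSlow 27 := by
  classical
  intro f hf t Y ht
  let g : ℕ → ℝ := fun n => t + 27 + G t n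
  have hterm : ∀ n : ℕ, ∫⁻ u in Set.Ioc (g n) (g (n + 1)) ∩ Set.Iic Y, f u ≤
      (if n.Prime ∧ t ≤ yy n ∧ yy n ≤ Y then f (yy n) * ((n - 1 : ℕ) : ℝ≥0∞)⁻¹ else 0) := by
    intro n
    rcases wq_eq_zero_or (t := t) (n := n) with ⟨hp, hty, _⟩ | ⟨_, h0⟩
    · by_cases hY : yy n ≤ Y
      · rw [if_pos ⟨hp, hty, hY⟩]
        have h1 : ∫⁻ u in Set.Ioc (g n) (g (n + 1)) ∩ Set.Iic Y, f u ≤
            ∫⁻ u in Set.Ioc (g n) (g (n + 1)), f u :=
          lintegral_mono_set Set.inter_subset_left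
        have h2 : ∫⁻ u in Set.Ioc (g n) (g (n + 1)), f u ≤
            ∫⁻ u in Set.Ioc (g n) (g (n + 1)), f (yy n) := by
          apply setLIntegral_mono' measurableSet_Ioc
          intro u hu
          apply hf
          have h2 := le_G ht hp hty
          have h3 : t + 27 + G t n < u := hu.1
          linarith
        refine h1.trans (h2.trans (le_of_eq ?_))
        rw [setLIntegral_const, Real.volume_Ioc, ← ofReal_wq hp hty]
        congr 2
        simp only [g]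
        rw [G_succ]
        ring
      · have h1 : Set.Ioc (g n) (g (n + 1)) ∩ Set.Iic Y = ∅ := by
          rw [Set.eq_empty_iff_forall_notMem]
          rintro u ⟨hu1, hu2⟩
          have h2 := le_G ht hp hty
          have h3 : t + 27 + G t n < u := hu1.1
          have h4 : u ≤ Y := hu2
          push Not at hY
          linarith
        rw [h1]
        simp
    · have h1 : g (n + 1) = g n := by
        simp only [g]; rw [G_succ, h0, add_zero]
      rw [h1, Set.Ioc_self, Set.empty_inter]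
      simp
  have hcov : Set.Ioc (t + 27) Y ⊆ ⋃ n : ℕ, Set.Ioc (g n) (g (n + 1)) ∩ Set.Iic Y := by
    intro u hu
    have hex : ∃ n : ℕ, u ≤ g (n + 1) := by
      obtain ⟨N, hN⟩ := exists_yy_ge (max u t)
      obtain ⟨p, hpN, hp⟩ := Nat.exists_infinite_primes N
      have h1 : max u t ≤ yy p := hN.trans (yy_mono hpN)
      have h2 := le_G ht hp ((le_max_right _ _).trans h1)
      refine ⟨p, ?_⟩
      have h3 : G t p ≤ G t (p + 1) := G_mono t (Nat.le_succ p)
      have h4 : u ≤ yy p := (le_max_left _ _).trans h1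
      simp only [g]
      linarith
    rw [Set.mem_iUnion]
    refine ⟨Nat.find hex, ⟨?_, Nat.find_spec hex⟩, hu.2⟩
    rcases Nat.eq_zero_or_pos (Nat.find hex) with h0 | h0
    · rw [h0]
      simp only [g]
      rw [G_zero, add_zero]
      exact hu.1
    · obtain ⟨m, hm⟩ : ∃ m, Nat.find hex = m + 1 := ⟨Nat.find hex - 1, by omega⟩
      have := Nat.find_min hex (m := m) (by omega)
      rw [hm]
      exact not_le.1 this
  calc ∫⁻ u in Set.Ioc (t + 27) Y, f u
      ≤ ∫⁻ u in ⋃ n : ℕ, Set.Ioc (g n) (g (n + 1)) ∩ Set.Iic Y, f u := lintegral_mono_set hcov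
    _ ≤ ∑' n : ℕ, ∫⁻ u in Set.Ioc (g n) (g (n + 1)) ∩ Set.Iic Y, f u :=
        lintegral_iUnion_le _ _
    _ ≤ _ := ENNReal.tsum_le_tsum hterm

end Crest.Agent.R020
end
end

-- ▼ part R020/FamilyW
section

/-!
Row 20 (helper826): the special family `W` (`StmtW`) from (L) and Mertens.
-/

set_option autoImplicit false

open scoped ENNReal Topology
open MeasureTheory Filter Crest.NumberTheoryR.TotientScale

noncomputable section

namespace Crest.Agent.R020

/-- primes with `t ≤ yy q ≤ Y`. -/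
def PPr (t Y : ℝ) : Set ℕ := {q | q.Prime ∧ t ≤ yy q ∧ yy q ≤ Y}

/-- `∑_{q prime, t ≤ yy q ≤ Y} 1/(q-1)`. -/
def Msum (t Y : ℝ) : ℝ≥0∞ := ∑' q : ℕ, (PPr t Y).indicator (fun q => ((q - 1 : ℕ) : ℝ≥0∞)⁻¹) q

/-- The Mertens lower bound in the `yy` scale. -/
def StmtMlow : Prop := ∃ C : ℝ, ∀ t Y : ℝ, 0 ≤ t → ENNReal.ofReal (Y - t - C) ≤ Msum t Y

theorem wt2_eq_wt_image (A : Set (ℕ × ℕ)) (h : Set.InjOn (fun p : ℕ × ℕ => (p.1 - 1) * p.2) A) :
    wt2 A = wt ((fun p : ℕ × ℕ => (p.1 - 1) * p.2) '' A) := by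
  unfold wt2 wt ws
  rw [← tsum_subtype A, ← tsum_subtype, tsum_image (fun v : ℕ => (v : ℝ≥0∞)⁻¹) h]

theorem wt2_mono {A B : Set (ℕ × ℕ)} (h : A ⊆ B) : wt2 A ≤ wt2 B := by
  apply ENNReal.tsum_le_tsum
  intro v
  exact Set.indicator_le_indicator_of_subset h (fun _ => zero_le) v

theorem wt2_union_le (A B : Set (ℕ × ℕ)) : wt2 (A ∪ B) ≤ wt2 A + wt2 B := by
  unfold wt2
  rw [← ENNReal.tsum_add]
  apply ENNReal.tsum_le_tsum
  intro v
  by_cases hA : v ∈ A
  · rw [Set.indicator_of_mem (Set.mem_union_left B hA), Set.indicator_of_mem hA]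
    exact le_self_add
  · by_cases hB : v ∈ B
    · rw [Set.indicator_of_mem (Set.mem_union_right A hB), Set.indicator_of_mem hB]
      exact le_add_self
    · rw [Set.indicator_of_notMem (by simp [hA, hB])]
      exact zero_le

theorem wt2_prod (P D : Set ℕ) :
    wt2 (P ×ˢ D) = (∑' q : ℕ, P.indicator (fun q => ((q - 1 : ℕ) : ℝ≥0∞)⁻¹) q) * wt D := by
  unfold wt2 wt ws
  rw [ENNReal.tsum_prod', ← ENNReal.tsum_mul_right]
  refine tsum_congr fun q => ?_
  rw [← ENNReal.tsum_mul_left]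
  refine tsum_congr fun d => ?_
  by_cases hq : q ∈ P
  · by_cases hd : d ∈ D
    · rw [Set.indicator_of_mem (show (q, d) ∈ P ×ˢ D from ⟨hq, hd⟩), Set.indicator_of_mem hq,
        Set.indicator_of_mem hd, inv_mul_nat]
    · rw [Set.indicator_of_notMem (show (q, d) ∉ P ×ˢ D from fun h => hd h.2),
        Set.indicator_of_notMem hd, mul_zero]
  · rw [Set.indicator_of_notMem (show (q, d) ∉ P ×ˢ D from fun h => hq h.1),
      Set.indicator_of_notMem hq, zero_mul]

/-- Canonical extensions of the totients in `D` by a prime `q ∈ P`. -/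
def Ext (P D : Set ℕ) : Set ℕ :=
  {v | ∃ q ∈ P, ∃ d ∈ D, v = (q - 1) * d ∧ rr v = q * rr d}

/-- The one-step lower bound for families. -/
theorem wt_ext_ge {t Y F : ℝ} {D : Set ℕ} (hD : ∀ d ∈ D, IsTot d ∧ FF aa d ≤ F ∧ y1 d < t)
    (ht : F + Y ^ (19 / 20 : ℝ) ≤ t) :
    Msum t Y * wt D ≤ wt (Ext (PPr t Y) D) +
      wt2 {p | NonCan p.1 p.2 ∧ yy p.1 ≤ Y ∧ FF aa p.2 + Y ^ (19 / 20 : ℝ) ≤ yy p.1} := by
  classical
  rw [Msum, ← wt2_prod]
  set P := PPr t Y with hP
  have hPm : ∀ q ∈ P, ∀ d ∈ D, Pm (rr d) < q := by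
    intro q hq d hd
    by_contra hcon
    push Not at hcon
    have h1 := yy_mono hcon
    have h2 := (hD d hd).2.2
    have h3 := hq.2.1
    unfold y1 at h2
    linarith
  set A : Set (ℕ × ℕ) := {p | p.1 ∈ P ∧ p.2 ∈ D ∧ rr ((p.1 - 1) * p.2) = p.1 * rr p.2} with hA
  have hcover : P ×ˢ D ⊆ A ∪
      {p | NonCan p.1 p.2 ∧ yy p.1 ≤ Y ∧ FF aa p.2 + Y ^ (19 / 20 : ℝ) ≤ yy p.1} := by
    rintro ⟨q, d⟩ ⟨hq, hd⟩
    by_cases hcan : rr ((q - 1) * d) = q * rr d
    · left; exact ⟨hq, hd, hcan⟩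
    · right
      refine ⟨⟨hq.1, (hD d hd).1, hPm q hq d hd, hcan⟩, hq.2.2, ?_⟩
      have h1 := (hD d hd).2.1
      have h2 := hq.2.1
      show FF aa d + _ ≤ yy q
      linarith
  refine (wt2_mono hcover).trans ((wt2_union_le _ _).trans (add_le_add ?_ le_rfl))
  -- injectivity on the canonical pairs
  have hinj : Set.InjOn (fun p : ℕ × ℕ => (p.1 - 1) * p.2) A := by
    rintro ⟨q, d⟩ ⟨hq, hd, hc⟩ ⟨q', d'⟩ ⟨hq', hd', hc'⟩ heq
    simp only at hq hd hc hq' hd' hc' heq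
    have h1 := (FF_of_canonical aa hq.1 (hPm q hq d hd) hc).2.2
    have h2 := (FF_of_canonical aa hq'.1 (hPm q' hq' d' hd') hc').2.2
    rw [heq, h2] at h1
    subst h1
    have h3 : q' * rr d = q' * rr d' := by rw [← hc, heq, hc']
    have h4 : rr d = rr d' := Nat.eq_of_mul_eq_mul_left hq'.1.pos h3
    have h5 : d = d' := by
      rw [← totient_rr (hD d hd).1, h4, totient_rr (hD d' hd').1]
    rw [h5]
  rw [wt2_eq_wt_image A hinj]
  apply wt_mono
  rintro v ⟨⟨q, d⟩, ⟨hq, hd, hc⟩, rfl⟩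
  exact ⟨q, hq, d, hd, rfl, hc⟩

theorem aa_zero_bounds : 0 < aa 0 ∧ aa 0 ≤ 39 / 100 ∧ 386 / 1000 ≤ aa 0 := by
  have h1 := Real.log_two_gt_d9
  have h2 := Real.log_two_lt_d9
  have e : aa 0 = 2 * Real.log 2 - 1 := by
    simp [aa, aCoef]
    norm_num
  rw [e]
  refine ⟨by linarith, by linarith, by linarith⟩

theorem aa_one_ge : 9 / 10 ≤ aa 1 := by
  have e : aa 1 = 3 * Real.log 3 - 2 * Real.log 2 - 1 := by
    simp [aa, aCoef]
    norm_num
  have h1 := Real.log_two_gt_d9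
  have h2 := Real.log_two_lt_d9
  have h3 : 19 * Real.log 2 ≤ 12 * Real.log 3 := by
    have h4 : Real.log ((2 : ℝ) ^ 19) ≤ Real.log ((3 : ℝ) ^ 12) :=
      Real.log_le_log (by norm_num) (by norm_num)
    rw [Real.log_pow, Real.log_pow] at h4
    exact_mod_cast h4
  rw [e]
  linarith

theorem ext_props {P D : Set ℕ} (hP : ∀ q ∈ P, q.Prime) (hD : ∀ d ∈ D, IsTot d)
    (hPm : ∀ q ∈ P, ∀ d ∈ D, Pm (rr d) < q) {v : ℕ} (hv : v ∈ Ext P D) :
    ∃ q ∈ P, ∃ d ∈ D, IsTot v ∧ y1 v = yy q ∧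
      ∀ c : ℕ → ℝ, FF c v = c 0 * yy q + FF (fun i => c (i + 1)) d := by
  obtain ⟨q, hq, d, hd, rfl, hc⟩ := hv
  refine ⟨q, hq, d, hd, ?_, (FF_of_canonical aa (hP q hq) (hPm q hq d hd) hc).2.1,
    fun c => (FF_of_canonical c (hP q hq) (hPm q hq d hd) hc).1⟩
  refine ⟨q * rr d, Nat.mul_pos (hP q hq).pos (rr_pos d), ?_⟩
  have hcop : Nat.Coprime q (rr d) :=
    (Nat.Prime.coprime_iff_not_dvd (hP q hq)).mpr fun hdv =>
      lt_irrefl _ ((Pm_lt_iff (rr_pos d).ne' (hP q hq).two_le).mp (hPm q hq d hd) q (hP q hq) hdv)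
  rw [Nat.totient_mul hcop, Nat.totient_prime (hP q hq), totient_rr (hD d hd)]

theorem rpow_le_half {Y : ℝ} (hY : (2 : ℝ) ^ 20 ≤ Y) : Y ^ (19 / 20 : ℝ) ≤ Y / 2 := by
  have hY0 : 0 < Y := lt_of_lt_of_le (by norm_num) hY
  have h1 : (2 : ℝ) ≤ Y ^ (1 / 20 : ℝ) := by
    have h2 : ((2 : ℝ) ^ 20) ^ (1 / 20 : ℝ) ≤ Y ^ (1 / 20 : ℝ) :=
      Real.rpow_le_rpow (by norm_num) hY (by norm_num)
    have h3 : ((2 : ℝ) ^ 20) ^ (1 / 20 : ℝ) = 2 := by
      rw [← Real.rpow_natCast, ← Real.rpow_mul (by norm_num)]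
      norm_num
    rwa [h3] at h2
  have h2 : Y ^ (19 / 20 : ℝ) * Y ^ (1 / 20 : ℝ) = Y := by
    rw [← Real.rpow_add hY0]
    norm_num
  have h3 : 0 ≤ Y ^ (19 / 20 : ℝ) := Real.rpow_nonneg hY0.le _
  nlinarith

theorem stmtW (hL : StmtL) (hM : StmtMlow) : StmtW := by
  obtain ⟨c0, Y0, hc0, hL⟩ := hL
  obtain ⟨C, hM⟩ := hM
  refine ⟨1 / 1000, max (max (2 ^ 20) Y0) (100 * (|C| + 2)), by norm_num, fun T hT => ?_⟩
  have hT1 : (2 : ℝ) ^ 20 ≤ T := (le_max_left _ _).trans ((le_max_left _ _).trans hT)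
  have hT2 : Y0 ≤ T := (le_max_right _ _).trans ((le_max_left _ _).trans hT)
  have hT3 : 100 * (|C| + 2) ≤ T := (le_max_right _ _).trans hT
  have hC := le_abs_self C
  have hC0 := abs_nonneg C
  have hT0 : 0 < T := lt_of_lt_of_le (by norm_num) hT1
  obtain ⟨ha0, ha1, ha2⟩ := aa_zero_bounds
  have hE : ∀ Y : ℝ, Y0 ≤ Y → 0 ≤ Y →
      wt2 {p | NonCan p.1 p.2 ∧ yy p.1 ≤ Y ∧ FF aa p.2 + Y ^ (19 / 20 : ℝ) ≤ yy p.1} ≤ 1 := by
    intro Y hY hY0
    refine (hL Y hY).trans ?_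
    rw [← ENNReal.ofReal_one]
    refine ENNReal.ofReal_le_ofReal ?_
    rw [Real.exp_le_one_iff]
    have := Real.rpow_nonneg hY0 c0
    linarith
  -- level one
  set P1 := PPr T (11 / 10 * T) with hP1
  set W1 := Ext P1 {1} with hW1
  have hPm1 : ∀ q ∈ P1, ∀ d ∈ ({1} : Set ℕ), Pm (rr d) < q := by
    intro q hq d hd
    rw [Set.mem_singleton_iff] at hd
    subst hd
    rw [rr_one]
    have : Pm 1 = 1 := by simp [Pm]
    rw [this]
    exact hq.1.one_lt
  have hprop1 : ∀ v ∈ W1, IsTot v ∧ T ≤ y1 v ∧ y1 v ≤ 11 / 10 * T ∧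
      ∀ c : ℕ → ℝ, FF c v = c 0 * y1 v := by
    intro v hv
    obtain ⟨q, hq, d, hd, h1, h2, h3⟩ := ext_props (fun q hq => hq.1)
      (fun d hd => by rw [Set.mem_singleton_iff] at hd; subst hd; exact isTot_one) hPm1 hv
    rw [Set.mem_singleton_iff] at hd
    subst hd
    refine ⟨h1, by rw [h2]; exact hq.2.1, by rw [h2]; exact hq.2.2, fun c => ?_⟩
    rw [h3, FF_one, h2, add_zero]
  have hw1 : ENNReal.ofReal (T / 20) ≤ wt W1 := by
    have h1 := wt_ext_ge (t := T) (Y := 11 / 10 * T) (F := 0) (D := {1})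
      (by
        intro d hd
        rw [Set.mem_singleton_iff] at hd
        subst hd
        exact ⟨isTot_one, (FF_one _).le, by rw [y1_one]; exact hT0⟩)
      (by
        have := rpow_le_half (Y := 11 / 10 * T) (by linarith)
        linarith)
    have h2 : wt ({1} : Set ℕ) = 1 := by
      unfold wt ws
      rw [tsum_eq_single 1 (fun v hv => by
        rw [Set.indicator_of_notMem (by simpa using hv)])]
      simp
    rw [h2, mul_one] at h1
    have h3 := (hM T (11 / 10 * T) hT0.le).trans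
      (h1.trans (add_le_add le_rfl (hE (11 / 10 * T) (by linarith) (by positivity))))
    have h4 : ENNReal.ofReal (T / 20) + 1 ≤ ENNReal.ofReal (11 / 10 * T - T - C) := by
      rw [← ENNReal.ofReal_one, ← ENNReal.ofReal_add (by positivity) (by norm_num)]
      refine ENNReal.ofReal_le_ofReal ?_
      linarith
    exact (ENNReal.add_le_add_iff_right ENNReal.one_ne_top).1 (h4.trans h3)
  -- level two
  set P2 := PPr (12 / 10 * T) (13 / 10 * T) with hP2
  have hPm2 : ∀ q ∈ P2, ∀ d ∈ W1, Pm (rr d) < q := by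
    intro q hq d hd
    by_contra hcon
    push Not at hcon
    have h1 := yy_mono hcon
    have h2 := (hprop1 d hd).2.2.1
    have h3 := hq.2.1
    unfold y1 at h2
    linarith
  refine ⟨Ext P2 W1, fun v hv => ?_, ?_⟩
  · obtain ⟨q, hq, d, hd, h1, h2, h3⟩ := ext_props (fun q hq => hq.1)
      (fun d hd => (hprop1 d hd).1) hPm2 hv
    obtain ⟨hd1, hd2, hd3, hd4⟩ := hprop1 d hd
    have hq1 := hq.2.1
    have hq2 := hq.2.2
    have ha3 := aa_one_ge
    refine ⟨h1, by rw [h2]; linarith, ?_, fun c' hc' => ?_⟩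
    · rw [h2, h3, hd4]
      simp only [zero_add]
      nlinarith
    · rw [h3, hd4]
      simp only [zero_add]
      have := hc' 0
      have := hc' 1
      nlinarith
  · have h1 := wt_ext_ge (t := 12 / 10 * T) (Y := 13 / 10 * T) (F := 429 / 1000 * T) (D := W1)
      (by
        intro d hd
        obtain ⟨hd1, hd2, hd3, hd4⟩ := hprop1 d hd
        refine ⟨hd1, ?_, by linarith⟩
        rw [hd4]
        nlinarith)
      (by
        have := rpow_le_half (Y := 13 / 10 * T) (by linarith)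
        linarith)
    have h2 : ENNReal.ofReal (13 / 10 * T - 12 / 10 * T - C) * ENNReal.ofReal (T / 20)
        ≤ wt (Ext P2 W1) + 1 :=
      (mul_le_mul' (hM _ _ (by positivity)) hw1).trans
        (h1.trans (add_le_add le_rfl (hE (13 / 10 * T) (by linarith) (by positivity))))
    have h3 : ENNReal.ofReal (1 / 1000 * T ^ 2) + 1
        ≤ ENNReal.ofReal (13 / 10 * T - 12 / 10 * T - C) * ENNReal.ofReal (T / 20) := by
      rw [← ENNReal.ofReal_mul (by linarith), ← ENNReal.ofReal_one,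
        ← ENNReal.ofReal_add (by positivity) (by norm_num)]
      refine ENNReal.ofReal_le_ofReal ?_
      nlinarith
    exact (ENNReal.add_le_add_iff_right ENNReal.one_ne_top).1 (h3.trans h2)

end Crest.Agent.R020
end
end

-- ▼ part R020/Sq

/-!
Row 20 (helper107): `StmtSq` (totients whose canonical preimage has a square largest prime) and `StmtMlow`.
-/

set_option autoImplicit false

open scoped ENNReal Topology
open MeasureTheory Filter

noncomputable section

namespace Crest.Agent.R020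

/-- Mertens, lower bound for `Msum`. -/
theorem stmtMlow : StmtMlow := by
  classical
  refine ⟨27, fun t Y ht => ?_⟩
  have h := psLow (fun _ => 1) (fun _ _ _ => le_refl _) t Y ht
  rw [setLIntegral_const, Real.volume_Ioc, one_mul] at h
  refine le_trans (ENNReal.ofReal_le_ofReal (by linarith)) (h.trans ?_)
  unfold Msum
  apply ENNReal.tsum_le_tsum
  intro q
  by_cases hq : q.Prime ∧ t ≤ yy q ∧ yy q ≤ Y
  · rw [if_pos hq, Set.indicator_of_mem (show q ∈ PPr t Y from hq), one_mul]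
  · rw [if_neg hq]; exact zero_le

lemma wt_singleton (a : ℕ) : wt {a} = (a : ℝ≥0∞)⁻¹ := by
  unfold wt ws
  rw [tsum_eq_single a]
  · rw [Set.indicator_of_mem (Set.mem_singleton a)]
  · intro b hb
    rw [Set.indicator_of_notMem]
    rwa [Set.mem_singleton_iff]

lemma sq_term (P : ℕ) : wt {v | IsTot v ∧ v ≠ 1 ∧ Pm (rr v) = P ∧ P ^ 2 ∣ rr v} ≤
    ENNReal.ofReal (4 * Real.exp 32 * (2 * (1 / (P : ℝ) ^ (3 / 2 : ℝ)))) := by
  classical
  by_cases hP : P.Prime
  · have hP2 := hP.two_le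
    have hP2' : (2 : ℝ) ≤ P := by exact_mod_cast hP2
    have h1 : wt {v | IsTot v ∧ v ≠ 1 ∧ Pm (rr v) = P ∧ P ^ 2 ∣ rr v} ≤
        wt ({P ^ 2} ∪ {P * (P - 1)}) * wt (Sm (PT (yy P))) := by
      apply wt_mul_le
      rintro v ⟨hv, hv1, hPm, s, hs⟩
      have hr := rr_pos v
      have hs0 : s ≠ 0 := by
        rintro rfl
        rw [mul_zero] at hs
        omega
      have hsm : s.totient ∈ Sm (PT (yy P)) := by
        apply totient_mem_Sm hs0 (yy_nonneg P)
        intro p hp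
        have hpp := Nat.prime_of_mem_primeFactors hp
        have hps := Nat.dvd_of_mem_primeFactors hp
        have h2 : p ≤ P := by
          have h3 := (Pm_le_iff hr.ne' hP.one_le).1 hPm.le
          exact h3 p hpp (hs ▸ hps.mul_left _)
        exact yy_mono h2
      have hvt := totient_rr hv
      rw [hs] at hvt
      by_cases hdvd : P ∣ s
      · refine ⟨P ^ 2, Or.inl rfl, s.totient, hsm, ?_⟩
        rw [← hvt, pow_two, mul_assoc, mul_assoc,
          Nat.totient_mul_of_prime_of_dvd hP (hdvd.mul_left P),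
          Nat.totient_mul_of_prime_of_dvd hP hdvd]
      · refine ⟨P * (P - 1), Or.inr rfl, s.totient, hsm, ?_⟩
        rw [← hvt, pow_two, mul_assoc P P s,
          Nat.totient_mul_of_prime_of_dvd hP (dvd_mul_right P s),
          Nat.totient_mul_of_prime_of_not_dvd hP hdvd, mul_assoc]
    refine h1.trans ?_
    have h2 : wt ({P ^ 2} ∪ {P * (P - 1)}) ≤ ENNReal.ofReal (4 / (P : ℝ) ^ 2) := by
      refine (wt_union_le _ _).trans ?_
      rw [wt_singleton, wt_singleton]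
      have e1 : ((P ^ 2 : ℕ) : ℝ≥0∞)⁻¹ = ENNReal.ofReal (1 / (P : ℝ) ^ 2) := by
        rw [one_div, ENNReal.ofReal_inv_of_pos (by positivity), ← ENNReal.ofReal_natCast]
        push_cast; rfl
      have e2 : ((P * (P - 1) : ℕ) : ℝ≥0∞)⁻¹ ≤ ENNReal.ofReal (2 / (P : ℝ) ^ 2) := by
        have h3 : (0 : ℝ) < (P * (P - 1) : ℕ) := by
          have : 0 < P * (P - 1) := Nat.mul_pos (by omega) (by omega)
          exact_mod_cast this
        rw [← ENNReal.ofReal_natCast, ← ENNReal.ofReal_inv_of_pos h3]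
        apply ENNReal.ofReal_le_ofReal
        rw [← one_div, div_le_div_iff₀ h3 (by positivity)]
        rw [Nat.cast_mul, Nat.cast_sub (by omega), Nat.cast_one]
        nlinarith
      rw [e1]
      refine (add_le_add le_rfl e2).trans ?_
      rw [← ENNReal.ofReal_add (by positivity) (by positivity)]
      apply ENNReal.ofReal_le_ofReal
      rw [← add_div]
      apply div_le_div_of_nonneg_right _ (by positivity)
      norm_num
    have h3 := wt_Sm_le (yy_nonneg P)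
    refine (mul_le_mul' h2 h3).trans ?_
    rw [← ENNReal.ofReal_mul (by positivity)]
    apply ENNReal.ofReal_le_ofReal
    have h4 : Real.exp (yy P) ≤ 2 * (P : ℝ) ^ (1 / 2 : ℝ) := by
      have hlog : Real.log P ≤ 2 * (P : ℝ) ^ (1 / 2 : ℝ) := by
        have := Real.log_le_rpow_div (x := (P : ℝ)) (by linarith) (show (0 : ℝ) < 1 / 2 by norm_num)
        linarith
      have h1 : (1 : ℝ) ≤ (P : ℝ) ^ (1 / 2 : ℝ) := Real.one_le_rpow (by linarith) (by norm_num)
      unfold yy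
      rcases max_cases (0 : ℝ) (Real.log (Real.log (P : ℝ))) with ⟨h, _⟩ | ⟨h, _⟩
      · rw [h, Real.exp_zero]; linarith
      · rw [h, Real.exp_log (Real.log_pos (by linarith))]
        exact hlog
    rw [Real.exp_add]
    have h5 : (P : ℝ) ^ (1 / 2 : ℝ) / (P : ℝ) ^ 2 = 1 / (P : ℝ) ^ (3 / 2 : ℝ) := by
      rw [div_eq_div_iff (by positivity) (by positivity), ← Real.rpow_add (by linarith), one_mul,
        ← Real.rpow_natCast]
      norm_num
    calc 4 / (P : ℝ) ^ 2 * (Real.exp (yy P) * Real.exp 32)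
        ≤ 4 / (P : ℝ) ^ 2 * ((2 * (P : ℝ) ^ (1 / 2 : ℝ)) * Real.exp 32) := by gcongr
      _ = 4 * Real.exp 32 * (2 * ((P : ℝ) ^ (1 / 2 : ℝ) / (P : ℝ) ^ 2)) := by ring
      _ = _ := by rw [h5]
  · have : {v | IsTot v ∧ v ≠ 1 ∧ Pm (rr v) = P ∧ P ^ 2 ∣ rr v} = ∅ := by
      rw [Set.eq_empty_iff_forall_notMem]
      rintro v ⟨hv, hv1, hPm, _⟩
      apply hP
      rcases hd : dl (rr v) with _ | ⟨q, l⟩
      · exact absurd hd (dl_ne_nil_of_one_lt (one_lt_rr hv hv1))
      · have : Pm (rr v) = q := by unfold Pm; rw [hd]; rfl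
        rw [← hPm, this]
        exact (of_dl_eq_cons hd).1
    rw [this]
    unfold wt ws
    simp

/-- (Sq) -/
theorem stmtSq : StmtSq := by
  classical
  have hs : Summable (fun P : ℕ => 4 * Real.exp 32 * (2 * (1 / (P : ℝ) ^ (3 / 2 : ℝ)))) := by
    apply Summable.mul_left
    apply Summable.mul_left
    exact Real.summable_one_div_nat_rpow.2 (by norm_num)
  set K : ℝ := ∑' P : ℕ, 4 * Real.exp 32 * (2 * (1 / (P : ℝ) ^ (3 / 2 : ℝ))) with hK
  have hK0 : 0 ≤ K := tsum_nonneg fun n => by positivity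
  refine ⟨1 + K, by linarith, ?_⟩
  have h1 : {v | IsTot v ∧ Sq v} ⊆ {1} ∪ {v | IsTot v ∧ v ≠ 1 ∧ Sq v} := by
    intro v hv
    by_cases h : v = 1
    · left; exact h
    · right; exact ⟨hv.1, h, hv.2⟩
  refine (wt_mono h1).trans ((wt_union_le _ _).trans ?_)
  rw [ENNReal.ofReal_add zero_le_one hK0]
  apply add_le_add
  · rw [wt_singleton]; simp
  · have h2 := ws_le_tsum (fun v : ℕ => (v : ℝ≥0∞)⁻¹) {v | IsTot v ∧ v ≠ 1 ∧ Sq v}
      (fun P : ℕ => {v | IsTot v ∧ v ≠ 1 ∧ Pm (rr v) = P ∧ P ^ 2 ∣ rr v})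
      (fun v hv => ⟨Pm (rr v), hv.1, hv.2.1, rfl, hv.2.2⟩)
    refine h2.trans ((ENNReal.tsum_le_tsum sq_term).trans ?_)
    rw [← ENNReal.ofReal_tsum_of_nonneg (fun n => by positivity) hs]

end Crest.Agent.R020
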