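import Mathlib
import Crest.Agent.Lib.Mertens
import Crest.Agent.R020.TopBasic
import Crest.Agent.Lib.PNT

-- ▼ part R020/TopRare
section

/-!
Row 20, top step (helper369): Rankin's trick with weight `(3/2)^Ω`.
-/

set_option autoImplicit false

open Filter Topology Finset

namespace Crest.Agent.R020.Top

/-- `m ↦ (3/2)^Ω(m) / m` as a monoid hom. -/
noncomputable def zf : ℕ →* ℝ where
  toFun m := (3 / 2 : ℝ) ^ (ArithmeticFunction.cardFactors m) / m
  map_one' := by simp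
  map_mul' m n := by
    rcases eq_or_ne m 0 with rfl | hm
    · simp
    rcases eq_or_ne n 0 with rfl | hn
    · simp
    rw [ArithmeticFunction.cardFactors_mul hm hn, pow_add]
    push_cast
    field_simp

theorem zf_apply (m : ℕ) : zf m = (3 / 2 : ℝ) ^ (ArithmeticFunction.cardFactors m) / m := rfl

theorem zf_nonneg (m : ℕ) : 0 ≤ zf m := by rw [zf_apply]; positivity

theorem zf_prime {p : ℕ} (hp : p.Prime) : zf p = 3 / 2 / p := by
  rw [zf_apply, ArithmeticFunction.cardFactors_apply_prime hp, pow_one]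

theorem one_sub_inv_le_exp {t : ℝ} (h0 : 0 ≤ t) (h1 : t ≤ 3 / 4) : (1 - t)⁻¹ ≤ Real.exp (3 * t) := by
  have h2 := Real.quadratic_le_exp_of_nonneg (x := 3 * t) (by linarith)
  have h3 : 0 < 1 - t := by linarith
  rw [inv_le_iff_one_le_mul₀' h3]
  have h4 : 1 ≤ (1 - t) * (1 + 3 * t + (3 * t) ^ 2 / 2) := by nlinarith [mul_nonneg h0 h0]
  exact h4.trans (mul_le_mul_of_nonneg_left h2 h3.le)

/-- the sum of the reciprocals of the primes below `N`. -/
theorem sum_primesBelow_le {N : ℕ} (hN : 3 ≤ N) :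
    ∑ p ∈ N.primesBelow, (1 : ℝ) / p ≤ Real.log (Real.log N) + 30 := by
  have h2 := Crest.Agent.Lib.Mertens.mertens_two 2 N le_rfl (by exact_mod_cast (by omega : 2 ≤ N))
  have hl2 : (0.6931471803 : ℝ) < Real.log 2 := Real.log_two_gt_d9
  have hl2' : Real.log 2 < 1 := by have := Real.log_two_lt_d9; linarith
  have h18 : 18 / Real.log 2 ≤ 26 := by
    rw [div_le_iff₀ (by linarith)]; linarith
  have hll : -1 ≤ Real.log (Real.log 2) := by
    rw [← Real.log_exp (-1)]
    apply Real.log_le_log (Real.exp_pos _)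
    have h1 : Real.exp (-1) ≤ 0.5 := by
      rw [Real.exp_neg]
      have := Real.exp_one_gt_d9
      rw [inv_le_comm₀ (Real.exp_pos _) (by norm_num)]
      norm_num
      linarith
    linarith
  have h3 : N.primesBelow ⊆ insert 2 (Crest.Agent.Lib.Mertens.pr 2 N) := by
    intro p hp
    rw [Nat.mem_primesBelow] at hp
    rw [Finset.mem_insert]
    rcases hp.2.two_le.eq_or_lt with h | h
    · exact Or.inl h.symm
    · right
      unfold Crest.Agent.Lib.Mertens.pr
      rw [Finset.mem_filter, Finset.mem_Ioc, Nat.floor_natCast, Nat.floor_ofNat]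
      exact ⟨⟨h, hp.1.le⟩, hp.2⟩
  have h4 : ∑ p ∈ N.primesBelow, (1 : ℝ) / p ≤
      ∑ p ∈ insert 2 (Crest.Agent.Lib.Mertens.pr 2 N), (1 : ℝ) / p :=
    Finset.sum_le_sum_of_subset_of_nonneg h3 (fun i _ _ => by positivity)
  have h5 : ∑ p ∈ insert 2 (Crest.Agent.Lib.Mertens.pr 2 N), (1 : ℝ) / p ≤
      1 / 2 + ∑ p ∈ Crest.Agent.Lib.Mertens.pr 2 N, (1 : ℝ) / p := by
    by_cases hmem : 2 ∈ Crest.Agent.Lib.Mertens.pr 2 N
    · rw [Finset.insert_eq_of_mem hmem]; linarith
    · rw [Finset.sum_insert hmem]; norm_num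
  have h6 := (abs_le.1 h2).2
  linarith

theorem prod_le (N : ℕ) (hN : 3 ≤ N) :
    ∏ p ∈ N.primesBelow, (1 - zf p)⁻¹ ≤ Real.exp 135 * (Real.log N) ^ (9 / 2 : ℝ) := by
  have h1 : ∏ p ∈ N.primesBelow, (1 - zf p)⁻¹ ≤
      ∏ p ∈ N.primesBelow, Real.exp (9 / 2 * (1 / (p : ℝ))) := by
    apply Finset.prod_le_prod
    · intro p hp
      have hpp := (Nat.mem_primesBelow.1 hp).2
      have h2 : (2 : ℝ) ≤ p := by exact_mod_cast hpp.two_le
      rw [zf_prime hpp, inv_nonneg]
      have : 3 / 2 / (p : ℝ) ≤ 1 := by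
        rw [div_le_one (by linarith)]; linarith
      linarith
    · intro p hp
      have hpp := (Nat.mem_primesBelow.1 hp).2
      have h2 : (2 : ℝ) ≤ p := by exact_mod_cast hpp.two_le
      rw [zf_prime hpp]
      have h3 := one_sub_inv_le_exp (t := 3 / 2 / (p : ℝ)) (by positivity)
        (by rw [div_le_iff₀ (by linarith)]; linarith)
      refine h3.trans (le_of_eq ?_)
      congr 1
      ring
  refine h1.trans ?_
  rw [← Real.exp_sum, ← Finset.mul_sum]
  have h2 := sum_primesBelow_le hN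
  have hl : 0 < Real.log N := Real.log_pos (by exact_mod_cast (by omega : 1 < N))
  have h3 : Real.exp 135 * (Real.log N) ^ (9 / 2 : ℝ) =
      Real.exp (9 / 2 * (Real.log (Real.log N) + 30)) := by
    rw [Real.rpow_def_of_pos hl, ← Real.exp_add]
    congr 1
    ring
  rw [h3, Real.exp_le_exp]
  linarith

theorem zf_norm_lt {p : ℕ} (hp : p.Prime) : ‖zf p‖ < 1 := by
  rw [zf_prime hp, Real.norm_of_nonneg (by positivity)]
  have h2 : (2 : ℝ) ≤ p := by exact_mod_cast hp.two_le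
  rw [div_lt_one (by linarith)]
  linarith

theorem zf_smooth (N : ℕ) (hN : 3 ≤ N) (T : Finset ℕ) (hT : ∀ d ∈ T, d ∈ Nat.smoothNumbers N) :
    ∑ d ∈ T, zf d ≤ Real.exp 135 * (Real.log N) ^ (9 / 2 : ℝ) := by
  obtain ⟨h1, h2⟩ :=
    EulerProduct.summable_and_hasSum_smoothNumbers_prod_primesBelow_geometric
      (f := zf) (fun {p} hp => zf_norm_lt hp) N
  refine le_trans ?_ (prod_le N hN)
  have h3 : ∑ d ∈ T, zf d = ∑ d ∈ T.subtype (fun d => d ∈ Nat.smoothNumbers N), zf d := by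
    rw [Finset.sum_subtype_of_mem _ hT]
  rw [h3]
  exact sum_le_hasSum _ (fun i _ => zf_nonneg _) h2

/-- `∑ 1/d` over smooth `d` with `Ω(d) ≥ k`. -/
theorem sum_inv_smooth_le (N k : ℕ) (hN : 3 ≤ N) (T : Finset ℕ)
    (hT : ∀ d ∈ T, d ∈ Nat.smoothNumbers N ∧ k ≤ ArithmeticFunction.cardFactors d) :
    ∑ d ∈ T, (1 : ℝ) / d ≤ (2 / 3) ^ k * (Real.exp 135 * (Real.log N) ^ (9 / 2 : ℝ)) := by
  have h1 : ∑ d ∈ T, (1 : ℝ) / d ≤ ∑ d ∈ T, (2 / 3 : ℝ) ^ k * zf d := by
    apply Finset.sum_le_sum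
    intro d hd
    rw [zf_apply]
    have h3 : (1 : ℝ) ≤ (2 / 3 : ℝ) ^ k * (3 / 2 : ℝ) ^ (ArithmeticFunction.cardFactors d) := by
      calc (1 : ℝ) = (2 / 3 : ℝ) ^ k * (3 / 2 : ℝ) ^ k := by
            rw [← mul_pow]; norm_num
        _ ≤ _ := by
            apply mul_le_mul_of_nonneg_left _ (by positivity)
            exact pow_le_pow_right₀ (by norm_num) (hT d hd).2
    rw [← mul_div_assoc]
    exact div_le_div_of_nonneg_right h3 (by positivity)
  rw [← Finset.mul_sum] at h1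
  exact h1.trans (mul_le_mul_of_nonneg_left (zf_smooth N hN T (fun d hd => (hT d hd).1))
    (by positivity))

/-- the number of `v ≤ x` with `Ω(v) ≥ k`. -/
theorem card_omega_ge_le (N k : ℕ) (hN : 3 ≤ N) (T : Finset ℕ)
    (hT : ∀ v ∈ T, 0 < v ∧ v < N ∧ k ≤ ArithmeticFunction.cardFactors v) :
    (T.card : ℝ) ≤ N * ((2 / 3) ^ k * (Real.exp 135 * (Real.log N) ^ (9 / 2 : ℝ))) := by
  have h1 : (T.card : ℝ) ≤ N * ∑ d ∈ T, (1 : ℝ) / d := by
    rw [Finset.mul_sum, Finset.card_eq_sum_ones]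
    push_cast
    apply Finset.sum_le_sum
    intro v hv
    obtain ⟨h1, h2, h3⟩ := hT v hv
    have h4 : (0 : ℝ) < v := by exact_mod_cast h1
    rw [mul_one_div, le_div_iff₀ h4, one_mul]
    exact_mod_cast h2.le
  refine h1.trans (mul_le_mul_of_nonneg_left ?_ (by positivity))
  apply sum_inv_smooth_le N k hN T
  intro v hv
  obtain ⟨h1, h2, h3⟩ := hT v hv
  exact ⟨Nat.mem_smoothNumbers_of_lt h1 h2, h3⟩

end Crest.Agent.R020.Top
end

-- ▼ part R020/TopUpper
section

/-!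
Row 20, top step (helper369): the upper bound for the number of totients.
-/

set_option autoImplicit false

open Filter Topology Finset

namespace Crest.Agent.R020.Top

open Classical in
/-- totients up to `N` with a property -/
noncomputable def TF (N : ℕ) (P : ℕ → Prop) : Finset ℕ :=
  (Finset.Icc 1 N).filter (fun v => IsTot v ∧ P v)

theorem mem_TF {N : ℕ} {P : ℕ → Prop} {v : ℕ} : v ∈ TF N P ↔ v ≤ N ∧ IsTot v ∧ P v := by
  classical
  unfold TF
  rw [Finset.mem_filter, Finset.mem_Icc]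
  constructor
  · rintro ⟨⟨_, h⟩, h2, h3⟩; exact ⟨h, h2, h3⟩
  · rintro ⟨h, h2, h3⟩; exact ⟨⟨h2.pos, h⟩, h2, h3⟩

/-- integers divisible by `q (q-1)` for a large `q` are rare. -/
theorem card_sq_le (N Q : ℕ) (hQ : 2 ≤ Q) (T : Finset ℕ)
    (hT : ∀ v ∈ T, 0 < v ∧ v ≤ N ∧ ∃ q, Q ≤ q ∧ q * (q - 1) ∣ v) :
    (T.card : ℝ) ≤ N / ((Q : ℝ) - 1) := by
  classical
  have hsub : T ⊆ (Finset.Icc Q (N + 1)).biUnion
      (fun q => (Finset.Ioc 0 N).filter (fun v => q * (q - 1) ∣ v)) := by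
    intro v hv
    obtain ⟨h0, h1, q, hq, hd⟩ := hT v hv
    rw [Finset.mem_biUnion]
    refine ⟨q, ?_, ?_⟩
    · rw [Finset.mem_Icc]
      refine ⟨hq, ?_⟩
      have h2 : q * (q - 1) ≤ v := Nat.le_of_dvd h0 hd
      have h3 : q - 1 ≤ q * (q - 1) := Nat.le_mul_of_pos_left _ (by omega)
      omega
    · rw [Finset.mem_filter, Finset.mem_Ioc]
      exact ⟨⟨h0, h1⟩, hd⟩
  have h1 : (T.card : ℝ) ≤ ∑ q ∈ Finset.Icc Q (N + 1), (N : ℝ) / (q * (q - 1)) := by
    have h2 := (Finset.card_le_card hsub).trans Finset.card_biUnion_le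
    have h3 : (T.card : ℝ) ≤ ∑ q ∈ Finset.Icc Q (N + 1),
        (((Finset.Ioc 0 N).filter (fun v => q * (q - 1) ∣ v)).card : ℝ) := by
      exact_mod_cast h2
    refine h3.trans (Finset.sum_le_sum ?_)
    intro q hq
    rw [Finset.mem_Icc] at hq
    rw [Nat.Ioc_filter_dvd_card_eq_div]
    have h4 : ((N / (q * (q - 1)) : ℕ) : ℝ) ≤ (N : ℝ) / ((q * (q - 1) : ℕ) : ℝ) := Nat.cast_div_le
    refine h4.trans (le_of_eq ?_)
    push_cast [Nat.cast_sub (show 1 ≤ q by omega)]
    ring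
  refine h1.trans ?_
  have key : ∀ M : ℕ, Q ≤ M + 1 → ∑ q ∈ Finset.Icc Q M, (1 : ℝ) / (q * (q - 1)) ≤
      1 / ((Q : ℝ) - 1) - 1 / M := by
    intro M hM
    induction M, (show Q - 1 ≤ M by omega) using Nat.le_induction with
    | base =>
      rw [Finset.Icc_eq_empty (by omega), Finset.sum_empty]
      push_cast [Nat.cast_sub (show 1 ≤ Q by omega)]
      rw [sub_self]
    | succ k hk ih =>
      rw [Finset.sum_Icc_succ_top (by omega)]
      have ih' := ih (by omega)
      have hk0 : (0 : ℝ) < k := by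
        have : 0 < k := by omega
        exact_mod_cast this
      push_cast
      have : (1 : ℝ) / (((k : ℝ) + 1) * ((k : ℝ) + 1 - 1)) = 1 / k - 1 / (k + 1) := by
        rw [add_sub_cancel_right]
        field_simp
        ring
      rw [this]
      linarith
  have h5 : ∑ q ∈ Finset.Icc Q (N + 1), (N : ℝ) / (q * (q - 1)) =
      N * ∑ q ∈ Finset.Icc Q (N + 1), (1 : ℝ) / (q * (q - 1)) := by
    rw [Finset.mul_sum]
    apply Finset.sum_congr rfl
    intro q _
    ring
  rw [h5, div_eq_mul_one_div (N : ℝ) ((Q : ℝ) - 1)]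
  apply mul_le_mul_of_nonneg_left _ (by positivity)
  by_cases hQN : Q ≤ N + 2
  · have := key (N + 1) hQN
    have h6 : (0 : ℝ) ≤ 1 / ((N + 1 : ℕ) : ℝ) := by positivity
    linarith
  · rw [Finset.Icc_eq_empty (by omega), Finset.sum_empty]
    have : (2 : ℝ) ≤ Q := by exact_mod_cast hQ
    apply div_nonneg zero_le_one
    linarith

/-- counting `(q-1) d`. -/
theorem card_mul_le (x : ℝ) (D T : Finset ℕ) (hD : ∀ d ∈ D, 0 < d)
    (hT : ∀ v ∈ T, (v : ℝ) ≤ x ∧ ∃ q d, q.Prime ∧ d ∈ D ∧ v = (q - 1) * d) :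
    (T.card : ℝ) ≤ ∑ d ∈ D, (Nat.primeCounting ⌊x / d + 1⌋₊ : ℝ) := by
  classical
  have hsub : T ⊆ D.biUnion (fun d =>
      ((Finset.range (⌊x / d + 1⌋₊ + 1)).filter Nat.Prime).image (fun q => (q - 1) * d)) := by
    intro v hv
    obtain ⟨h1, q, d, hq, hd, rfl⟩ := hT v hv
    rw [Finset.mem_biUnion]
    refine ⟨d, hd, ?_⟩
    rw [Finset.mem_image]
    refine ⟨q, ?_, rfl⟩
    rw [Finset.mem_filter, Finset.mem_range]
    refine ⟨?_, hq⟩
    rw [Nat.lt_succ_iff]
    apply Nat.le_floor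
    have hd0 : (0 : ℝ) < d := by exact_mod_cast hD d hd
    push_cast [Nat.cast_sub hq.one_le] at h1
    have : (q : ℝ) - 1 ≤ x / d := by rwa [le_div_iff₀ hd0]
    linarith
  have h2 := (Finset.card_le_card hsub).trans Finset.card_biUnion_le
  have h3 : (T.card : ℝ) ≤ ∑ d ∈ D, ((((Finset.range (⌊x / d + 1⌋₊ + 1)).filter
      Nat.Prime).image (fun q => (q - 1) * d)).card : ℝ) := by
    exact_mod_cast h2
  refine h3.trans (Finset.sum_le_sum ?_)
  intro d _
  have h4 := Finset.card_image_le (s := (Finset.range (⌊x / d + 1⌋₊ + 1)).filter Nat.Prime)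
    (f := fun q => (q - 1) * d)
  have h5 : ((Finset.range (⌊x / d + 1⌋₊ + 1)).filter Nat.Prime).card =
      Nat.primeCounting ⌊x / d + 1⌋₊ := by
    rw [Nat.primeCounting, Nat.primeCounting', Nat.count_eq_card_filter_range]
  rw [h5] at h4
  exact_mod_cast h4

/-- PNT bound for the counting function at `x / d + 1`, `d ≤ x^ε`. -/
theorem primeCounting_div_le {ε : ℝ} (hε : 0 < ε) (hε1 : ε < 1 / 2) :
    ∀ᶠ x : ℝ in atTop, ∀ d : ℕ, 0 < d → (d : ℝ) ≤ x ^ ε →
      (Nat.primeCounting ⌊x / d + 1⌋₊ : ℝ) ≤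
        (1 + ε) ^ 2 / (1 - ε) * (x / Real.log x) * (1 / d) := by
  obtain ⟨X0, hX0, hπ⟩ := Crest.Agent.Lib.PNT.abs_primeCounting_sub_le hε
  have hx1 : ∀ᶠ x : ℝ in atTop, X0 + 1 / ε + 2 ≤ x ^ (1 / 2 : ℝ) :=
    (tendsto_rpow_atTop (by norm_num : (0 : ℝ) < 1 / 2)).eventually_ge_atTop _
  filter_upwards [hx1, eventually_gt_atTop 1] with x hx1 hx2 d hd0 hd
  have hx0 : 0 < x := by linarith
  have hd0' : (0 : ℝ) < d := by exact_mod_cast hd0
  have hlog : 0 < Real.log x := Real.log_pos hx2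
  have hX : x ^ (1 - ε) ≤ x / d := by
    rw [le_div_iff₀ hd0']
    calc x ^ (1 - ε) * d ≤ x ^ (1 - ε) * x ^ ε :=
          mul_le_mul_of_nonneg_left hd (by positivity)
      _ = x := by rw [← Real.rpow_add hx0]; simp
  have hX2 : x ^ (1 / 2 : ℝ) ≤ x ^ (1 - ε) :=
    Real.rpow_le_rpow_of_exponent_le hx2.le (by linarith)
  set X := x / d with hXdef
  have hXbig : X0 + 1 / ε + 2 ≤ X := hx1.trans (hX2.trans hX)
  have hεinv : 0 < 1 / ε := by positivity
  have hXpos : 0 < X := by linarith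
  have h1 := hπ (X + 1) (by linarith)
  have h2 : (Nat.primeCounting ⌊X + 1⌋₊ : ℝ) ≤ (1 + ε) * ((X + 1) / Real.log (X + 1)) := by
    have := (abs_le.1 h1).2
    linarith
  have hlogX : (1 - ε) * Real.log x ≤ Real.log (X + 1) := by
    rw [← Real.log_rpow hx0]
    exact Real.log_le_log (by positivity) (by linarith)
  have h3 : (X + 1) / Real.log (X + 1) ≤ (1 + ε) * X / ((1 - ε) * Real.log x) := by
    apply div_le_div₀ (by positivity) _ _ hlogX
    · have : 1 ≤ ε * X := by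
        have h5 : 1 / ε ≤ X := by linarith
        calc (1 : ℝ) = ε * (1 / ε) := by field_simp
          _ ≤ ε * X := mul_le_mul_of_nonneg_left h5 hε.le
      linarith
    · have : 0 < 1 - ε := by linarith
      positivity
  calc (Nat.primeCounting ⌊X + 1⌋₊ : ℝ) ≤ (1 + ε) * ((X + 1) / Real.log (X + 1)) := h2
    _ ≤ (1 + ε) * ((1 + ε) * X / ((1 - ε) * Real.log x)) :=
        mul_le_mul_of_nonneg_left h3 (by linarith)
    _ = (1 + ε) ^ 2 / (1 - ε) * (x / Real.log x) * (1 / d) := by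
        have h6 : (1 - ε) ≠ 0 := by linarith
        rw [hXdef]
        field_simp

theorem primeCounting_div_ge {ε : ℝ} (hε : 0 < ε) (hε1 : ε < 1 / 2) :
    ∀ᶠ x : ℝ in atTop, ∀ d : ℕ, 0 < d → (d : ℝ) ≤ x ^ ε →
      (1 - ε) * (x / Real.log x) * (1 / d) ≤ (Nat.primeCounting ⌊x / d⌋₊ : ℝ) := by
  obtain ⟨X0, hX0, hπ⟩ := Crest.Agent.Lib.PNT.abs_primeCounting_sub_le hε
  have hx1 : ∀ᶠ x : ℝ in atTop, X0 + 2 ≤ x ^ (1 / 2 : ℝ) :=
    (tendsto_rpow_atTop (by norm_num : (0 : ℝ) < 1 / 2)).eventually_ge_atTop _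
  filter_upwards [hx1, eventually_gt_atTop 1] with x hx1 hx2 d hd0 hd
  have hx0 : 0 < x := by linarith
  have hd0' : (0 : ℝ) < d := by exact_mod_cast hd0
  have hd1 : (1 : ℝ) ≤ d := by exact_mod_cast hd0
  have hlog : 0 < Real.log x := Real.log_pos hx2
  have hX : x ^ (1 - ε) ≤ x / d := by
    rw [le_div_iff₀ hd0']
    calc x ^ (1 - ε) * d ≤ x ^ (1 - ε) * x ^ ε :=
          mul_le_mul_of_nonneg_left hd (by positivity)
      _ = x := by rw [← Real.rpow_add hx0]; simp
  have hX2 : x ^ (1 / 2 : ℝ) ≤ x ^ (1 - ε) :=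
    Real.rpow_le_rpow_of_exponent_le hx2.le (by linarith)
  have hXle : x / d ≤ x := div_le_self hx0.le hd1
  set X := x / d with hXdef
  have hXbig : X0 + 2 ≤ X := hx1.trans (hX2.trans hX)
  have hXpos : 0 < X := by linarith
  have h1 := hπ X (by linarith)
  have h2 : (1 - ε) * (X / Real.log X) ≤ (Nat.primeCounting ⌊X⌋₊ : ℝ) := by
    have := (abs_le.1 h1).1
    linarith
  have hlogX : 0 < Real.log X := Real.log_pos (by linarith)
  have h3 : X / Real.log x ≤ X / Real.log X :=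
    div_le_div_of_nonneg_left hXpos.le hlogX (Real.log_le_log hXpos hXle)
  calc (1 - ε) * (x / Real.log x) * (1 / d) = (1 - ε) * (X / Real.log x) := by
        rw [hXdef]; field_simp
    _ ≤ (1 - ε) * (X / Real.log X) := mul_le_mul_of_nonneg_left h3 (by linarith)
    _ ≤ _ := h2

/-- the log weight trick. -/
theorem sum_log_le (x : ℝ) (L D : Finset ℕ) (q dd : ℕ → ℕ)
    (hD : ∀ d ∈ D, 0 < d ∧ (d : ℝ) ≤ x)
    (h : ∀ v ∈ L, (v : ℝ) ≤ x ∧ (q v).Prime ∧ dd v ∈ D ∧ v = (q v - 1) * dd v) :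
    ∑ v ∈ L, Real.log (q v) ≤ 2 * Real.log 4 * x * ∑ d ∈ D, (1 : ℝ) / d := by
  classical
  have h1 : ∑ v ∈ L, Real.log (q v) ≤
      ∑ z ∈ D.sigma (fun d => (Finset.Ioc 0 ⌊x / d + 1⌋₊).filter Nat.Prime),
        Real.log (z.2 : ℝ) := by
    have hinj : Set.InjOn (fun v => (⟨dd v, q v⟩ : (_ : ℕ) × ℕ)) (L : Set ℕ) := by
      intro v hv w hw hvw
      have hv' := (h v hv).2.2.2
      have hw' := (h w hw).2.2.2
      simp only [Sigma.mk.injEq, heq_eq_eq] at hvw
      rw [hv', hw', hvw.1, hvw.2]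
    rw [← Finset.sum_image (f := fun z : (_ : ℕ) × ℕ => Real.log (z.2 : ℝ)) hinj]
    apply Finset.sum_le_sum_of_subset_of_nonneg
    · intro z hz
      rw [Finset.mem_image] at hz
      obtain ⟨v, hv, rfl⟩ := hz
      obtain ⟨h2, h3, h4, h5⟩ := h v hv
      rw [Finset.mem_sigma]
      refine ⟨h4, ?_⟩
      rw [Finset.mem_filter, Finset.mem_Ioc]
      refine ⟨⟨h3.pos, ?_⟩, h3⟩
      apply Nat.le_floor
      have hd0 : (0 : ℝ) < dd v := by exact_mod_cast (hD _ h4).1
      have h6 : ((q v : ℝ) - 1) * dd v ≤ x := by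
        have : (v : ℝ) = ((q v : ℝ) - 1) * dd v := by
          conv_lhs => rw [h5]
          push_cast [Nat.cast_sub h3.one_le]
          ring
        linarith
      have : (q v : ℝ) - 1 ≤ x / dd v := by rwa [le_div_iff₀ hd0]
      show (q v : ℝ) ≤ x / dd v + 1
      linarith
    · intro z hz _
      rw [Finset.mem_sigma, Finset.mem_filter] at hz
      exact Real.log_nonneg (by exact_mod_cast hz.2.2.one_le)
  refine h1.trans ?_
  rw [Finset.sum_sigma, Finset.mul_sum]
  apply Finset.sum_le_sum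
  intro d hd
  obtain ⟨hd0, hdx⟩ := hD d hd
  have hd0' : (0 : ℝ) < d := by exact_mod_cast hd0
  have h2 : ∑ s ∈ (Finset.Ioc 0 ⌊x / d + 1⌋₊).filter Nat.Prime, Real.log (s : ℝ) =
      Chebyshev.theta (x / d + 1) := rfl
  have h3 : 1 ≤ x / d := by rwa [le_div_iff₀ hd0', one_mul]
  rw [h2]
  have hl4 : 0 ≤ Real.log 4 := Real.log_nonneg (by norm_num)
  calc Chebyshev.theta (x / d + 1) ≤ Real.log 4 * (x / d + 1) :=
        Chebyshev.theta_le_log4_mul_x (by linarith)
    _ ≤ Real.log 4 * (2 * (x / d)) := mul_le_mul_of_nonneg_left (by linarith) hl4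
    _ = 2 * Real.log 4 * x * (1 / d) := by ring

/-- from the log weight to the count. -/
theorem card_le_of_log (x : ℝ) (hx : Real.exp 1 ≤ x) (L : Finset ℕ) (q : ℕ → ℕ)
    (hL : ∀ v ∈ L, 0 < v ∧ (v : ℝ) ≤ x) (b : ℝ)
    (hq : ∀ v ∈ L, Real.log v ≤ 2 * Real.log (q v) + b)
    (hb : b + 2 * Real.log (Real.log x) ≤ 1 / 2 * Real.log x) :
    (L.card : ℝ) * Real.log x ≤ 4 * ∑ v ∈ L, Real.log (q v) + 2 * (x / Real.log x) := by
  classical
  have hx0 : 0 < x := (Real.exp_pos 1).trans_le hx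
  have hlog : 1 ≤ Real.log x := by
    rw [← Real.log_exp 1]; exact Real.log_le_log (Real.exp_pos 1) hx
  have hlog0 : 0 < Real.log x := by linarith
  have hll : 0 ≤ Real.log (Real.log x) := Real.log_nonneg hlog
  set y := x / (Real.log x) ^ 2 with hy
  have hy0 : 0 < y := by positivity
  have key : ∀ v ∈ L, Real.log x ≤ 2 * Real.log (q v) + b + 2 * Real.log (Real.log x) +
      (if (v : ℝ) ≤ y then Real.log x else 0) := by
    intro v hv
    obtain ⟨h0, h1⟩ := hL v hv
    have h0' : (1 : ℝ) ≤ v := by exact_mod_cast h0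
    have h2 := hq v hv
    split_ifs with h3
    · have := Real.log_nonneg h0'
      linarith
    · push Not at h3
      have h4 : Real.log y ≤ Real.log v := Real.log_le_log hy0 h3.le
      rw [hy, Real.log_div hx0.ne' (by positivity), Real.log_pow] at h4
      push_cast at h4
      linarith
  have h1 := Finset.sum_le_sum key
  rw [Finset.sum_const, nsmul_eq_mul, Finset.sum_add_distrib, Finset.sum_add_distrib,
    Finset.sum_add_distrib, Finset.sum_const, Finset.sum_const, nsmul_eq_mul, nsmul_eq_mul,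
    ← Finset.mul_sum, ← Finset.sum_filter, Finset.sum_const, nsmul_eq_mul] at h1
  have h2 : ((L.filter (fun v : ℕ => (v : ℝ) ≤ y)).card : ℝ) ≤ y := by
    have hsub : L.filter (fun v : ℕ => (v : ℝ) ≤ y) ⊆ Finset.Ioc 0 ⌊y⌋₊ := by
      intro v hv
      rw [Finset.mem_filter] at hv
      rw [Finset.mem_Ioc]
      exact ⟨(hL v hv.1).1, Nat.le_floor hv.2⟩
    have h3 := Finset.card_le_card hsub
    rw [Nat.card_Ioc, Nat.sub_zero] at h3
    calc ((L.filter (fun v : ℕ => (v : ℝ) ≤ y)).card : ℝ) ≤ (⌊y⌋₊ : ℝ) := by exact_mod_cast h3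
      _ ≤ y := Nat.floor_le hy0.le
  have h3 : ((L.filter (fun v : ℕ => (v : ℝ) ≤ y)).card : ℝ) * Real.log x ≤ x / Real.log x := by
    calc _ ≤ y * Real.log x := mul_le_mul_of_nonneg_right h2 hlog0.le
      _ = x / Real.log x := by rw [hy]; field_simp
  have h4 : (L.card : ℝ) * (b + 2 * Real.log (Real.log x)) ≤ L.card * (1 / 2 * Real.log x) :=
    mul_le_mul_of_nonneg_left hb (by positivity)
  nlinarith

end Crest.Agent.R020.Top
end

-- ▼ part R020/TopMain

/-!
Row 20, top step (helper369): the upper bound.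
-/

set_option autoImplicit false

open Filter Topology Finset

namespace Crest.Agent.R020.Top

theorem log_le_card {m p : ℕ} (hm : m ≠ 0) (h : ∀ r ∈ dl m, r ≤ p) :
    Real.log m ≤ (ArithmeticFunction.cardFactors m : ℝ) * Real.log p := by
  have h1 : m ≤ p ^ (ArithmeticFunction.cardFactors m) := by
    calc m = (dl m).prod := (prod_dl hm).symm
      _ ≤ p ^ (dl m).length := List.prod_le_pow_card _ _ h
      _ = _ := by rw [length_dl]
  have hm0 : (0 : ℝ) < m := by exact_mod_cast Nat.pos_of_ne_zero hm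
  have h2 : (m : ℝ) ≤ (p : ℝ) ^ (ArithmeticFunction.cardFactors m) := by exact_mod_cast h1
  have h3 := Real.log_le_log hm0 h2
  rwa [Real.log_pow] at h3

theorem log_log_le_of_yy_le {p : ℕ} (hp : 2 ≤ p) {t : ℝ} (h : yy p ≤ t) :
    Real.log p ≤ Real.exp t := by
  have h1 : Real.log (Real.log p) ≤ t := (le_max_right _ _).trans h
  have h2 : 0 < Real.log p := Real.log_pos (by exact_mod_cast (by omega : 1 < p))
  rwa [Real.log_le_iff_le_exp h2] at h1

theorem yy_ge_of_log {p : ℕ} {t : ℝ} (h : Real.exp t ≤ Real.log p) : t ≤ yy p := by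
  have h2 : 0 < Real.log p := (Real.exp_pos t).trans_le h
  have h1 : t ≤ Real.log (Real.log p) := by
    rw [← Real.log_exp t]
    exact Real.log_le_log (Real.exp_pos t) h
  exact h1.trans (le_max_right _ _)

/-- the two slot estimate -/
theorem large_case {ε x B E : ℝ} {k : ℕ}
    (hε : 0 < ε) (hx : 1 < x) (hB : B = Real.log (Real.log x)) (hB0 : 0 < B)
    (hk : (k : ℝ) ≤ Real.exp (B / 20))
    (hc1 : 1 ≤ ε * Real.exp (B / 20)) (hE : E ≤ B / 50)
    {d m q : ℕ} (hm : rr d = m) (hFd : FF aa d ≤ B + E)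
    (hq : ∀ r ∈ dl m, r ≤ q)
    (hΩ : ArithmeticFunction.cardFactors m ≤ k) (hmx : x ^ ε < m) :
    9 / 10 * B ≤ yy (Pm m) ∧ Real.log m ≤ Real.log q + Real.exp (4 / 5 * B) := by
  have hlogx : 0 < Real.log x := Real.log_pos hx
  have hexpB : Real.exp B = Real.log x := by rw [hB, Real.exp_log hlogx]
  have hm1 : (1 : ℝ) < m := by
    have : (1 : ℝ) < x ^ ε := Real.one_lt_rpow hx hε
    linarith
  have hm2 : 2 ≤ m := by
    have : 1 < m := by exact_mod_cast hm1
    omega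
  obtain ⟨p, m', hp, hm'0, hmeq, hdl, hp1, hle⟩ := exists_cons hm2
  have hall : ∀ r ∈ dl m, r ≤ p := by
    intro r hr
    rw [hdl] at hr
    rcases List.mem_cons.1 hr with rfl | hr
    · exact le_rfl
    · exact hle r hr
  have hlogm : ε * Real.log x ≤ Real.log m := by
    rw [← Real.log_rpow (by linarith)]
    exact Real.log_le_log (by positivity) hmx.le
  have h1 := log_le_card (by omega : m ≠ 0) hall
  have hlogp : 0 < Real.log p := Real.log_pos (by exact_mod_cast hp.one_lt)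
  have hΩ' : (ArithmeticFunction.cardFactors m : ℝ) ≤ k := by exact_mod_cast hΩ
  have h2 : ε * Real.exp B ≤ Real.exp (B / 20) * Real.log p := by
    rw [hexpB]
    calc ε * Real.log x ≤ Real.log m := hlogm
      _ ≤ (ArithmeticFunction.cardFactors m : ℝ) * Real.log p := h1
      _ ≤ Real.exp (B / 20) * Real.log p :=
          mul_le_mul_of_nonneg_right (hΩ'.trans hk) hlogp.le
  have h3 : Real.exp (9 / 10 * B) ≤ Real.log p := by
    have e1 : Real.exp B = Real.exp (B / 20) * (Real.exp (B / 20) * Real.exp (9 / 10 * B)) := by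
      rw [← Real.exp_add, ← Real.exp_add]; congr 1; ring
    have hpos := Real.exp_pos (B / 20)
    have h4 : Real.exp (B / 20) * Real.exp (9 / 10 * B) ≤ Real.exp (B / 20) * Real.log p := by
      calc Real.exp (B / 20) * Real.exp (9 / 10 * B)
          ≤ Real.exp (B / 20) * ((ε * Real.exp (B / 20)) * Real.exp (9 / 10 * B)) := by
            apply mul_le_mul_of_nonneg_left _ hpos.le
            exact le_mul_of_one_le_left (Real.exp_pos _).le hc1
        _ = ε * Real.exp B := by rw [e1]; ring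
        _ ≤ _ := h2
    exact le_of_mul_le_mul_left h4 hpos
  have hyp : 9 / 10 * B ≤ yy p := yy_ge_of_log h3
  refine ⟨by rw [hp1]; exact hyp, ?_⟩
  have hpq : p ≤ q := hq p (by rw [hdl]; exact List.mem_cons_self)
  have hlogpq : Real.log p ≤ Real.log q :=
    Real.log_le_log (by exact_mod_cast hp.pos) (by exact_mod_cast hpq)
  have hsplit : Real.log m = Real.log p + Real.log m' := by
    rw [hmeq]
    push_cast
    rw [Real.log_mul (by exact_mod_cast hp.ne_zero) (by exact_mod_cast hm'0)]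
  rcases hl' : dl m' with _ | ⟨p', l'⟩
  · have : m' = 1 := by
      have := prod_dl hm'0
      rw [hl'] at this
      simpa using this.symm
    rw [hsplit, this]
    have := Real.exp_pos (4 / 5 * B)
    simp only [Nat.cast_one, Real.log_one]
    linarith
  · have hF2 : aa 0 * yy p + aa 1 * yy p' ≤ FF aa d := by
      unfold FF
      rw [hm, hdl, hl', FL_cons, FL_cons]
      have := FL_nonneg (c := fun i => aa (i + 1 + 1)) (fun i => aa_nonneg _) l'
      linarith
    have ha0 := aa_zero_gt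
    have ha0' := aa_zero_lt
    have ha1 := aa_zero_add_one
    have ha1' : (0.903 : ℝ) < aa 1 := by linarith
    have hy' : yy p' ≤ 3 / 4 * B := by
      by_contra hcon
      push Not at hcon
      have h5 : 0.386 * (9 / 10 * B) ≤ aa 0 * yy p :=
        mul_le_mul ha0.le hyp (by positivity) (by linarith)
      have h6 : 0.903 * (3 / 4 * B) ≤ aa 1 * yy p' :=
        mul_le_mul ha1'.le hcon.le (by positivity) (by linarith)
      linarith
    have hp'mem : p' ∈ dl m' := by rw [hl']; exact List.mem_cons_self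
    have hp'pr := prime_of_mem_dl hp'mem
    have hall' : ∀ r ∈ dl m', r ≤ p' := by
      intro r hr
      have hs := dl_sorted m'
      rw [hl'] at hr hs
      rw [List.pairwise_cons] at hs
      rcases List.mem_cons.1 hr with rfl | hr
      · exact le_rfl
      · exact hs.1 r hr
    have h5 := log_le_card hm'0 hall'
    have h6 := log_log_le_of_yy_le hp'pr.two_le hy'
    have h7 : (ArithmeticFunction.cardFactors m' : ℝ) ≤ Real.exp (B / 20) := by
      refine le_trans ?_ (hΩ'.trans hk)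
      rw [hmeq, ArithmeticFunction.cardFactors_mul hp.ne_zero hm'0]
      push_cast
      linarith [Nat.cast_nonneg (α := ℝ) (ArithmeticFunction.cardFactors p)]
    have hlp' : 0 ≤ Real.log p' := Real.log_nonneg (by exact_mod_cast hp'pr.one_le)
    have h8 : Real.log m' ≤ Real.exp (4 / 5 * B) := by
      calc Real.log m' ≤ _ := h5
        _ ≤ Real.exp (B / 20) * Real.exp (3 / 4 * B) :=
            mul_le_mul h7 h6 hlp' (Real.exp_pos _).le
        _ = Real.exp (4 / 5 * B) := by rw [← Real.exp_add]; congr 1; ring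
    rw [hsplit]
    linarith

theorem card_le_natFloor {T : Finset ℕ} {y : ℝ} (h : ∀ v ∈ T, 0 < v ∧ (v : ℝ) ≤ y) (hy : 0 ≤ y) :
    (T.card : ℝ) ≤ y := by
  have hsub : T ⊆ Finset.Ioc 0 ⌊y⌋₊ := by
    intro v hv
    rw [Finset.mem_Ioc]
    exact ⟨(h v hv).1, Nat.le_floor (h v hv).2⟩
  have h3 := Finset.card_le_card hsub
  rw [Nat.card_Ioc, Nat.sub_zero] at h3
  calc (T.card : ℝ) ≤ (⌊y⌋₊ : ℝ) := by exact_mod_cast h3
    _ ≤ y := Nat.floor_le hy

/-- decomposition of a totient `v ≠ 1`. -/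
theorem decomp {v : ℕ} (hv : IsTot v) (hr : v ≠ 1) :
    ∃ q m : ℕ, q.Prime ∧ 0 < m ∧ rr v = q * m ∧ Pm (rr v) = q ∧ (∀ r ∈ dl m, r ≤ q) ∧
      (q ∣ m → q * (q - 1) ∣ v) ∧
      (¬ q ∣ m → v = (q - 1) * Nat.totient m ∧ rr (Nat.totient m) = m ∧ tl v = Nat.totient m ∧
        ¬ q ^ 2 ∣ rr v ∧ IsTot (Nat.totient m)) := by
  obtain ⟨q, m, hq, hm, heq, hdl, hp1, hle⟩ := exists_cons (one_lt_rr hv hr)
  have hm0 : 0 < m := Nat.pos_of_ne_zero hm
  refine ⟨q, m, hq, hm0, heq, hp1, hle, ?_, ?_⟩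
  · intro hqm
    obtain ⟨m', rfl⟩ := hqm
    have hm'0 : m' ≠ 0 := by rintro rfl; simp at hm
    have h1 : Nat.totient (rr v) = v := totient_rr hv
    rw [heq, Nat.totient_mul_of_prime_of_dvd hq (Dvd.intro m' rfl)] at h1
    rw [← h1]
    apply Nat.mul_dvd_mul_left
    have : q ∣ q * m' := Dvd.intro _ rfl
    have := Nat.totient_dvd_of_dvd this
    rwa [Nat.totient_prime hq] at this
  · intro hqm
    have hlt : Pm m < q := by
      rw [Pm_lt_iff hm hq.two_le]
      intro r hrp hrm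
      have h1 := hle r ((mem_dl_iff hm).2 ⟨hrp, hrm⟩)
      rcases h1.eq_or_lt with h | h
      · subst h
        exact absurd hrm hqm
      · exact h
    obtain ⟨h1, h2⟩ := rr_tail hv hq heq hlt
    refine ⟨h2, h1, ?_, ?_, isTot_totient hm0⟩
    · unfold tl
      rw [hp1, heq, Nat.mul_div_cancel_left _ hq.pos]
    · rw [heq, pow_two]
      intro h
      exact hqm (Nat.dvd_of_mul_dvd_mul_left hq.pos h)

end Crest.Agent.R020.Top
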