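import Mathlib
import Crest.Agent.R020.TopMain
import Crest.Prelude.Def_TotientScale
import Crest.Agent.R020.Stmt
import Crest.Agent.R020.Renewal
import Crest.Agent.R020.Final2
import Crest.Agent.R020.OneStep0

-- ▼ part R020/TopUp2
section

/-!
Row 20, top step (helper369): the upper bound, final form.
-/

set_option autoImplicit false

open Filter Topology Finset
open Crest.NumberTheoryR.TotientScale

namespace Crest.Agent.R020.Top

/-- cut for `Ω` -/
noncomputable def kk (B : ℝ) : ℕ := ⌊Real.exp (B / 20)⌋₊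

theorem tendsto_loglog : Tendsto (fun x : ℝ => Real.log (Real.log x)) atTop atTop :=
  Real.tendsto_log_atTop.comp Real.tendsto_log_atTop

theorem rare_small {δ : ℝ} (hδ : 0 < δ) :
    ∀ᶠ B : ℝ in atTop, (2 / 3 : ℝ) ^ (kk B) * Real.exp (6 * B) ≤ δ := by
  have h1 : Tendsto (fun u : ℝ => u ^ (120 : ℕ) * Real.exp (-(Real.log (3 / 2)) * u)) atTop (𝓝 0) := by
    have := tendsto_rpow_mul_exp_neg_mul_atTop_nhds_zero (120 : ℝ) (Real.log (3 / 2))
      (Real.log_pos (by norm_num))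
    refine this.congr' ?_
    filter_upwards [eventually_ge_atTop 0] with u hu
    rw [show (120 : ℝ) = ((120 : ℕ) : ℝ) by norm_num, Real.rpow_natCast]
  have h2 : Tendsto (fun B : ℝ => Real.exp (B / 20)) atTop atTop :=
    Real.tendsto_exp_atTop.comp (tendsto_id.atTop_div_const (by norm_num))
  have h3 := (h1.comp h2).eventually (gt_mem_nhds (show (0 : ℝ) < δ / (3 / 2) by positivity))
  filter_upwards [h3] with B hB
  simp only [Function.comp_apply] at hB
  set u := Real.exp (B / 20) with hu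
  have e1 : Real.exp (6 * B) = u ^ 120 := by
    rw [hu, ← Real.exp_nat_mul]; congr 1; push_cast; ring
  have e2 : (2 / 3 : ℝ) ^ (kk B) ≤ 3 / 2 * Real.exp (-(Real.log (3 / 2)) * u) := by
    have h4 : u < kk B + 1 := Nat.lt_floor_add_one u
    have e3 : (2 / 3 : ℝ) ^ (kk B) = Real.exp (-(Real.log (3 / 2)) * kk B) := by
      have e4 : -(Real.log (3 / 2 : ℝ)) = Real.log (2 / 3) := by
        rw [← Real.log_inv]; norm_num
      rw [e4, mul_comm, Real.exp_nat_mul, Real.exp_log (by norm_num)]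
    have e5 : (3 / 2 : ℝ) = Real.exp (Real.log (3 / 2)) := (Real.exp_log (by norm_num)).symm
    rw [e3]
    calc Real.exp (-(Real.log (3 / 2)) * kk B)
        ≤ Real.exp (Real.log (3 / 2) + -(Real.log (3 / 2)) * u) := by
          rw [Real.exp_le_exp]
          have : 0 < Real.log (3 / 2 : ℝ) := Real.log_pos (by norm_num)
          nlinarith
      _ = 3 / 2 * Real.exp (-(Real.log (3 / 2)) * u) := by
          rw [Real.exp_add, Real.exp_log (by norm_num)]
  rw [e1]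
  have h5 : 0 ≤ u ^ 120 := by positivity
  calc (2 / 3 : ℝ) ^ (kk B) * u ^ 120 ≤ (3 / 2 * Real.exp (-(Real.log (3 / 2)) * u)) * u ^ 120 :=
        mul_le_mul_of_nonneg_right e2 h5
    _ = 3 / 2 * (u ^ 120 * Real.exp (-(Real.log (3 / 2)) * u)) := by ring
    _ ≤ 3 / 2 * (δ / (3 / 2)) := mul_le_mul_of_nonneg_left hB.le (by norm_num)
    _ = δ := by ring

/-- the number of `v ≤ x` with many prime factors is small. -/
theorem card_rare {δ : ℝ} (hδ : 0 < δ) :
    ∀ᶠ x : ℝ in atTop, ∀ T : Finset ℕ,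
      (∀ v ∈ T, 0 < v ∧ (v : ℝ) ≤ x ∧ kk (Real.log (Real.log x)) ≤
        ArithmeticFunction.cardFactors v) → (T.card : ℝ) ≤ δ * (x / Real.log x) := by
  have h1 := tendsto_loglog.eventually (rare_small (δ := δ / (64 * Real.exp 135))
    (by positivity))
  filter_upwards [h1, eventually_ge_atTop (Real.exp 1), eventually_ge_atTop 3] with x h1 hx hx3 T hT
  have hx0 : 0 < x := by linarith
  have hlog : 1 ≤ Real.log x := by
    rw [← Real.log_exp 1]; exact Real.log_le_log (Real.exp_pos 1) hx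
  have hlog0 : 0 < Real.log x := by linarith
  set k := kk (Real.log (Real.log x)) with hk
  have hfl : (⌊x⌋₊ : ℝ) ≤ x := Nat.floor_le hx0.le
  have hN3 : 3 ≤ ⌊x⌋₊ := Nat.le_floor (by exact_mod_cast hx3)
  have h2 := card_omega_ge_le (⌊x⌋₊ + 1) k (by omega) T (by
    intro v hv
    obtain ⟨a, b, c⟩ := hT v hv
    exact ⟨a, Nat.lt_succ_of_le (Nat.le_floor b), c⟩)
  have e1 : Real.exp (6 * Real.log (Real.log x)) = (Real.log x) ^ 6 := by
    rw [show (6 : ℝ) * Real.log (Real.log x) = ((6 : ℕ) : ℝ) * Real.log (Real.log x) by norm_num,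
      Real.exp_nat_mul, Real.exp_log hlog0]
  rw [e1] at h1
  have h3 : ((⌊x⌋₊ + 1 : ℕ) : ℝ) ≤ 2 * x := by push_cast; linarith
  have h4 : Real.log ((⌊x⌋₊ + 1 : ℕ) : ℝ) ≤ 2 * Real.log x := by
    have : Real.log ((⌊x⌋₊ + 1 : ℕ) : ℝ) ≤ Real.log (x ^ 2) := by
      apply Real.log_le_log (by positivity)
      refine h3.trans ?_
      nlinarith
    rwa [Real.log_pow] at this
  have h5 : (Real.log ((⌊x⌋₊ + 1 : ℕ) : ℝ)) ^ (9 / 2 : ℝ) ≤ 32 * (Real.log x) ^ 5 := by
    have h6 : 0 ≤ Real.log ((⌊x⌋₊ + 1 : ℕ) : ℝ) := Real.log_natCast_nonneg _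
    calc (Real.log ((⌊x⌋₊ + 1 : ℕ) : ℝ)) ^ (9 / 2 : ℝ) ≤ (2 * Real.log x) ^ (9 / 2 : ℝ) :=
          Real.rpow_le_rpow h6 h4 (by norm_num)
      _ ≤ (2 * Real.log x) ^ (5 : ℝ) :=
          Real.rpow_le_rpow_of_exponent_le (by linarith) (by norm_num)
      _ = 32 * (Real.log x) ^ 5 := by
          rw [show (5 : ℝ) = ((5 : ℕ) : ℝ) by norm_num, Real.rpow_natCast]; ring
  have hp : 0 ≤ (2 / 3 : ℝ) ^ k := by positivity
  calc (T.card : ℝ) ≤ _ := h2
    _ ≤ (2 * x) * ((2 / 3) ^ k * (Real.exp 135 * (32 * (Real.log x) ^ 5))) := by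
        apply mul_le_mul h3 _ _ (by positivity)
        · exact mul_le_mul_of_nonneg_left
            (mul_le_mul_of_nonneg_left h5 (Real.exp_pos _).le) hp
        · have h6 : 0 ≤ Real.log ((⌊x⌋₊ + 1 : ℕ) : ℝ) := Real.log_natCast_nonneg _
          positivity
    _ = (64 * Real.exp 135) * ((2 / 3 : ℝ) ^ k * (Real.log x) ^ 6) * (x / Real.log x) := by
        field_simp
        ring
    _ ≤ (64 * Real.exp 135) * (δ / (64 * Real.exp 135)) * (x / Real.log x) := by
        apply mul_le_mul_of_nonneg_right _ (by positivity)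
        exact mul_le_mul_of_nonneg_left h1 (by positivity)
    _ = δ * (x / Real.log x) := by
        field_simp

theorem totientCount_eq (x : ℝ) (hx : 0 ≤ x) :
    totientCount x = (TF ⌊x⌋₊ (fun _ => True)).card := by
  unfold totientCount
  rw [← Set.ncard_coe_finset]
  congr 1
  ext v
  simp only [Set.mem_ofPred_eq, Finset.mem_coe, mem_TF, and_true]
  constructor
  · rintro ⟨h1, h2⟩; exact ⟨Nat.le_floor h1, h2⟩
  · rintro ⟨h1, h2⟩
    refine ⟨?_, h2⟩
    calc (v : ℝ) ≤ (⌊x⌋₊ : ℝ) := by exact_mod_cast h1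
      _ ≤ x := Nat.floor_le hx

theorem mem_TF_real {x : ℝ} (hx : 0 ≤ x) {P : ℕ → Prop} {v : ℕ} (h : v ∈ TF ⌊x⌋₊ P) :
    0 < v ∧ (v : ℝ) ≤ x ∧ IsTot v ∧ P v := by
  obtain ⟨h1, h2, h3⟩ := mem_TF.1 h
  refine ⟨h2.pos, ?_, h2, h3⟩
  calc (v : ℝ) ≤ (⌊x⌋₊ : ℝ) := by exact_mod_cast h1
    _ ≤ x := Nat.floor_le hx

/-- totients `≤ x` whose tail violates availability -/
noncomputable def BadS (E : ℝ → ℝ) (x : ℝ) : Finset ℕ :=
  TF ⌊x⌋₊ (fun v => ¬ Pm (rr v) ^ 2 ∣ rr v ∧
    Real.log (Real.log x) + E (Real.log (Real.log x)) < FF aa (tl v))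

/-- available tails `≤ x^ε` -/
noncomputable def DS (E : ℝ → ℝ) (ε x : ℝ) : Finset ℕ :=
  TF ⌊x ^ ε⌋₊ (fun d => FF aa d ≤ Real.log (Real.log x) + E (Real.log (Real.log x)))

/-- available tails with a large largest prime -/
noncomputable def LS (E : ℝ → ℝ) (x : ℝ) : Finset ℕ :=
  TF ⌊x⌋₊ (fun d => FF aa d ≤ Real.log (Real.log x) + E (Real.log (Real.log x)) ∧
    9 / 10 * Real.log (Real.log x) ≤ y1 d)

open Classical in
/-- The count of the class with a large cofactor. -/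
theorem card_large {E : ℝ → ℝ} (hE : ∀ᶠ B : ℝ in atTop, E B ≤ B / 50) {ε : ℝ} (hε : 0 < ε) :
    ∀ᶠ x : ℝ in atTop, ∀ T : Finset ℕ,
      (∀ v ∈ T, (v : ℝ) ≤ x ∧ IsTot v ∧ v ≠ 1 ∧ ¬ Pm (rr v) ^ 2 ∣ rr v ∧
        FF aa (tl v) ≤ Real.log (Real.log x) + E (Real.log (Real.log x)) ∧
        x ^ ε < (rr (tl v) : ℕ) ∧
        ArithmeticFunction.cardFactors (rr v) ≤ kk (Real.log (Real.log x))) →
      (T.card : ℝ) ≤ 8 * Real.log 4 * (x / Real.log x) * ∑ d ∈ LS E x, (1 : ℝ) / d +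
        2 * (x / Real.log x) / Real.log x := by
  have hc1 : ∀ᶠ B : ℝ in atTop, 1 ≤ ε * Real.exp (B / 20) := by
    have h2 : Tendsto (fun B : ℝ => Real.exp (B / 20)) atTop atTop :=
      Real.tendsto_exp_atTop.comp (tendsto_id.atTop_div_const (by norm_num))
    exact (h2.const_mul_atTop hε).eventually_ge_atTop 1
  have hc2 : ∀ᶠ B : ℝ in atTop, Real.exp (4 / 5 * B) + 2 * B ≤ 1 / 2 * Real.exp B := by
    have h2 : Tendsto (fun B : ℝ => Real.exp (B / 5)) atTop atTop :=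
      Real.tendsto_exp_atTop.comp (tendsto_id.atTop_div_const (by norm_num))
    filter_upwards [h2.eventually_ge_atTop 8, eventually_ge_atTop 0] with B hB hB0
    have e1 : Real.exp B = Real.exp (4 / 5 * B) * Real.exp (B / 5) := by
      rw [← Real.exp_add]; congr 1; ring
    have e2 : 4 / 5 * B + 1 ≤ Real.exp (4 / 5 * B) := Real.add_one_le_exp _
    have e3 : 8 * Real.exp (4 / 5 * B) ≤ Real.exp B := by
      rw [e1, mul_comm]
      exact mul_le_mul_of_nonneg_left hB (Real.exp_pos _).le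
    have e4 : 2 * B ≤ 5 / 2 * Real.exp (4 / 5 * B) := by linarith
    linarith [Real.exp_pos (4 / 5 * B)]
  filter_upwards [tendsto_loglog.eventually hc1, tendsto_loglog.eventually hc2,
    tendsto_loglog.eventually hE, tendsto_loglog.eventually_gt_atTop 0,
    eventually_ge_atTop (Real.exp 1), eventually_gt_atTop 1] with x hc1 hc2 hE hB0 hx hx1 T hT
  have hx0 : 0 < x := by linarith
  have hlog0 : 0 < Real.log x := Real.log_pos hx1
  set B := Real.log (Real.log x) with hB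
  have hexpB : Real.exp B = Real.log x := by rw [hB, Real.exp_log hlog0]
  have hkk : (kk B : ℝ) ≤ Real.exp (B / 20) := Nat.floor_le (Real.exp_pos _).le
  have hcase : ∀ v ∈ T, 9 / 10 * B ≤ y1 (tl v) ∧
      Real.log (rr (tl v)) ≤ Real.log (Pm (rr v)) + Real.exp (4 / 5 * B) := by
    intro v hv
    obtain ⟨h1, h2, h3, h4, h5, h6, h7⟩ := hT v hv
    obtain ⟨hP, htot, hveq, hreq, hPlt, hdl⟩ := totient_decomp h2 h3 h4
    have hr0 := (rr_pos (tl v)).ne'
    apply large_case hε hx1 hB hB0 hkk hc1 hE rfl h5 _ _ h6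
    · intro r hr
      have := (mem_dl_iff hr0).1 hr
      exact ((Pm_lt_iff hr0 hP.two_le).1 hPlt r this.1 this.2).le
    · rw [hreq, ArithmeticFunction.cardFactors_mul hP.ne_zero hr0] at h7
      omega
  have hmain := card_le_of_log x hx T (fun v => Pm (rr v)) (fun v hv =>
    ⟨(hT v hv).2.1.pos, (hT v hv).1⟩) (Real.exp (4 / 5 * B)) (by
      intro v hv
      obtain ⟨h1, h2, h3, h4, h5, h6, h7⟩ := hT v hv
      obtain ⟨hP, htot, hveq, hreq, hPlt, hdl⟩ := totient_decomp h2 h3 h4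
      have h8 := (hcase v hv).2
      have h9 : Real.log v ≤ Real.log (rr v) := by
        apply Real.log_le_log (by exact_mod_cast h2.pos)
        have := Nat.totient_le (rr v)
        rw [totient_rr h2] at this
        exact_mod_cast this
      have hr0 := (rr_pos (tl v)).ne'
      have h10 : Real.log (rr v) = Real.log (Pm (rr v)) + Real.log (rr (tl v)) := by
        conv_lhs => rw [hreq]
        push_cast
        rw [Real.log_mul (by exact_mod_cast hP.ne_zero) (by exact_mod_cast hr0)]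
      linarith) (by rw [hexpB] at hc2; exact hc2)
  have hsum := sum_log_le x T (LS E x) (fun v => Pm (rr v)) tl (by
      intro d hd
      obtain ⟨a, b, c, e⟩ := mem_TF_real hx0.le hd
      exact ⟨a, b⟩) (by
      intro v hv
      obtain ⟨h1, h2, h3, h4, h5, h6, h7⟩ := hT v hv
      obtain ⟨hP, htot, hveq, hreq, hPlt, hdl⟩ := totient_decomp h2 h3 h4
      refine ⟨h1, hP, ?_, hveq⟩
      unfold LS
      rw [mem_TF]
      refine ⟨?_, htot, h5, (hcase v hv).1⟩
      apply Nat.le_floor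
      refine le_trans ?_ h1
      have : tl v ≤ v := by
        conv_rhs => rw [hveq]
        apply Nat.le_mul_of_pos_left
        have := hP.two_le
        omega
      exact_mod_cast this)
  have h1 : (T.card : ℝ) * Real.log x ≤
      4 * (2 * Real.log 4 * x * ∑ d ∈ LS E x, (1 : ℝ) / d) + 2 * (x / Real.log x) := by
    linarith
  have h2 : (T.card : ℝ) ≤
      (4 * (2 * Real.log 4 * x * ∑ d ∈ LS E x, (1 : ℝ) / d) + 2 * (x / Real.log x)) /
        Real.log x := by
    rwa [le_div_iff₀ hlog0]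
  refine h2.trans (le_of_eq ?_)
  field_simp
  ring

end Crest.Agent.R020.Top
end

-- ▼ part R020/TopSum
section

/-!
Row 20, top step (helper369): the sums `SB`, `S1B`, large top primes, many prime factors.
-/

set_option autoImplicit false

open Filter Topology Finset
open scoped ENNReal
open Crest.NumberTheoryR.TotientScale

namespace Crest.Agent.R020.Top

/-! ### finite sums and `ws` -/

theorem ofReal_one_div (d : ℕ) (hd : 0 < d) : ENNReal.ofReal (1 / (d : ℝ)) = (d : ℝ≥0∞)⁻¹ := by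
  rw [one_div, ENNReal.ofReal_inv_of_pos (by exact_mod_cast hd), ENNReal.ofReal_natCast]

/-- a finite sum is bounded by the real value of `ws`. -/
theorem sum_le_ws (φ : ℕ → ℝ) (A : Set ℕ) (T : Finset ℕ) (hφ : ∀ d ∈ T, 0 ≤ φ d)
    (hT : ∀ d ∈ T, d ∈ A) (hfin : ws (fun d => ENNReal.ofReal (φ d)) A ≠ ⊤) :
    ∑ d ∈ T, φ d ≤ (ws (fun d => ENNReal.ofReal (φ d)) A).toReal := by
  have h1 : ENNReal.ofReal (∑ d ∈ T, φ d) ≤ ws (fun d => ENNReal.ofReal (φ d)) A := by
    rw [ENNReal.ofReal_sum_of_nonneg hφ]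
    unfold ws
    calc ∑ d ∈ T, ENNReal.ofReal (φ d) = ∑ d ∈ T, A.indicator (fun d => ENNReal.ofReal (φ d)) d := by
          apply Finset.sum_congr rfl
          intro d hd
          rw [Set.indicator_of_mem (hT d hd)]
      _ ≤ _ := ENNReal.sum_le_tsum T
  rw [ENNReal.ofReal_le_iff_le_toReal hfin] at h1
  exact h1

/-- bounding `ws` by finite sums. -/
theorem ws_le_of_finite (φ : ℕ → ℝ) (A : Set ℕ) (K : ℝ) (hφ : ∀ d ∈ A, 0 ≤ φ d)
    (h : ∀ T : Finset ℕ, (∀ d ∈ T, d ∈ A) → ∑ d ∈ T, φ d ≤ K) :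
    ws (fun d => ENNReal.ofReal (φ d)) A ≤ ENNReal.ofReal K := by
  classical
  unfold ws
  rw [ENNReal.tsum_eq_iSup_sum]
  apply iSup_le
  intro s
  have h1 : ∑ a ∈ s, A.indicator (fun d => ENNReal.ofReal (φ d)) a =
      ∑ a ∈ s.filter (fun a => a ∈ A), ENNReal.ofReal (φ a) := by
    rw [Finset.sum_filter]
    apply Finset.sum_congr rfl
    intro a _
    by_cases ha : a ∈ A
    · rw [Set.indicator_of_mem ha, if_pos ha]
    · rw [Set.indicator_of_notMem ha, if_neg ha]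
  rw [h1, ← ENNReal.ofReal_sum_of_nonneg]
  · apply ENNReal.ofReal_le_ofReal
    apply h
    intro d hd
    exact (Finset.mem_filter.1 hd).2
  · intro i hi
    exact hφ i (Finset.mem_filter.1 hi).2

theorem wt_eq (A : Set ℕ) (hA : ∀ d ∈ A, 0 < d) :
    wt A = ws (fun d => ENNReal.ofReal (1 / (d : ℝ))) A := by
  unfold wt ws
  congr 1
  ext d
  by_cases hd : d ∈ A
  · rw [Set.indicator_of_mem hd, Set.indicator_of_mem hd, ofReal_one_div d (hA d hd)]
  · rw [Set.indicator_of_notMem hd, Set.indicator_of_notMem hd]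

theorem wsum_eq (φ : ℕ → ℝ) (A : Set ℕ) (hA : ∀ d ∈ A, 0 < d) (hφ : ∀ d, 0 ≤ φ d) :
    wsum φ A = ws (fun d => ENNReal.ofReal (φ d / (d : ℝ))) A := by
  unfold wsum ws
  congr 1
  ext d
  by_cases hd : d ∈ A
  · rw [Set.indicator_of_mem hd, Set.indicator_of_mem hd, div_eq_mul_one_div,
      ENNReal.ofReal_mul (hφ d), ofReal_one_div d (hA d hd)]
  · rw [Set.indicator_of_notMem hd, Set.indicator_of_notMem hd]

/-! ### smoothness of totients -/

theorem prime_dvd_totient (m : ℕ) : m ≠ 0 → ∀ r, r.Prime → r ∣ Nat.totient m →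
    ∃ p, p.Prime ∧ p ∣ m ∧ r ≤ p := by
  induction m using induction_on_primes with
  | zero => intro h; exact absurd rfl h
  | one =>
    intro _ r hr h
    rw [Nat.totient_one] at h
    exact absurd (Nat.dvd_one.1 h) hr.ne_one
  | prime_mul p m hp ih =>
    intro hn r hr hrd
    have hm : m ≠ 0 := by rintro rfl; simp at hn
    have hcase : r ∣ p ∨ r ∣ p - 1 ∨ r ∣ Nat.totient m := by
      by_cases hd : p ∣ m
      · rw [Nat.totient_mul_of_prime_of_dvd hp hd, hr.dvd_mul] at hrd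
        tauto
      · rw [Nat.totient_mul_of_prime_of_not_dvd hp hd, hr.dvd_mul] at hrd
        tauto
    rcases hcase with h | h | h
    · exact ⟨p, hp, Dvd.intro m rfl, Nat.le_of_dvd hp.pos h⟩
    · refine ⟨p, hp, Dvd.intro m rfl, ?_⟩
      have h2 := hp.two_le
      have := Nat.le_of_dvd (by omega) h
      omega
    · obtain ⟨p', h1, h2, h3⟩ := ih hm r hr h
      exact ⟨p', h1, h2.mul_left p, h3⟩

/-- smoothness level -/
noncomputable def NB (B : ℝ) : ℕ := ⌊Real.exp (Real.exp (6 * B))⌋₊ + 3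

theorem smooth_of_FF {B : ℝ} (hB : 0 ≤ B) {d : ℕ} (hd : IsTot d) (hF : FF aa d ≤ 2 * B) :
    d ∈ Nat.smoothNumbers (NB B) := by
  have hr0 := (rr_pos d).ne'
  rw [Nat.mem_smoothNumbers']
  intro r hr hrd
  have h1 : r ∣ Nat.totient (rr d) := by rw [totient_rr hd]; exact hrd
  obtain ⟨p, hp, hpd, hrp⟩ := prime_dvd_totient (rr d) hr0 r hr h1
  have h2 : p ≤ Pm (rr d) :=
    (Pm_le_iff hr0 (by
      unfold Pm
      rcases hdl : dl (rr d) with _ | ⟨q, l⟩
      · simp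
      · simp only [List.headD_cons]
        exact (prime_of_mem_dl (n := rr d) (by rw [hdl]; simp)).one_le)).1 le_rfl p hp hpd
  have h3 : aa 0 * y1 d ≤ 2 * B := (mul_y1_le_FF aa_nonneg d).trans hF
  have ha := aa_zero_gt
  have h4 : yy p ≤ 6 * B := by
    have h5 : yy p ≤ y1 d := yy_mono h2
    have h6 : 0.386 * yy p ≤ aa 0 * y1 d :=
      mul_le_mul ha.le h5 (yy_nonneg p) (by linarith)
    linarith
  have h5 := log_log_le_of_yy_le hp.two_le h4
  have hp0 : (0 : ℝ) < p := by exact_mod_cast hp.pos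
  have h6 : (p : ℝ) ≤ Real.exp (Real.exp (6 * B)) := by
    rwa [Real.log_le_iff_le_exp hp0] at h5
  have h7 : p ≤ ⌊Real.exp (Real.exp (6 * B))⌋₊ := Nat.le_floor h6
  unfold NB
  omega

theorem log_NB_le {B : ℝ} (hB : 0 ≤ B) : Real.log (NB B) ≤ 3 * Real.exp (6 * B) := by
  have h0 : 1 ≤ Real.exp (6 * B) := Real.one_le_exp (by linarith)
  have h1 : (1 : ℝ) ≤ Real.exp (Real.exp (6 * B)) := Real.one_le_exp (by positivity)
  have h2 : (NB B : ℝ) ≤ 4 * Real.exp (Real.exp (6 * B)) := by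
    unfold NB
    push_cast
    have := Nat.floor_le (Real.exp_pos (Real.exp (6 * B))).le
    linarith
  have h3 : (4 : ℝ) ≤ Real.exp 2 := by
    have := Real.quadratic_le_exp_of_nonneg (x := 2) (by norm_num)
    linarith
  have hpos : (0 : ℝ) < NB B := by unfold NB; positivity
  calc Real.log (NB B) ≤ Real.log (Real.exp 2 * Real.exp (Real.exp (6 * B))) := by
        apply Real.log_le_log hpos
        refine h2.trans ?_
        exact mul_le_mul_of_nonneg_right h3 (Real.exp_pos _).le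
    _ = 2 + Real.exp (6 * B) := by
        rw [← Real.exp_add, Real.log_exp]
    _ ≤ _ := by linarith

theorem log_NB_rpow_le {B : ℝ} (hB : 0 ≤ B) :
    (Real.log (NB B)) ^ (9 / 2 : ℝ) ≤ 243 * Real.exp (30 * B) := by
  have h0 : 1 ≤ Real.exp (6 * B) := Real.one_le_exp (by linarith)
  have h1 : 0 ≤ Real.log (NB B) := Real.log_natCast_nonneg _
  calc (Real.log (NB B)) ^ (9 / 2 : ℝ) ≤ (3 * Real.exp (6 * B)) ^ (9 / 2 : ℝ) :=
        Real.rpow_le_rpow h1 (log_NB_le hB) (by norm_num)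
    _ ≤ (3 * Real.exp (6 * B)) ^ (5 : ℝ) :=
        Real.rpow_le_rpow_of_exponent_le (by linarith) (by norm_num)
    _ = 243 * Real.exp (30 * B) := by
        rw [show (5 : ℝ) = ((5 : ℕ) : ℝ) by norm_num, Real.rpow_natCast, mul_pow,
          ← Real.exp_nat_mul]
        norm_num
        ring_nf

theorem sum_inv_smooth (N : ℕ) (hN : 3 ≤ N) (T : Finset ℕ)
    (hT : ∀ d ∈ T, d ∈ Nat.smoothNumbers N) :
    ∑ d ∈ T, (1 : ℝ) / d ≤ Real.exp 135 * (Real.log N) ^ (9 / 2 : ℝ) := by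
  have := sum_inv_smooth_le N 0 hN T (fun d hd => ⟨hT d hd, Nat.zero_le _⟩)
  simpa using this

theorem sum_inv_smooth_NB {B : ℝ} (hB : 0 ≤ B) (T : Finset ℕ)
    (hT : ∀ d ∈ T, d ∈ Nat.smoothNumbers (NB B)) :
    ∑ d ∈ T, (1 : ℝ) / d ≤ 243 * Real.exp 135 * Real.exp (30 * B) := by
  have h1 := sum_inv_smooth (NB B) (by unfold NB; omega) T hT
  have h2 := log_NB_rpow_le hB
  calc ∑ d ∈ T, (1 : ℝ) / d ≤ _ := h1
    _ ≤ Real.exp 135 * (243 * Real.exp (30 * B)) :=
        mul_le_mul_of_nonneg_left h2 (Real.exp_pos _).le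
    _ = _ := by ring

theorem rare_small' {δ : ℝ} (hδ : 0 < δ) :
    ∀ᶠ B : ℝ in atTop, (2 / 3 : ℝ) ^ (kk B) * Real.exp (30 * B) ≤ δ := by
  have h1 : Tendsto (fun u : ℝ => u ^ (600 : ℕ) * Real.exp (-(Real.log (3 / 2)) * u)) atTop (𝓝 0) := by
    have := tendsto_rpow_mul_exp_neg_mul_atTop_nhds_zero (600 : ℝ) (Real.log (3 / 2))
      (Real.log_pos (by norm_num))
    refine this.congr' ?_
    filter_upwards [eventually_ge_atTop 0] with u hu
    rw [show (600 : ℝ) = ((600 : ℕ) : ℝ) by norm_num, Real.rpow_natCast]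
  have h2 : Tendsto (fun B : ℝ => Real.exp (B / 20)) atTop atTop :=
    Real.tendsto_exp_atTop.comp (tendsto_id.atTop_div_const (by norm_num))
  have h3 := (h1.comp h2).eventually (gt_mem_nhds (show (0 : ℝ) < δ / (3 / 2) by positivity))
  filter_upwards [h3] with B hB
  simp only [Function.comp_apply] at hB
  set u := Real.exp (B / 20) with hu
  have e1 : Real.exp (30 * B) = u ^ 600 := by
    rw [hu, ← Real.exp_nat_mul]; congr 1; push_cast; ring
  have e2 : (2 / 3 : ℝ) ^ (kk B) ≤ 3 / 2 * Real.exp (-(Real.log (3 / 2)) * u) := by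
    have h4 : u < kk B + 1 := Nat.lt_floor_add_one u
    have e3 : (2 / 3 : ℝ) ^ (kk B) = Real.exp (-(Real.log (3 / 2)) * kk B) := by
      have e4 : -(Real.log (3 / 2 : ℝ)) = Real.log (2 / 3) := by
        rw [← Real.log_inv]; norm_num
      rw [e4, mul_comm, Real.exp_nat_mul, Real.exp_log (by norm_num)]
    rw [e3]
    calc Real.exp (-(Real.log (3 / 2)) * kk B)
        ≤ Real.exp (Real.log (3 / 2) + -(Real.log (3 / 2)) * u) := by
          rw [Real.exp_le_exp]
          have : 0 < Real.log (3 / 2 : ℝ) := Real.log_pos (by norm_num)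
          nlinarith
      _ = 3 / 2 * Real.exp (-(Real.log (3 / 2)) * u) := by
          rw [Real.exp_add, Real.exp_log (by norm_num)]
  rw [e1]
  have h5 : 0 ≤ u ^ 600 := by positivity
  calc (2 / 3 : ℝ) ^ (kk B) * u ^ 600 ≤ (3 / 2 * Real.exp (-(Real.log (3 / 2)) * u)) * u ^ 600 :=
        mul_le_mul_of_nonneg_right e2 h5
    _ = 3 / 2 * (u ^ 600 * Real.exp (-(Real.log (3 / 2)) * u)) := by ring
    _ ≤ 3 / 2 * (δ / (3 / 2)) := mul_le_mul_of_nonneg_left hB.le (by norm_num)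
    _ = δ := by ring

/-- totients with many prime factors have a small reciprocal sum. -/
theorem sum_rare {δ : ℝ} (hδ : 0 < δ) :
    ∀ᶠ B : ℝ in atTop, ∀ T : Finset ℕ,
      (∀ d ∈ T, IsTot d ∧ FF aa d ≤ 2 * B ∧ kk B ≤ ArithmeticFunction.cardFactors d) →
      ∑ d ∈ T, (1 : ℝ) / d ≤ δ := by
  have h1 := rare_small' (δ := δ / (243 * Real.exp 135)) (by positivity)
  filter_upwards [h1, eventually_ge_atTop 0] with B h1 hB T hT
  have h2 := sum_inv_smooth_le (NB B) (kk B) (by unfold NB; omega) T (fun d hd =>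
    ⟨smooth_of_FF hB (hT d hd).1 (hT d hd).2.1, (hT d hd).2.2⟩)
  have h3 := log_NB_rpow_le hB
  have hp : 0 ≤ (2 / 3 : ℝ) ^ (kk B) := by positivity
  calc ∑ d ∈ T, (1 : ℝ) / d ≤ _ := h2
    _ ≤ (2 / 3) ^ (kk B) * (Real.exp 135 * (243 * Real.exp (30 * B))) :=
        mul_le_mul_of_nonneg_left (mul_le_mul_of_nonneg_left h3 (Real.exp_pos _).le) hp
    _ = (243 * Real.exp 135) * ((2 / 3) ^ (kk B) * Real.exp (30 * B)) := by ring
    _ ≤ (243 * Real.exp 135) * (δ / (243 * Real.exp 135)) :=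
        mul_le_mul_of_nonneg_left h1 (by positivity)
    _ = δ := by field_simp

/-- primes up to the smoothness level -/
theorem sum_primes_NB {B : ℝ} (hB : 16 ≤ B) (Q : Finset ℕ)
    (hQ : ∀ q ∈ Q, q.Prime ∧ yy q ≤ 6 * B) : ∑ q ∈ Q, (1 : ℝ) / q ≤ 8 * B := by
  have h1 : Q ⊆ (NB B).primesBelow := by
    intro q hq
    obtain ⟨h1, h2⟩ := hQ q hq
    rw [Nat.mem_primesBelow]
    refine ⟨?_, h1⟩
    have h5 := log_log_le_of_yy_le h1.two_le h2
    have hp0 : (0 : ℝ) < q := by exact_mod_cast h1.pos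
    have h6 : (q : ℝ) ≤ Real.exp (Real.exp (6 * B)) := by
      rwa [Real.log_le_iff_le_exp hp0] at h5
    have h7 : q ≤ ⌊Real.exp (Real.exp (6 * B))⌋₊ := Nat.le_floor h6
    unfold NB
    omega
  have h2 : ∑ q ∈ Q, (1 : ℝ) / q ≤ ∑ q ∈ (NB B).primesBelow, (1 : ℝ) / q :=
    Finset.sum_le_sum_of_subset_of_nonneg h1 (fun i _ _ => by positivity)
  have h3 := sum_primesBelow_le (N := NB B) (by unfold NB; omega)
  have h4 := log_NB_le (B := B) (by linarith)
  have h5 : 0 < Real.log (NB B) := Real.log_pos (by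
    have : 1 < NB B := by unfold NB; omega
    exact_mod_cast this)
  have h6 : Real.log (Real.log (NB B)) ≤ 2 + 6 * B := by
    calc Real.log (Real.log (NB B)) ≤ Real.log (Real.exp 2 * Real.exp (6 * B)) := by
          apply Real.log_le_log h5
          refine h4.trans ?_
          apply mul_le_mul_of_nonneg_right _ (Real.exp_pos _).le
          have := Real.quadratic_le_exp_of_nonneg (x := 2) (by norm_num)
          linarith
      _ = 2 + 6 * B := by rw [← Real.exp_add, Real.log_exp]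
  linarith

end Crest.Agent.R020.Top
end

-- ▼ part R020/TopSum2
section

/-!
Row 20, top step (helper369): totients with a large top prime are controlled by `S1B (0.95 B)`.
-/

set_option autoImplicit false

open Filter Topology Finset
open scoped ENNReal
open Crest.NumberTheoryR.TotientScale

namespace Crest.Agent.R020.Top

theorem log_ge_of_yy {q : ℕ} {t : ℝ} (ht : 0 < t) (h : t ≤ yy q) : Real.exp t ≤ Real.log q := by
  have h1 : t ≤ Real.log (Real.log q) := by
    unfold yy at h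
    rcases le_max_iff.1 h with h | h
    · linarith
    · exact h
  have h2 : 0 < Real.log q := by
    by_contra hcon
    push Not at hcon
    have h3 : Real.log q = 0 := le_antisymm hcon (Real.log_natCast_nonneg q)
    rw [h3, Real.log_zero] at h1
    linarith
  rwa [Real.le_log_iff_exp_le h2] at h1

theorem q_ge_of_yy {q : ℕ} {t : ℝ} (ht : 0 < t) (h : t ≤ yy q) :
    Real.exp (Real.exp t) ≤ q := by
  have h1 := log_ge_of_yy ht h
  have hq : (0 : ℝ) < q := by
    rcases Nat.eq_zero_or_pos q with rfl | h0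
    · simp at h1
      linarith [Real.exp_pos t]
    · exact_mod_cast h0
  rwa [Real.le_log_iff_exp_le hq] at h1

/-- the square part of the large class -/
theorem sum_large_sq {δ : ℝ} (hδ : 0 < δ) :
    ∀ᶠ B : ℝ in atTop, ∀ T : Finset ℕ,
      (∀ d ∈ T, IsTot d ∧ FF aa d ≤ 2 * B ∧ 9 / 10 * B ≤ y1 d ∧ Pm (rr d) ^ 2 ∣ rr d) →
      ∑ d ∈ T, (1 : ℝ) / d ≤ δ := by
  classical
  have hc : ∀ᶠ B : ℝ in atTop, 243 * Real.exp 135 * (32 * B * Real.exp (30 * B)) *
      Real.exp (-Real.exp (9 / 10 * B)) ≤ δ := by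
    -- `32 B exp(30 B) ≤ exp(31 B + 5) ≤ exp(exp(.9 B) / 2)`
    have h1 : ∀ᶠ B : ℝ in atTop, 200 + 62 * B ≤ Real.exp (9 / 10 * B) := by
      have := isLittleO_pow_exp_pos_mul_atTop (k := 1) (b := 9 / 10) (by norm_num)
      have h2 := this.bound (show (0 : ℝ) < 1 / 124 by norm_num)
      filter_upwards [h2, eventually_ge_atTop 10] with B hB hB0
      rw [pow_one, Real.norm_of_nonneg (by linarith), Real.norm_of_nonneg (Real.exp_pos _).le] at hB
      linarith
    have h3 : Tendsto (fun B : ℝ => Real.exp (-Real.exp (9 / 10 * B) / 2)) atTop (𝓝 0) := by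
      apply Real.tendsto_exp_atBot.comp
      apply Tendsto.atBot_div_const (by norm_num)
      apply tendsto_neg_atTop_atBot.comp
      exact Real.tendsto_exp_atTop.comp (tendsto_id.const_mul_atTop (by norm_num))
    have h4 := h3.eventually (gt_mem_nhds (show (0 : ℝ) < δ / (243 * Real.exp 135) by positivity))
    filter_upwards [h1, h4, eventually_ge_atTop 0] with B h1 h4 hB
    have h5 : 32 * B * Real.exp (30 * B) ≤ Real.exp (100 + 31 * B) := by
      have e1 : Real.exp (100 + 31 * B) = Real.exp 100 * Real.exp B * Real.exp (30 * B) := by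
        rw [← Real.exp_add, ← Real.exp_add]; congr 1; ring
      rw [e1]
      apply mul_le_mul_of_nonneg_right _ (Real.exp_pos _).le
      have e2 : (32 : ℝ) ≤ Real.exp 100 := by
        have := Real.add_one_le_exp (100 : ℝ); linarith
      have e3 : B ≤ Real.exp B := by have := Real.add_one_le_exp B; linarith
      exact mul_le_mul e2 e3 hB (Real.exp_pos _).le
    have h6 : 32 * B * Real.exp (30 * B) * Real.exp (-Real.exp (9 / 10 * B)) ≤
        Real.exp (-Real.exp (9 / 10 * B) / 2) := by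
      calc _ ≤ Real.exp (100 + 31 * B) * Real.exp (-Real.exp (9 / 10 * B)) :=
            mul_le_mul_of_nonneg_right h5 (Real.exp_pos _).le
        _ = Real.exp (100 + 31 * B - Real.exp (9 / 10 * B)) := by
            rw [← Real.exp_add]; congr 1
        _ ≤ _ := by rw [Real.exp_le_exp]; linarith
    calc 243 * Real.exp 135 * (32 * B * Real.exp (30 * B)) * Real.exp (-Real.exp (9 / 10 * B))
        = 243 * Real.exp 135 *
          (32 * B * Real.exp (30 * B) * Real.exp (-Real.exp (9 / 10 * B))) := by ring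
      _ ≤ 243 * Real.exp 135 * (δ / (243 * Real.exp 135)) :=
          mul_le_mul_of_nonneg_left (h6.trans h4.le) (by positivity)
      _ = δ := by field_simp
  filter_upwards [hc, eventually_ge_atTop 16] with B hc hB T hT
  have hB0 : 0 ≤ B := by linarith
  -- properties
  have hprop : ∀ d ∈ T, (Pm (rr d)).Prime ∧ yy (Pm (rr d)) ≤ 6 * B ∧
      Real.exp (Real.exp (9 / 10 * B)) ≤ Pm (rr d) ∧ Pm (rr d) * (Pm (rr d) - 1) ∣ d := by
    intro d hd
    obtain ⟨h1, h2, h3, h4⟩ := hT d hd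
    have hd1 : d ≠ 1 := by
      rintro rfl
      rw [y1_one] at h3
      linarith
    obtain ⟨q, m, hq, hm, heq, hPm, hle, hsq, hnsq⟩ := decomp h1 hd1
    have hqm : q ∣ m := by
      by_contra hcon
      obtain ⟨-, -, -, h5, -⟩ := hnsq hcon
      rw [hPm] at h4
      exact h5 h4
    have h5 : aa 0 * y1 d ≤ 2 * B := (mul_y1_le_FF aa_nonneg d).trans h2
    have ha := aa_zero_gt
    refine ⟨by rw [hPm]; exact hq, ?_, ?_, by rw [hPm]; exact hsq hqm⟩
    · have h6 : 0.386 * yy (Pm (rr d)) ≤ aa 0 * y1 d :=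
        mul_le_mul_of_nonneg_right ha.le (yy_nonneg _)
      linarith
    · exact q_ge_of_yy (by linarith) h3
  set Q := T.image (fun d => Pm (rr d)) with hQ
  set T' := T.image (fun d => d / (Pm (rr d) * (Pm (rr d) - 1))) with hT'
  have hsum : ∑ d ∈ T, (1 : ℝ) / d ≤
      ∑ z ∈ Q ×ˢ T', (1 : ℝ) / (z.1 * (z.1 - 1)) * (1 / z.2) := by
    have hinj : Set.InjOn (fun d => (Pm (rr d), d / (Pm (rr d) * (Pm (rr d) - 1))))
        (T : Set ℕ) := by
      intro d hd e he hde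
      simp only [Prod.mk.injEq] at hde
      have h1 := (hprop d hd).2.2.2
      have h2 := (hprop e he).2.2.2
      have h3 := Nat.mul_div_cancel' h1
      have h4 := Nat.mul_div_cancel' h2
      rw [hde.2, hde.1] at h3
      rw [← h3, h4]
    have h1 : ∑ d ∈ T, (1 : ℝ) / d = ∑ z ∈ T.image
        (fun d => (Pm (rr d), d / (Pm (rr d) * (Pm (rr d) - 1)))),
        (1 : ℝ) / (z.1 * (z.1 - 1)) * (1 / z.2) := by
      rw [Finset.sum_image hinj]
      apply Finset.sum_congr rfl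
      intro d hd
      obtain ⟨h1, h2, h3, h4⟩ := hprop d hd
      obtain ⟨e, he⟩ := h4
      have hpos : 0 < Pm (rr d) * (Pm (rr d) - 1) := by
        have := h1.two_le
        exact Nat.mul_pos h1.pos (by omega)
      have h5 : d / (Pm (rr d) * (Pm (rr d) - 1)) = e := Nat.div_eq_of_eq_mul_right hpos he
      have h6 : (d : ℝ) = (Pm (rr d) : ℝ) * ((Pm (rr d) : ℝ) - 1) * e := by
        conv_lhs => rw [he]
        push_cast [Nat.cast_sub h1.one_le]
        ring
      simp only [h5]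
      rw [h6, one_div_mul_one_div]
    rw [h1]
    apply Finset.sum_le_sum_of_subset_of_nonneg
    · intro z hz
      rw [Finset.mem_image] at hz
      obtain ⟨d, hd, rfl⟩ := hz
      rw [Finset.mem_product]
      exact ⟨Finset.mem_image_of_mem _ hd,
        Finset.mem_image_of_mem (fun d => d / (Pm (rr d) * (Pm (rr d) - 1))) hd⟩
    · intro z hz _
      rw [Finset.mem_product, hQ, Finset.mem_image] at hz
      obtain ⟨⟨d, hd, hz1⟩, -⟩ := hz
      have : (2 : ℝ) ≤ z.1 := by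
        rw [← hz1]; exact_mod_cast (hprop d hd).1.two_le
      have h2 : 0 < (z.1 : ℝ) * (z.1 - 1) := by nlinarith
      positivity
  rw [Finset.sum_product] at hsum
  have hsum2 : ∑ q ∈ Q, ∑ e ∈ T', (1 : ℝ) / (q * (q - 1)) * (1 / e) =
      (∑ q ∈ Q, (1 : ℝ) / (q * (q - 1))) * ∑ e ∈ T', (1 : ℝ) / e := by
    rw [Finset.sum_mul_sum]
  have hsum3 : ∑ d ∈ T, (1 : ℝ) / d ≤
      (∑ q ∈ Q, (1 : ℝ) / (q * (q - 1))) * ∑ e ∈ T', (1 : ℝ) / e := by
    rw [← hsum2]; exact hsum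
  have hT'sm : ∑ e ∈ T', (1 : ℝ) / e ≤ 243 * Real.exp 135 * Real.exp (30 * B) := by
    apply sum_inv_smooth_NB hB0
    intro e he
    rw [hT', Finset.mem_image] at he
    obtain ⟨d, hd, rfl⟩ := he
    have h1 := smooth_of_FF hB0 (hT d hd).1 (hT d hd).2.1
    have h2 : d / (Pm (rr d) * (Pm (rr d) - 1)) ∣ d := Nat.div_dvd_of_dvd (hprop d hd).2.2.2
    rw [Nat.mem_smoothNumbers'] at h1 ⊢
    intro p hp hpe
    exact h1 p hp (hpe.trans h2)
  have hQsum : ∑ q ∈ Q, (1 : ℝ) / (q * (q - 1)) ≤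
      2 * Real.exp (-Real.exp (9 / 10 * B)) * (8 * B) := by
    have h1 : ∑ q ∈ Q, (1 : ℝ) / (q * (q - 1)) ≤
        ∑ q ∈ Q, 2 * Real.exp (-Real.exp (9 / 10 * B)) * ((1 : ℝ) / q) := by
      apply Finset.sum_le_sum
      intro q hq
      rw [hQ, Finset.mem_image] at hq
      obtain ⟨d, hd, rfl⟩ := hq
      obtain ⟨h1, h2, h3, h4⟩ := hprop d hd
      have h5 : (2 : ℝ) ≤ Pm (rr d) := by exact_mod_cast h1.two_le
      set q : ℝ := (Pm (rr d) : ℝ) with hqdef
      have h6 : 1 / (q * (q - 1)) ≤ 2 / q * (1 / q) := by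
        rw [div_mul_div_comm, div_le_div_iff₀ (by nlinarith) (by positivity)]
        nlinarith
      refine h6.trans ?_
      apply mul_le_mul_of_nonneg_right _ (by positivity)
      rw [Real.exp_neg, div_eq_mul_inv]
      apply mul_le_mul_of_nonneg_left _ (by norm_num)
      exact inv_anti₀ (Real.exp_pos _) h3
    rw [← Finset.mul_sum] at h1
    refine h1.trans ?_
    apply mul_le_mul_of_nonneg_left _ (by positivity)
    apply sum_primes_NB hB
    intro q hq
    rw [hQ, Finset.mem_image] at hq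
    obtain ⟨d, hd, rfl⟩ := hq
    exact ⟨(hprop d hd).1, (hprop d hd).2.1⟩
  have hT'0 : 0 ≤ ∑ e ∈ T', (1 : ℝ) / e := Finset.sum_nonneg (fun i _ => by positivity)
  calc ∑ d ∈ T, (1 : ℝ) / d ≤ _ := hsum3
    _ ≤ (2 * Real.exp (-Real.exp (9 / 10 * B)) * (8 * B)) *
        (243 * Real.exp 135 * Real.exp (30 * B)) :=
        mul_le_mul hQsum hT'sm hT'0 (by positivity)
    _ ≤ 243 * Real.exp 135 * (32 * B * Real.exp (30 * B)) *
      Real.exp (-Real.exp (9 / 10 * B)) := by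
        have : 0 ≤ 243 * Real.exp 135 * (B * Real.exp (30 * B)) *
          Real.exp (-Real.exp (9 / 10 * B)) := by positivity
        linarith
    _ ≤ δ := hc

end Crest.Agent.R020.Top
end

-- ▼ part R020/TopSum3
section

/-!
Row 20, top step (helper369): totients with a large top prime are controlled by `S1B (0.95 B)`.
-/

set_option autoImplicit false

open Filter Topology Finset
open scoped ENNReal
open Crest.NumberTheoryR.TotientScale

namespace Crest.Agent.R020.Top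

theorem FF_Tc_le (d : ℕ) : FF (Tc aa) d ≤ (1 + aa 0) * FF (fun i => aa (i + 1)) d := by
  have h1 : FF (Tc aa) d = aa 0 * FF aa d + FF (fun i => aa (i + 1)) d := by
    have : Tc aa = fun i => aa 0 * aa i + aa (i + 1) := rfl
    rw [this, FF_add (fun i => aa 0 * aa i) (fun i => aa (i + 1)), FF_smul]
  have h2 : FF aa d ≤ FF (fun i => aa (i + 1)) d := by
    apply FF_mono
    intro i
    exact Crest.Agent.R020.aCoef_mono (by omega) (by omega)
  rw [h1]
  have := mul_le_mul_of_nonneg_left h2 (aa_nonneg 0)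
  linarith

/-- the finite sum version of `S1B`. -/
theorem sum_le_S1B (R : ℝ) (hfin : S1B R ≠ ⊤) (T : Finset ℕ) (hT : ∀ d ∈ T, IsTot d) :
    ∑ d ∈ T, max 0 (R - FF (Tc aa) d) / (d : ℝ) ≤ (S1B R).toReal := by
  have h1 : S1B R = ws (fun d => ENNReal.ofReal (max 0 (R - FF (Tc aa) d) / (d : ℝ)))
      {d | IsTot d} := wsum_eq _ _ (fun d hd => IsTot.pos hd) (fun d => le_max_left _ _)
  rw [h1]
  have h2 : ws (fun d => ENNReal.ofReal (max 0 (R - FF (Tc aa) d) / (d : ℝ)))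
      {d | IsTot d} ≠ ⊤ := by rw [← h1]; exact hfin
  exact sum_le_ws (fun d => max 0 (R - FF (Tc aa) d) / (d : ℝ)) {d | IsTot d} T
    (fun d _ => div_nonneg (le_max_left _ _) (by positivity)) (fun d hd => hT d hd) h2

theorem sum_large_nsq {E : ℝ → ℝ} (hE : ∀ᶠ B : ℝ in atTop, E B ≤ B / 50)
    (hfin : ∀ R : ℝ, S1B R ≠ ⊤) :
    ∀ᶠ B : ℝ in atTop, ∀ T : Finset ℕ,
      (∀ d ∈ T, IsTot d ∧ FF aa d ≤ B + E B ∧ 9 / 10 * B ≤ y1 d ∧ ¬ Pm (rr d) ^ 2 ∣ rr d) →
      ∑ d ∈ T, (1 : ℝ) / d ≤ 960 * (S1B (95 / 100 * B)).toReal := by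
  classical
  filter_upwards [hE, eventually_ge_atTop 16] with B hE hB T hT
  have hB0 : 0 ≤ B := by linarith
  have ha := aa_zero_gt
  have ha' := aa_zero_lt
  have hprop : ∀ d ∈ T, (Pm (rr d)).Prime ∧ yy (Pm (rr d)) ≤ 6 * B ∧ IsTot (tl d) ∧
      d = (Pm (rr d) - 1) * tl d ∧ FF (Tc aa) (tl d) ≤ 933 / 1000 * B := by
    intro d hd
    obtain ⟨h1, h2, h3, h4⟩ := hT d hd
    have hd1 : d ≠ 1 := by
      rintro rfl
      rw [y1_one] at h3
      linarith
    obtain ⟨hP, htl, hdeq, -, -, -⟩ := totient_decomp h1 hd1 h4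
    have h5 : aa 0 * y1 d ≤ B + E B := (mul_y1_le_FF aa_nonneg d).trans h2
    have h6 : 0.386 * yy (Pm (rr d)) ≤ aa 0 * y1 d :=
        mul_le_mul_of_nonneg_right ha.le (yy_nonneg _)
    refine ⟨hP, by linarith, htl, hdeq, ?_⟩
    have h7 := FF_decomp aa h1 hd1 h4
    have h8 : 0.386 * (9 / 10 * B) ≤ aa 0 * y1 d :=
      mul_le_mul ha.le h3 (by positivity) (by linarith)
    have h9 : FF (fun i => aa (i + 1)) (tl d) ≤ 6726 / 10000 * B := by linarith
    have h10 := FF_Tc_le (tl d)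
    have h11 : 0 ≤ FF (fun i => aa (i + 1)) (tl d) := FF_nonneg (fun i => aa_nonneg _) _
    calc FF (Tc aa) (tl d) ≤ (1 + aa 0) * FF (fun i => aa (i + 1)) (tl d) := h10
      _ ≤ (1 + 0.387) * (6726 / 10000 * B) :=
          mul_le_mul (by linarith) h9 h11 (by norm_num)
      _ ≤ 933 / 1000 * B := by nlinarith
  set Q := T.image (fun d => Pm (rr d)) with hQ
  set T' := T.image tl with hT'
  have hsum : ∑ d ∈ T, (1 : ℝ) / d ≤
      ∑ z ∈ Q ×ˢ T', (1 : ℝ) / ((z.1 : ℝ) - 1) * (1 / z.2) := by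
    have hinj : Set.InjOn (fun d => (Pm (rr d), tl d)) (T : Set ℕ) := by
      intro d hd e he hde
      simp only [Prod.mk.injEq] at hde
      rw [(hprop d hd).2.2.2.1, (hprop e he).2.2.2.1, hde.1, hde.2]
    have h1 : ∑ d ∈ T, (1 : ℝ) / d = ∑ z ∈ T.image (fun d => (Pm (rr d), tl d)),
        (1 : ℝ) / ((z.1 : ℝ) - 1) * (1 / z.2) := by
      rw [Finset.sum_image hinj]
      apply Finset.sum_congr rfl
      intro d hd
      obtain ⟨h1, h2, h3, h4, h5⟩ := hprop d hd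
      have h6 : (d : ℝ) = ((Pm (rr d) : ℝ) - 1) * tl d := by
        conv_lhs => rw [h4]
        push_cast [Nat.cast_sub h1.one_le]
        ring
      simp only
      rw [one_div_mul_one_div, ← h6]
    rw [h1]
    apply Finset.sum_le_sum_of_subset_of_nonneg
    · intro z hz
      rw [Finset.mem_image] at hz
      obtain ⟨d, hd, rfl⟩ := hz
      rw [Finset.mem_product]
      exact ⟨Finset.mem_image_of_mem _ hd, Finset.mem_image_of_mem _ hd⟩
    · intro z hz _
      rw [Finset.mem_product, hQ, Finset.mem_image] at hz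
      obtain ⟨⟨d, hd, hz1⟩, -⟩ := hz
      have : (2 : ℝ) ≤ z.1 := by
        rw [← hz1]; exact_mod_cast (hprop d hd).1.two_le
      have h2 : 0 < (z.1 : ℝ) - 1 := by linarith
      positivity
  rw [Finset.sum_product] at hsum
  have hsum3 : ∑ d ∈ T, (1 : ℝ) / d ≤
      (∑ q ∈ Q, (1 : ℝ) / ((q : ℝ) - 1)) * ∑ e ∈ T', (1 : ℝ) / e := by
    rw [Finset.sum_mul_sum]; exact hsum
  have hQsum : ∑ q ∈ Q, (1 : ℝ) / ((q : ℝ) - 1) ≤ 2 * (8 * B) := by
    have h1 : ∑ q ∈ Q, (1 : ℝ) / ((q : ℝ) - 1) ≤ ∑ q ∈ Q, 2 * ((1 : ℝ) / q) := by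
      apply Finset.sum_le_sum
      intro q hq
      rw [hQ, Finset.mem_image] at hq
      obtain ⟨d, hd, rfl⟩ := hq
      have h5 : (2 : ℝ) ≤ Pm (rr d) := by exact_mod_cast (hprop d hd).1.two_le
      rw [mul_one_div, div_le_div_iff₀ (by linarith) (by linarith)]
      linarith
    rw [← Finset.mul_sum] at h1
    refine h1.trans ?_
    apply mul_le_mul_of_nonneg_left _ (by norm_num)
    apply sum_primes_NB hB
    intro q hq
    rw [hQ, Finset.mem_image] at hq
    obtain ⟨d, hd, rfl⟩ := hq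
    exact ⟨(hprop d hd).1, (hprop d hd).2.1⟩
  have hT'mem : ∀ e ∈ T', IsTot e ∧ FF (Tc aa) e ≤ 933 / 1000 * B := by
    intro e he
    rw [hT', Finset.mem_image] at he
    obtain ⟨d, hd, rfl⟩ := he
    exact ⟨(hprop d hd).2.2.1, (hprop d hd).2.2.2.2⟩
  have hT's : ∑ e ∈ T', (1 : ℝ) / e ≤ 60 / B * (S1B (95 / 100 * B)).toReal := by
    have h1 := sum_le_S1B (95 / 100 * B) (hfin _) T' (fun e he => (hT'mem e he).1)
    have h2 : ∑ e ∈ T', (B / 60) * ((1 : ℝ) / e) ≤
        ∑ e ∈ T', max 0 (95 / 100 * B - FF (Tc aa) e) / (e : ℝ) := by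
      apply Finset.sum_le_sum
      intro e he
      rw [mul_one_div]
      apply div_le_div_of_nonneg_right _ (by positivity)
      refine le_trans ?_ (le_max_right _ _)
      have := (hT'mem e he).2
      linarith
    rw [← Finset.mul_sum] at h2
    have h3 : B / 60 * ∑ e ∈ T', (1 : ℝ) / e ≤ (S1B (95 / 100 * B)).toReal := h2.trans h1
    have hB' : 0 < B := by linarith
    have h4 : ∑ e ∈ T', (1 : ℝ) / e = 60 / B * (B / 60 * ∑ e ∈ T', (1 : ℝ) / e) := by
      field_simp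
    rw [h4]
    exact mul_le_mul_of_nonneg_left h3 (by positivity)
  have hT'0 : 0 ≤ ∑ e ∈ T', (1 : ℝ) / e := Finset.sum_nonneg (fun i _ => by positivity)
  have hB' : 0 < B := by linarith
  calc ∑ d ∈ T, (1 : ℝ) / d ≤ _ := hsum3
    _ ≤ (2 * (8 * B)) * (60 / B * (S1B (95 / 100 * B)).toReal) :=
        mul_le_mul hQsum hT's hT'0 (by positivity)
    _ = 960 * (S1B (95 / 100 * B)).toReal := by field_simp; ring

/-- totients with a large top prime -/
theorem sum_large {E : ℝ → ℝ} (hE : ∀ᶠ B : ℝ in atTop, E B ≤ B / 50)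
    (hfin : ∀ R : ℝ, S1B R ≠ ⊤) {δ : ℝ} (hδ : 0 < δ) :
    ∀ᶠ B : ℝ in atTop, ∀ T : Finset ℕ,
      (∀ d ∈ T, IsTot d ∧ FF aa d ≤ B + E B ∧ 9 / 10 * B ≤ y1 d) →
      ∑ d ∈ T, (1 : ℝ) / d ≤ 960 * (S1B (95 / 100 * B)).toReal + δ := by
  classical
  filter_upwards [hE, sum_large_nsq hE hfin, sum_large_sq hδ, eventually_ge_atTop 0] with
    B hE h1 h2 hB T hT
  rw [← Finset.sum_filter_add_sum_filter_not T (fun d => ¬ Pm (rr d) ^ 2 ∣ rr d)]
  apply add_le_add
  · apply h1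
    intro d hd
    rw [Finset.mem_filter] at hd
    obtain ⟨a, b, c⟩ := hT d hd.1
    exact ⟨a, b, c, hd.2⟩
  · apply h2
    intro d hd
    rw [Finset.mem_filter, not_not] at hd
    obtain ⟨a, b, c⟩ := hT d hd.1
    exact ⟨a, by linarith, c, hd.2⟩

end Crest.Agent.R020.Top
end

-- ▼ part R020/TopFinal
section

/-!
Row 20, top step (helper369): upper bound `V(x) ≤ (1+ε) (x / log x) S(B + B^0.97)`.
-/

set_option autoImplicit false

open Filter Topology Finset
open scoped ENNReal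
open Crest.NumberTheoryR.TotientScale

namespace Crest.Agent.R020.Top

theorem SB_eq (R : ℝ) :
    SB R = ws (fun d => ENNReal.ofReal (1 / (d : ℝ))) {d | IsTot d ∧ FF aa d ≤ R} :=
  wt_eq _ (fun _ hd => IsTot.pos hd.1)

theorem SB_ne_top (R : ℝ) : SB R ≠ ⊤ := by
  rw [SB_eq]
  refine ne_top_of_le_ne_top ENNReal.ofReal_ne_top
    (ws_le_of_finite (fun d => 1 / (d : ℝ)) _ (243 * Real.exp 135 * Real.exp (30 * |R|))
      (fun d _ => by positivity) ?_)
  intro T hT
  apply sum_inv_smooth_NB (abs_nonneg R)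
  intro d hd
  obtain ⟨h1, h2⟩ := hT d hd
  apply smooth_of_FF (abs_nonneg R) h1
  have := le_abs_self R
  have := abs_nonneg R
  linarith

theorem SB_mono {R R' : ℝ} (h : R ≤ R') : SB R ≤ SB R' :=
  wt_mono (fun _ hd => ⟨hd.1, hd.2.trans h⟩)

theorem SB_toReal_mono {R R' : ℝ} (h : R ≤ R') : (SB R).toReal ≤ (SB R').toReal :=
  ENNReal.toReal_mono (SB_ne_top R') (SB_mono h)

theorem sum_le_SB (R : ℝ) (T : Finset ℕ) (hT : ∀ d ∈ T, IsTot d ∧ FF aa d ≤ R) :
    ∑ d ∈ T, (1 : ℝ) / d ≤ (SB R).toReal := by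
  have h2 : ws (fun d => ENNReal.ofReal (1 / (d : ℝ))) {d | IsTot d ∧ FF aa d ≤ R} ≠ ⊤ := by
    rw [← SB_eq]; exact SB_ne_top R
  rw [SB_eq]
  exact sum_le_ws (fun d => 1 / (d : ℝ)) _ T (fun d _ => by positivity) (fun d hd => hT d hd) h2

theorem one_le_SB {R : ℝ} (hR : 0 ≤ R) : 1 ≤ (SB R).toReal := by
  have := sum_le_SB R {1} (by
    intro d hd
    rw [Finset.mem_singleton] at hd
    subst hd
    exact ⟨isTot_one, by rw [FF_one]; exact hR⟩)
  simpa using this

/-- the margin -/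
noncomputable def EE (B : ℝ) : ℝ := B ^ (19 / 20 : ℝ)

theorem EE_le : ∀ᶠ B : ℝ in atTop, EE B ≤ B / 50 := by
  have h1 : Tendsto (fun B : ℝ => B ^ (1 / 20 : ℝ)) atTop atTop :=
    tendsto_rpow_atTop (by norm_num)
  filter_upwards [h1.eventually_ge_atTop 50, eventually_gt_atTop 0] with B h1 hB
  unfold EE
  have h2 : B = B ^ (19 / 20 : ℝ) * B ^ (1 / 20 : ℝ) := by
    rw [← Real.rpow_add hB]; norm_num
  have h3 : 0 < B ^ (19 / 20 : ℝ) := by positivity
  rw [le_div_iff₀ (by norm_num)]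
  calc B ^ (19 / 20 : ℝ) * 50 ≤ B ^ (19 / 20 : ℝ) * B ^ (1 / 20 : ℝ) :=
        mul_le_mul_of_nonneg_left h1 h3.le
    _ = B := h2.symm

theorem EE_le' {B : ℝ} (hB : 1 ≤ B) : EE B ≤ B ^ (97 / 100 : ℝ) :=
  Real.rpow_le_rpow_of_exponent_le hB (by norm_num)

/-- covering of the totients `≤ x`. -/
theorem cover {ε x : ℝ} (hx1 : 1 < x)
    (hc1 : 1 ≤ ε * Real.exp (Real.log (Real.log x) / 20)) {v : ℕ} (hv : IsTot v)
    (hvx : (v : ℝ) ≤ x) :
    v = 1 ∨ kk (Real.log (Real.log x)) ≤ ArithmeticFunction.cardFactors v ∨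
      (v : ℝ) ≤ x ^ (2 * ε) ∨
      (∃ q, ⌊Real.exp (Real.exp (9 / 10 * Real.log (Real.log x)))⌋₊ ≤ q ∧ q * (q - 1) ∣ v) ∨
      v ∈ BadS EE x ∨
      (∃ q d, q.Prime ∧ d ∈ DS EE ε x ∧ v = (q - 1) * d) ∨
      (v ≠ 1 ∧ ¬ Pm (rr v) ^ 2 ∣ rr v ∧
        FF aa (tl v) ≤ Real.log (Real.log x) + EE (Real.log (Real.log x)) ∧
        x ^ ε < (rr (tl v) : ℕ) ∧
        ArithmeticFunction.cardFactors (rr v) ≤ kk (Real.log (Real.log x))) := by
  by_cases hv1 : v = 1
  · exact Or.inl hv1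
  by_cases hk : kk (Real.log (Real.log x)) ≤ ArithmeticFunction.cardFactors v
  · exact Or.inr (Or.inl hk)
  right; right
  push Not at hk
  have hlogx : 0 < Real.log x := Real.log_pos hx1
  set B := Real.log (Real.log x) with hB
  have hexpB : Real.exp B = Real.log x := by rw [hB, Real.exp_log hlogx]
  have hx0 : 0 < x := by linarith
  obtain ⟨q, m, hq, hm, heq, hPm, hle, hsq, hnsq⟩ := decomp hv hv1
  have hΩ : ArithmeticFunction.cardFactors (rr v) ≤ kk B := by
    have h1 := (cardFactors_le_totient (rr v) (rr_pos v).ne').1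
    rw [totient_rr hv] at h1
    omega
  have hvle : v ≤ rr v := by
    have := Nat.totient_le (rr v)
    rwa [totient_rr hv] at this
  by_cases hqm : q ∣ m
  · by_cases hmx : (m : ℝ) ≤ x ^ ε
    · left
      have h1 : q ≤ m := Nat.le_of_dvd hm hqm
      have h2 : v ≤ m * m := hvle.trans (by rw [heq]; exact Nat.mul_le_mul_right m h1)
      calc (v : ℝ) ≤ (m : ℝ) * m := by exact_mod_cast h2
        _ ≤ x ^ ε * x ^ ε := mul_le_mul hmx hmx (by positivity) (by positivity)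
        _ = x ^ (2 * ε) := by rw [← Real.rpow_add hx0]; ring_nf
    · push Not at hmx
      right; left
      refine ⟨q, ?_, hsq hqm⟩
      have hm0 : m ≠ 0 := hm.ne'
      have h1 := log_le_card hm0 hle
      have h2 : (ArithmeticFunction.cardFactors m : ℝ) ≤ Real.exp (B / 20) := by
        have h3 : ArithmeticFunction.cardFactors m ≤ kk B := by
          rw [heq, ArithmeticFunction.cardFactors_mul hq.ne_zero hm0] at hΩ
          omega
        calc (ArithmeticFunction.cardFactors m : ℝ) ≤ (kk B : ℝ) := by exact_mod_cast h3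
          _ ≤ _ := Nat.floor_le (Real.exp_pos _).le
      have hlogm : ε * Real.log x ≤ Real.log m := by
        rw [← Real.log_rpow hx0]
        exact Real.log_le_log (by positivity) hmx.le
      have hlogq : 0 < Real.log q := Real.log_pos (by exact_mod_cast hq.one_lt)
      have h4 : ε * Real.exp B ≤ Real.exp (B / 20) * Real.log q := by
        rw [hexpB]
        calc ε * Real.log x ≤ Real.log m := hlogm
          _ ≤ _ := h1
          _ ≤ Real.exp (B / 20) * Real.log q := mul_le_mul_of_nonneg_right h2 hlogq.le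
      have h3 : Real.exp (9 / 10 * B) ≤ Real.log q := by
        have e1 : Real.exp B =
            Real.exp (B / 20) * (Real.exp (B / 20) * Real.exp (9 / 10 * B)) := by
          rw [← Real.exp_add, ← Real.exp_add]; congr 1; ring
        have hpos := Real.exp_pos (B / 20)
        have h5 : Real.exp (B / 20) * Real.exp (9 / 10 * B) ≤ Real.exp (B / 20) * Real.log q := by
          calc Real.exp (B / 20) * Real.exp (9 / 10 * B)
              ≤ Real.exp (B / 20) * ((ε * Real.exp (B / 20)) * Real.exp (9 / 10 * B)) := by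
                apply mul_le_mul_of_nonneg_left _ hpos.le
                exact le_mul_of_one_le_left (Real.exp_pos _).le hc1
            _ = ε * Real.exp B := by rw [e1]; ring
            _ ≤ _ := h4
        exact le_of_mul_le_mul_left h5 hpos
      have hq0 : (0 : ℝ) < q := by exact_mod_cast hq.pos
      rw [Real.le_log_iff_exp_le hq0] at h3
      apply Nat.floor_le_of_le h3
  · obtain ⟨h1, h2, h3, h4, h5⟩ := hnsq hqm
    have hsq' : ¬ Pm (rr v) ^ 2 ∣ rr v := by rw [hPm]; exact h4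
    right; right
    by_cases hF : FF aa (tl v) ≤ B + EE B
    · right
      by_cases hmx : (m : ℝ) ≤ x ^ ε
      · left
        refine ⟨q, Nat.totient m, hq, ?_, h1⟩
        unfold DS
        rw [mem_TF]
        refine ⟨?_, h5, by rw [← h3]; exact hF⟩
        apply Nat.le_floor
        refine le_trans ?_ hmx
        exact_mod_cast Nat.totient_le m
      · push Not at hmx
        right
        refine ⟨hv1, hsq', hF, ?_, hΩ⟩
        rw [h3, h2]
        exact hmx
    · left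
      unfold BadS
      rw [mem_TF]
      refine ⟨Nat.le_floor hvx, hv, hsq', ?_⟩
      push Not at hF
      exact hF

/-- many small error terms -/
theorem small_errors {δ ε : ℝ} (hδ : 0 < δ) (hε : 0 < ε) (hε1 : ε ≤ 1 / 8) :
    ∀ᶠ x : ℝ in atTop, 1 ≤ δ * (x / Real.log x) ∧ x ^ (2 * ε) ≤ δ * (x / Real.log x) ∧
      2 * (x / Real.log x) / Real.log x ≤ δ * (x / Real.log x) ∧
      x / ((⌊Real.exp (Real.exp (9 / 10 * Real.log (Real.log x)))⌋₊ : ℝ) - 1) ≤
        δ * (x / Real.log x) ∧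
      2 ≤ ⌊Real.exp (Real.exp (9 / 10 * Real.log (Real.log x)))⌋₊ ∧
      x ^ (3 / 5 : ℝ) * 2 ≤ δ * (x / Real.log x) := by
  have h1 : ∀ᶠ x : ℝ in atTop, Real.log x ≤ δ / 2 * x ^ (1 / 5 : ℝ) := by
    have := (isLittleO_log_rpow_atTop (show (0 : ℝ) < 1 / 5 by norm_num)).bound
      (show (0 : ℝ) < δ / 2 by positivity)
    filter_upwards [this, eventually_ge_atTop 1] with x hx hx1
    rwa [Real.norm_of_nonneg (Real.log_nonneg hx1),
      Real.norm_of_nonneg (by positivity)] at hx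
  have h2 : ∀ᶠ x : ℝ in atTop, 2 / δ ≤ Real.log x :=
    Real.tendsto_log_atTop.eventually_ge_atTop _
  have h3 : ∀ᶠ B : ℝ in atTop, Real.exp B / δ + 3 ≤ Real.exp (Real.exp (9 / 10 * B)) := by
    have h4 : Tendsto (fun B : ℝ => Real.exp (9 / 10 * B)) atTop atTop :=
      Real.tendsto_exp_atTop.comp (tendsto_id.const_mul_atTop (by norm_num))
    have h5 := isLittleO_pow_exp_pos_mul_atTop (k := 1) (b := 9 / 10) (by norm_num)
    have h6 := h5.bound (show (0 : ℝ) < 1 / 2 by norm_num)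
    have h7 : ∀ᶠ B : ℝ in atTop, 1 / δ + 3 ≤ Real.exp B := Real.tendsto_exp_atTop.eventually_ge_atTop _
    filter_upwards [h6, h7, eventually_ge_atTop 1] with B hB h7 hB1
    rw [pow_one, Real.norm_of_nonneg (by linarith), Real.norm_of_nonneg (Real.exp_pos _).le] at hB
    have h8 : Real.exp (2 * B) ≤ Real.exp (Real.exp (9 / 10 * B)) := by
      rw [Real.exp_le_exp]; linarith
    have h9 : Real.exp (2 * B) = Real.exp B * Real.exp B := by rw [← Real.exp_add]; ring_nf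
    have h10 : 1 ≤ Real.exp B := Real.one_le_exp (by linarith)
    have h11 : Real.exp B / δ + 3 ≤ Real.exp B * (1 / δ + 3) := by
      rw [mul_add, mul_one_div]
      linarith
    have h12 : Real.exp B * (1 / δ + 3) ≤ Real.exp B * Real.exp B :=
      mul_le_mul_of_nonneg_left h7 (Real.exp_pos _).le
    linarith
  filter_upwards [h1, h2, tendsto_loglog.eventually h3, eventually_gt_atTop 1] with x h1 h2 h3 hx
  have hx0 : 0 < x := by linarith
  have hlog : 0 < Real.log x := Real.log_pos hx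
  have hpos5 : 0 < x ^ (1 / 5 : ℝ) := by positivity
  have hx45 : x = x ^ (4 / 5 : ℝ) * x ^ (1 / 5 : ℝ) := by
    rw [← Real.rpow_add hx0]; norm_num
  -- `2 x^{4/5} ≤ δ x / log x`
  have hA : 2 * x ^ (4 / 5 : ℝ) ≤ δ * (x / Real.log x) := by
    rw [← mul_div_assoc, le_div_iff₀ hlog]
    have h4 : 0 < x ^ (4 / 5 : ℝ) := by positivity
    calc 2 * x ^ (4 / 5 : ℝ) * Real.log x ≤ 2 * x ^ (4 / 5 : ℝ) * (δ / 2 * x ^ (1 / 5 : ℝ)) :=
          mul_le_mul_of_nonneg_left h1 (by positivity)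
      _ = δ * (x ^ (4 / 5 : ℝ) * x ^ (1 / 5 : ℝ)) := by ring
      _ = δ * x := by rw [← hx45]
  have hone : 1 ≤ x ^ (4 / 5 : ℝ) := Real.one_le_rpow hx.le (by norm_num)
  have h25 : x ^ (2 * ε) ≤ x ^ (4 / 5 : ℝ) :=
    Real.rpow_le_rpow_of_exponent_le hx.le (by linarith)
  have h35 : x ^ (3 / 5 : ℝ) ≤ x ^ (4 / 5 : ℝ) :=
    Real.rpow_le_rpow_of_exponent_le hx.le (by norm_num)
  rw [Real.exp_log hlog] at h3
  have hfl := Nat.lt_floor_add_one (Real.exp (Real.exp (9 / 10 * Real.log (Real.log x))))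
  have hq : Real.log x / δ ≤
      (⌊Real.exp (Real.exp (9 / 10 * Real.log (Real.log x)))⌋₊ : ℝ) - 1 := by linarith
  refine ⟨by linarith, by linarith, ?_, ?_, ?_, by linarith⟩
  · rw [div_le_iff₀ hlog]
    have h5 : 0 < x / Real.log x := by positivity
    have h6 : 2 ≤ δ * Real.log x := by
      rw [div_le_iff₀ hδ] at h2
      linarith
    calc 2 * (x / Real.log x) ≤ (δ * Real.log x) * (x / Real.log x) :=
          mul_le_mul_of_nonneg_right h6 h5.le
      _ = _ := by ring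
  · have h6 : 0 < Real.log x / δ := by positivity
    calc x / ((⌊Real.exp (Real.exp (9 / 10 * Real.log (Real.log x)))⌋₊ : ℝ) - 1)
        ≤ x / (Real.log x / δ) := div_le_div_of_nonneg_left hx0.le h6 hq
      _ = δ * (x / Real.log x) := by field_simp
  · apply Nat.le_floor
    have h6 : 0 < Real.log x / δ := by positivity
    push_cast
    linarith

theorem tendsto_exp_neg_rpow {c : ℝ} (hc : 0 < c) :
    Tendsto (fun B : ℝ => Real.exp (-B ^ c)) atTop (𝓝 0) :=
  Real.tendsto_exp_atBot.comp (tendsto_neg_atTop_atBot.comp (tendsto_rpow_atTop hc))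

set_option maxHeartbeats 1000000 in
/-- **Upper bound of the top step.** -/
theorem upper (hUc : StmtUc) (hS1 : StmtS1) {ε : ℝ} (hε : 0 < ε) :
    ∀ᶠ x : ℝ in atTop, (totientCount x : ℝ) ≤
      (1 + ε) * (x / Real.log x) * (SB (bigB x + bigB x ^ (97 / 100 : ℝ))).toReal := by
  classical
  obtain ⟨c0, B0, hc0, hUc⟩ := hUc
  obtain ⟨hfin, hS1⟩ := hS1
  set δ : ℝ := ε / 16 with hδdef
  have hδ : 0 < δ := by positivity
  set η : ℝ := min (ε / 8) (1 / 8) with hηdef
  have hη : 0 < η := by positivity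
  have hη1 : η ≤ 1 / 8 := min_le_right _ _
  have hη2 : η ≤ ε / 8 := min_le_left _ _
  have hl4 : 0 < Real.log 4 := Real.log_pos (by norm_num)
  have hc1 : ∀ᶠ B : ℝ in atTop, 1 ≤ η * Real.exp (B / 20) := by
    have h2 : Tendsto (fun B : ℝ => Real.exp (B / 20)) atTop atTop :=
      Real.tendsto_exp_atTop.comp (tendsto_id.atTop_div_const (by norm_num))
    exact (h2.const_mul_atTop hη).eventually_ge_atTop 1
  have hbad : ∀ᶠ B : ℝ in atTop, Real.exp (-B ^ c0) ≤ δ :=
    (tendsto_exp_neg_rpow hc0).eventually_le_const hδ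
  have hs1 : ∀ᶠ B : ℝ in atTop, (S1B (95 / 100 * B)).toReal / (SB B).toReal ≤
      δ / (16 * Real.log 4 * 960) := hS1.eventually_le_const (by positivity)
  have hlarge := sum_large EE_le hfin (δ := δ / (16 * Real.log 4)) (by positivity)
  filter_upwards [small_errors hδ hη hη1, card_rare hδ, card_large EE_le hη,
    primeCounting_div_le hη (by linarith), tendsto_loglog.eventually hc1,
    tendsto_loglog.eventually hbad, tendsto_loglog.eventually hs1,
    tendsto_loglog.eventually hlarge, tendsto_loglog.eventually_ge_atTop (max B0 1),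
    eventually_ge_atTop 3] with x hsm hrare hlar hpi hc1 hbad hs1 hlarge hB hx3
  obtain ⟨e1, e2, e3, e4, e5, -⟩ := hsm
  have hx0 : 0 < x := by linarith
  have hx1 : 1 < x := by linarith
  have hlogx : 0 < Real.log x := Real.log_pos hx1
  set B := Real.log (Real.log x) with hBdef
  have hB0 : B0 ≤ B := (le_max_left _ _).trans hB
  have hB1 : 1 ≤ B := (le_max_right _ _).trans hB
  have hbigB : bigB x = B := rfl
  rw [hbigB]
  set X := x / Real.log x with hX
  have hX0 : 0 < X := by positivity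
  set S := (SB (B + B ^ (97 / 100 : ℝ))).toReal with hS
  have hBp : 0 ≤ B ^ (97 / 100 : ℝ) := by positivity
  have hS1' : 1 ≤ S := one_le_SB (by linarith)
  have hSB : (SB B).toReal ≤ S := SB_toReal_mono (by linarith)
  have hSBE : (SB (B + EE B)).toReal ≤ S := SB_toReal_mono (by linarith [EE_le' hB1])
  have hSBpos : 0 < (SB B).toReal := by
    have := one_le_SB (R := B) (by linarith)
    linarith
  set V := TF ⌊x⌋₊ (fun _ => True) with hV
  set A1 := V.filter (fun v => kk B ≤ ArithmeticFunction.cardFactors v) with hA1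
  set A2 := V.filter (fun v : ℕ => (v : ℝ) ≤ x ^ (2 * η)) with hA2
  set A3 := V.filter (fun v => ∃ q, ⌊Real.exp (Real.exp (9 / 10 * B))⌋₊ ≤ q ∧
    q * (q - 1) ∣ v) with hA3
  set A5 := V.filter (fun v => ∃ q d, q.Prime ∧ d ∈ DS EE η x ∧ v = (q - 1) * d) with hA5
  set A6 := V.filter (fun v => v ≠ 1 ∧ ¬ Pm (rr v) ^ 2 ∣ rr v ∧
        FF aa (tl v) ≤ B + EE B ∧ x ^ η < (rr (tl v) : ℕ) ∧
        ArithmeticFunction.cardFactors (rr v) ≤ kk B) with hA6
  have hVmem : ∀ v ∈ V, 0 < v ∧ (v : ℝ) ≤ x ∧ IsTot v := by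
    intro v hv
    obtain ⟨a, b, c, -⟩ := mem_TF_real hx0.le hv
    exact ⟨a, b, c⟩
  have hsub : V ⊆ {1} ∪ A1 ∪ A2 ∪ A3 ∪ BadS EE x ∪ A5 ∪ A6 := by
    intro v hv
    obtain ⟨a, b, c⟩ := hVmem v hv
    rcases cover hx1 hc1 c b with h | h | h | h | h | h | h
    · exact Finset.mem_union_left _ (Finset.mem_union_left _ (Finset.mem_union_left _ (Finset.mem_union_left _ (Finset.mem_union_left _ (Finset.mem_union_left _ (Finset.mem_singleton.2 h))))))
    · exact Finset.mem_union_left _ (Finset.mem_union_left _ (Finset.mem_union_left _ (Finset.mem_union_left _ (Finset.mem_union_left _ (Finset.mem_union_right _ (Finset.mem_filter.2 ⟨hv, h⟩))))))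
    · exact Finset.mem_union_left _ (Finset.mem_union_left _ (Finset.mem_union_left _ (Finset.mem_union_left _ (Finset.mem_union_right _ (Finset.mem_filter.2 ⟨hv, h⟩)))))
    · exact Finset.mem_union_left _ (Finset.mem_union_left _ (Finset.mem_union_left _ (Finset.mem_union_right _ (Finset.mem_filter.2 ⟨hv, h⟩))))
    · exact Finset.mem_union_left _ (Finset.mem_union_left _ (Finset.mem_union_right _ h))
    · exact Finset.mem_union_left _ (Finset.mem_union_right _ (Finset.mem_filter.2 ⟨hv, h⟩))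
    · exact Finset.mem_union_right _ (Finset.mem_filter.2 ⟨hv, h⟩)
  have hcard : (V.card : ℝ) ≤ 1 + A1.card + A2.card + A3.card + (BadS EE x).card + A5.card +
      A6.card := by
    have h1 := Finset.card_le_card hsub
    have h2 : ({1} ∪ A1 ∪ A2 ∪ A3 ∪ BadS EE x ∪ A5 ∪ A6 : Finset ℕ).card ≤
        1 + A1.card + A2.card + A3.card + (BadS EE x).card + A5.card + A6.card := by
      refine (Finset.card_union_le _ _).trans (Nat.add_le_add_right ?_ _)
      refine (Finset.card_union_le _ _).trans (Nat.add_le_add_right ?_ _)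
      refine (Finset.card_union_le _ _).trans (Nat.add_le_add_right ?_ _)
      refine (Finset.card_union_le _ _).trans (Nat.add_le_add_right ?_ _)
      refine (Finset.card_union_le _ _).trans (Nat.add_le_add_right ?_ _)
      refine (Finset.card_union_le _ _).trans (Nat.add_le_add_right ?_ _)
      simp
    exact_mod_cast h1.trans h2
  -- the individual bounds
  have b1 : (A1.card : ℝ) ≤ δ * X := by
    apply hrare
    intro v hv
    rw [hA1, Finset.mem_filter] at hv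
    obtain ⟨a, b, c⟩ := hVmem v hv.1
    exact ⟨a, b, hv.2⟩
  have b2 : (A2.card : ℝ) ≤ δ * X := by
    refine (card_le_natFloor (y := x ^ (2 * η)) ?_ (by positivity)).trans e2
    intro v hv
    rw [hA2, Finset.mem_filter] at hv
    exact ⟨(hVmem v hv.1).1, hv.2⟩
  have b3 : (A3.card : ℝ) ≤ δ * X := by
    have h1 := card_sq_le ⌊x⌋₊ ⌊Real.exp (Real.exp (9 / 10 * B))⌋₊ e5 A3 (by
      intro v hv
      rw [hA3, Finset.mem_filter] at hv
      obtain ⟨a, b, c⟩ := hVmem v hv.1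
      exact ⟨a, Nat.le_floor b, hv.2⟩)
    refine h1.trans (le_trans ?_ e4)
    apply div_le_div_of_nonneg_right (Nat.floor_le hx0.le)
    have : (2 : ℝ) ≤ (⌊Real.exp (Real.exp (9 / 10 * B))⌋₊ : ℝ) := by exact_mod_cast e5
    linarith
  have b4 : ((BadS EE x).card : ℝ) ≤ δ * X := by
    have h1 := hUc x hx3 hB0
    have h2 : ((BadS EE x).card : ℝ) ≤ (Set.ncard {v : ℕ | IsTot v ∧ ¬ Sq v ∧ (v : ℝ) ≤ x ∧
      Real.log (Real.log x) + Real.log (Real.log x) ^ (19 / 20 : ℝ) < FF aa (tl v)} : ℝ) := by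
      rw [← Set.ncard_coe_finset]
      have hfinite : {v : ℕ | IsTot v ∧ ¬ Sq v ∧ (v : ℝ) ≤ x ∧
        Real.log (Real.log x) + Real.log (Real.log x) ^ (19 / 20 : ℝ) < FF aa (tl v)}.Finite := by
        apply (Set.finite_Iic ⌊x⌋₊).subset
        rintro v ⟨-, -, h, -⟩
        exact Nat.le_floor h
      have := Set.ncard_le_ncard (s := (↑(BadS EE x) : Set ℕ)) (by
        intro v hv
        rw [Finset.mem_coe] at hv
        obtain ⟨a, b, c, d⟩ := mem_TF_real hx0.le hv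
        exact ⟨c, d.1, b, d.2⟩) hfinite
      exact_mod_cast this
    refine h2.trans (h1.trans ?_)
    rw [mul_comm]
    exact mul_le_mul_of_nonneg_right hbad hX0.le
  have b5 : (A5.card : ℝ) ≤ (1 + ε / 2) * X * S := by
    have h1 := card_mul_le x (DS EE η x) A5 (by
      intro d hd
      exact (mem_TF.1 hd).2.1.pos) (by
      intro v hv
      rw [hA5, Finset.mem_filter] at hv
      exact ⟨(hVmem v hv.1).2.1, hv.2⟩)
    have h2 : ∑ d ∈ DS EE η x, (Nat.primeCounting ⌊x / d + 1⌋₊ : ℝ) ≤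
        ∑ d ∈ DS EE η x, (1 + η) ^ 2 / (1 - η) * (x / Real.log x) * (1 / (d : ℝ)) := by
      apply Finset.sum_le_sum
      intro d hd
      obtain ⟨a, b, c, -⟩ := mem_TF_real (x := x ^ η) (by positivity) hd
      exact hpi d a b
    rw [← Finset.mul_sum] at h2
    have h3 : ∑ d ∈ DS EE η x, (1 : ℝ) / d ≤ S := by
      refine (sum_le_SB (B + EE B) _ ?_).trans hSBE
      intro d hd
      exact (mem_TF.1 hd).2
    have h4 : (1 + η) ^ 2 / (1 - η) ≤ 1 + ε / 2 := by
      rw [div_le_iff₀ (by linarith)]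
      nlinarith
    have h5 : 0 ≤ (1 + η) ^ 2 / (1 - η) := div_nonneg (by positivity) (by linarith)
    calc (A5.card : ℝ) ≤ _ := h1
      _ ≤ _ := h2
      _ ≤ (1 + η) ^ 2 / (1 - η) * X * S :=
          mul_le_mul_of_nonneg_left h3 (by positivity)
      _ ≤ (1 + ε / 2) * X * S := by
          apply mul_le_mul_of_nonneg_right _ (by linarith)
          exact mul_le_mul_of_nonneg_right h4 hX0.le
  have b6 : (A6.card : ℝ) ≤ 2 * δ * X * S := by
    have h1 := hlar A6 (by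
      intro v hv
      rw [hA6, Finset.mem_filter] at hv
      obtain ⟨a, b, c⟩ := hVmem v hv.1
      exact ⟨b, c, hv.2⟩)
    have h2 := hlarge (LS EE x) (by
      intro d hd
      obtain ⟨a, b, c, e⟩ := mem_TF_real hx0.le hd
      exact ⟨c, e.1, e.2⟩)
    have h3 : (S1B (95 / 100 * B)).toReal ≤ δ / (16 * Real.log 4 * 960) * S := by
      rw [div_le_iff₀ hSBpos] at hs1
      exact hs1.trans (mul_le_mul_of_nonneg_left hSB (by positivity))
    have h4 : ∑ d ∈ LS EE x, (1 : ℝ) / d ≤ δ / (8 * Real.log 4) * S := by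
      have h5 : 960 * (δ / (16 * Real.log 4 * 960) * S) = δ / (16 * Real.log 4) * S := by
        field_simp
      have h6 : δ / (16 * Real.log 4) ≤ δ / (16 * Real.log 4) * S :=
        le_mul_of_one_le_right (by positivity) hS1'
      have h7 : δ / (8 * Real.log 4) * S =
          δ / (16 * Real.log 4) * S + δ / (16 * Real.log 4) * S := by
        field_simp; ring
      rw [h7]
      linarith
    have h8 : 8 * Real.log 4 * X * ∑ d ∈ LS EE x, (1 : ℝ) / d ≤ δ * X * S := by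
      calc 8 * Real.log 4 * X * ∑ d ∈ LS EE x, (1 : ℝ) / d
          ≤ 8 * Real.log 4 * X * (δ / (8 * Real.log 4) * S) :=
            mul_le_mul_of_nonneg_left h4 (by positivity)
        _ = δ * X * S := by field_simp
    have h9 : 2 * X / Real.log x ≤ δ * X * S :=
      e3.trans (le_mul_of_one_le_right (by positivity) hS1')
    calc (A6.card : ℝ) ≤ _ := h1
      _ ≤ δ * X * S + δ * X * S := add_le_add h8 h9
      _ = 2 * δ * X * S := by ring
  have hδX : δ * X ≤ δ * X * S := le_mul_of_one_le_right (by positivity) hS1'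
  rw [totientCount_eq x hx0.le]
  calc ((TF ⌊x⌋₊ (fun _ => True)).card : ℝ) ≤ _ := hcard
    _ ≤ δ * X * S + δ * X * S + δ * X * S + δ * X * S + δ * X * S + (1 + ε / 2) * X * S +
        2 * δ * X * S := by linarith
    _ = (1 + ε / 2 + 7 * δ) * X * S := by ring
    _ ≤ (1 + ε) * X * S := by
        apply mul_le_mul_of_nonneg_right _ (by linarith)
        apply mul_le_mul_of_nonneg_right _ hX0.le
        rw [hδdef]
        linarith

end Crest.Agent.R020.Top
end

-- ▼ part R020/TopLower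
section

/-!
Row 20, top step (helper369): lower bound `V(x) ≥ (1-ε) (x / log x) S(B - B^0.97)`.
-/

set_option autoImplicit false

open Filter Topology Finset
open scoped ENNReal
open Crest.NumberTheoryR.TotientScale

namespace Crest.Agent.R020.Top

/-- tails with room -/
noncomputable def DL (η x : ℝ) : Finset ℕ :=
  TF ⌊x ^ η⌋₊ (fun d => FF aa d ≤ Real.log (Real.log x) - EE (Real.log (Real.log x)))

/-- pairs `(d, q)` -/
noncomputable def PL (η x : ℝ) : Finset ((_ : ℕ) × ℕ) :=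
  (DL η x).sigma (fun d => (Finset.Ioc ⌊Real.sqrt x⌋₊ ⌊x / d⌋₊).filter Nat.Prime)

theorem card_primes_Ioc (a b : ℕ) :
    (Nat.primeCounting b : ℝ) - a ≤ (((Finset.Ioc a b).filter Nat.Prime).card : ℝ) := by
  have h1 : Nat.primeCounting b = ((Finset.range (b + 1)).filter Nat.Prime).card := by
    rw [Nat.primeCounting, Nat.primeCounting', Nat.count_eq_card_filter_range]
  have h2 : (Finset.range (b + 1)).filter Nat.Prime ⊆
      Finset.Ioc 0 a ∪ (Finset.Ioc a b).filter Nat.Prime := by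
    intro p hp
    rw [Finset.mem_filter, Finset.mem_range] at hp
    rw [Finset.mem_union, Finset.mem_Ioc, Finset.mem_filter, Finset.mem_Ioc]
    have := hp.2.pos
    by_cases h : p ≤ a
    · left; exact ⟨this, h⟩
    · right; exact ⟨⟨by omega, by omega⟩, hp.2⟩
  have h3 := (Finset.card_le_card h2).trans (Finset.card_union_le _ _)
  rw [← h1, Nat.card_Ioc, Nat.sub_zero] at h3
  have h4 : (Nat.primeCounting b : ℝ) ≤ (a : ℝ) + (((Finset.Ioc a b).filter Nat.Prime).card : ℝ) := by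
    exact_mod_cast h3
  linarith

theorem card_TF_le {y : ℝ} (hy : 0 ≤ y) (P : ℕ → Prop) : ((TF ⌊y⌋₊ P).card : ℝ) ≤ y :=
  card_le_natFloor (fun _ hv => ⟨(mem_TF_real hy hv).1, (mem_TF_real hy hv).2.1⟩) hy

theorem card_PL_ge {η x : ℝ} (hx : 1 < x) (hη : 0 < η) (hη1 : η ≤ 1 / 10)
    (hpi : ∀ d : ℕ, 0 < d → (d : ℝ) ≤ x ^ η →
      (1 - η) * (x / Real.log x) * (1 / d) ≤ (Nat.primeCounting ⌊x / d⌋₊ : ℝ)) :
    (1 - η) * (x / Real.log x) * ∑ d ∈ DL η x, (1 : ℝ) / d - x ^ (3 / 5 : ℝ) ≤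
      ((PL η x).card : ℝ) := by
  have hx0 : 0 < x := by linarith
  have h1 : ((PL η x).card : ℝ) =
      ∑ d ∈ DL η x, (((Finset.Ioc ⌊Real.sqrt x⌋₊ ⌊x / d⌋₊).filter Nat.Prime).card : ℝ) := by
    unfold PL
    rw [Finset.card_sigma]
    push_cast
    rfl
  have h2 : ∑ d ∈ DL η x, ((1 - η) * (x / Real.log x) * (1 / (d : ℝ)) - Real.sqrt x) ≤
      ∑ d ∈ DL η x, (((Finset.Ioc ⌊Real.sqrt x⌋₊ ⌊x / d⌋₊).filter Nat.Prime).card : ℝ) := by
    apply Finset.sum_le_sum
    intro d hd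
    obtain ⟨a, b, c, -⟩ := mem_TF_real (x := x ^ η) (by positivity) hd
    have h3 := hpi d a b
    have h4 := card_primes_Ioc ⌊Real.sqrt x⌋₊ ⌊x / d⌋₊
    have h5 : (⌊Real.sqrt x⌋₊ : ℝ) ≤ Real.sqrt x := Nat.floor_le (Real.sqrt_nonneg x)
    linarith
  rw [h1]
  refine le_trans ?_ h2
  rw [Finset.sum_sub_distrib, ← Finset.mul_sum, Finset.sum_const, nsmul_eq_mul]
  have h3 : ((DL η x).card : ℝ) ≤ x ^ η := card_TF_le (by positivity) _
  have h4 : ((DL η x).card : ℝ) * Real.sqrt x ≤ x ^ (3 / 5 : ℝ) := by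
    calc ((DL η x).card : ℝ) * Real.sqrt x ≤ x ^ η * x ^ (1 / 2 : ℝ) := by
          rw [← Real.sqrt_eq_rpow]
          exact mul_le_mul_of_nonneg_right h3 (Real.sqrt_nonneg x)
      _ = x ^ (η + 1 / 2) := (Real.rpow_add hx0 _ _).symm
      _ ≤ x ^ (3 / 5 : ℝ) := Real.rpow_le_rpow_of_exponent_le hx.le (by linarith)
  linarith

theorem Pm_rr_le {d : ℕ} (hd : IsTot d) : Pm (rr d) ≤ d + 1 := by
  have hr := (rr_pos d).ne'
  rw [Pm_le_iff hr (by omega)]
  intro p hp hpd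
  have h1 : Nat.totient p ∣ Nat.totient (rr d) := Nat.totient_dvd_of_dvd hpd
  rw [Nat.totient_prime hp, totient_rr hd] at h1
  have := Nat.le_of_dvd hd.pos h1
  omega

/-- canonical pairs inject into the totients, non-canonical ones are counted by `StmtLc`. -/
theorem card_PL_le {η x : ℝ} (hη1 : η ≤ 1 / 10) (hx : 1 < x)
    (hx2 : x ^ η + 1 ≤ Real.sqrt x) (K : ℝ)
    (hK : (Set.ncard {p : ℕ × ℕ | NonCan p.1 p.2 ∧ Real.sqrt x < p.1 ∧
      (p.2 : ℝ) ≤ x ^ (1 / 10 : ℝ) ∧ (((p.1 - 1) * p.2 : ℕ) : ℝ) ≤ x ∧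
      FF aa p.2 + Real.log (Real.log x) ^ (19 / 20 : ℝ) ≤ Real.log (Real.log x)} : ℝ) ≤ K) :
    ((PL η x).card : ℝ) ≤ (totientCount x : ℝ) + K := by
  classical
  have hx0 : 0 < x := by linarith
  -- properties of pairs
  have hprop : ∀ z ∈ PL η x, z.2.Prime ∧ IsTot z.1 ∧ Pm (rr z.1) < z.2 ∧ Real.sqrt x < z.2 ∧
      (z.1 : ℝ) ≤ x ^ (1 / 10 : ℝ) ∧ (((z.2 - 1) * z.1 : ℕ) : ℝ) ≤ x ∧
      FF aa z.1 + Real.log (Real.log x) ^ (19 / 20 : ℝ) ≤ Real.log (Real.log x) := by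
    intro z hz
    unfold PL at hz
    rw [Finset.mem_sigma, Finset.mem_filter, Finset.mem_Ioc] at hz
    obtain ⟨h1, ⟨h2, h3⟩, h4⟩ := hz
    obtain ⟨a, b, c, e⟩ := mem_TF_real (x := x ^ η) (by positivity) h1
    have hd0 : (0 : ℝ) < z.1 := by exact_mod_cast a
    have h5 : Real.sqrt x < z.2 := (Nat.floor_lt (Real.sqrt_nonneg x)).1 h2
    have h6 : (z.2 : ℝ) ≤ x / z.1 := by
      have := Nat.floor_le (a := x / z.1) (by positivity)
      calc (z.2 : ℝ) ≤ (⌊x / z.1⌋₊ : ℝ) := by exact_mod_cast h3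
        _ ≤ _ := this
    refine ⟨h4, c, ?_, h5, ?_, ?_, ?_⟩
    · have h7 := Pm_rr_le c
      have h8 : ((z.1 : ℝ) + 1) < z.2 := by linarith
      have h9 : z.1 + 1 < z.2 := by exact_mod_cast h8
      omega
    · exact b.trans (Real.rpow_le_rpow_of_exponent_le hx.le hη1)
    · push_cast [Nat.cast_sub h4.one_le]
      have h7 : (z.2 : ℝ) * z.1 ≤ x := by rwa [le_div_iff₀ hd0] at h6
      nlinarith
    · have : FF aa z.1 ≤ Real.log (Real.log x) - EE (Real.log (Real.log x)) := e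
      unfold EE at this
      linarith
  set Pc := (PL η x).filter (fun z => rr ((z.2 - 1) * z.1) = z.2 * rr z.1) with hPc
  set Pn := (PL η x).filter (fun z => ¬ rr ((z.2 - 1) * z.1) = z.2 * rr z.1) with hPn
  have hsplit : (PL η x).card = Pc.card + Pn.card := by
    rw [hPc, hPn, Finset.card_filter_add_card_filter_not]
  have hc : Pc.card ≤ totientCount x := by
    rw [totientCount_eq x hx0.le]
    apply Finset.card_le_card_of_injOn (fun z => (z.2 - 1) * z.1)
    · intro z hz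
      rw [Finset.mem_coe, hPc, Finset.mem_filter] at hz
      obtain ⟨h1, h2, h3, h4, h5, h6, h7⟩ := hprop z hz.1
      show (z.2 - 1) * z.1 ∈ (TF ⌊x⌋₊ (fun _ => True) : Set ℕ)
      rw [Finset.mem_coe, mem_TF]
      refine ⟨Nat.le_floor h6, ?_, trivial⟩
      have hcop : Nat.Coprime z.2 (rr z.1) := by
        rw [Nat.Prime.coprime_iff_not_dvd h1]
        intro hd
        have := (Pm_lt_iff (rr_pos z.1).ne' h1.two_le).1 h3 z.2 h1 hd
        omega
      refine ⟨z.2 * rr z.1, Nat.mul_pos h1.pos (rr_pos _), ?_⟩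
      rw [Nat.totient_mul hcop, Nat.totient_prime h1, totient_rr h2]
    · intro z hz w hw hzw
      rw [Finset.mem_coe, hPc, Finset.mem_filter] at hz hw
      obtain ⟨h1, h2, h3, h4, h5, h6, h7⟩ := hprop z hz.1
      obtain ⟨k1, k2, k3, k4, k5, k6, k7⟩ := hprop w hw.1
      have e1 := (FF_of_canonical aa h1 h3 hz.2).2.2
      have e2 := (FF_of_canonical aa k1 k3 hw.2).2.2
      simp only at hzw
      rw [hzw] at e1
      have e3 : z.2 = w.2 := e1.symm.trans e2
      rw [e3] at hzw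
      have e4 : z.1 = w.1 := by
        have h8 : 0 < w.2 - 1 := by have := k1.two_le; omega
        exact Nat.eq_of_mul_eq_mul_left h8 hzw
      exact Sigma.ext e4 (heq_of_eq e3)
  have hn : (Pn.card : ℝ) ≤ K := by
    refine le_trans ?_ hK
    set NS := {p : ℕ × ℕ | NonCan p.1 p.2 ∧ Real.sqrt x < p.1 ∧
      (p.2 : ℝ) ≤ x ^ (1 / 10 : ℝ) ∧ (((p.1 - 1) * p.2 : ℕ) : ℝ) ≤ x ∧
      FF aa p.2 + Real.log (Real.log x) ^ (19 / 20 : ℝ) ≤ Real.log (Real.log x)} with hNS
    have hfin : NS.Finite := by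
      apply ((Set.finite_Iic (⌊x⌋₊ + 1)).prod (Set.finite_Iic (⌊x ^ (1 / 10 : ℝ)⌋₊))).subset
      rintro ⟨q, d⟩ ⟨h1, h2, h3, h4, h5⟩
      constructor
      · show q ≤ ⌊x⌋₊ + 1
        have hd := h1.2.1.pos
        have h6 : (q - 1) * d ≤ ⌊x⌋₊ := Nat.le_floor h4
        have h7 : q - 1 ≤ (q - 1) * d := Nat.le_mul_of_pos_right _ hd
        omega
      · exact Nat.le_floor h3
    have hinj : Set.InjOn (fun z : (_ : ℕ) × ℕ => (z.2, z.1)) (Pn : Set ((_ : ℕ) × ℕ)) := by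
      intro z _ w _ h
      simp only [Prod.mk.injEq] at h
      exact Sigma.ext h.2 (heq_of_eq h.1)
    rw [← Finset.card_image_of_injOn hinj, ← Set.ncard_coe_finset]
    have := Set.ncard_le_ncard (s := (↑(Pn.image (fun z : (_ : ℕ) × ℕ => (z.2, z.1))) :
      Set (ℕ × ℕ))) (t := NS) (by
      intro p hp
      rw [Finset.mem_coe, Finset.mem_image] at hp
      obtain ⟨z, hz, rfl⟩ := hp
      rw [hPn, Finset.mem_filter] at hz
      obtain ⟨h1, h2, h3, h4, h5, h6, h7⟩ := hprop z hz.1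
      exact ⟨⟨h1, h2, h3, hz.2⟩, h4, h5, h6, h7⟩) hfin
    exact_mod_cast this
  rw [hsplit]
  push_cast
  have : (Pc.card : ℝ) ≤ totientCount x := by exact_mod_cast hc
  linarith

end Crest.Agent.R020.Top
end

-- ▼ part R020/TopStep
section

/-!
Row 20, top step (helper369): `StmtTop` from `StmtUc`, `StmtLc`, `StmtS1`, `StmtChain`.
-/

set_option autoImplicit false

open Filter Topology Finset
open scoped ENNReal
open Crest.NumberTheoryR.TotientScale

namespace Crest.Agent.R020.Top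

/-- `S(B - B^0.97)` is approximated by tails `≤ x^η`. -/
theorem SB_le_DL {η : ℝ} (hη : 0 < η) (hS1 : StmtS1) {δ : ℝ} (hδ : 0 < δ) :
    ∀ᶠ x : ℝ in atTop, (SB (bigB x - bigB x ^ (97 / 100 : ℝ))).toReal ≤
      ∑ d ∈ DL η x, (1 : ℝ) / d + 960 * (S1B (95 / 100 * bigB x)).toReal + δ := by
  classical
  obtain ⟨hfin, -⟩ := hS1
  have hc1 : ∀ᶠ B : ℝ in atTop, 1 ≤ η * Real.exp (B / 20) := by
    have h2 : Tendsto (fun B : ℝ => Real.exp (B / 20)) atTop atTop :=
      Real.tendsto_exp_atTop.comp (tendsto_id.atTop_div_const (by norm_num))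
    exact (h2.const_mul_atTop hη).eventually_ge_atTop 1
  have hlarge := sum_large EE_le hfin (δ := δ / 2) (by positivity)
  have hrare := sum_rare (δ := δ / 2) (by positivity)
  filter_upwards [tendsto_loglog.eventually hc1, tendsto_loglog.eventually hlarge,
    tendsto_loglog.eventually hrare, tendsto_loglog.eventually EE_le,
    tendsto_loglog.eventually_ge_atTop 1, eventually_gt_atTop 1] with
    x hc1 hlarge hrare hEE hB hx1
  have hx0 : 0 < x := by linarith
  have hbigB : bigB x = Real.log (Real.log x) := rfl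
  rw [hbigB]
  set B := Real.log (Real.log x) with hBdef
  have hkk : (kk B : ℝ) ≤ Real.exp (B / 20) := Nat.floor_le (Real.exp_pos _).le
  have hBp : 0 ≤ B ^ (97 / 100 : ℝ) := by positivity
  have hE' := EE_le' hB
  have hEE0 : 0 ≤ EE B := by unfold EE; positivity
  have hK0 : 0 ≤ ∑ d ∈ DL η x, (1 : ℝ) / d + 960 * (S1B (95 / 100 * B)).toReal + δ := by
    have : 0 ≤ ∑ d ∈ DL η x, (1 : ℝ) / d := Finset.sum_nonneg (fun i _ => by positivity)
    have := ENNReal.toReal_nonneg (a := S1B (95 / 100 * B))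
    positivity
  rw [SB_eq]
  apply ENNReal.toReal_le_of_le_ofReal hK0
  apply ws_le_of_finite (fun d => 1 / (d : ℝ)) _ _ (fun d _ => by positivity)
  intro T hT
  have hT' : ∀ d ∈ T, IsTot d ∧ FF aa d ≤ B - B ^ (97 / 100 : ℝ) := fun d hd => hT d hd
  -- split
  have h1 : ∑ d ∈ T, (1 : ℝ) / d = ∑ d ∈ T.filter (fun d : ℕ => (d : ℝ) ≤ x ^ η), (1 : ℝ) / d +
      ∑ d ∈ T.filter (fun d : ℕ => ¬ (d : ℝ) ≤ x ^ η), (1 : ℝ) / d :=
    (Finset.sum_filter_add_sum_filter_not T _ _).symm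
  have h2 : ∑ d ∈ T.filter (fun d : ℕ => (d : ℝ) ≤ x ^ η), (1 : ℝ) / d ≤
      ∑ d ∈ DL η x, (1 : ℝ) / d := by
    apply Finset.sum_le_sum_of_subset_of_nonneg
    · intro d hd
      rw [Finset.mem_filter] at hd
      obtain ⟨a, b⟩ := hT' d hd.1
      unfold DL
      rw [mem_TF]
      exact ⟨Nat.le_floor hd.2, a, by rw [← hBdef]; linarith⟩
    · intro i _ _
      positivity
  set T2 := T.filter (fun d : ℕ => ¬ (d : ℝ) ≤ x ^ η) with hT2
  have h3 : ∑ d ∈ T2, (1 : ℝ) / d =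
      ∑ d ∈ T2.filter (fun d => kk B ≤ ArithmeticFunction.cardFactors d), (1 : ℝ) / d +
      ∑ d ∈ T2.filter (fun d => ¬ kk B ≤ ArithmeticFunction.cardFactors d), (1 : ℝ) / d :=
    (Finset.sum_filter_add_sum_filter_not T2 _ _).symm
  have h4 : ∑ d ∈ T2.filter (fun d => kk B ≤ ArithmeticFunction.cardFactors d), (1 : ℝ) / d ≤
      δ / 2 := by
    apply hrare
    intro d hd
    rw [Finset.mem_filter, hT2, Finset.mem_filter] at hd
    obtain ⟨a, b⟩ := hT' d hd.1.1
    exact ⟨a, by linarith, hd.2⟩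
  have h5 : ∑ d ∈ T2.filter (fun d => ¬ kk B ≤ ArithmeticFunction.cardFactors d), (1 : ℝ) / d ≤
      960 * (S1B (95 / 100 * B)).toReal + δ / 2 := by
    apply hlarge
    intro d hd
    rw [Finset.mem_filter, hT2, Finset.mem_filter] at hd
    obtain ⟨a, b⟩ := hT' d hd.1.1
    refine ⟨a, by linarith, ?_⟩
    have hΩ : ArithmeticFunction.cardFactors (rr d) ≤ kk B := by
      have h1 := (cardFactors_le_totient (rr d) (rr_pos d).ne').1
      rw [totient_rr a] at h1
      have := hd.2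
      omega
    have hdx : x ^ η < (rr d : ℕ) := by
      have h6 : x ^ η < (d : ℝ) := not_le.1 hd.1.2
      have h7 : d ≤ rr d := by
        have := Nat.totient_le (rr d)
        rwa [totient_rr a] at this
      calc x ^ η < (d : ℝ) := h6
        _ ≤ (rr d : ℝ) := by exact_mod_cast h7
    have h8 := large_case (E := EE B) (q := Pm (rr d)) hη hx1 hBdef (by linarith) hkk hc1 hEE rfl
      (d := d) (by linarith) (by
        intro r hr
        have := (mem_dl_iff (rr_pos d).ne').1 hr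
        exact (Pm_le_iff (rr_pos d).ne' (by
          have h9 : 1 ≤ r := this.1.one_le
          by_contra hcon
          push Not at hcon
          have h10 : Pm (rr d) ≤ 1 := by omega
          have := (Pm_le_iff (rr_pos d).ne' le_rfl).1 h10 r this.1 this.2
          have h11 := (prime_of_mem_dl hr).two_le
          omega)).1 le_rfl r this.1 this.2) hΩ hdx
    exact h8.1
  rw [h1, h3]
  linarith

/-- **Lower bound of the top step.** -/
theorem lower (hLc : StmtLc) (hS1 : StmtS1)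
    (hR : ∀ᶠ x : ℝ in atTop, (SB (bigB x)).toReal ≤
      2 * (SB (bigB x - bigB x ^ (97 / 100 : ℝ))).toReal) {ε : ℝ} (hε : 0 < ε) :
    ∀ᶠ x : ℝ in atTop,
      (1 - ε) * (x / Real.log x) * (SB (bigB x - bigB x ^ (97 / 100 : ℝ))).toReal ≤
        (totientCount x : ℝ) := by
  classical
  obtain ⟨c0, B0, hc0, hLc⟩ := hLc
  set δ : ℝ := ε / 16 with hδdef
  have hδ : 0 < δ := by positivity
  set η : ℝ := min (ε / 8) (1 / 10) with hηdef
  have hη : 0 < η := by positivity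
  have hη1 : η ≤ 1 / 10 := min_le_right _ _
  have hη2 : η ≤ ε / 8 := min_le_left _ _
  have hbad : ∀ᶠ B : ℝ in atTop, Real.exp (-B ^ c0) ≤ δ :=
    (tendsto_exp_neg_rpow hc0).eventually_le_const hδ
  have hs1 : ∀ᶠ B : ℝ in atTop, (S1B (95 / 100 * B)).toReal / (SB B).toReal ≤
      δ / 1920 := hS1.2.eventually_le_const (by positivity)
  have hx2 : ∀ᶠ x : ℝ in atTop, x ^ η + 1 ≤ Real.sqrt x := by
    have h1 : ∀ᶠ x : ℝ in atTop, (2 : ℝ) ≤ x ^ (1 / 4 : ℝ) :=
      (tendsto_rpow_atTop (by norm_num : (0 : ℝ) < 1 / 4)).eventually_ge_atTop _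
    filter_upwards [h1, eventually_gt_atTop 1] with x h1 hx
    have hx0 : 0 < x := by linarith
    have h2 : x ^ η ≤ x ^ (1 / 4 : ℝ) := Real.rpow_le_rpow_of_exponent_le hx.le (by linarith)
    have h3 : Real.sqrt x = x ^ (1 / 4 : ℝ) * x ^ (1 / 4 : ℝ) := by
      rw [Real.sqrt_eq_rpow, ← Real.rpow_add hx0]; norm_num
    rw [h3]
    nlinarith
  have h14 : ∀ᶠ x : ℝ in atTop, (1 : ℝ) ≤ (SB (bigB x - bigB x ^ (97 / 100 : ℝ))).toReal := by
    have h1 : Tendsto (fun B : ℝ => B ^ (3 / 100 : ℝ)) atTop atTop :=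
      tendsto_rpow_atTop (by norm_num)
    filter_upwards [tendsto_loglog.eventually (h1.eventually_ge_atTop 1),
      tendsto_loglog.eventually_gt_atTop 0] with x h1 hB
    apply one_le_SB
    have h2 : bigB x = bigB x ^ (97 / 100 : ℝ) * bigB x ^ (3 / 100 : ℝ) := by
      have hB' : 0 < bigB x := hB
      rw [← Real.rpow_add hB']; norm_num
    have h3 : 0 ≤ bigB x ^ (97 / 100 : ℝ) := by
      have hB' : 0 < bigB x := hB
      positivity
    have h4 : bigB x ^ (97 / 100 : ℝ) * 1 ≤ bigB x ^ (97 / 100 : ℝ) * bigB x ^ (3 / 100 : ℝ) :=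
      mul_le_mul_of_nonneg_left h1 h3
    linarith
  filter_upwards [small_errors hδ hη (by linarith), SB_le_DL hη hS1 hδ,
    primeCounting_div_ge hη (by linarith), tendsto_loglog.eventually hbad,
    tendsto_loglog.eventually hs1, tendsto_loglog.eventually_ge_atTop (max B0 1),
    eventually_ge_atTop 3, hx2, hR, h14] with x hsm hDL hpi hbad hs1 hB hx3 hx2 hR hS1'
  obtain ⟨-, -, -, -, -, e6⟩ := hsm
  have hx0 : 0 < x := by linarith
  have hx1 : 1 < x := by linarith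
  have hlogx : 0 < Real.log x := Real.log_pos hx1
  have hbigB : bigB x = Real.log (Real.log x) := rfl
  rw [hbigB] at hR hDL hS1' ⊢
  set B := Real.log (Real.log x) with hBdef
  have hB0 : B0 ≤ B := (le_max_left _ _).trans hB
  have hB1 : 1 ≤ B := (le_max_right _ _).trans hB
  set X := x / Real.log x with hX
  have hX0 : 0 < X := by positivity
  set S := (SB (B - B ^ (97 / 100 : ℝ))).toReal with hS
  have hSBpos : 0 < (SB B).toReal := by
    have := one_le_SB (R := B) (by linarith)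
    linarith
  have h1 := card_PL_ge hx1 hη hη1 hpi
  have h2 := card_PL_le hη1 hx1 hx2 _ (hLc x hx3 hB0)
  have h3 : X * Real.exp (-B ^ c0) ≤ δ * X * S := by
    calc X * Real.exp (-B ^ c0) ≤ X * δ := mul_le_mul_of_nonneg_left hbad hX0.le
      _ = δ * X * 1 := by ring
      _ ≤ δ * X * S := mul_le_mul_of_nonneg_left hS1' (by positivity)
  have h4 : x ^ (3 / 5 : ℝ) ≤ δ * X * S := by
    have : 0 < x ^ (3 / 5 : ℝ) := by positivity
    calc x ^ (3 / 5 : ℝ) ≤ δ * X := by linarith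
      _ ≤ δ * X * S := le_mul_of_one_le_right (by positivity) hS1'
  have h5 : 960 * (S1B (95 / 100 * B)).toReal ≤ δ * S := by
    rw [div_le_iff₀ hSBpos] at hs1
    have : δ / 1920 * (SB B).toReal ≤ δ / 1920 * (2 * S) :=
      mul_le_mul_of_nonneg_left hR (by positivity)
    linarith
  have h6 : (1 - 2 * δ) * S ≤ ∑ d ∈ DL η x, (1 : ℝ) / d := by
    have : δ ≤ δ * S := le_mul_of_one_le_right hδ.le hS1'
    linarith
  have hη3 : 0 ≤ (1 - η) * X := mul_nonneg (by linarith) hX0.le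
  have h7 : (1 - η) * X * ((1 - 2 * δ) * S) ≤ (1 - η) * X * ∑ d ∈ DL η x, (1 : ℝ) / d :=
    mul_le_mul_of_nonneg_left h6 hη3
  have hXS : 0 < X * S := by positivity
  have h8 : (1 - ε) * X * S ≤ (1 - η) * X * ((1 - 2 * δ) * S) - 2 * (δ * X * S) := by
    have h9 : (1 - ε) ≤ (1 - η) * (1 - 2 * δ) - 2 * δ := by
      rw [hδdef]
      nlinarith
    calc (1 - ε) * X * S = (1 - ε) * (X * S) := by ring
      _ ≤ ((1 - η) * (1 - 2 * δ) - 2 * δ) * (X * S) := mul_le_mul_of_nonneg_right h9 hXS.le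
      _ = _ := by ring
  linarith

/-- both shifted sums are comparable. -/
theorem ratio_of_chain (hchain : StmtChain) {ε : ℝ} (hε : 0 < ε) :
    ∀ᶠ x : ℝ in atTop, (SB (bigB x + bigB x ^ (97 / 100 : ℝ))).toReal ≤
      (1 + ε) * (SB (bigB x - bigB x ^ (97 / 100 : ℝ))).toReal := by
  obtain ⟨ρ, hρ0, hρ1, hρ⟩ := exists_rho
  obtain ⟨A, e, he, hb, h⟩ := hchain ρ hρ0 hρ1 hρ
  set κ : ℝ := min (ε / 4) (1 / 4) with hκ
  have hκ0 : 0 < κ := by positivity
  have hκ1 : κ ≤ ε / 4 := min_le_left _ _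
  have hκ2 : κ ≤ 1 / 4 := min_le_right _ _
  have he1 : ∀ᶠ r in atTop, e r ≤ κ := he.eventually_le_const hκ0
  obtain ⟨r, hr1, hr2, hr3⟩ := (he1.and (hb.and h)).exists
  obtain ⟨c1, c2, hc1, hA⟩ := hr2
  have hph : ∀ᶠ x : ℝ in atTop, phase ρ x ∈ Set.Ico (0 : ℝ) 1 := fin_eventually_phase_mem hρ0 hρ1
  filter_upwards [hr3, hph, tendsto_loglog.eventually_gt_atTop 0] with x hx hph hB
  obtain ⟨-, h1, h2⟩ := hx
  have hG : 0 < scaleG ρ x := scaleG_pos hB
  have hApos : 0 < A r (phase ρ x) := hc1.trans_le (hA _ hph).1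
  have h3 := (abs_le.1 h1).2
  have h4 := (abs_le.1 h2).1
  set a := A r (phase ρ x) with ha
  set G := scaleG ρ x with hGdef
  have h5 : (SB (bigB x + bigB x ^ (97 / 100 : ℝ))).toReal / G ≤ (1 + κ) * a := by
    nlinarith
  have h6 : (1 - κ) * a ≤ (SB (bigB x - bigB x ^ (97 / 100 : ℝ))).toReal / G := by
    nlinarith
  rw [div_le_iff₀ hG] at h5
  rw [le_div_iff₀ hG] at h6
  have h7 : 1 + κ ≤ (1 + ε) * (1 - κ) := by nlinarith
  calc (SB (bigB x + bigB x ^ (97 / 100 : ℝ))).toReal ≤ (1 + κ) * a * G := h5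
    _ ≤ ((1 + ε) * (1 - κ)) * a * G := by
        apply mul_le_mul_of_nonneg_right _ hG.le
        exact mul_le_mul_of_nonneg_right h7 hApos.le
    _ = (1 + ε) * ((1 - κ) * a * G) := by ring
    _ ≤ _ := mul_le_mul_of_nonneg_left h6 (by linarith)

end Crest.Agent.R020.Top

namespace Crest.Agent.R020

open Crest.Agent.R020.Top

/-- **Module H**: the top step. -/
theorem stmtTop_of (hUc : StmtUc) (hLc : StmtLc) (hS1 : StmtS1) (hchain : StmtChain) :
    StmtTop := by
  have hBpos : ∀ᶠ x : ℝ in atTop, 0 < bigB x := tendsto_loglog.eventually_gt_atTop 0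
  have hR : ∀ᶠ x : ℝ in atTop, (SB (bigB x)).toReal ≤
      2 * (SB (bigB x - bigB x ^ (97 / 100 : ℝ))).toReal := by
    filter_upwards [ratio_of_chain hchain (ε := 1) one_pos, hBpos] with x h hB
    have h1 : 0 ≤ bigB x ^ (97 / 100 : ℝ) := by positivity
    have := SB_toReal_mono (show bigB x ≤ bigB x + bigB x ^ (97 / 100 : ℝ) by linarith)
    linarith
  unfold StmtTop
  rw [Metric.tendsto_nhds]
  intro ε hε
  set κ : ℝ := min (ε / 4) (1 / 4) with hκ
  have hκ0 : 0 < κ := by positivity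
  have hκ1 : κ ≤ ε / 4 := min_le_left _ _
  have hκ2 : κ ≤ 1 / 4 := min_le_right _ _
  filter_upwards [upper hUc hS1 hκ0, lower hLc hS1 hR hκ0, ratio_of_chain hchain hκ0, hBpos,
    eventually_ge_atTop 3] with x hup hlo hrat hB hx
  have hx0 : 0 < x := by linarith
  have hlogx : 0 < Real.log x := Real.log_pos (by linarith)
  have h1 : 0 ≤ bigB x ^ (97 / 100 : ℝ) := by positivity
  set S := (SB (bigB x)).toReal with hS
  set Sp := (SB (bigB x + bigB x ^ (97 / 100 : ℝ))).toReal with hSp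
  set Sm := (SB (bigB x - bigB x ^ (97 / 100 : ℝ))).toReal with hSm
  have h2 : S ≤ Sp := SB_toReal_mono (by linarith)
  have h3 : Sm ≤ S := SB_toReal_mono (by linarith)
  have hS1' : 1 ≤ S := one_le_SB hB.le
  set X := x / Real.log x with hX
  have hX0 : 0 < X := by positivity
  have hXS : 0 < X * S := by positivity
  have h4 : Sp ≤ (1 + κ) * S := hrat.trans (mul_le_mul_of_nonneg_left h3 (by linarith))
  have h5 : S ≤ (1 + κ) * Sm := h2.trans hrat
  rw [Real.dist_eq, abs_lt]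
  constructor
  · rw [lt_sub_iff_add_lt, lt_div_iff₀ hXS]
    have h6 : (1 - κ) * S ≤ Sm := by
      have : (1 - κ) * S ≤ (1 - κ) * ((1 + κ) * Sm) :=
        mul_le_mul_of_nonneg_left h5 (by linarith)
      have hSm0 : 0 ≤ Sm := ENNReal.toReal_nonneg
      nlinarith
    have h7 : (1 - κ) * X * ((1 - κ) * S) ≤ (totientCount x : ℝ) := by
      refine le_trans ?_ hlo
      exact mul_le_mul_of_nonneg_left h6 (mul_nonneg (by linarith) hX0.le)
    have h8 : (-ε + 1) * (X * S) < (1 - κ) * X * ((1 - κ) * S) := by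
      have h9 : -ε + 1 < (1 - κ) * (1 - κ) := by nlinarith
      calc (-ε + 1) * (X * S) < ((1 - κ) * (1 - κ)) * (X * S) :=
            mul_lt_mul_of_pos_right h9 hXS
        _ = _ := by ring
    linarith
  · rw [sub_lt_iff_lt_add, div_lt_iff₀ hXS]
    have h7 : (totientCount x : ℝ) ≤ (1 + κ) * X * ((1 + κ) * S) :=
      hup.trans (mul_le_mul_of_nonneg_left h4 (by positivity))
    have h8 : (1 + κ) * X * ((1 + κ) * S) < (ε + 1) * (X * S) := by
      have h9 : (1 + κ) * (1 + κ) < ε + 1 := by nlinarith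
      calc (1 + κ) * X * ((1 + κ) * S) = ((1 + κ) * (1 + κ)) * (X * S) := by ring
        _ < _ := mul_lt_mul_of_pos_right h9 hXS
    linarith

end Crest.Agent.R020
end

-- ▼ part R020/OneStep
section

/-!
Row 20 (helper688): the one-step lemma (F-up), (F-low), abstract part.
-/

set_option autoImplicit false

open scoped ENNReal
open MeasureTheory

noncomputable section

namespace Crest.Agent.R020

/-! ### generalities -/

lemma os_ws_const_mul (a : ℝ≥0∞) (g : ℕ → ℝ≥0∞) (A : Set ℕ) :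
    ws (fun v => a * g v) A = a * ws g A := by
  unfold ws
  rw [← ENNReal.tsum_mul_left]
  congr 1
  ext v
  by_cases hv : v ∈ A
  · rw [Set.indicator_of_mem hv, Set.indicator_of_mem hv]
  · rw [Set.indicator_of_notMem hv, Set.indicator_of_notMem hv, mul_zero]

lemma os_ws_inv_mul_le {f : ℕ → ℝ≥0∞} {a : ℝ≥0∞} {A : Set ℕ} (h : ∀ v ∈ A, f v ≤ a) :
    ws (fun v => f v * (v : ℝ≥0∞)⁻¹) A ≤ wt A * a := by
  have h1 : ws (fun v => f v * (v : ℝ≥0∞)⁻¹) A ≤ ws (fun v => a * (v : ℝ≥0∞)⁻¹) A :=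
    ws_mono_fun (fun v hv => by gcongr; exact h v hv)
  rw [os_ws_const_mul] at h1
  rw [mul_comm]
  exact h1

lemma os_ws_add_fun (f g : ℕ → ℝ≥0∞) (A : Set ℕ) :
    ws (fun v => f v + g v) A = ws f A + ws g A := by
  unfold ws
  rw [← ENNReal.tsum_add]
  congr 1
  ext v
  by_cases hv : v ∈ A
  · rw [Set.indicator_of_mem hv, Set.indicator_of_mem hv, Set.indicator_of_mem hv]
  · rw [Set.indicator_of_notMem hv, Set.indicator_of_notMem hv, Set.indicator_of_notMem hv,
      add_zero]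

/-- sums over an injective family -/
lemma os_tsum_indicator_le_ws {ι : Type*} (f : ι → ℕ) (I : Set ι) (hf : Set.InjOn f I)
    (g : ℕ → ℝ≥0∞) (B : Set ℕ) (hB : ∀ i ∈ I, f i ∈ B) :
    ∑' i, I.indicator (fun i => g (f i)) i ≤ ws g B := by
  classical
  unfold ws
  rw [← tsum_subtype I (fun i => g (f i)), ← tsum_subtype B g]
  have hinj : Function.Injective (fun i : I => (⟨f i, hB i i.2⟩ : B)) := by
    intro i j hij
    apply Subtype.ext
    exact hf i.2 j.2 (by simpa using hij)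
  exact ENNReal.tsum_comp_le_tsum_of_injective hinj (fun v : B => g v)

/-- affine change of variables -/
lemma os_lintegral_affine (ψ : ℝ → ℝ≥0∞) {a : ℝ} (ha : 0 < a) (s t : ℝ) :
    ∫⁻ u in Set.Ioi t, ψ (a * u + s)
      = (ENNReal.ofReal a)⁻¹ * ∫⁻ w in Set.Ioi (a * t + s), ψ w := by
  have himg : (fun u : ℝ => a * u + s) '' Set.Ioi t = Set.Ioi (a * t + s) := by
    ext w
    simp only [Set.mem_image, Set.mem_Ioi]
    constructor
    · rintro ⟨u, hu, rfl⟩
      have := mul_lt_mul_of_pos_left hu ha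
      linarith
    · intro hw
      refine ⟨(w - s) / a, ?_, by field_simp; ring⟩
      rw [lt_div_iff₀ ha]
      linarith
  have hinj : Set.InjOn (fun u : ℝ => a * u + s) (Set.Ioi t) := by
    intro u _ w _ h
    simp only [add_left_inj] at h
    exact mul_left_cancel₀ ha.ne' h
  have h := lintegral_image_eq_lintegral_abs_deriv_mul (s := Set.Ioi t)
    (f := fun u : ℝ => a * u + s) (f' := fun _ => a) measurableSet_Ioi
    (fun x _ => by
      have : HasDerivAt (fun u : ℝ => a * u + s) (a * 1) x :=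
        ((hasDerivAt_id x).const_mul a).add_const s
      rw [mul_one] at this
      exact this.hasDerivWithinAt) hinj ψ
  rw [himg] at h
  rw [h, abs_of_pos ha, lintegral_const_mul' _ _ ENNReal.ofReal_ne_top, ← mul_assoc,
    ENNReal.inv_mul_cancel (by simpa using ha) ENNReal.ofReal_ne_top, one_mul]

lemma PsiI_anti (ψ : ℝ → ℝ≥0∞) : Antitone (PsiI ψ) := by
  intro s t hst
  unfold PsiI
  exact lintegral_mono_set (Set.Ioi_subset_Ioi hst)

lemma FF_TT (c e : ℕ → ℝ) (d : ℕ) :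
    FF (TT e c) d = c 0 * FF e d + FF (fun i => c (i + 1)) d := by
  unfold TT
  rw [FF_add (fun i => c 0 * e i) (fun i => c (i + 1)), FF_smul]

/-! ### upper bound -/

/-- **(F-up)**, abstract form. -/
theorem one_step_up {C : ℝ} (hPS : PSup C) {c e : ℕ → ℝ} (hc0 : 0 < c 0)
    (hc : ∀ i, 0 ≤ c i) {ψ : ℝ → ℝ≥0∞} (hψ : Antitone ψ) {A Exc D : Set ℕ} {E Y H : ℝ}
    (hA : A ⊆ Tot) (hH : c 0 * (E + C) ≤ H)
    (hav : ∀ v ∈ A, v ≠ 1 → ¬ Pm (rr v) ^ 2 ∣ rr v → y1 v ≤ Y → v ∉ Exc →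
      tl v ∈ D ∧ FF e (tl v) - E ≤ y1 v) :
    WW c ψ A ≤ (ENNReal.ofReal (c 0))⁻¹ *
        ws (fun d => PsiI ψ (FF (TT e c) d - H) * (d : ℝ≥0∞)⁻¹) {d | IsTot d ∧ d ∈ D}
      + (1 + wt Exc + wt {v | IsTot v ∧ v ≠ 1 ∧ Pm (rr v) ^ 2 ∣ rr v ∧ y1 v ≤ Y}) * ψ 0
      + ws (fun v => ψ (c 0 * y1 v) * (v : ℝ≥0∞)⁻¹) {v | IsTot v ∧ Y < y1 v} := by
  classical
  set Sq : Set ℕ := {v | IsTot v ∧ v ≠ 1 ∧ Pm (rr v) ^ 2 ∣ rr v ∧ y1 v ≤ Y} with hSq
  set TD : Set ℕ := {d | IsTot d ∧ d ∈ D} with hTD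
  set Big : Set ℕ := {v | IsTot v ∧ Y < y1 v} with hBig
  set G : Set ℕ := {v | v ∈ A ∧ v ≠ 1 ∧ ¬ Pm (rr v) ^ 2 ∣ rr v ∧ y1 v ≤ Y ∧ v ∉ Exc} with hG
  have hcov : A ⊆ G ∪ (({1} ∪ Exc ∪ Sq) ∪ Big) := by
    intro v hv
    by_cases h1 : v = 1
    · right; left; left; left; exact h1
    by_cases h2 : v ∈ Exc
    · right; left; left; right; exact h2
    by_cases h3 : Y < y1 v
    · right; right; exact ⟨hA hv, h3⟩
    by_cases h4 : Pm (rr v) ^ 2 ∣ rr v
    · right; left; right; exact ⟨hA hv, h1, h4, not_lt.mp h3⟩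
    left
    exact ⟨hv, h1, h4, not_lt.mp h3, h2⟩
  have hψ0 : ∀ v : ℕ, ψ (FF c v) ≤ ψ 0 := fun v => hψ (FF_nonneg hc v)
  set g : ℕ → ℝ≥0∞ := fun v => ψ (FF c v) * (v : ℝ≥0∞)⁻¹ with hg
  -- the exceptional parts
  have hex : ws g ({1} ∪ Exc ∪ Sq) ≤ (1 + wt Exc + wt Sq) * ψ 0 := by
    have h1 : ws g ({1} ∪ Exc ∪ Sq) ≤ wt ({1} ∪ Exc ∪ Sq) * ψ 0 :=
      os_ws_inv_mul_le (fun v _ => hψ0 v)
    refine h1.trans ?_
    gcongr
    refine (wt_union_le _ _).trans ?_
    gcongr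
    refine (wt_union_le _ _).trans ?_
    gcongr
    unfold wt ws
    rw [tsum_eq_single 1]
    · simp
    · intro b hb
      rw [Set.indicator_of_notMem]
      simpa using hb
  have hbig : ws g Big ≤ ws (fun v => ψ (c 0 * y1 v) * (v : ℝ≥0∞)⁻¹) Big := by
    apply ws_mono_fun
    intro v _
    simp only [hg]
    gcongr
    exact hψ (mul_y1_le_FF hc v)
  -- the main part
  have hmain : ws g G ≤ (ENNReal.ofReal (c 0))⁻¹ *
      ws (fun d => PsiI ψ (FF (TT e c) d - H) * (d : ℝ≥0∞)⁻¹) TD := by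
    set I : Set (ℕ × ℕ) := {p | p.1.Prime ∧ p.2 ∈ TD ∧ FF e p.2 - E ≤ yy p.1 ∧
      FF c ((p.1 - 1) * p.2) = c 0 * yy p.1 + FF (fun i => c (i + 1)) p.2} with hI
    have h1 := ws_le_tsum_image g G (fun p : ℕ × ℕ => (p.1 - 1) * p.2) I (by
      rintro v ⟨hvA, hv1, hvs, hvY, hvE⟩
      have hvT : IsTot v := hA hvA
      obtain ⟨hP, htl, hv, -, -, -⟩ := totient_decomp hvT hv1 hvs
      obtain ⟨hav1, hav2⟩ := hav v hvA hv1 hvs hvY hvE
      refine ⟨(Pm (rr v), tl v), ⟨hP, ⟨htl, hav1⟩, hav2, ?_⟩, hv.symm⟩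
      simp only
      rw [← hv, FF_decomp c hvT hv1 hvs]
      rfl)
    refine h1.trans ?_
    have h2 : ∀ p : ℕ × ℕ, I.indicator (fun p : ℕ × ℕ => g ((p.1 - 1) * p.2)) p ≤
        TD.indicator (fun d : ℕ => (d : ℝ≥0∞)⁻¹) p.2 *
          (if p.1.Prime ∧ FF e p.2 - E ≤ yy p.1 then
            ψ (c 0 * yy p.1 + FF (fun i => c (i + 1)) p.2) * ((p.1 - 1 : ℕ) : ℝ≥0∞)⁻¹ else 0) := by
      intro p
      by_cases hp : p ∈ I
      · obtain ⟨hp1, hp2, hp3, hp4⟩ := hp
        rw [Set.indicator_of_mem (show p ∈ I from ⟨hp1, hp2, hp3, hp4⟩),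
          Set.indicator_of_mem (show p.2 ∈ TD from hp2), if_pos ⟨hp1, hp3⟩]
        simp only [hg]
        rw [hp4, inv_mul_nat]
        apply le_of_eq
        ring
      · rw [Set.indicator_of_notMem hp]
        exact zero_le
    refine (ENNReal.tsum_le_tsum h2).trans ?_
    rw [ENNReal.tsum_prod (f := fun a b => TD.indicator (fun d : ℕ => (d : ℝ≥0∞)⁻¹) b *
          (if a.Prime ∧ FF e b - E ≤ yy a then
            ψ (c 0 * yy a + FF (fun i => c (i + 1)) b) * ((a - 1 : ℕ) : ℝ≥0∞)⁻¹ else 0)),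
      ENNReal.tsum_comm]
    simp_rw [ENNReal.tsum_mul_left]
    unfold ws
    rw [← ENNReal.tsum_mul_left]
    apply ENNReal.tsum_le_tsum
    intro d
    by_cases hd : d ∈ TD
    · rw [Set.indicator_of_mem hd, Set.indicator_of_mem hd]
      have hf : Antitone (fun y : ℝ => ψ (c 0 * y + FF (fun i => c (i + 1)) d)) := by
        intro y z hyz
        apply hψ
        have := mul_le_mul_of_nonneg_left hyz hc0.le
        linarith
      have h3 := hPS _ hf (FF e d - E)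
      have h4 : (∑' q : ℕ, if q.Prime ∧ FF e d - E ≤ yy q then
            ψ (c 0 * yy q + FF (fun i => c (i + 1)) d) * ((q - 1 : ℕ) : ℝ≥0∞)⁻¹ else 0) ≤
          (ENNReal.ofReal (c 0))⁻¹ * PsiI ψ (FF (TT e c) d - H) := by
        refine le_trans (le_of_eq ?_) (h3.trans ?_)
        · congr 1
        · rw [os_lintegral_affine ψ hc0]
          gcongr
          change PsiI ψ _ ≤ _
          apply PsiI_anti
          rw [FF_TT]
          nlinarith
      calc (d : ℝ≥0∞)⁻¹ * _ ≤ (d : ℝ≥0∞)⁻¹ *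
          ((ENNReal.ofReal (c 0))⁻¹ * PsiI ψ (FF (TT e c) d - H)) := by gcongr
        _ = _ := by ring
    · rw [Set.indicator_of_notMem hd, zero_mul]
      exact zero_le
  calc WW c ψ A ≤ ws g (G ∪ (({1} ∪ Exc ∪ Sq) ∪ Big)) := ws_mono_set _ hcov
    _ ≤ ws g G + ws g (({1} ∪ Exc ∪ Sq) ∪ Big) := ws_union_le _ _ _
    _ ≤ ws g G + (ws g ({1} ∪ Exc ∪ Sq) + ws g Big) := by gcongr; exact ws_union_le _ _ _
    _ ≤ _ := by
      rw [← add_assoc]
      gcongr

/-! ### lower bound -/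

/-- The noncanonical pairs `(q, d)`. -/
def NC (e : ℕ → ℝ) (E Y : ℝ) : Set (ℕ × ℕ) :=
  {p | p.1.Prime ∧ IsTot p.2 ∧ Pm (rr p.2) < p.1 ∧ yy p.1 ≤ Y ∧ FF e p.2 + E ≤ yy p.1 ∧
    rr ((p.1 - 1) * p.2) ≠ p.1 * rr p.2}

/-- **(F-low)**, abstract form. -/
theorem one_step_low {C : ℝ} (hC : 0 ≤ C) (hPS : PSlow C) {c e : ℕ → ℝ} (hc0 : 0 < c 0)
    (hc : ∀ i, 0 ≤ c i) (he : ∀ i, 0 ≤ e i) {ψ : ℝ → ℝ≥0∞} (hψ : Antitone ψ) {E Y H : ℝ}
    {D : Set ℕ} (hE0 : 0 < E) (hH : c 0 * (E + C) ≤ H) :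
    (ENNReal.ofReal (c 0))⁻¹ *
        ws (fun d => PsiI ψ (FF (TT e c) d + H) * (d : ℝ≥0∞)⁻¹) {d | IsTot d ∧ d ∈ D}
      ≤ WW c ψ {v | IsTot v ∧ v ≠ 1 ∧ ¬ Pm (rr v) ^ 2 ∣ rr v ∧ tl v ∈ D}
        + (ENNReal.ofReal (c 0))⁻¹ *
          ws (fun d => PsiI ψ (FF (TT e c) d) * (d : ℝ≥0∞)⁻¹)
            {d | IsTot d ∧ d ∈ D ∧ FF e d < y1 d}
        + wt2 (NC e E Y) * ψ 0
        + (ENNReal.ofReal (c 0))⁻¹ *
          ws (fun d => PsiI ψ (c 0 * max Y (y1 d)) * (d : ℝ≥0∞)⁻¹) Tot := by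
  classical
  have hH0 : 0 ≤ H := le_trans (by positivity) hH
  set TD : Set ℕ := {d | IsTot d ∧ d ∈ D} with hTD
  set VD : Set ℕ := {v | IsTot v ∧ v ≠ 1 ∧ ¬ Pm (rr v) ^ 2 ∣ rr v ∧ tl v ∈ D} with hVD
  set Gd : Set ℕ := {d | IsTot d ∧ d ∈ D ∧ y1 d ≤ FF e d} with hGd
  set Vi : Set ℕ := {d | IsTot d ∧ d ∈ D ∧ FF e d < y1 d} with hVi
  set K : ℝ≥0∞ := (ENNReal.ofReal (c 0))⁻¹ with hK
  have hcov : TD ⊆ Vi ∪ Gd := by
    intro d hd
    rcases lt_or_ge (FF e d) (y1 d) with h | h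
    · left; exact ⟨hd.1, hd.2, h⟩
    · right; exact ⟨hd.1, hd.2, h⟩
  have hVi' : ws (fun d => PsiI ψ (FF (TT e c) d + H) * (d : ℝ≥0∞)⁻¹) Vi ≤
      ws (fun d => PsiI ψ (FF (TT e c) d) * (d : ℝ≥0∞)⁻¹) Vi := by
    apply ws_mono_fun
    intro d _
    gcongr
    apply PsiI_anti
    linarith
  set S : ℕ → ℝ := fun d => FF (fun i => c (i + 1)) d with hS
  have hS0 : ∀ d, 0 ≤ S d := fun d => FF_nonneg (fun i => hc _) d
  -- pointwise for good `d`
  have hpt : ∀ d ∈ Gd, K * PsiI ψ (FF (TT e c) d + H) ≤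
      (∑' q : ℕ, if q.Prime ∧ FF e d + E ≤ yy q ∧ yy q ≤ Y then
        ψ (c 0 * yy q + S d) * ((q - 1 : ℕ) : ℝ≥0∞)⁻¹ else 0)
      + K * PsiI ψ (c 0 * max Y (y1 d)) := by
    intro d hd
    have hf : Antitone (fun y : ℝ => ψ (c 0 * y + S d)) := by
      intro y z hyz
      apply hψ
      have := mul_le_mul_of_nonneg_left hyz hc0.le
      linarith
    have hFe : 0 ≤ FF e d := FF_nonneg he d
    have h3 := hPS _ hf (FF e d + E) Y (by linarith)
    have h4 : K * PsiI ψ (FF (TT e c) d + H) ≤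
        ∫⁻ u in Set.Ioi (FF e d + E + C), ψ (c 0 * u + S d) := by
      rw [os_lintegral_affine ψ hc0]
      gcongr
      change _ ≤ PsiI ψ _
      apply PsiI_anti
      rw [FF_TT]
      simp only [hS]
      nlinarith
    refine h4.trans ?_
    have hsub : Set.Ioi (FF e d + E + C) ⊆
        Set.Ioc (FF e d + E + C) Y ∪ Set.Ioi (max Y (y1 d)) := by
      intro u hu
      by_cases hu2 : u ≤ Y
      · left; exact ⟨hu, hu2⟩
      · right
        rw [Set.mem_Ioi] at hu ⊢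
        apply max_lt (not_le.mp hu2)
        have := hd.2.2
        linarith
    refine (lintegral_mono_set hsub).trans ((lintegral_union_le _ _ _).trans ?_)
    refine add_le_add ?_ ?_
    · refine h3.trans (le_of_eq ?_)
      congr 1
    · rw [os_lintegral_affine ψ hc0]
      gcongr
      change PsiI ψ _ ≤ _
      apply PsiI_anti
      have := hS0 d
      linarith
  -- the double sum over pairs
  have hpairs : ws (fun d => (∑' q : ℕ, if q.Prime ∧ FF e d + E ≤ yy q ∧ yy q ≤ Y then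
        ψ (c 0 * yy q + S d) * ((q - 1 : ℕ) : ℝ≥0∞)⁻¹ else 0) * (d : ℝ≥0∞)⁻¹) Gd ≤
      WW c ψ VD + wt2 (NC e E Y) * ψ 0 := by
    set J : Set (ℕ × ℕ) := {p | p.1.Prime ∧ p.2 ∈ TD ∧ Pm (rr p.2) < p.1 ∧
      rr ((p.1 - 1) * p.2) = p.1 * rr p.2} with hJ
    have hcan : ∑' p, J.indicator (fun p : ℕ × ℕ =>
        (fun v => ψ (FF c v) * (v : ℝ≥0∞)⁻¹) ((p.1 - 1) * p.2)) p ≤ WW c ψ VD := by
      unfold WW
      apply os_tsum_indicator_le_ws (fun p : ℕ × ℕ => (p.1 - 1) * p.2) J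
      · rintro ⟨q, d⟩ ⟨hq, hd, hP, hr⟩ ⟨q', d'⟩ ⟨hq', hd', hP', hr'⟩ heq
        simp only at hq hd hP hr hq' hd' hP' hr' heq
        obtain ⟨-, -, hPm⟩ := FF_of_canonical c hq hP hr
        obtain ⟨-, -, hPm'⟩ := FF_of_canonical c hq' hP' hr'
        rw [heq, hPm'] at hPm
        subst hPm
        rw [heq, hr'] at hr
        have hrr : rr d' = rr d := Nat.eq_of_mul_eq_mul_left hq'.pos hr
        have : d' = d := by rw [← totient_rr hd'.1, ← totient_rr hd.1, hrr]
        rw [this]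
      · rintro ⟨q, d⟩ ⟨hq, hd, hP, hr⟩
        simp only at hq hd hP hr
        have hP2 := (Pm_lt_iff (rr_pos d).ne' hq.two_le).mp hP
        have hnd : ¬ q ∣ rr d := fun hd => lt_irrefl _ (hP2 q hq hd)
        have hcop : Nat.Coprime q (rr d) := (Nat.Prime.coprime_iff_not_dvd hq).mpr hnd
        obtain ⟨-, -, hPm⟩ := FF_of_canonical c hq hP hr
        refine ⟨⟨q * rr d, Nat.mul_pos hq.pos (rr_pos d), ?_⟩, ?_, ?_, ?_⟩
        · rw [Nat.totient_mul hcop, Nat.totient_prime hq, totient_rr hd.1]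
        · intro h1
          simp only at h1
          rw [h1, rr_one] at hr
          have h2 := Nat.le_mul_of_pos_right q (rr_pos d)
          have := hq.two_le
          omega
        · simp only
          rw [hPm, hr, pow_two]
          intro h3
          exact hnd (Nat.dvd_of_mul_dvd_mul_left hq.pos h3)
        · simp only
          have h3 : tl ((q - 1) * d) = d := by
            unfold tl
            rw [hPm, hr, Nat.mul_div_cancel_left _ hq.pos, totient_rr hd.1]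
          rw [h3]
          exact hd.2
    have hlhs : ws (fun d => (∑' q : ℕ, if q.Prime ∧ FF e d + E ≤ yy q ∧ yy q ≤ Y then
        ψ (c 0 * yy q + S d) * ((q - 1 : ℕ) : ℝ≥0∞)⁻¹ else 0) * (d : ℝ≥0∞)⁻¹) Gd
        = ∑' p : ℕ × ℕ, Gd.indicator (fun d : ℕ => (d : ℝ≥0∞)⁻¹) p.2 *
          (if p.1.Prime ∧ FF e p.2 + E ≤ yy p.1 ∧ yy p.1 ≤ Y then
            ψ (c 0 * yy p.1 + S p.2) * ((p.1 - 1 : ℕ) : ℝ≥0∞)⁻¹ else 0) := by
      rw [ENNReal.tsum_prod (f := fun a b => Gd.indicator (fun d : ℕ => (d : ℝ≥0∞)⁻¹) b *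
          (if a.Prime ∧ FF e b + E ≤ yy a ∧ yy a ≤ Y then
            ψ (c 0 * yy a + S b) * ((a - 1 : ℕ) : ℝ≥0∞)⁻¹ else 0)), ENNReal.tsum_comm]
      simp_rw [ENNReal.tsum_mul_left]
      unfold ws
      congr 1
      ext d
      by_cases hd : d ∈ Gd
      · rw [Set.indicator_of_mem hd, Set.indicator_of_mem hd, mul_comm]
      · rw [Set.indicator_of_notMem hd, Set.indicator_of_notMem hd, zero_mul]
    rw [hlhs]
    have hterm : ∀ p : ℕ × ℕ, Gd.indicator (fun d : ℕ => (d : ℝ≥0∞)⁻¹) p.2 *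
          (if p.1.Prime ∧ FF e p.2 + E ≤ yy p.1 ∧ yy p.1 ≤ Y then
            ψ (c 0 * yy p.1 + S p.2) * ((p.1 - 1 : ℕ) : ℝ≥0∞)⁻¹ else 0) ≤
        J.indicator (fun p : ℕ × ℕ =>
          (fun v => ψ (FF c v) * (v : ℝ≥0∞)⁻¹) ((p.1 - 1) * p.2)) p +
        (NC e E Y).indicator (fun p => (((p.1 - 1) * p.2 : ℕ) : ℝ≥0∞)⁻¹) p * ψ 0 := by
      rintro ⟨q, d⟩
      simp only
      by_cases hd : d ∈ Gd
      · rw [Set.indicator_of_mem hd]
        split_ifs with hq
        · obtain ⟨hq1, hq2, hq3⟩ := hq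
          have hP : Pm (rr d) < q := by
            by_contra hlt
            rw [not_lt] at hlt
            have h5 := yy_mono hlt
            have h6 : y1 d ≤ FF e d := hd.2.2
            unfold y1 at h6
            linarith
          by_cases hr : rr ((q - 1) * d) = q * rr d
          · have hmem : (q, d) ∈ J := ⟨hq1, ⟨hd.1, hd.2.1⟩, hP, hr⟩
            rw [Set.indicator_of_mem hmem]
            simp only
            obtain ⟨h7, -, -⟩ := FF_of_canonical c hq1 hP hr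
            rw [h7, inv_mul_nat]
            refine le_trans (le_of_eq ?_) le_self_add
            simp only [hS]
            ring
          · have hmem : (q, d) ∈ NC e E Y := ⟨hq1, hd.1, hP, hq3, hq2, hr⟩
            rw [Set.indicator_of_mem hmem]
            simp only
            rw [inv_mul_nat]
            refine le_trans ?_ le_add_self
            have h8 : ψ (c 0 * yy q + S d) ≤ ψ 0 := by
              apply hψ
              have := mul_nonneg hc0.le (yy_nonneg q)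
              have := hS0 d
              linarith
            calc (d : ℝ≥0∞)⁻¹ * (ψ (c 0 * yy q + S d) * ((q - 1 : ℕ) : ℝ≥0∞)⁻¹)
                ≤ (d : ℝ≥0∞)⁻¹ * (ψ 0 * ((q - 1 : ℕ) : ℝ≥0∞)⁻¹) := by gcongr
              _ = _ := by ring
        · rw [mul_zero]
          exact zero_le
      · rw [Set.indicator_of_notMem hd, zero_mul]
        exact zero_le
    refine (ENNReal.tsum_le_tsum hterm).trans ?_
    rw [ENNReal.tsum_add, ENNReal.tsum_mul_right]
    unfold wt2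
    gcongr
  have hGd' : K * ws (fun d => PsiI ψ (FF (TT e c) d + H) * (d : ℝ≥0∞)⁻¹) Gd ≤
      WW c ψ VD + wt2 (NC e E Y) * ψ 0
      + K * ws (fun d => PsiI ψ (c 0 * max Y (y1 d)) * (d : ℝ≥0∞)⁻¹) Tot := by
    rw [← os_ws_const_mul]
    have h5 : ws (fun d => K * (PsiI ψ (FF (TT e c) d + H) * (d : ℝ≥0∞)⁻¹)) Gd ≤
        ws (fun d => (∑' q : ℕ, if q.Prime ∧ FF e d + E ≤ yy q ∧ yy q ≤ Y then
          ψ (c 0 * yy q + S d) * ((q - 1 : ℕ) : ℝ≥0∞)⁻¹ else 0) * (d : ℝ≥0∞)⁻¹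
          + K * (PsiI ψ (c 0 * max Y (y1 d)) * (d : ℝ≥0∞)⁻¹)) Gd := by
      apply ws_mono_fun
      intro d hd
      rw [← mul_assoc, ← mul_assoc, ← add_mul]
      gcongr
      exact hpt d hd
    refine h5.trans ?_
    rw [os_ws_add_fun]
    refine add_le_add hpairs ?_
    rw [os_ws_const_mul]
    gcongr
    apply ws_mono_set
    intro d hd
    exact hd.1
  calc K * ws (fun d => PsiI ψ (FF (TT e c) d + H) * (d : ℝ≥0∞)⁻¹) TD
      ≤ K * (ws (fun d => PsiI ψ (FF (TT e c) d + H) * (d : ℝ≥0∞)⁻¹) Vi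
        + ws (fun d => PsiI ψ (FF (TT e c) d + H) * (d : ℝ≥0∞)⁻¹) Gd) := by
        gcongr
        exact (ws_mono_set _ hcov).trans (ws_union_le _ _ _)
    _ ≤ K * ws (fun d => PsiI ψ (FF (TT e c) d) * (d : ℝ≥0∞)⁻¹) Vi
        + (WW c ψ VD + wt2 (NC e E Y) * ψ 0
      + K * ws (fun d => PsiI ψ (c 0 * max Y (y1 d)) * (d : ℝ≥0∞)⁻¹) Tot) := by
        rw [mul_add]
        gcongr
    _ = _ := by ring

end Crest.Agent.R020
end
end

-- ▼ part R020/OneStepFin
section

/-!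
Row 20 (helper688): the one-step lemma in the form `StmtFup`, `StmtFupV`, `StmtFlow`.
-/

set_option autoImplicit false

open scoped ENNReal Topology
open MeasureTheory Filter

noncomputable section

namespace Crest.Agent.R020

/-! ### conversion between real and extended test functions -/

section conv

variable {Ys : ℝ} {c : ℕ → ℝ} {ψ : ℝ → ℝ}

lemma Adm.antiE (h : Adm Ys c ψ) : Antitone (fun t => ENNReal.ofReal (ψ t)) :=
  fun _ _ hst => ENNReal.ofReal_le_ofReal (h.anti hst)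

lemma Adm.PsiI_eq (h : Adm Ys c ψ) (t : ℝ) :
    PsiI (fun t => ENNReal.ofReal (ψ t)) t = ENNReal.ofReal (TI ψ t) := by
  unfold PsiI TI
  rw [ofReal_integral_eq_lintegral_ofReal (h.integrable t)]
  exact Filter.Eventually.of_forall (fun x => h.nonneg x)

lemma Adm.inv_eq (h : Adm Ys c ψ) :
    (ENNReal.ofReal (c 0))⁻¹ = ENNReal.ofReal (1 / c 0) := by
  rw [one_div, ENNReal.ofReal_inv_of_pos h.c_pos]

lemma Adm.ws_eq (h : Adm Ys c ψ) (f : ℕ → ℝ) (A : Set ℕ) :
    ws (fun d => PsiI (fun t => ENNReal.ofReal (ψ t)) (f d) * (d : ℝ≥0∞)⁻¹) A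
      = wsum (fun d => TI ψ (f d)) A := by
  unfold wsum
  congr 1
  ext d
  rw [h.PsiI_eq]

lemma Adm.decay' (h : Adm Ys c ψ) (hYs : 0 < Ys) {y : ℝ} (hy : 0 ≤ y) :
    ENNReal.ofReal (ψ (c 0 * y)) ≤
      ENNReal.ofReal (3 * ψ 0) * ENNReal.ofReal (Real.exp (-y / (3 * Ys))) := by
  have h0 := h.nonneg 0
  rw [← ENNReal.ofReal_mul (by positivity)]
  apply ENNReal.ofReal_le_ofReal
  refine (h.decay y hy).trans ?_
  have : -y / Ys ≤ -y / (3 * Ys) := by
    rw [neg_div, neg_div, neg_le_neg_iff]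
    apply div_le_div_of_nonneg_left hy hYs
    linarith
  gcongr

/-- `(1/c_0) Ψ(c_0 z) ≤ 3 ψ(0) Ys exp(-z/Ys)`. -/
lemma Adm.Psi_tail (h : Adm Ys c ψ) (hYs : 0 < Ys) {z : ℝ} (hz : 0 ≤ z) :
    (ENNReal.ofReal (c 0))⁻¹ * PsiI (fun t => ENNReal.ofReal (ψ t)) (c 0 * z) ≤
      ENNReal.ofReal (3 * ψ 0 * (Ys * Real.exp (-z / Ys))) := by
  have h0 := h.nonneg 0
  have h1 := os_lintegral_affine (fun t => ENNReal.ofReal (ψ t)) h.c_pos 0 z
  rw [add_zero] at h1
  unfold PsiI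
  rw [← h1]
  have h2 : ∫⁻ u in Set.Ioi z, ENNReal.ofReal (ψ (c 0 * u + 0)) ≤
      ∫⁻ u in Set.Ioi z, ENNReal.ofReal (3 * ψ 0 * Real.exp ((-1 / Ys) * u)) := by
    apply setLIntegral_mono' measurableSet_Ioi
    intro u hu
    apply ENNReal.ofReal_le_ofReal
    rw [add_zero]
    have hu' : z < u := hu
    have := h.decay u (by linarith)
    have e1 : -1 / Ys * u = -u / Ys := by ring
    rw [e1]
    exact this
  refine h2.trans ?_
  have hint : IntegrableOn (fun u : ℝ => 3 * ψ 0 * Real.exp ((-1 / Ys) * u)) (Set.Ioi z) := by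
    apply Integrable.const_mul
    exact integrableOn_exp_mul_Ioi (by
      have := div_pos one_pos hYs
      rw [neg_div]
      linarith) z
  rw [← ofReal_integral_eq_lintegral_ofReal hint
    (Filter.Eventually.of_forall (fun x => by positivity))]
  apply ENNReal.ofReal_le_ofReal
  rw [integral_const_mul, integral_exp_mul_Ioi (by
      have := div_pos one_pos hYs
      rw [neg_div]
      linarith) z]
  apply le_of_eq
  have e1 : -1 / Ys * z = -z / Ys := by ring
  rw [e1]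
  field_simp

end conv


lemma os_aa_nonneg (i : ℕ) : 0 ≤ aa i := (aCoef_pos (i + 1) (by omega)).le

lemma os_wt2_mono {A B : Set (ℕ × ℕ)} (h : A ⊆ B) : wt2 A ≤ wt2 B := by
  unfold wt2
  apply ENNReal.tsum_le_tsum
  intro v
  exact Set.indicator_le_indicator_of_subset h (fun _ => zero_le) v

/-! ### the scales -/

/-- `(Ys^{1.01})^{19/20} + C ≤ 2 Ys^{24/25}`. -/
lemma os_scale_le {C Ys : ℝ} (hC : 0 ≤ C) (hYs : (C + 1) ^ 2 ≤ Ys) :
    (Ys ^ (1.01 : ℝ)) ^ (19 / 20 : ℝ) + C ≤ 2 * Ys ^ (24 / 25 : ℝ) := by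
  have h1 : 1 ≤ Ys := le_trans (by nlinarith) hYs
  have h2 : (Ys ^ (1.01 : ℝ)) ^ (19 / 20 : ℝ) ≤ Ys ^ (24 / 25 : ℝ) := by
    rw [← Real.rpow_mul (by linarith)]
    apply Real.rpow_le_rpow_of_exponent_le h1
    norm_num
  have h3 : C ≤ Ys ^ (24 / 25 : ℝ) := by
    have h4 : Ys ^ (1 / 2 : ℝ) ≤ Ys ^ (24 / 25 : ℝ) := by
      apply Real.rpow_le_rpow_of_exponent_le h1
      norm_num
    have h5 : C + 1 ≤ Ys ^ (1 / 2 : ℝ) := by
      rw [← Real.sqrt_eq_rpow]
      apply Real.le_sqrt_of_sq_le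
      exact hYs
    linarith
  linarith

lemma os_le_scale {Ys : ℝ} (h1 : 1 ≤ Ys) : Ys ≤ Ys ^ (1.01 : ℝ) := by
  calc Ys = Ys ^ (1 : ℝ) := (Real.rpow_one _).symm
    _ ≤ Ys ^ (1.01 : ℝ) := by
      apply Real.rpow_le_rpow_of_exponent_le h1
      norm_num

/-- the exponential comparison at the scale `Y = Ys^{1.01}` -/
lemma os_eventually_scale (C : ℝ) : ∀ᶠ Ys : ℝ in atTop,
    Ys * Real.exp (-(Ys ^ (1.01 : ℝ)) / Ys) *
      Real.exp (C * Real.log (Ys ^ (1.01 : ℝ) + 2) ^ 2) ≤ 1 := by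
  have h1 := isLittleO_log_rpow_rpow_atTop (s := (0.01 : ℝ)) 2 (by norm_num)
  have h2 := h1.def (c := 1 / (2 * (9 * |C| + 1))) (by positivity)
  have h3 := isLittleO_log_rpow_rpow_atTop (s := (0.01 : ℝ)) 1 (by norm_num)
  have h4 := h3.def (c := 1 / 2) (by norm_num)
  filter_upwards [h2, h4, eventually_ge_atTop (3 : ℝ)] with Ys h2 h4 h5
  have hYs0 : 0 < Ys := by linarith
  have hlog : 0 ≤ Real.log Ys := Real.log_nonneg (by linarith)
  have hp : 0 < Ys ^ (0.01 : ℝ) := Real.rpow_pos_of_pos hYs0 _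
  rw [Real.norm_of_nonneg (Real.rpow_nonneg hlog _), Real.norm_of_nonneg hp.le] at h2 h4
  rw [Real.rpow_one] at h4
  have h2' : Real.log Ys ^ 2 ≤ 1 / (2 * (9 * |C| + 1)) * Ys ^ (0.01 : ℝ) := by
    have e : Real.log Ys ^ (2 : ℝ) = Real.log Ys ^ 2 := by
      rw [← Real.rpow_natCast]
      norm_num
    rw [e] at h2
    exact h2
  have h6 : Ys ^ (1.01 : ℝ) / Ys = Ys ^ (0.01 : ℝ) := by
    rw [div_eq_iff hYs0.ne']
    nth_rewrite 3 [← Real.rpow_one Ys]
    rw [← Real.rpow_add hYs0]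
    norm_num
  have h7 : Real.log (Ys ^ (1.01 : ℝ) + 2) ≤ 3 * Real.log Ys := by
    have h8 : Ys ^ (1.01 : ℝ) ≤ Ys ^ (2 : ℝ) := by
      apply Real.rpow_le_rpow_of_exponent_le (by linarith)
      norm_num
    have e : Ys ^ (2 : ℝ) = Ys ^ 2 := by
      rw [← Real.rpow_natCast]
      norm_num
    rw [e] at h8
    have h9 : Ys ^ (1.01 : ℝ) + 2 ≤ Ys ^ 3 := by nlinarith [pow_pos hYs0 2]
    calc Real.log (Ys ^ (1.01 : ℝ) + 2) ≤ Real.log (Ys ^ 3) :=
          Real.log_le_log (by positivity) h9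
      _ = 3 * Real.log Ys := by
        rw [Real.log_pow]
        norm_num
  have h10 : 0 ≤ Real.log (Ys ^ (1.01 : ℝ) + 2) := by
    apply Real.log_nonneg
    have : 0 ≤ Ys ^ (1.01 : ℝ) := Real.rpow_nonneg hYs0.le _
    linarith
  have h11 : C * Real.log (Ys ^ (1.01 : ℝ) + 2) ^ 2 ≤ 9 * |C| * Real.log Ys ^ 2 := by
    calc C * Real.log (Ys ^ (1.01 : ℝ) + 2) ^ 2 ≤ |C| * Real.log (Ys ^ (1.01 : ℝ) + 2) ^ 2 := by
          gcongr
          exact le_abs_self C
      _ ≤ |C| * (3 * Real.log Ys) ^ 2 := by gcongr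
      _ = _ := by ring
  have h12 : 9 * |C| * Real.log Ys ^ 2 ≤ 1 / 2 * Ys ^ (0.01 : ℝ) := by
    have hD : (0 : ℝ) < 9 * |C| + 1 := by positivity
    calc 9 * |C| * Real.log Ys ^ 2 ≤ (9 * |C| + 1) * Real.log Ys ^ 2 := by
          gcongr
          linarith
      _ ≤ (9 * |C| + 1) * (1 / (2 * (9 * |C| + 1)) * Ys ^ (0.01 : ℝ)) := by gcongr
      _ = _ := by field_simp
  nth_rewrite 1 [← Real.exp_log hYs0]
  rw [← Real.exp_add, ← Real.exp_add]
  rw [Real.exp_le_one_iff, neg_div, h6]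
  linarith

/-! ### the upper bounds -/

/-- common part of the two upper bounds -/
theorem os_up_common {C : ℝ} (hC : 0 ≤ C) (hPS : PSup C) {Csq : ℝ} (hCsq : 0 < Csq)
    (hSq : wt {v | IsTot v ∧ Sq v} ≤ ENNReal.ofReal Csq) {Ys : ℝ} (hYs : (C + 1) ^ 2 ≤ Ys)
    (hT : ws (fun v => ENNReal.ofReal (Real.exp (-(y1 v) / (3 * Ys))) * (v : ℝ≥0∞)⁻¹)
      {v | IsTot v ∧ Ys ^ (1.01 : ℝ) < y1 v} ≤ ENNReal.ofReal (1 / Ys))
    {c e : ℕ → ℝ} {ψ : ℝ → ℝ} (hψ : Adm Ys c ψ) {A Exc D : Set ℕ} (hExc : wt Exc ≤ 1)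
    (hA : ∀ v ∈ A, IsTot v ∧ (v ≠ 1 → ¬ Sq v → tl v ∈ D ∧
      (y1 v ≤ Ys ^ (1.01 : ℝ) → v ∉ Exc →
        FF e (tl v) - (Ys ^ (1.01 : ℝ)) ^ (19 / 20 : ℝ) ≤ y1 v))) :
    wsum (fun v => ψ (FF c v)) A ≤
      ENNReal.ofReal (1 / c 0) *
        wsum (fun d => TI ψ (FF (fun i => c 0 * e i + c (i + 1)) d -
          2 * c 0 * Ys ^ (24 / 25 : ℝ))) {d | IsTot d ∧ d ∈ D}
      + ENNReal.ofReal ((2 + Csq + 3) * ψ 0) := by
  have h1 : 1 ≤ Ys := le_trans (by nlinarith) hYs
  have h0 := hψ.nonneg 0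
  have hYs0 : 0 < Ys := by linarith
  set Y : ℝ := Ys ^ (1.01 : ℝ) with hY
  have hY0 : 0 ≤ Y := Real.rpow_nonneg hYs0.le _
  have key := one_step_up hPS (c := c) (e := e) hψ.c_pos hψ.c_nonneg hψ.antiE
    (A := A) (Exc := Exc) (D := D) (E := Y ^ (19 / 20 : ℝ)) (Y := Y)
    (H := 2 * c 0 * Ys ^ (24 / 25 : ℝ)) (fun v hv => (hA v hv).1)
    (by
      have := mul_le_mul_of_nonneg_left (os_scale_le hC hYs) hψ.c_pos.le
      rw [← hY] at this
      linarith)
    (fun v hv hv1 hvs hvY hvE => by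
      obtain ⟨h2, h3⟩ := (hA v hv).2 hv1 hvs
      exact ⟨h2, h3 hvY hvE⟩)
  rw [hψ.inv_eq, hψ.ws_eq (fun d => FF (TT e c) d - 2 * c 0 * Ys ^ (24 / 25 : ℝ))] at key
  refine key.trans ?_
  rw [add_assoc]
  refine add_le_add le_rfl ?_
  have h4 : wt {v | IsTot v ∧ v ≠ 1 ∧ Pm (rr v) ^ 2 ∣ rr v ∧ y1 v ≤ Y} ≤ ENNReal.ofReal Csq := by
    refine le_trans (wt_mono ?_) hSq
    intro v hv
    exact ⟨hv.1, hv.2.2.1⟩
  have h5 : ws (fun v => ENNReal.ofReal (ψ (c 0 * y1 v)) * (v : ℝ≥0∞)⁻¹)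
      {v | IsTot v ∧ Y < y1 v} ≤ ENNReal.ofReal (3 * ψ 0) := by
    calc ws (fun v => ENNReal.ofReal (ψ (c 0 * y1 v)) * (v : ℝ≥0∞)⁻¹) {v | IsTot v ∧ Y < y1 v}
        ≤ ws (fun v => ENNReal.ofReal (3 * ψ 0) *
          (ENNReal.ofReal (Real.exp (-(y1 v) / (3 * Ys))) * (v : ℝ≥0∞)⁻¹))
          {v | IsTot v ∧ Y < y1 v} := by
          apply ws_mono_fun
          intro v _
          rw [← mul_assoc]
          gcongr
          exact hψ.decay' hYs0 (y1_nonneg v)
      _ = ENNReal.ofReal (3 * ψ 0) * ws (fun v =>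
          ENNReal.ofReal (Real.exp (-(y1 v) / (3 * Ys))) * (v : ℝ≥0∞)⁻¹)
          {v | IsTot v ∧ Y < y1 v} := os_ws_const_mul _ _ _
      _ ≤ ENNReal.ofReal (3 * ψ 0) * ENNReal.ofReal 1 := by
          gcongr
          refine hT.trans (ENNReal.ofReal_le_ofReal ?_)
          rw [div_le_one hYs0]
          exact h1
      _ = _ := by simp
  calc (1 + wt Exc + wt {v | IsTot v ∧ v ≠ 1 ∧ Pm (rr v) ^ 2 ∣ rr v ∧ y1 v ≤ Y}) *
        ENNReal.ofReal (ψ 0) + ws (fun v => ENNReal.ofReal (ψ (c 0 * y1 v)) * (v : ℝ≥0∞)⁻¹)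
          {v | IsTot v ∧ Y < y1 v}
      ≤ (1 + 1 + ENNReal.ofReal Csq) * ENNReal.ofReal (ψ 0) + ENNReal.ofReal (3 * ψ 0) := by
        gcongr
    _ = ENNReal.ofReal ((2 + Csq + 3) * ψ 0) := by
        have e1 : (1 + 1 + ENNReal.ofReal Csq) = ENNReal.ofReal (2 + Csq) := by
          rw [ENNReal.ofReal_add (by norm_num) hCsq.le]
          norm_num
        rw [e1, ← ENNReal.ofReal_mul (by positivity), ← ENNReal.ofReal_add (by positivity)
          (by positivity)]
        congr 1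
        ring

theorem stmtFupV {C : ℝ} (hC : 0 ≤ C) (hPS : PSup C) (hSq : StmtSq) (hT : StmtTail) :
    StmtFupV := by
  obtain ⟨Csq, hCsq, hSq⟩ := hSq
  obtain ⟨Y0, hT⟩ := hT
  refine ⟨2 + Csq + 3, max Y0 ((C + 1) ^ 2), by positivity, ?_⟩
  intro Ys hYs c e ψ D A hψ _ _ hA
  have h1 : (C + 1) ^ 2 ≤ Ys := (le_max_right _ _).trans hYs
  have h2 : 1 ≤ Ys := le_trans (by nlinarith) h1
  apply os_up_common hC hPS hCsq hSq h1 (hT Ys ((le_max_left _ _).trans hYs)) hψ (Exc := ∅)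
    (by simp [wt, ws])
  intro v hv
  refine ⟨(hA v hv).1, fun hv1 hvs => ?_⟩
  obtain ⟨h3, h4⟩ := (hA v hv).2 hv1 hvs
  refine ⟨h3, fun _ _ => ?_⟩
  have : 0 ≤ (Ys ^ (1.01 : ℝ)) ^ (19 / 20 : ℝ) := by positivity
  linarith

theorem stmtFup {C : ℝ} (hC : 0 ≤ C) (hPS : PSup C) (hSq : StmtSq) (hT : StmtTail)
    (hU : StmtU) : StmtFup := by
  obtain ⟨Csq, hCsq, hSq⟩ := hSq
  obtain ⟨Y0, hT⟩ := hT
  obtain ⟨c0, Y1, hc0, hU⟩ := hU
  refine ⟨2 + Csq + 3, max (max Y0 Y1) ((C + 1) ^ 2), by positivity, ?_⟩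
  intro Ys hYs c ψ D A hψ hA
  have h1 : (C + 1) ^ 2 ≤ Ys := (le_max_right _ _).trans hYs
  have h2 : 1 ≤ Ys := le_trans (by nlinarith) h1
  have h3 : Y0 ≤ Ys := (le_max_left _ _).trans ((le_max_left _ _).trans hYs)
  have h4 : Y1 ≤ Ys := (le_max_right _ _).trans ((le_max_left _ _).trans hYs)
  have h5 := os_le_scale h2
  have h6 := hU (Ys ^ (1.01 : ℝ)) (h4.trans h5)
  apply os_up_common hC hPS hCsq hSq h1 (hT Ys h3) hψ (e := aa) (h6.trans ?_)
  · intro v hv
    refine ⟨(hA v hv).1, fun hv1 hvs => ⟨(hA v hv).2 hv1 hvs, fun hvY hvE => ?_⟩⟩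
    by_contra hlt
    apply hvE
    refine ⟨(hA v hv).1, hvs, hvY, ?_⟩
    linarith [not_le.mp hlt]
  · rw [ENNReal.ofReal_le_one, Real.exp_le_one_iff, neg_nonpos]
    positivity

/-! ### the lower bound -/

theorem stmtFlow {C : ℝ} (hC : 0 ≤ C) (hPS : PSlow C) (hZ : StmtZ) (hT : StmtTail)
    (hL : StmtL) : StmtFlow := by
  obtain ⟨CZ, hCZ, hZ⟩ := hZ
  obtain ⟨Y0, hT⟩ := hT
  obtain ⟨c0, Y1, hc0, hL⟩ := hL
  obtain ⟨Y2, hY2⟩ := eventually_atTop.mp (os_eventually_scale CZ)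
  refine ⟨1 + (3 + 3), max (max Y0 Y1) (max Y2 ((C + 1) ^ 2)), by norm_num, ?_⟩
  intro Ys hYs c ψ D hψ
  have h1 : (C + 1) ^ 2 ≤ Ys := (le_max_right _ _).trans ((le_max_right _ _).trans hYs)
  have h2 : 1 ≤ Ys := le_trans (by nlinarith) h1
  have h3 : Y0 ≤ Ys := (le_max_left _ _).trans ((le_max_left _ _).trans hYs)
  have h4 : Y1 ≤ Ys := (le_max_right _ _).trans ((le_max_left _ _).trans hYs)
  have h4' : Y2 ≤ Ys := (le_max_left _ _).trans ((le_max_right _ _).trans hYs)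
  have h5 := os_le_scale h2
  have h6 := hL (Ys ^ (1.01 : ℝ)) (h4.trans h5)
  have h7 := hY2 Ys h4'
  have hT := hT Ys h3
  have h0 := hψ.nonneg 0
  have hYs0 : 0 < Ys := by linarith
  set Y : ℝ := Ys ^ (1.01 : ℝ) with hY
  have hY0 : 0 < Y := Real.rpow_pos_of_pos hYs0 _
  have hZ := hZ Y hY0.le
  have key := one_step_low hC hPS (c := c) (e := aa) hψ.c_pos hψ.c_nonneg os_aa_nonneg hψ.antiE
    (E := Y ^ (19 / 20 : ℝ)) (Y := Y)
    (H := 2 * c 0 * Ys ^ (24 / 25 : ℝ)) (D := D) (Real.rpow_pos_of_pos hY0 _)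
    (by
      have := mul_le_mul_of_nonneg_left (os_scale_le hC h1) hψ.c_pos.le
      rw [← hY] at this
      linarith)
  rw [hψ.ws_eq (fun d => FF (TT aa c) d + 2 * c 0 * Ys ^ (24 / 25 : ℝ)),
    hψ.ws_eq (fun d => FF (TT aa c) d)] at key
  have hNC : wt2 (NC aa (Y ^ (19 / 20 : ℝ)) Y) ≤ 1 := by
    have h8 : wt2 (NC aa (Y ^ (19 / 20 : ℝ)) Y) ≤ ENNReal.ofReal (Real.exp (-Y ^ c0)) := by
      refine (os_wt2_mono ?_).trans h6
      rintro p ⟨hp1, hp2, hp3, hp4, hp5, hp6⟩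
      exact ⟨⟨hp1, hp2, hp3, hp6⟩, hp4, hp5⟩
    refine h8.trans ?_
    rw [ENNReal.ofReal_le_one, Real.exp_le_one_iff, neg_nonpos]
    positivity
  have hlast : (ENNReal.ofReal (c 0))⁻¹ *
      ws (fun d => PsiI (fun t => ENNReal.ofReal (ψ t)) (c 0 * max Y (y1 d)) *
        (d : ℝ≥0∞)⁻¹) Tot ≤ ENNReal.ofReal (3 * ψ 0) + ENNReal.ofReal (3 * ψ 0) := by
    rw [← os_ws_const_mul]
    have h9 : Tot ⊆ {v | IsTot v ∧ y1 v ≤ Y} ∪ {v | IsTot v ∧ Y < y1 v} := by
      intro v hv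
      rcases le_or_gt (y1 v) Y with h | h
      · left; exact ⟨hv, h⟩
      · right; exact ⟨hv, h⟩
    refine (ws_mono_set _ h9).trans ((ws_union_le _ _ _).trans ?_)
    refine add_le_add ?_ ?_
    · calc ws (fun d => (ENNReal.ofReal (c 0))⁻¹ *
            (PsiI (fun t => ENNReal.ofReal (ψ t)) (c 0 * max Y (y1 d)) * (d : ℝ≥0∞)⁻¹))
            {v | IsTot v ∧ y1 v ≤ Y}
          ≤ ws (fun d => ENNReal.ofReal (3 * ψ 0 * (Ys * Real.exp (-Y / Ys))) *
              (d : ℝ≥0∞)⁻¹) {v | IsTot v ∧ y1 v ≤ Y} := by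
            apply ws_mono_fun
            intro d _
            rw [← mul_assoc]
            gcongr
            refine le_trans ?_ (hψ.Psi_tail hYs0 hY0.le)
            gcongr
            apply PsiI_anti
            have := le_max_left Y (y1 d)
            exact mul_le_mul_of_nonneg_left this hψ.c_pos.le
        _ ≤ wt {v | IsTot v ∧ y1 v ≤ Y} *
            ENNReal.ofReal (3 * ψ 0 * (Ys * Real.exp (-Y / Ys))) :=
            os_ws_inv_mul_le (fun v _ => le_rfl)
        _ ≤ ENNReal.ofReal (Real.exp (CZ * Real.log (Y + 2) ^ 2)) *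
            ENNReal.ofReal (3 * ψ 0 * (Ys * Real.exp (-Y / Ys))) := by gcongr
        _ ≤ ENNReal.ofReal (3 * ψ 0) := by
            rw [← ENNReal.ofReal_mul (by positivity)]
            apply ENNReal.ofReal_le_ofReal
            calc Real.exp (CZ * Real.log (Y + 2) ^ 2) * (3 * ψ 0 * (Ys * Real.exp (-Y / Ys)))
                = 3 * ψ 0 * (Ys * Real.exp (-Y / Ys) *
                  Real.exp (CZ * Real.log (Y + 2) ^ 2)) := by ring
              _ ≤ 3 * ψ 0 * 1 := by gcongr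
              _ = _ := by ring
    · calc ws (fun d => (ENNReal.ofReal (c 0))⁻¹ *
            (PsiI (fun t => ENNReal.ofReal (ψ t)) (c 0 * max Y (y1 d)) * (d : ℝ≥0∞)⁻¹))
            {v | IsTot v ∧ Y < y1 v}
          ≤ ws (fun d => ENNReal.ofReal (3 * ψ 0 * Ys) *
              (ENNReal.ofReal (Real.exp (-(y1 d) / (3 * Ys))) * (d : ℝ≥0∞)⁻¹))
              {v | IsTot v ∧ Y < y1 v} := by
            apply ws_mono_fun
            intro d _
            rw [← mul_assoc, ← mul_assoc]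
            refine mul_le_mul' ?_ le_rfl
            refine le_trans ?_ ((hψ.Psi_tail hYs0 (y1_nonneg d)).trans ?_)
            · gcongr
              apply PsiI_anti
              have := le_max_right Y (y1 d)
              exact mul_le_mul_of_nonneg_left this hψ.c_pos.le
            · rw [← ENNReal.ofReal_mul (by positivity)]
              apply ENNReal.ofReal_le_ofReal
              rw [← mul_assoc]
              have : -(y1 d) / Ys ≤ -(y1 d) / (3 * Ys) := by
                rw [neg_div, neg_div, neg_le_neg_iff]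
                apply div_le_div_of_nonneg_left (y1_nonneg d) hYs0
                linarith
              gcongr
        _ = ENNReal.ofReal (3 * ψ 0 * Ys) * ws (fun v =>
            ENNReal.ofReal (Real.exp (-(y1 v) / (3 * Ys))) * (v : ℝ≥0∞)⁻¹)
            {v | IsTot v ∧ Y < y1 v} := os_ws_const_mul _ _ _
        _ ≤ ENNReal.ofReal (3 * ψ 0 * Ys) * ENNReal.ofReal (1 / Ys) := by gcongr
        _ = ENNReal.ofReal (3 * ψ 0) := by
            rw [← ENNReal.ofReal_mul (by positivity)]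
            congr 1
            field_simp
  rw [hψ.inv_eq] at key hlast
  refine key.trans ?_
  rw [add_assoc]
  refine add_le_add le_rfl ?_
  calc wt2 (NC aa (Y ^ (19 / 20 : ℝ)) Y) * ENNReal.ofReal (ψ 0) + _
      ≤ 1 * ENNReal.ofReal (ψ 0) + (ENNReal.ofReal (3 * ψ 0) + ENNReal.ofReal (3 * ψ 0)) := by
        gcongr
    _ = ENNReal.ofReal ((1 + (3 + 3)) * ψ 0) := by
        rw [one_mul, ← ENNReal.ofReal_add (by positivity) (by positivity),
          ← ENNReal.ofReal_add (by positivity) (by positivity)]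
        congr 1
        ring

end Crest.Agent.R020
end
end

-- ▼ part R020/Tail

/-!
Row 20 (helper107): the tail estimate `StmtTail` from the crude bound `StmtZ`.
-/

set_option autoImplicit false

open scoped ENNReal Topology
open MeasureTheory Filter

noncomputable section

namespace Crest.Agent.R020

/-- real inequality behind the tail estimate -/
lemma tail_real (C K : ℝ) (hC : 0 < C) (hK : 0 ≤ K) : ∃ X0 : ℝ, 2 ≤ X0 ∧ ∀ x Ys : ℝ, X0 ≤ x →
    1 ≤ Ys → Ys ^ (1.01 : ℝ) < x →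
    Real.exp (-(x - 1) / (3 * Ys) + C * Real.log (x + 2) ^ 2) ≤
      1 / Ys * (1 / (K + 1)) * (1 / x ^ 2) := by
  have hlit := isLittleO_log_rpow_rpow_atTop (2 : ℝ) (show (0 : ℝ) < 1 / 101 by norm_num)
  set M : ℝ := 4 * C + 3 + Real.log (K + 1) with hM
  have hlogK : 0 ≤ Real.log (K + 1) := Real.log_nonneg (by linarith)
  have hMpos : 0 < M := by rw [hM]; linarith
  have h1 := hlit.bound (show (0 : ℝ) < 1 / (6 * M) by positivity)
  obtain ⟨X1, hX1⟩ := eventually_atTop.1 h1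
  refine ⟨max (max X1 3) 3, le_trans (by norm_num) (le_max_right _ _), fun x Ys hx hYs hYx => ?_⟩
  have hx3 : 3 ≤ x := le_trans (le_max_right _ _) hx
  have hxX : X1 ≤ x := le_trans (le_max_left _ _) (le_trans (le_max_left _ _) hx)
  have hx0 : 0 < x := by linarith
  have hY0 : 0 < Ys := by linarith
  have hlog1 : 1 ≤ Real.log x := by
    rw [Real.le_log_iff_exp_le hx0]
    have := Real.exp_one_lt_d9
    linarith
  have h2 := hX1 x hxX
  rw [Real.norm_of_nonneg (by positivity), Real.norm_of_nonneg (by positivity)] at h2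
  have h2' : Real.log x ^ 2 ≤ 1 / (6 * M) * x ^ (1 / 101 : ℝ) := by
    have : Real.log x ^ (2 : ℝ) = Real.log x ^ 2 := by
      rw [← Real.rpow_natCast]; norm_num
    rw [← this]; exact h2
  -- `M log² x ≤ x^{1/101}/6`
  have h3 : M * Real.log x ^ 2 ≤ x ^ (1 / 101 : ℝ) / 6 := by
    have h4 := mul_le_mul_of_nonneg_left h2' hMpos.le
    have h5 : M * (1 / (6 * M) * x ^ (1 / 101 : ℝ)) = x ^ (1 / 101 : ℝ) / 6 := by
      field_simp
    rw [h5] at h4
    exact h4
  -- `Ys ≤ x^{100/101}`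
  have h4 : Ys ≤ x ^ (100 / 101 : ℝ) := by
    have h5 : (Ys ^ (1.01 : ℝ)) ^ (100 / 101 : ℝ) = Ys := by
      rw [← Real.rpow_mul hY0.le]
      norm_num
    rw [← h5]
    exact Real.rpow_le_rpow (by positivity) hYx.le (by norm_num)
  have h5 : x ^ (1 / 101 : ℝ) / 6 ≤ (x - 1) / (3 * Ys) := by
    rw [div_le_div_iff₀ (by norm_num) (by positivity)]
    have h6 : x ^ (1 / 101 : ℝ) * x ^ (100 / 101 : ℝ) = x := by
      rw [← Real.rpow_add hx0]
      norm_num
    have h7 : x ^ (1 / 101 : ℝ) * Ys ≤ x := by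
      calc x ^ (1 / 101 : ℝ) * Ys ≤ x ^ (1 / 101 : ℝ) * x ^ (100 / 101 : ℝ) :=
            mul_le_mul_of_nonneg_left h4 (by positivity)
        _ = x := h6
    nlinarith
  have h6 : Real.log Ys ≤ Real.log x := by
    apply Real.log_le_log hY0
    calc Ys = Ys ^ (1 : ℝ) := (Real.rpow_one _).symm
      _ ≤ Ys ^ (1.01 : ℝ) := Real.rpow_le_rpow_of_exponent_le hYs (by norm_num)
      _ ≤ x := hYx.le
  have h7 : Real.log (x + 2) ≤ 2 * Real.log x := by
    rw [show (2 : ℝ) * Real.log x = Real.log (x ^ 2) by rw [Real.log_pow]; norm_num]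
    apply Real.log_le_log (by linarith)
    nlinarith
  have h8 : Real.log (x + 2) ^ 2 ≤ 4 * Real.log x ^ 2 := by
    have h9 : 0 ≤ Real.log (x + 2) := Real.log_nonneg (by linarith)
    nlinarith
  have h9 : Real.log x ≤ Real.log x ^ 2 := by nlinarith
  have h10 : 1 ≤ Real.log x ^ 2 := by nlinarith
  have hrhs : 1 / Ys * (1 / (K + 1)) * (1 / x ^ 2) =
      Real.exp (-(Real.log Ys + Real.log (K + 1) + 2 * Real.log x)) := by
    rw [Real.exp_neg, Real.exp_add, Real.exp_add, Real.exp_log hY0, Real.exp_log (by linarith),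
      show (2 : ℝ) * Real.log x = Real.log x + Real.log x by ring, Real.exp_add, Real.exp_log hx0]
    field_simp
  rw [hrhs]
  apply Real.exp_le_exp.2
  have h11 : C * Real.log (x + 2) ^ 2 ≤ 4 * C * Real.log x ^ 2 := by nlinarith
  have h12 : Real.log (K + 1) ≤ Real.log (K + 1) * Real.log x ^ 2 := by nlinarith
  have h13 : M * Real.log x ^ 2 = 4 * C * Real.log x ^ 2 + 3 * Real.log x ^ 2 +
      Real.log (K + 1) * Real.log x ^ 2 := by rw [hM]; ring
  rw [neg_div]
  linarith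

/-- The tail estimate. -/
theorem stmtTail (hZ : StmtZ) : StmtTail := by
  classical
  obtain ⟨C, hC, hZ⟩ := hZ
  have hs : Summable (fun n : ℕ => 1 / ((n : ℝ) + 1) ^ 2) := by
    have := (summable_nat_add_iff 1).2 (Real.summable_one_div_nat_pow.2 (by norm_num : 1 < 2))
    simpa using this
  set K : ℝ := ∑' n : ℕ, 1 / ((n : ℝ) + 1) ^ 2 with hK
  have hK0 : 0 ≤ K := tsum_nonneg fun n => by positivity
  obtain ⟨X0, hX0, hreal⟩ := tail_real C K hC hK0
  refine ⟨max X0 1, fun Ys hYs => ?_⟩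
  have hYX : X0 ≤ Ys := (le_max_left _ _).trans hYs
  have hY1 : 1 ≤ Ys := (le_max_right _ _).trans hYs
  have hY0 : 0 < Ys := by linarith
  have hYpow : Ys ≤ Ys ^ (1.01 : ℝ) := by
    calc Ys = Ys ^ (1 : ℝ) := (Real.rpow_one _).symm
      _ ≤ Ys ^ (1.01 : ℝ) := Real.rpow_le_rpow_of_exponent_le hY1 (by norm_num)
  set g : ℕ → ℝ≥0∞ := fun v => ENNReal.ofReal (Real.exp (-(y1 v) / (3 * Ys))) * (v : ℝ≥0∞)⁻¹
    with hg
  have hcov := ws_le_tsum g {v | IsTot v ∧ Ys ^ (1.01 : ℝ) < y1 v}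
    (fun n : ℕ => {v | IsTot v ∧ Ys ^ (1.01 : ℝ) < y1 v ∧ ⌊y1 v⌋₊ = n})
    (fun v hv => ⟨⌊y1 v⌋₊, hv.1, hv.2, rfl⟩)
  have hterm : ∀ n : ℕ, ws g {v | IsTot v ∧ Ys ^ (1.01 : ℝ) < y1 v ∧ ⌊y1 v⌋₊ = n} ≤
      ENNReal.ofReal (1 / Ys * (1 / (K + 1)) * (1 / ((n : ℝ) + 1) ^ 2)) := by
    intro n
    by_cases hne : ∃ v, IsTot v ∧ Ys ^ (1.01 : ℝ) < y1 v ∧ ⌊y1 v⌋₊ = n
    · obtain ⟨v0, hv0, hv1, hv2⟩ := hne
      have h1 : Ys ^ (1.01 : ℝ) < (n : ℝ) + 1 := by
        rw [← hv2]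
        exact hv1.trans (Nat.lt_floor_add_one _)
      have h2 := hreal ((n : ℝ) + 1) Ys (by linarith) hY1 h1
      refine le_trans ?_ (ENNReal.ofReal_le_ofReal h2)
      calc ws g {v | IsTot v ∧ Ys ^ (1.01 : ℝ) < y1 v ∧ ⌊y1 v⌋₊ = n}
          ≤ ws (fun v => ENNReal.ofReal (Real.exp (-(n : ℝ) / (3 * Ys))) * (v : ℝ≥0∞)⁻¹)
              {v | IsTot v ∧ Ys ^ (1.01 : ℝ) < y1 v ∧ ⌊y1 v⌋₊ = n} := by
            apply ws_mono_fun
            rintro v ⟨_, _, hv⟩
            simp only [hg]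
            gcongr
            rw [← hv]
            exact Nat.floor_le (y1_nonneg v)
        _ = ENNReal.ofReal (Real.exp (-(n : ℝ) / (3 * Ys))) *
              wt {v | IsTot v ∧ Ys ^ (1.01 : ℝ) < y1 v ∧ ⌊y1 v⌋₊ = n} := by
            unfold wt ws
            rw [← ENNReal.tsum_mul_left]
            congr 1
            ext v
            by_cases hv : v ∈ {v | IsTot v ∧ Ys ^ (1.01 : ℝ) < y1 v ∧ ⌊y1 v⌋₊ = n}
            · rw [Set.indicator_of_mem hv, Set.indicator_of_mem hv]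
            · rw [Set.indicator_of_notMem hv, Set.indicator_of_notMem hv, mul_zero]
        _ ≤ ENNReal.ofReal (Real.exp (-(n : ℝ) / (3 * Ys))) *
              ENNReal.ofReal (Real.exp (C * Real.log ((n : ℝ) + 1 + 2) ^ 2)) := by
            gcongr
            refine le_trans (wt_mono ?_) (hZ ((n : ℝ) + 1) (by positivity))
            rintro v ⟨hv, _, hv2⟩
            refine ⟨hv, ?_⟩
            rw [← hv2]
            exact (Nat.lt_floor_add_one _).le
        _ = ENNReal.ofReal (Real.exp (-((n : ℝ) + 1 - 1) / (3 * Ys) +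
              C * Real.log ((n : ℝ) + 1 + 2) ^ 2)) := by
            rw [← ENNReal.ofReal_mul (Real.exp_pos _).le, ← Real.exp_add]
            congr 2
            ring
    · have : {v | IsTot v ∧ Ys ^ (1.01 : ℝ) < y1 v ∧ ⌊y1 v⌋₊ = n} = ∅ := by
        rw [Set.eq_empty_iff_forall_notMem]
        intro v hv
        exact hne ⟨v, hv⟩
      rw [this]
      unfold ws
      simp
  refine hcov.trans ((ENNReal.tsum_le_tsum hterm).trans ?_)
  rw [← ENNReal.ofReal_tsum_of_nonneg (fun n => by positivity) (hs.mul_left _), tsum_mul_left]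
  apply ENNReal.ofReal_le_ofReal
  rw [← hK]
  rw [div_mul_div_comm, one_mul, div_mul_eq_mul_div, one_mul, div_le_div_iff₀ (by positivity) hY0]
  nlinarith

end Crest.Agent.R020
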