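import Mathlib
import Crest.Agent.R020.Abn5
import Crest.Agent.R020.Stmt
import Crest.Agent.R020.PreU
import Crest.Agent.R020.LCrude
import Crest.Agent.R020.UcRankin

-- ▼ part R020/LeftStat
section

/-!
# Chernoff bounds over tuples of primes, for completely additive statistics of the shifted primes

`St ℓ n` is the completely additive function with values `ℓ p` at the primes. For a family of unit
windows `[u a, u a + 1]` of the `loglog` scale we bound the weight `∑ ∏ 1/(q_a - 1)` of the tuples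
of primes `q_a` in the windows for which `∑_a St ℓ (q_a - 1)` deviates from
`∑_a M ℓ (u a)`, `M ℓ u = ∑_{yy p ≤ u} ℓ p / p`.
-/

set_option autoImplicit false

open Finset Filter
open scoped ENNReal

namespace Crest.Agent.R020.LS

/-- completely additive statistic -/
noncomputable def St (ℓ : ℕ → ℝ) (n : ℕ) : ℝ := (n.primeFactorsList.map ℓ).sum

lemma St_one (ℓ : ℕ → ℝ) : St ℓ 1 = 0 := by simp [St]

lemma St_mul (ℓ : ℕ → ℝ) {m n : ℕ} (hm : m ≠ 0) (hn : n ≠ 0) : St ℓ (m * n) = St ℓ m + St ℓ n := by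
  unfold St
  rw [((Nat.perm_primeFactorsList_mul hm hn).map ℓ).sum_eq, List.map_append, List.sum_append]

lemma St_prime (ℓ : ℕ → ℝ) {p : ℕ} (hp : p.Prime) : St ℓ p = ℓ p := by
  simp [St, Nat.primeFactorsList_prime hp]

lemma St_nonneg {ℓ : ℕ → ℝ} (h : ∀ p : ℕ, p.Prime → 0 ≤ ℓ p) (n : ℕ) : 0 ≤ St ℓ n := by
  unfold St
  refine List.sum_nonneg fun x hx => ?_
  rw [List.mem_map] at hx
  obtain ⟨p, hp, rfl⟩ := hx
  exact h p (Nat.prime_of_mem_primeFactorsList hp)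

/-- the exponential of an additive statistic is a completely multiplicative weight -/
lemma cm_exp (ℓ : ℕ → ℝ) (n : ℕ) :
    cm (fun p => ENNReal.ofReal (Real.exp (ℓ p))) n = ENNReal.ofReal (Real.exp (St ℓ n)) := by
  unfold cm St
  induction n.primeFactorsList with
  | nil => simp
  | cons p l ih =>
    rw [List.map_cons, List.prod_cons, List.map_cons, List.sum_cons, ih, Real.exp_add,
      ENNReal.ofReal_mul (Real.exp_pos _).le]

/-- tuples of primes in the given unit windows -/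
def Tup {ι : Type*} (u : ι → ℝ) : Set (ι → ℕ) :=
  {q | ∀ a, (q a).Prime ∧ u a ≤ yy (q a) ∧ yy (q a) ≤ u a + 1}

/-- the mean of the statistic on the window at `u` -/
noncomputable def M (ℓ : ℕ → ℝ) (u : ℝ) : ℝ := ∑ p ∈ PL u, ℓ p / p

lemma sum_PL_inv_le {u : ℝ} (hu : 0 ≤ u) : ∑ p ∈ PL u, (1 : ℝ) / p ≤ u + 27 := by
  have h2 : (2 : ℝ) ≤ Real.exp (Real.exp u) := by
    have h1 : (1 : ℝ) ≤ Real.exp u := Real.one_le_exp hu
    have h3 := Real.add_one_le_exp (Real.exp u)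
    linarith
  have := sum_inv_primes_le (Real.exp (Real.exp u)) h2
  rwa [Real.log_exp, Real.log_exp] at this

/-- the product form of the twisted sums -/
theorem tuple_sum_le : ∃ C : ℝ, 0 < C ∧ ∀ {ι : Type} [Fintype ι] (ℓ : ℕ → ℝ)
    (_ : ∀ p : ℕ, p.Prime → ℓ p ≤ 2 / 5) (u : ι → ℝ) (_ : ∀ a, 0 ≤ u a),
    ∑' q : ι → ℕ, (Tup u).indicator
      (fun q => ENNReal.ofReal (Real.exp (∑ a, St ℓ (q a - 1))) *
        ∏ a, ((q a - 1 : ℕ) : ℝ≥0∞)⁻¹) q ≤
      ENNReal.ofReal (∏ a, (C * (1 + u a) ^ 2 * Real.exp (-(u a)) *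
        Real.exp (∑ p ∈ PL (u a), Real.exp (ℓ p) / p))) := by
  obtain ⟨C, hC, hTS⟩ := twisted_cm_le
  refine ⟨C, hC, fun {ι} _ ℓ hℓ u hu => ?_⟩
  have hexp : Real.exp (2 / 5) ≤ 3 / 2 := by
    have h1 : Real.exp (2 / 5) ^ 5 = Real.exp 1 ^ 2 := by
      rw [← Real.exp_nat_mul, ← Real.exp_nat_mul]; norm_num
    have h2 := Real.exp_one_lt_d9
    have h3 : Real.exp 1 ^ 2 < 7.4 := by
      have := Real.exp_pos 1
      nlinarith
    by_contra hcon
    push Not at hcon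
    have h4 : (3 / 2 : ℝ) ^ 5 < Real.exp (2 / 5) ^ 5 :=
      pow_lt_pow_left₀ hcon (by norm_num) (by norm_num)
    rw [h1] at h4
    have h5 : (3 / 2 : ℝ) ^ 5 = 7.59375 := by norm_num
    rw [h5] at h4
    linarith
  set h : ℕ → ℝ≥0∞ := fun p => ENNReal.ofReal (Real.exp (ℓ p)) with hh
  have hh2 : ∀ p : ℕ, p.Prime → h p ≤ ENNReal.ofReal (3 / 2) := fun p hp =>
    ENNReal.ofReal_le_ofReal ((Real.exp_le_exp.mpr (hℓ p hp)).trans hexp)
  calc ∑' q : ι → ℕ, (Tup u).indicator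
          (fun q => ENNReal.ofReal (Real.exp (∑ a, St ℓ (q a - 1))) *
            ∏ a, ((q a - 1 : ℕ) : ℝ≥0∞)⁻¹) q
      = ∑' q : ι → ℕ, ∏ a, {n : ℕ | n.Prime ∧ u a ≤ yy n ∧ yy n ≤ u a + 1}.indicator
          (fun n => cm h (n - 1) * ((n - 1 : ℕ) : ℝ≥0∞)⁻¹) (q a) := by
        refine tsum_congr fun q => ?_
        by_cases hq : q ∈ Tup u
        · rw [Set.indicator_of_mem hq, Real.exp_sum, ENNReal.ofReal_prod_of_nonneg
            (fun _ _ => (Real.exp_pos _).le), ← Finset.prod_mul_distrib]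
          refine Finset.prod_congr rfl fun a _ => ?_
          rw [Set.indicator_of_mem (by exact hq a), cm_exp]
        · rw [Set.indicator_of_notMem hq]
          have : ∃ a, ¬ ((q a).Prime ∧ u a ≤ yy (q a) ∧ yy (q a) ≤ u a + 1) := by
            by_contra hcon
            push Not at hcon
            exact hq fun a => hcon a
          obtain ⟨a, ha⟩ := this
          symm
          refine Finset.prod_eq_zero (Finset.mem_univ a) ?_
          rw [Set.indicator_of_notMem (by exact ha)]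
    _ ≤ ∏ a, ∑' n : ℕ, {n : ℕ | n.Prime ∧ u a ≤ yy n ∧ yy n ≤ u a + 1}.indicator
          (fun n => cm h (n - 1) * ((n - 1 : ℕ) : ℝ≥0∞)⁻¹) n := Coll.tsum_prod_le _
    _ ≤ ∏ a, ENNReal.ofReal (C * (1 + u a) ^ 2 * Real.exp (-(u a)) *
          Real.exp (∑ p ∈ PL (u a), (h p).toReal / p)) :=
        Finset.prod_le_prod' fun a _ => hTS h hh2 (u a) (hu a)
    _ = _ := by
        rw [ENNReal.ofReal_prod_of_nonneg (fun a _ => by positivity)]
        refine Finset.prod_congr rfl fun a _ => ?_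
        congr 3
        refine Finset.sum_congr rfl fun p _ => ?_
        rw [hh]
        simp only
        rw [ENNReal.toReal_ofReal (Real.exp_pos _).le]


/-- bound for the product of the factors -/
lemma prod_factors_le {ι : Type} [Fintype ι] {C : ℝ} (hC : 0 < C) {u : ι → ℝ} (hu : ∀ a, 0 ≤ u a)
    {Y : ℝ} (huY : ∀ a, u a ≤ Y) (E R : ι → ℝ)
    (hE : ∀ a, E a ≤ u a + 27 + R a) :
    ∏ a, (C * (1 + u a) ^ 2 * Real.exp (-(u a)) * Real.exp (E a)) ≤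
      (C * Real.exp 27 * (1 + Y) ^ 2) ^ (Fintype.card ι) * Real.exp (∑ a, R a) := by
  calc ∏ a, (C * (1 + u a) ^ 2 * Real.exp (-(u a)) * Real.exp (E a))
      ≤ ∏ a, (C * Real.exp 27 * (1 + Y) ^ 2 * Real.exp (R a)) := by
        refine Finset.prod_le_prod (fun a _ => by positivity) (fun a _ => ?_)
        have h1 : (1 + u a) ^ 2 ≤ (1 + Y) ^ 2 :=
          pow_le_pow_left₀ (by linarith [hu a]) (by linarith [huY a]) 2
        have h2 : Real.exp (-(u a)) * Real.exp (E a) ≤ Real.exp 27 * Real.exp (R a) := by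
          rw [← Real.exp_add, ← Real.exp_add, Real.exp_le_exp]
          linarith [hE a]
        calc C * (1 + u a) ^ 2 * Real.exp (-(u a)) * Real.exp (E a)
            = C * (1 + u a) ^ 2 * (Real.exp (-(u a)) * Real.exp (E a)) := by ring
          _ ≤ C * (1 + Y) ^ 2 * (Real.exp 27 * Real.exp (R a)) := by
              refine mul_le_mul ?_ h2 (by positivity) (by positivity)
              exact mul_le_mul_of_nonneg_left h1 hC.le
          _ = _ := by ring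
    _ = _ := by
        rw [Finset.prod_mul_distrib, Finset.prod_const, Real.exp_sum, Finset.card_univ]



end Crest.Agent.R020.LS
end

-- ▼ part R020/LeftCount
section

/-!
# Counting versions of the Chernoff bounds over tuples of primes

The outermost prime `q₀` is summed with the counting form `shifted_sum_le` (TS1), the others with
the reciprocal form (TS2).
-/

set_option autoImplicit false

open Finset Filter
open scoped ENNReal

namespace Crest.Agent.R020.LS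

lemma PL_loglog {x : ℝ} (hx : 1 < x) (hx' : 1 < Real.log x) :
    PL (Real.log (Real.log x)) = (Finset.range (⌊x⌋₊ + 1)).filter Nat.Prime := by
  unfold PL
  rw [Real.exp_log (by linarith), Real.exp_log (by linarith)]

/-- the first coordinate, counting form -/
theorem count_first : ∃ C : ℝ, 0 < C ∧ ∀ g : ℕ →*₀ ℝ,
    (∀ p : ℕ, p.Prime → 0 ≤ g p ∧ g p ≤ 3 / 2) → ∀ x lam z : ℝ, 16 ≤ x → 1 ≤ lam →
    2 ≤ z → z ≤ x → Real.log x ≤ lam * Real.log z →
    ∀ A : Finset ℕ, (∀ q ∈ A, q.Prime ∧ (q : ℝ) ≤ z + 1) →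
    ∑ q ∈ A, g (q - 1) ≤ C * (1 + Real.log (Real.log x)) ^ 2 * lam ^ 2 *
      (z / (Real.log x) ^ 2) * Real.exp (∑ p ∈ PL (Real.log (Real.log x)), g p / p) := by
  obtain ⟨C, hC, hTS⟩ := shifted_sum_le
  refine ⟨C * 4 * (3 / 2) * Real.exp 1, by positivity, ?_⟩
  intro g hg x lam z hx hlam hz hzx hlog A hA
  have hgn := nonneg_of_prime fun p hp => (hg p hp).1
  have hl1 : 1 < Real.log x := by
    rw [Real.lt_log_iff_exp_lt (by linarith)]
    have := Real.exp_one_lt_d9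
    linarith
  have hB : 0 < Real.log (Real.log x) := Real.log_pos hl1
  have hlz : 0 < Real.log z := Real.log_pos (by linarith)
  have h1 := hTS g hg (z + 1) (by linarith) A hA
  refine h1.trans ?_
  have hLL : LLx (z + 1) ^ 2 ≤ 4 * (1 + Real.log (Real.log x)) ^ 2 := by
    have h2 : LLx (z + 1) ≤ 2 * (1 + Real.log (Real.log x)) := by
      unfold LLx
      have h3 : Real.log (Real.log (z + 1)) ≤ Real.log (Real.log x) + 1 := by
        have h4 : Real.log (z + 1) ≤ Real.exp 1 * Real.log x := by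
          have h5 : Real.log (z + 1) ≤ Real.log (x * x) :=
            Real.log_le_log (by linarith) (by nlinarith)
          rw [Real.log_mul (by linarith) (by linarith)] at h5
          have h6 : 2 ≤ Real.exp 1 := by have := Real.exp_one_gt_d9; linarith
          nlinarith
        have h7 : 0 < Real.log (z + 1) := Real.log_pos (by linarith)
        have h8 := Real.log_le_log h7 h4
        rw [Real.log_mul (Real.exp_pos 1).ne' (by linarith), Real.log_exp] at h8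
        linarith
      have : max 0 (Real.log (Real.log (z + 1))) ≤ Real.log (Real.log x) + 1 :=
        max_le (by linarith) h3
      linarith
    have h3 := pow_le_pow_left₀ (by linarith [one_le_LLx (z + 1)]) h2 2
    nlinarith
  have hfrac : (z + 1) / Real.log (z + 1) ^ 2 ≤ 3 / 2 * lam ^ 2 * (z / Real.log x ^ 2) := by
    have h2 : Real.log z ≤ Real.log (z + 1) := Real.log_le_log (by linarith) (by linarith)
    have h3 : (z + 1) / Real.log (z + 1) ^ 2 ≤ (3 / 2 * z) / Real.log z ^ 2 := by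
      refine div_le_div₀ (by linarith) (by linarith) (by positivity) ?_
      exact pow_le_pow_left₀ hlz.le h2 2
    refine h3.trans ?_
    rw [div_le_iff₀ (by positivity)]
    have h4 : Real.log x ^ 2 ≤ (lam * Real.log z) ^ 2 := pow_le_pow_left₀ (by linarith) hlog 2
    have h5 : 3 / 2 * lam ^ 2 * (z / Real.log x ^ 2) * Real.log z ^ 2 =
        3 / 2 * z * ((lam * Real.log z) ^ 2 / Real.log x ^ 2) := by ring
    rw [h5]
    have h6 : 1 ≤ (lam * Real.log z) ^ 2 / Real.log x ^ 2 := by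
      rw [one_le_div (by positivity)]; exact h4
    nlinarith
  have hexp : Real.exp (∑ p ∈ Finset.range (⌊z + 1⌋₊ + 1) with p.Prime, g p / p) ≤
      Real.exp 1 * Real.exp (∑ p ∈ PL (Real.log (Real.log x)), g p / p) := by
    rw [← Real.exp_add, Real.exp_le_exp, PL_loglog (by linarith) hl1]
    have hsub : (Finset.range (⌊z + 1⌋₊ + 1)).filter Nat.Prime ⊆
        insert (⌊x⌋₊ + 1) ((Finset.range (⌊x⌋₊ + 1)).filter Nat.Prime) := by
      intro p hp
      rw [Finset.mem_filter, Finset.mem_range] at hp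
      have h2 : ⌊z + 1⌋₊ ≤ ⌊x⌋₊ + 1 := by
        rw [← Nat.floor_add_one (by linarith)]
        exact Nat.floor_le_floor (by linarith)
      rw [Finset.mem_insert, Finset.mem_filter, Finset.mem_range]
      rcases Nat.lt_or_ge p (⌊x⌋₊ + 1) with h | h
      · right; exact ⟨h, hp.2⟩
      · left; omega
    have hne : (⌊x⌋₊ + 1) ∉ (Finset.range (⌊x⌋₊ + 1)).filter Nat.Prime := by
      simp
    by_cases hprime : (⌊x⌋₊ + 1).Prime
    · refine (Finset.sum_le_sum_of_subset_of_nonneg hsub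
        (fun p _ _ => div_nonneg (hgn p) (Nat.cast_nonneg _))).trans ?_
      rw [Finset.sum_insert hne]
      refine add_le_add ?_ le_rfl
      have h2 := (hg _ hprime).2
      have h3 : (2 : ℝ) ≤ ((⌊x⌋₊ + 1 : ℕ) : ℝ) := by exact_mod_cast hprime.two_le
      rw [div_le_one (by linarith)]
      linarith
    · have hsub' : (Finset.range (⌊z + 1⌋₊ + 1)).filter Nat.Prime ⊆
          (Finset.range (⌊x⌋₊ + 1)).filter Nat.Prime := by
        intro p hp
        have h2 := hsub hp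
        rw [Finset.mem_insert] at h2
        rcases h2 with h | h
        · rw [Finset.mem_filter] at hp
          rw [h] at hp
          exact absurd hp.2 hprime
        · exact h
      have h2 : ∑ p ∈ Finset.range (⌊z + 1⌋₊ + 1) with p.Prime, g p / (p : ℝ) ≤
          ∑ p ∈ Finset.range (⌊x⌋₊ + 1) with p.Prime, g p / (p : ℝ) :=
        Finset.sum_le_sum_of_subset_of_nonneg hsub'
          (fun p _ _ => div_nonneg (hgn p) (Nat.cast_nonneg _))
      linarith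
  calc C * LLx (z + 1) ^ 2 * ((z + 1) / Real.log (z + 1) ^ 2) *
        Real.exp (∑ p ∈ Finset.range (⌊z + 1⌋₊ + 1) with p.Prime, g p / p)
      ≤ C * (4 * (1 + Real.log (Real.log x)) ^ 2) * (3 / 2 * lam ^ 2 * (z / Real.log x ^ 2)) *
        (Real.exp 1 * Real.exp (∑ p ∈ PL (Real.log (Real.log x)), g p / p)) := by
        refine mul_le_mul ?_ hexp (Real.exp_pos _).le (by positivity)
        refine mul_le_mul ?_ hfrac (by positivity) (by positivity)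
        exact mul_le_mul_of_nonneg_left hLL hC.le
    _ = _ := by ring

/-- exponential weight of an additive statistic as a completely multiplicative function -/
noncomputable def gexp (ℓ : ℕ → ℝ) : ℕ →*₀ ℝ where
  toFun n := if n = 0 then 0 else Real.exp (St ℓ n)
  map_zero' := by simp
  map_one' := by simp [St_one]
  map_mul' m n := by
    rcases eq_or_ne m 0 with rfl | hm
    · simp
    rcases eq_or_ne n 0 with rfl | hn
    · simp
    rw [if_neg (mul_ne_zero hm hn), if_neg hm, if_neg hn, St_mul ℓ hm hn, Real.exp_add]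

lemma gexp_apply (ℓ : ℕ → ℝ) {n : ℕ} (hn : n ≠ 0) : gexp ℓ n = Real.exp (St ℓ n) := by
  show (if n = 0 then 0 else Real.exp (St ℓ n)) = _
  rw [if_neg hn]

lemma exp_two_fifths_le : Real.exp (2 / 5) ≤ 3 / 2 := by
  have h1 : Real.exp (2 / 5) ^ 5 = Real.exp 1 ^ 2 := by
    rw [← Real.exp_nat_mul, ← Real.exp_nat_mul]; norm_num
  have h2 := Real.exp_one_lt_d9
  have h3 : Real.exp 1 ^ 2 < 7.4 := by
    have := Real.exp_pos 1
    nlinarith
  by_contra hcon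
  push Not at hcon
  have h4 : (3 / 2 : ℝ) ^ 5 < Real.exp (2 / 5) ^ 5 :=
    pow_lt_pow_left₀ hcon (by norm_num) (by norm_num)
  rw [h1] at h4
  have h5 : (3 / 2 : ℝ) ^ 5 = 7.59375 := by norm_num
  rw [h5] at h4
  linarith

lemma gexp_bounds {ℓ : ℕ → ℝ} (hℓ : ∀ p : ℕ, p.Prime → ℓ p ≤ 2 / 5) :
    ∀ p : ℕ, p.Prime → 0 ≤ gexp ℓ p ∧ gexp ℓ p ≤ 3 / 2 := by
  intro p hp
  rw [gexp_apply ℓ hp.ne_zero, St_prime ℓ hp]
  exact ⟨(Real.exp_pos _).le, (Real.exp_le_exp.mpr (hℓ p hp)).trans exp_two_fifths_le⟩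

lemma cast_prime_sub_one {q : ℕ} (hq : q.Prime) : ((q - 1 : ℕ) : ℝ) = (q : ℝ) - 1 := by
  rw [Nat.cast_sub hq.one_lt.le]; simp

lemma Tup_sub_one_pos {ι : Type} {u : ι → ℝ} {q : ι → ℕ} (hq : q ∈ Tup u) (a : ι) :
    (0 : ℝ) < ((q a - 1 : ℕ) : ℝ) := by
  have := (hq a).1.two_le
  exact_mod_cast (by omega : 0 < q a - 1)

/-- real finite-sum version of `tuple_sum_le` -/
theorem tuple_fsum_le : ∃ C : ℝ, 0 < C ∧ ∀ {ι : Type} [Fintype ι] (ℓ : ℕ → ℝ)
    (_ : ∀ p : ℕ, p.Prime → ℓ p ≤ 2 / 5) (u : ι → ℝ) (_ : ∀ a, 0 ≤ u a)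
    (Q : Finset (ι → ℕ)) (_ : ∀ q ∈ Q, q ∈ Tup u),
    ∑ q ∈ Q, Real.exp (∑ a, St ℓ (q a - 1)) * ∏ a, ((q a - 1 : ℕ) : ℝ)⁻¹ ≤
      ∏ a, (C * (1 + u a) ^ 2 * Real.exp (-(u a)) *
        Real.exp (∑ p ∈ PL (u a), Real.exp (ℓ p) / p)) := by
  obtain ⟨C, hC, hT⟩ := tuple_sum_le
  refine ⟨C, hC, fun {ι} _ ℓ hℓ u hu Q hQ => ?_⟩
  have h1 := hT ℓ hℓ u hu
  rw [← ENNReal.ofReal_le_ofReal_iff (Finset.prod_nonneg fun a _ => by positivity)]
  refine le_trans ?_ h1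
  rw [ENNReal.ofReal_sum_of_nonneg (fun q _ => by positivity)]
  refine le_trans (le_of_eq ?_) (ENNReal.sum_le_tsum Q)
  refine Finset.sum_congr rfl fun q hq => ?_
  rw [Set.indicator_of_mem (hQ q hq), ENNReal.ofReal_mul (Real.exp_pos _).le,
    ENNReal.ofReal_prod_of_nonneg (fun a _ => by positivity)]
  congr 1
  refine Finset.prod_congr rfl fun a _ => ?_
  rw [ENNReal.ofReal_inv_of_pos (Tup_sub_one_pos (hQ q hq) a), ENNReal.ofReal_natCast]

/-- **Markov, counting version.** -/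
theorem count_markov : ∃ C : ℝ, 0 < C ∧ ∀ {ι : Type} [Fintype ι] (ℓ : ℕ → ℝ)
    (_ : ∀ p : ℕ, p.Prime → ℓ p ≤ 2 / 5) (u : ι → ℝ) (_ : ∀ a, 0 ≤ u a)
    (x lam X : ℝ) (_ : 16 ≤ x) (_ : 1 ≤ lam) (R : Finset ℕ) (_ : ∀ r ∈ R, r ≠ 0)
    (D : Finset (ℕ × (ι → ℕ) × ℕ))
    (_ : ∀ d ∈ D, d.1.Prime ∧ d.2.1 ∈ Tup u ∧ d.2.2 ∈ R ∧
      ((d.1 : ℝ) - 1) * ((∏ a, ((d.2.1 a - 1 : ℕ) : ℝ)) * d.2.2) ≤ x ∧
      2 ≤ x / ((∏ a, ((d.2.1 a - 1 : ℕ) : ℝ)) * d.2.2) ∧
      Real.log x ≤ lam * Real.log (x / ((∏ a, ((d.2.1 a - 1 : ℕ) : ℝ)) * d.2.2)) ∧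
      X ≤ St ℓ (d.1 - 1) + ∑ a, St ℓ (d.2.1 a - 1)),
    (D.card : ℝ) ≤ Real.exp (-X) * (C * (1 + Real.log (Real.log x)) ^ 2 * lam ^ 2 *
      (x / (Real.log x) ^ 2) * Real.exp (∑ p ∈ PL (Real.log (Real.log x)), Real.exp (ℓ p) / p)) *
      (∑ r ∈ R, (1 : ℝ) / r) *
      ∏ a, (C * (1 + u a) ^ 2 * Real.exp (-(u a)) *
        Real.exp (∑ p ∈ PL (u a), Real.exp (ℓ p) / p)) := by
  obtain ⟨C₁, hC₁, hT⟩ := tuple_fsum_le
  obtain ⟨C₂, hC₂, hF⟩ := count_first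
  refine ⟨max C₁ C₂, lt_of_lt_of_le hC₁ (le_max_left _ _), ?_⟩
  intro ι _ ℓ hℓ u hu x lam X hx hlam R hR D hD
  classical
  have hl1 : 1 < Real.log x := by
    rw [Real.lt_log_iff_exp_lt (by linarith)]
    have := Real.exp_one_lt_d9
    linarith
  have hB : 0 < Real.log (Real.log x) := Real.log_pos hl1
  set B := Real.log (Real.log x) with hBdef
  have hx0 : 0 < x := by linarith
  -- the constant of the first coordinate
  set K : ℝ := C₂ * (1 + B) ^ 2 * lam ^ 2 * (1 / (Real.log x) ^ 2) *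
    Real.exp (∑ p ∈ PL B, Real.exp (ℓ p) / p) with hK
  have hK0 : 0 ≤ K := by positivity
  set Pr : Finset ((ι → ℕ) × ℕ) := D.image (fun d => (d.2.1, d.2.2)) with hPr
  set Q : Finset (ι → ℕ) := D.image (fun d => d.2.1) with hQdef
  have hQ : ∀ q ∈ Q, q ∈ Tup u := by
    intro q hq
    rw [hQdef, Finset.mem_image] at hq
    obtain ⟨d, hd, rfl⟩ := hq
    exact (hD d hd).2.1
  have hprodpos : ∀ q ∈ Q, (0 : ℝ) < ∏ a, ((q a - 1 : ℕ) : ℝ) := fun q hq =>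
    Finset.prod_pos fun a _ => Tup_sub_one_pos (hQ q hq) a
  -- step 1 : cardinality by exponential weights
  have h1 : (D.card : ℝ) ≤ ∑ d ∈ D, Real.exp (-X) * (Real.exp (∑ a, St ℓ (d.2.1 a - 1)) *
      Real.exp (St ℓ (d.1 - 1))) := by
    rw [Finset.card_eq_sum_ones, Nat.cast_sum]
    refine Finset.sum_le_sum fun d hd => ?_
    rw [← Real.exp_add, ← Real.exp_add]
    push_cast
    refine Real.one_le_exp ?_
    linarith [(hD d hd).2.2.2.2.2.2]
  -- step 2 : fibres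
  have h2 : ∀ pr ∈ Pr, ∑ d ∈ D with (d.2.1, d.2.2) = pr, Real.exp (-X) *
      (Real.exp (∑ a, St ℓ (d.2.1 a - 1)) * Real.exp (St ℓ (d.1 - 1))) ≤
      Real.exp (-X) * (Real.exp (∑ a, St ℓ (pr.1 a - 1)) *
        (K * (x / ((∏ a, ((pr.1 a - 1 : ℕ) : ℝ)) * pr.2)))) := by
    intro pr hpr
    rw [hPr, Finset.mem_image] at hpr
    obtain ⟨d₀, hd₀, rfl⟩ := hpr
    obtain ⟨hp, htup, hr, hle, hz2, hzl, hX⟩ := hD d₀ hd₀
    set z := x / ((∏ a, ((d₀.2.1 a - 1 : ℕ) : ℝ)) * d₀.2.2) with hz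
    have hden : (1 : ℝ) ≤ (∏ a, ((d₀.2.1 a - 1 : ℕ) : ℝ)) * d₀.2.2 := by
      have e1 : (1 : ℝ) ≤ ∏ a, ((d₀.2.1 a - 1 : ℕ) : ℝ) := by
        have : 1 ≤ ∏ a, (d₀.2.1 a - 1) := Finset.one_le_prod' fun a _ => by
          have := (htup a).1.two_le
          omega
        exact_mod_cast this
      have e2 : (1 : ℝ) ≤ d₀.2.2 := by
        exact_mod_cast Nat.one_le_iff_ne_zero.mpr (hR _ hr)
      nlinarith
    have hzx : z ≤ x := div_le_self hx0.le hden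
    set A : Finset ℕ := (D.filter (fun d => (d.2.1, d.2.2) = (d₀.2.1, d₀.2.2))).image
      (fun d => d.1) with hA
    have hAm : ∀ q ∈ A, q.Prime ∧ (q : ℝ) ≤ z + 1 := by
      intro q hq
      rw [hA, Finset.mem_image] at hq
      obtain ⟨d, hd, rfl⟩ := hq
      rw [Finset.mem_filter] at hd
      obtain ⟨hdD, hdeq⟩ := hd
      obtain ⟨hp', -, -, hle', -⟩ := hD d hdD
      refine ⟨hp', ?_⟩
      rw [Prod.mk.injEq] at hdeq
      rw [hdeq.1, hdeq.2] at hle'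
      have : (d.1 : ℝ) - 1 ≤ z := by
        rw [hz, le_div_iff₀ (by linarith)]
        exact hle'
      linarith
    have h3 := hF (gexp ℓ) (gexp_bounds hℓ) x lam z hx hlam hz2 hzx hzl A hAm
    have h4 : ∑ d ∈ D with (d.2.1, d.2.2) = (d₀.2.1, d₀.2.2), Real.exp (St ℓ (d.1 - 1)) =
        ∑ q ∈ A, gexp ℓ (q - 1) := by
      rw [hA, Finset.sum_image]
      · refine Finset.sum_congr rfl fun d hd => ?_
        rw [Finset.mem_filter] at hd
        have := (hD d hd.1).1.two_le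
        rw [gexp_apply ℓ (by omega)]
      · intro d hd d' hd' hdd
        rw [Finset.mem_coe, Finset.mem_filter] at hd hd'
        have e1 := hd.2.trans hd'.2.symm
        rw [Prod.mk.injEq] at e1
        exact Prod.ext hdd (Prod.ext e1.1 e1.2)
    have h5 : ∑ p ∈ PL B, gexp ℓ p / (p : ℝ) = ∑ p ∈ PL B, Real.exp (ℓ p) / (p : ℝ) := by
      refine Finset.sum_congr rfl fun p hp => ?_
      have := ((mem_PL hB.le).mp hp).1
      rw [gexp_apply ℓ this.ne_zero, St_prime ℓ this]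
    rw [← Finset.mul_sum]
    refine mul_le_mul_of_nonneg_left ?_ (Real.exp_pos _).le
    have h6 : ∑ d ∈ D with (d.2.1, d.2.2) = (d₀.2.1, d₀.2.2),
        Real.exp (∑ a, St ℓ (d.2.1 a - 1)) * Real.exp (St ℓ (d.1 - 1)) =
        Real.exp (∑ a, St ℓ (d₀.2.1 a - 1)) *
          ∑ d ∈ D with (d.2.1, d.2.2) = (d₀.2.1, d₀.2.2), Real.exp (St ℓ (d.1 - 1)) := by
      rw [Finset.mul_sum]
      refine Finset.sum_congr rfl fun d hd => ?_
      rw [Finset.mem_filter, Prod.mk.injEq] at hd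
      rw [hd.2.1]
    rw [h6, h4]
    refine mul_le_mul_of_nonneg_left (h3.trans (le_of_eq ?_)) (Real.exp_pos _).le
    rw [h5, hK]
    ring
  have hmaps : ∀ d ∈ D, (d.2.1, d.2.2) ∈ Pr := fun d hd => Finset.mem_image_of_mem _ hd
  have h3 : (D.card : ℝ) ≤ ∑ pr ∈ Pr, Real.exp (-X) * (Real.exp (∑ a, St ℓ (pr.1 a - 1)) *
        (K * (x / ((∏ a, ((pr.1 a - 1 : ℕ) : ℝ)) * pr.2)))) := by
    refine h1.trans ?_
    rw [← Finset.sum_fiberwise_of_maps_to hmaps]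
    exact Finset.sum_le_sum h2
  -- step 3 : extend to the product set
  have hsub : Pr ⊆ Q ×ˢ R := by
    intro pr hpr
    rw [hPr, Finset.mem_image] at hpr
    obtain ⟨d, hd, rfl⟩ := hpr
    rw [Finset.mem_product]
    exact ⟨Finset.mem_image_of_mem _ hd, (hD d hd).2.2.1⟩
  have h4 : (D.card : ℝ) ≤ ∑ q ∈ Q, ∑ r ∈ R, Real.exp (-X) * (Real.exp (∑ a, St ℓ (q a - 1)) *
        (K * (x / ((∏ a, ((q a - 1 : ℕ) : ℝ)) * r)))) := by
    refine h3.trans ?_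
    rw [← Finset.sum_product']
    refine Finset.sum_le_sum_of_subset_of_nonneg hsub fun pr hpr _ => ?_
    rw [Finset.mem_product] at hpr
    have := hprodpos pr.1 hpr.1
    positivity
  have h5 : ∑ q ∈ Q, ∑ r ∈ R, Real.exp (-X) * (Real.exp (∑ a, St ℓ (q a - 1)) *
        (K * (x / ((∏ a, ((q a - 1 : ℕ) : ℝ)) * r)))) =
      Real.exp (-X) * (K * x) * (∑ r ∈ R, (1 : ℝ) / r) *
        ∑ q ∈ Q, Real.exp (∑ a, St ℓ (q a - 1)) * ∏ a, ((q a - 1 : ℕ) : ℝ)⁻¹ := by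
    rw [Finset.mul_sum]
    refine Finset.sum_congr rfl fun q hq => ?_
    rw [Finset.mul_sum, Finset.sum_mul]
    refine Finset.sum_congr rfl fun r hr => ?_
    have e1 := (hprodpos q hq).ne'
    have e2 : (r : ℝ) ≠ 0 := by exact_mod_cast hR r hr
    rw [Finset.prod_inv_distrib]
    field_simp
  rw [h5] at h4
  have h6 := hT ℓ hℓ u hu Q hQ
  have hR0 : 0 ≤ ∑ r ∈ R, (1 : ℝ) / r := Finset.sum_nonneg fun r _ => by positivity
  refine h4.trans ?_
  refine mul_le_mul ?_ (h6.trans ?_) (Finset.sum_nonneg fun q _ => by positivity) (by positivity)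
  · refine mul_le_mul_of_nonneg_right ?_ hR0
    refine mul_le_mul_of_nonneg_left ?_ (Real.exp_pos _).le
    rw [hK]
    have e1 : C₂ * (1 + B) ^ 2 * lam ^ 2 * (1 / (Real.log x) ^ 2) *
        Real.exp (∑ p ∈ PL B, Real.exp (ℓ p) / p) * x =
        C₂ * ((1 + B) ^ 2 * lam ^ 2 * (x / (Real.log x) ^ 2) *
        Real.exp (∑ p ∈ PL B, Real.exp (ℓ p) / p)) := by ring
    have e2 : max C₁ C₂ * (1 + B) ^ 2 * lam ^ 2 * (x / (Real.log x) ^ 2) *
        Real.exp (∑ p ∈ PL B, Real.exp (ℓ p) / p) =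
        max C₁ C₂ * ((1 + B) ^ 2 * lam ^ 2 * (x / (Real.log x) ^ 2) *
        Real.exp (∑ p ∈ PL B, Real.exp (ℓ p) / p)) := by ring
    rw [e1, e2]
    exact mul_le_mul_of_nonneg_right (le_max_right _ _) (by positivity)
  · refine Finset.prod_le_prod (fun a _ => by positivity) (fun a _ => ?_)
    have e1 : C₁ * (1 + u a) ^ 2 ≤ max C₁ C₂ * (1 + u a) ^ 2 :=
      mul_le_mul_of_nonneg_right (le_max_left _ _) (by positivity)
    exact mul_le_mul_of_nonneg_right (mul_le_mul_of_nonneg_right e1 (Real.exp_pos _).le)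
      (Real.exp_pos _).le

end Crest.Agent.R020.LS
end

-- ▼ part R020/LeftCount2
section

/-!
# Counting versions of the two Chernoff tails over tuples of primes
-/

set_option autoImplicit false

open Finset Filter
open scoped ENNReal

namespace Crest.Agent.R020.LS

lemma St_smul (ℓ : ℕ → ℝ) (τ : ℝ) (n : ℕ) : St (fun p => τ * ℓ p) n = τ * St ℓ n := by
  unfold St
  induction n.primeFactorsList with
  | nil => simp
  | cons p l ih => simp only [List.map_cons, List.sum_cons] at ih ⊢; rw [ih]; ring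

/-- `e^t ≤ 1 + t + t²` for `t ≤ 1`. -/
lemma exp_le_quad {t : ℝ} (ht : t ≤ 1) : Real.exp t ≤ 1 + t + t ^ 2 := by
  rcases le_or_gt (-1) t with h | h
  · have h9 := Real.abs_exp_sub_one_sub_id_le (x := t) (abs_le.mpr ⟨h, ht⟩)
    have h10 := (abs_le.mp h9).2
    linarith
  · have : Real.exp t ≤ 1 := Real.exp_le_one_iff.mpr (by linarith)
    nlinarith

/-- exponent of the twisted sums for a tilt `τ` (of either sign) -/
lemma sum_exp_le {ℓ : ℕ → ℝ} {L τ : ℝ} (hℓ : ∀ p : ℕ, p.Prime → 0 ≤ ℓ p ∧ ℓ p ≤ L)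
    (hτ : ∀ p : ℕ, p.Prime → τ * ℓ p ≤ 2 / 5) {u : ℝ} (hu : 0 ≤ u) :
    ∑ p ∈ PL u, Real.exp (τ * ℓ p) / (p : ℝ) ≤
      u + 27 + (τ * M ℓ u + τ ^ 2 * L ^ 2 * (u + 27)) := by
  have hs := sum_PL_inv_le hu
  calc ∑ p ∈ PL u, Real.exp (τ * ℓ p) / (p : ℝ)
      ≤ ∑ p ∈ PL u, ((1 : ℝ) / p + τ * (ℓ p / p) + τ ^ 2 * L ^ 2 * (1 / p)) := by
        refine Finset.sum_le_sum fun p hp => ?_
        have hpp := ((mem_PL hu).mp hp).1
        have hp0 : (0 : ℝ) < p := by exact_mod_cast hpp.pos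
        have h3 := hℓ p hpp
        have h4 := hτ p hpp
        have h6 : Real.exp (τ * ℓ p) ≤ 1 + τ * ℓ p + (τ * ℓ p) ^ 2 := exp_le_quad (by linarith)
        have h7 : (τ * ℓ p) ^ 2 ≤ τ ^ 2 * L ^ 2 := by
          rw [mul_pow]
          exact mul_le_mul_of_nonneg_left (pow_le_pow_left₀ h3.1 h3.2 2) (by positivity)
        rw [div_le_iff₀ hp0]
        have h8 : ((1 : ℝ) / p + τ * (ℓ p / p) + τ ^ 2 * L ^ 2 * (1 / p)) * p =
            1 + τ * ℓ p + τ ^ 2 * L ^ 2 := by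
          field_simp
        rw [h8]
        linarith
    _ = ∑ p ∈ PL u, (1 : ℝ) / p + τ * M ℓ u + τ ^ 2 * L ^ 2 * ∑ p ∈ PL u, (1 : ℝ) / p := by
        rw [Finset.sum_add_distrib, Finset.sum_add_distrib, ← Finset.mul_sum, ← Finset.mul_sum, M]
    _ ≤ _ := by
        have : 0 ≤ τ ^ 2 * L ^ 2 := by positivity
        nlinarith

/-- The conditions on the triples `(q₀, (q_a), r)` in the counting versions. -/
def CT {ι : Type} [Fintype ι] (u : ι → ℝ) (x lam : ℝ) (R : Finset ℕ)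
    (d : ℕ × (ι → ℕ) × ℕ) : Prop :=
  d.1.Prime ∧ d.2.1 ∈ Tup u ∧ d.2.2 ∈ R ∧
    ((d.1 : ℝ) - 1) * ((∏ a, ((d.2.1 a - 1 : ℕ) : ℝ)) * d.2.2) ≤ x ∧
    2 ≤ x / ((∏ a, ((d.2.1 a - 1 : ℕ) : ℝ)) * d.2.2) ∧
    Real.log x ≤ lam * Real.log (x / ((∏ a, ((d.2.1 a - 1 : ℕ) : ℝ)) * d.2.2))

/-- common form of both tails: a tilt `τ` of either sign. -/
theorem count_tilt : ∃ C : ℝ, 0 < C ∧ ∀ {ι : Type} [Fintype ι] (ℓ : ℕ → ℝ) (L τ : ℝ)
    (_ : ∀ p : ℕ, p.Prime → 0 ≤ ℓ p ∧ ℓ p ≤ L) (_ : ∀ p : ℕ, p.Prime → τ * ℓ p ≤ 2 / 5)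
    (u : ι → ℝ) (_ : ∀ a, 0 ≤ u a) (Y : ℝ) (_ : ∀ a, u a ≤ Y)
    (x lam X V : ℝ) (_ : 16 ≤ x) (_ : 1 ≤ lam) 
    (_ : (Real.log (Real.log x) + 27) + ∑ a, (u a + 27) ≤ V)
    (R : Finset ℕ) (_ : ∀ r ∈ R, r ≠ 0)
    (D : Finset (ℕ × (ι → ℕ) × ℕ)) (_ : ∀ d ∈ D, CT u x lam R d ∧
      X ≤ τ * (St ℓ (d.1 - 1) + ∑ a, St ℓ (d.2.1 a - 1))),
    (D.card : ℝ) ≤ C * (1 + Real.log (Real.log x)) ^ 2 * lam ^ 2 * (x / Real.log x) *
      (∑ r ∈ R, (1 : ℝ) / r) * (C * (1 + Y) ^ 2) ^ (Fintype.card ι) *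
      Real.exp (-X + τ * (M ℓ (Real.log (Real.log x)) + ∑ a, M ℓ (u a)) + τ ^ 2 * L ^ 2 * V) := by
  obtain ⟨C, hC, hT⟩ := count_markov
  refine ⟨C * Real.exp 27, by positivity, ?_⟩
  intro ι _ ℓ L τ hℓ hτ u hu Y huY x lam X V hx hlam hV R hR D hD
  have hl1 : 1 < Real.log x := by
    rw [Real.lt_log_iff_exp_lt (by linarith)]
    have := Real.exp_one_lt_d9
    linarith
  have hB : 0 < Real.log (Real.log x) := Real.log_pos hl1
  set B := Real.log (Real.log x) with hBdef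
  have hx0 : 0 < x := by linarith
  have h1 := hT (fun p => τ * ℓ p) hτ u hu x lam X hx hlam R hR D (fun d hd => by
    obtain ⟨⟨a1, a2, a3, a4, a5, a6⟩, a7⟩ := hD d hd
    refine ⟨a1, a2, a3, a4, a5, a6, ?_⟩
    simp only [St_smul]
    rw [← Finset.mul_sum, ← mul_add]
    exact a7)
  refine h1.trans ?_
  have h2 := prod_factors_le hC hu huY (fun a => ∑ p ∈ PL (u a), Real.exp (τ * ℓ p) / (p : ℝ))
    (fun a => τ * M ℓ (u a) + τ ^ 2 * L ^ 2 * (u a + 27)) (fun a => sum_exp_le hℓ hτ (hu a))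
  have h3 : Real.exp (∑ p ∈ PL B, Real.exp (τ * ℓ p) / (p : ℝ)) ≤
      Real.log x * Real.exp 27 * Real.exp (τ * M ℓ B + τ ^ 2 * L ^ 2 * (B + 27)) := by
    have h4 := sum_exp_le hℓ hτ hB.le
    have h5 : Real.log x = Real.exp B := by rw [hBdef, Real.exp_log (by linarith)]
    rw [h5, ← Real.exp_add, ← Real.exp_add, Real.exp_le_exp]
    linarith
  have hR0 : 0 ≤ ∑ r ∈ R, (1 : ℝ) / r := Finset.sum_nonneg fun r _ => by positivity
  have hlam0 : 0 < lam := by linarith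
  calc Real.exp (-X) * (C * (1 + B) ^ 2 * lam ^ 2 * (x / Real.log x ^ 2) *
          Real.exp (∑ p ∈ PL B, Real.exp (τ * ℓ p) / ↑p)) * (∑ r ∈ R, (1 : ℝ) / r) *
        ∏ a, (C * (1 + u a) ^ 2 * Real.exp (-(u a)) *
          Real.exp (∑ p ∈ PL (u a), Real.exp (τ * ℓ p) / p))
      ≤ Real.exp (-X) * (C * (1 + B) ^ 2 * lam ^ 2 * (x / Real.log x ^ 2) *
          (Real.log x * Real.exp 27 * Real.exp (τ * M ℓ B + τ ^ 2 * L ^ 2 * (B + 27)))) *
          (∑ r ∈ R, (1 : ℝ) / r) *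
        ((C * Real.exp 27 * (1 + Y) ^ 2) ^ (Fintype.card ι) *
          Real.exp (∑ a, (τ * M ℓ (u a) + τ ^ 2 * L ^ 2 * (u a + 27)))) := by
        refine mul_le_mul ?_ h2 (Finset.prod_nonneg fun a _ => by positivity) (by positivity)
        refine mul_le_mul_of_nonneg_right ?_ hR0
        refine mul_le_mul_of_nonneg_left ?_ (Real.exp_pos _).le
        exact mul_le_mul_of_nonneg_left h3 (by positivity)
    _ = C * Real.exp 27 * (1 + B) ^ 2 * lam ^ 2 * (x / Real.log x) *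
          (∑ r ∈ R, (1 : ℝ) / r) * (C * Real.exp 27 * (1 + Y) ^ 2) ^ (Fintype.card ι) *
          (Real.exp (-X) * Real.exp (τ * M ℓ B + τ ^ 2 * L ^ 2 * (B + 27)) *
          Real.exp (∑ a, (τ * M ℓ (u a) + τ ^ 2 * L ^ 2 * (u a + 27)))) := by
        have : Real.log x ≠ 0 := by linarith
        field_simp
    _ ≤ _ := by
        refine mul_le_mul_of_nonneg_left ?_ (by positivity)
        rw [← Real.exp_add, ← Real.exp_add, Real.exp_le_exp, Finset.sum_add_distrib,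
          ← Finset.mul_sum, ← Finset.mul_sum]
        have h4 : 0 ≤ τ ^ 2 * L ^ 2 := by positivity
        have h5 := mul_le_mul_of_nonneg_left hV h4
        linarith


/-- **Lower tail, counting version.** -/
theorem count_lower : ∃ C : ℝ, 0 < C ∧ ∀ {ι : Type} [Fintype ι] (ℓ : ℕ → ℝ) (L : ℝ)
    (_ : 0 < L) (_ : ∀ p : ℕ, p.Prime → 0 ≤ ℓ p ∧ ℓ p ≤ L)
    (u : ι → ℝ) (_ : ∀ a, 0 ≤ u a) (Y : ℝ) (_ : ∀ a, u a ≤ Y)
    (x lam V F : ℝ) (_ : 16 ≤ x) (_ : 1 ≤ lam) 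
    (_ : (Real.log (Real.log x) + 27) + ∑ a, (u a + 27) ≤ V) (_ : 0 < V)
    (_ : 0 ≤ F) (R : Finset ℕ) (_ : ∀ r ∈ R, r ≠ 0)
    (D : Finset (ℕ × (ι → ℕ) × ℕ)) (_ : ∀ d ∈ D, CT u x lam R d ∧
      (St ℓ (d.1 - 1) + ∑ a, St ℓ (d.2.1 a - 1)) + F ≤
        M ℓ (Real.log (Real.log x)) + ∑ a, M ℓ (u a)),
    (D.card : ℝ) ≤ C * (1 + Real.log (Real.log x)) ^ 2 * lam ^ 2 * (x / Real.log x) *
      (∑ r ∈ R, (1 : ℝ) / r) * (C * (1 + Y) ^ 2) ^ (Fintype.card ι) *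
      Real.exp (-(F ^ 2 / (4 * L ^ 2 * V))) := by
  obtain ⟨C, hC, hT⟩ := count_tilt
  refine ⟨C, hC, ?_⟩
  intro ι _ ℓ L hL hℓ u hu Y huY x lam V F hx hlam hV hV0 hF0 R hR D hD
  set τ : ℝ := F / (2 * L ^ 2 * V) with hτ
  have hτ0 : 0 ≤ τ := by positivity
  have hℓ' : ∀ p : ℕ, p.Prime → -τ * ℓ p ≤ 2 / 5 := fun p hp => by
    have := mul_nonneg hτ0 (hℓ p hp).1
    linarith
  have h1 := hT ℓ L (-τ) hℓ hℓ' u hu Y huY x lam
    (-τ * ((M ℓ (Real.log (Real.log x)) + ∑ a, M ℓ (u a)) - F)) V hx hlam hV R hR D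
    (fun d hd => ⟨(hD d hd).1, by
      have := (hD d hd).2
      nlinarith⟩)
  refine h1.trans (le_of_eq ?_)
  congr 2
  rw [hτ]
  field_simp
  ring

end Crest.Agent.R020.LS
end

-- ▼ part R020/UcDefs

/-!
Row 20 (helper702), module (Uc): parameters, decomposition structure and the four statements
`StmtDec`, `StmtBad`, `StmtLow`, `StmtHigh` from which `StmtUc` follows (`Union`).

`B = log log x` throughout; cells are `kap p = ⌈yy p⌉₊` (`kap p - 1 < yy p ≤ kap p`).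
-/

set_option autoImplicit false

open scoped ENNReal

noncomputable section

namespace Crest.Agent.R020.Uc

open Crest.Agent.R020 Crest.Agent.Lib

/-- threshold for big primes, `≈ √B` -/
def pw (B : ℝ) : ℕ := ⌊√(B + 1)⌋₊
/-- first cell of the statistic, `≈ B^0.3` -/
def pc0 (B : ℝ) : ℕ := ⌊B ^ (3 / 10 : ℝ)⌋₊
/-- last cell of the statistic, `≈ B - log (30 B) - 2` -/
def pC1 (B : ℝ) : ℕ := ⌊B - Real.log (30 * B) - 2⌋₊
/-- upper bound for all cells -/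
def pM (B : ℝ) : ℕ := ⌈B⌉₊ + 2
/-- bound for the number of big primes -/
def pS (B : ℝ) : ℕ := ⌈210 * √(B + 1)⌉₊
/-- bound for the small part -/
def pX (B : ℝ) : ℝ := B ^ (4 / 5 : ℝ)
/-- deviation of the statistic -/
def pF (B : ℝ) : ℝ := B ^ (9 / 10 : ℝ)

/-- multiplicities of the profile `κ` (the top prime `q0` is counted by the `1`) -/
def mult {s : ℕ} (κ : Fin s → ℕ) (c : ℕ) : ℕ := 1 + (Finset.univ.filter fun a => c < κ a).card

/-- real version of `mult` -/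
def multR {s : ℕ} (κ : Fin s → ℕ) (c : ℕ) : ℝ := (mult κ c : ℝ)

/-- the threshold `∑ k_c log k_c - F` for the statistic `log wt` -/
def pA (B : ℝ) {s : ℕ} (κ : Fin s → ℕ) : ℝ :=
  ∑ c ∈ Finset.Ioc (pc0 B) (pC1 B), multR κ c * Real.log (multR κ c) - pF B

/-- bad values of the small part -/
def Rbad (B : ℝ) : Set ℕ :=
  {r | r ∈ Sm (PT (pw B)) ∧ pX B ≤ Om r} ∪
    {r | ∃ n ∈ LCrude.bigSy (pw B) (pX B) (4 * pX B), n.totient = r}

/-- admissible profiles -/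
structure Prof (B : ℝ) (s : ℕ) (κ : Fin s → ℕ) : Prop where
  hs : s ≤ pS B
  hM : ∀ a, κ a ≤ pM B
  hw : ∀ a, pw B < κ a
  hsum : ((∑ a, κ a : ℕ) : ℝ) ≤ 420 * (B + 1)

/-- decomposition `v = (q0 - 1) ∏ (q a - 1) r` with profile `κ` -/
structure Dec (x : ℝ) (s : ℕ) (κ : Fin s → ℕ) (v q0 : ℕ) (q : Fin s → ℕ) (r : ℕ) : Prop where
  hq0 : q0.Prime
  hq : ∀ a, (q a).Prime ∧ kap (q a) = κ a
  hr : r ∈ Sm (PT (pw (Real.log (Real.log x))))
  hv : v = (q0 - 1) * ((∏ a, (q a - 1)) * r)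
  hx : (v : ℝ) ≤ x
  h2 : 2 ≤ x / ((∏ a, ((q a - 1 : ℕ) : ℝ)) * r)
  hlam : Real.log x ≤ (30 * Real.log (Real.log x)) *
    Real.log (x / ((∏ a, ((q a - 1 : ℕ) : ℝ)) * r))

/-- structure of the relevant totients -/
def StmtDec : Prop := ∃ B0 : ℝ, ∀ x : ℝ, 3 ≤ x → ∀ B : ℝ, B = Real.log (Real.log x) → B0 ≤ B →
  ∀ v : ℕ, IsTot v → ¬ Sq v → (v : ℝ) ≤ x → x / Real.log x ^ 2 < v →
    (Om v : ℝ) ≤ 20 * (B + 1) → Sy (rr v) ≤ 200 * (B + 1) →
    (∀ p : ℕ, p.Prime → (pw B : ℝ) < yy p → ¬ p ^ 2 ∣ rr v) →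
    B + B ^ (19 / 20 : ℝ) < FF aa (tl v) →
    ∃ (s : ℕ) (κ : Fin s → ℕ) (q0 : ℕ) (q : Fin s → ℕ) (r : ℕ), Prof B s κ ∧
      Dec x s κ v q0 q r ∧
      (r ∈ Rbad B ∨
        B ^ (19 / 20 : ℝ) / 2 ≤ ∑ c ∈ Finset.Ioc (pc0 B) (pC1 B), gk (mult κ c))

/-- bad small part -/
def StmtBad : Prop := ∃ B0 : ℝ, ∀ x : ℝ, 3 ≤ x → ∀ B : ℝ, B = Real.log (Real.log x) → B0 ≤ B →
  ∀ (s : ℕ) (κ : Fin s → ℕ), Prof B s κ → ∀ D : Finset ℕ,
    (∀ v ∈ D, ∃ (q0 : ℕ) (q : Fin s → ℕ) (r : ℕ), Dec x s κ v q0 q r ∧ r ∈ Rbad B) →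
    (D.card : ℝ) ≤ x / Real.log x * Real.exp (-B ^ (3 / 4 : ℝ))

/-- statistic too small (Chernoff over tuples) -/
def StmtLow : Prop := ∃ B0 : ℝ, ∀ x : ℝ, 3 ≤ x → ∀ B : ℝ, B = Real.log (Real.log x) → B0 ≤ B →
  ∀ (s : ℕ) (κ : Fin s → ℕ), Prof B s κ → ∀ D : Finset ℕ,
    (∀ v ∈ D, (∃ (q0 : ℕ) (q : Fin s → ℕ) (r : ℕ), Dec x s κ v q0 q r) ∧
      HallTen.wt (zz (multR κ) (pc0 B) (pC1 B)) v < Real.exp (pA B κ)) →
    (D.card : ℝ) ≤ x / Real.log x * Real.exp (-B ^ (3 / 4 : ℝ))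

/-- statistic not small (Rankin over the values `v`) -/
def StmtHigh : Prop := ∃ B0 : ℝ, ∀ x : ℝ, 3 ≤ x → ∀ B : ℝ, B = Real.log (Real.log x) → B0 ≤ B →
  ∀ (s : ℕ) (κ : Fin s → ℕ), Prof B s κ →
    B ^ (19 / 20 : ℝ) / 2 ≤ ∑ c ∈ Finset.Ioc (pc0 B) (pC1 B), gk (mult κ c) →
    ∀ D : Finset ℕ, (∀ v ∈ D, 1 ≤ v ∧ (v : ℝ) ≤ x ∧
      Real.exp (pA B κ) ≤ HallTen.wt (zz (multR κ) (pc0 B) (pC1 B)) v) →
    (D.card : ℝ) ≤ x / Real.log x * Real.exp (-B ^ (3 / 4 : ℝ))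

/-- assembly -/
def StmtUnion : Prop := StmtDec → StmtBad → StmtLow → StmtHigh → StmtUc

end Crest.Agent.R020.Uc
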