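import Mathlib
import Crest.Agent.R020.UcDefs
import Crest.Agent.R020.LCrude2
import Crest.Agent.R020.UcRankin
import Crest.Agent.R020.Abn4

-- ▼ part R020/UcDec1
section

/-!
Row 20 (helper702), module (Uc): structure of the relevant totients, deterministic part.
-/

set_option autoImplicit false

open scoped ENNReal
open Crest.NumberTheoryR.TotientScale

noncomputable section

namespace Crest.Agent.R020.Uc

open Crest.Agent.R020 Crest.Agent.Lib

/-! ### Lists -/

/-- `FL` with coefficients `aCoef`, `0`-indexed, on the reversed list is `Gl`. -/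
lemma FL_append_singleton (c : ℕ → ℝ) (l : List ℕ) (p : ℕ) :
    FL c (l ++ [p]) = FL c l + c l.length * yy p := by
  induction l generalizing c with
  | nil => simp [FL_cons]
  | cons q l ih =>
    rw [List.cons_append, FL_cons, FL_cons, ih, List.length_cons]
    ring

lemma Gl_map_yy (l : List ℕ) : Gl (l.map yy) = FL (fun i => aCoef i) l.reverse := by
  induction l with
  | nil => simp
  | cons p l ih =>
    rw [List.map_cons, Gl_cons, ih, List.reverse_cons, FL_append_singleton, List.length_map,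
      List.length_reverse]

lemma Gl_primeFactorsList (n : ℕ) :
    Gl (n.primeFactorsList.map yy) = FL (fun i => aCoef i) (dl n) := Gl_map_yy _

/-- splitting of a sorted list at a threshold -/
lemma sorted_split (l : List ℕ) (hl : l.Pairwise (· ≤ ·)) (t : ℝ) :
    l = l.filter (fun p => decide (yy p ≤ t)) ++ l.filter (fun p => decide (t < yy p)) := by
  induction l with
  | nil => simp
  | cons p l ih =>
    rw [List.pairwise_cons] at hl
    by_cases h : yy p ≤ t
    · rw [List.filter_cons_of_pos (by simpa using h), List.filter_cons_of_neg (by simpa using h),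
        List.cons_append, ← ih hl.2]
    · have h' : t < yy p := not_le.mp h
      have hall : ∀ q ∈ l, t < yy q := fun q hq => h'.trans_le (yy_mono (hl.1 q hq))
      have h1 : l.filter (fun p => decide (yy p ≤ t)) = [] := by
        rw [List.filter_eq_nil_iff]
        intro q hq
        simpa using hall q hq
      have h2 : l.filter (fun p => decide (t < yy p)) = l := by
        rw [List.filter_eq_self]
        intro q hq
        simpa using hall q hq
      rw [List.filter_cons_of_neg (by simpa using h'), List.filter_cons_of_pos (by simpa using h'),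
        h1, h2, List.nil_append]

/-- totient of a product of distinct primes and a coprime number -/
lemma totient_prod_mul (l : List ℕ) (hp : ∀ p ∈ l, p.Prime) (hnd : l.Nodup) (t : ℕ)
    (ht : ∀ p ∈ l, ¬ p ∣ t) :
    Nat.totient (l.prod * t) = (l.map fun p => p - 1).prod * Nat.totient t := by
  induction l with
  | nil => simp
  | cons p l ih =>
    rw [List.nodup_cons] at hnd
    have hpp := hp p (by simp)
    have hcop : Nat.Coprime p (l.prod * t) := by
      rw [Nat.Prime.coprime_iff_not_dvd hpp, Nat.Prime.dvd_mul hpp]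
      rintro (h | h)
      · obtain ⟨q, hq, hpq⟩ := (Prime.dvd_prod_iff hpp.prime).mp h
        have hqp := hp q (by simp [hq])
        rw [Nat.prime_dvd_prime_iff_eq hpp hqp] at hpq
        exact hnd.1 (hpq ▸ hq)
      · exact ht p (by simp) h
    rw [List.prod_cons, mul_assoc, Nat.totient_mul hcop, Nat.totient_prime hpp,
      ih (fun q hq => hp q (by simp [hq])) hnd.2 (fun q hq => ht q (by simp [hq])),
      List.map_cons, List.prod_cons, mul_assoc]

/-- a multiple element of a list of primes gives a square divisor -/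
lemma nodup_of_sq (l : List ℕ) (hl : l.Pairwise (· ≤ ·)) (n : ℕ) (hn : l.prod ∣ n)
    (h : ∀ p ∈ l, ¬ p ^ 2 ∣ n) : l.Nodup := by
  induction l with
  | nil => simp
  | cons p l ih =>
    rw [List.pairwise_cons] at hl
    rw [List.nodup_cons]
    refine ⟨?_, ih hl.2 ((dvd_mul_left _ _).trans (by rwa [List.prod_cons] at hn))
      (fun q hq => h q (by simp [hq]))⟩
    intro hpl
    apply h p (by simp)
    refine dvd_trans ?_ hn
    rw [List.prod_cons, pow_two]
    exact Nat.mul_dvd_mul_left p (List.dvd_prod hpl)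

lemma cnt_append (l l' : List ℕ) (c : ℕ) : cnt (l ++ l') c = cnt l c + cnt l' c := by
  unfold cnt
  rw [List.countP_append]

lemma cnt_map_get (l : List ℕ) (f : ℕ → ℕ) (c : ℕ) :
    cnt (l.map f) c = (Finset.univ.filter fun a : Fin l.length => c < f (l.get a)).card := by
  induction l with
  | nil => simp [cnt_nil]
  | cons p l ih =>
    rw [Finset.card_filter] at ih
    rw [List.map_cons, cnt_cons, ih, Finset.card_filter]
    simp only [List.length_cons]
    rw [Fin.sum_univ_succ, add_comm]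
    congr 1

lemma sum_get {M : Type*} [AddCommMonoid M] (l : List ℕ) (f : ℕ → M) :
    ∑ a : Fin l.length, f (l.get a) = (l.map f).sum := by
  induction l with
  | nil => simp
  | cons p l ih =>
    simp only [List.length_cons]
    rw [Fin.sum_univ_succ, List.map_cons, List.sum_cons, ← ih]
    simp

lemma prod_get {M : Type*} [CommMonoid M] (l : List ℕ) (f : ℕ → M) :
    ∏ a : Fin l.length, f (l.get a) = (l.map f).prod := by
  induction l with
  | nil => simp
  | cons p l ih =>
    simp only [List.length_cons]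
    rw [Fin.prod_univ_succ, List.map_cons, List.prod_cons, ← ih]
    simp

/-- the counting function times the threshold is at most the sum -/
lemma cnt_mul_le (l : List ℕ) (c : ℕ) : cnt l c * c ≤ l.sum := by
  induction l with
  | nil => simp [cnt_nil]
  | cons x l ih =>
    rw [cnt_cons, List.sum_cons]
    split_ifs with h
    · rw [add_mul, one_mul]; omega
    · rw [add_zero]; omega

end Crest.Agent.R020.Uc
end
end

-- ▼ part R020/UcDec2
section

/-!
Row 20 (helper702), module (Uc): structure of the relevant totients (`StmtDec`) from a list of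
numerical inequalities.
-/

set_option autoImplicit false

open scoped ENNReal
open Crest.NumberTheoryR.TotientScale

noncomputable section

namespace Crest.Agent.R020.Uc

open Crest.Agent.R020 Crest.Agent.Lib

/-- the numerical inequalities used in `StmtDec` -/
structure NumB (B : ℝ) : Prop where
  h1 : 1000 ≤ B
  h2 : Real.exp B / (30 * B) + 1 ≤ (Real.exp B - 2 * B) / (20 * B + 21)
  h3 : 1 ≤ Real.exp B / (30 * B)
  h4 : B / 2 ≤ (pC1 B : ℝ)
  h5 : pc0 B ≤ pw B
  h6 : 200 * (B + 1) ≤ 210 * √(B + 1) * pw B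
  h7 : B ^ (19 / 20 : ℝ) / 2 ≤ B ^ (19 / 20 : ℝ) - 1 - Real.log (20 * B + 21) * (4 * pX B) -
    ((pc0 B : ℝ) + 1) * (((pS B : ℝ) + 1) * Real.log (20 * B + 21)) -
    ((pM B : ℝ) - pC1 B) * 1000000

lemma gk_le {k : ℕ} (hk : k ≤ 900) : gk k ≤ 1000000 := by
  unfold gk
  have h1 : Real.log k ≤ k := by
    rcases Nat.eq_zero_or_pos k with rfl | h
    · simp
    · have := Real.log_le_sub_one_of_pos (show (0 : ℝ) < k by exact_mod_cast h)
      linarith
  have h2 : (k : ℝ) ≤ 900 := by exact_mod_cast hk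
  have h3 : (0 : ℝ) ≤ k := Nat.cast_nonneg k
  nlinarith

lemma pfl_of_dl {n q : ℕ} {m : ℕ} (h : dl n = q :: dl m) :
    n.primeFactorsList = m.primeFactorsList ++ [q] := by
  have h1 : n.primeFactorsList = (dl n).reverse := by unfold dl; rw [List.reverse_reverse]
  rw [h1, h, List.reverse_cons]
  unfold dl
  rw [List.reverse_reverse]

lemma log_le_Om_mul {n q : ℕ} (hn : n ≠ 0) (hq : ∀ p ∈ n.primeFactorsList, p ≤ q) (hq1 : 1 ≤ q) :
    Real.log n ≤ (Om n : ℝ) * Real.log q := by
  have h1 : n ≤ q ^ Om n := by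
    conv_lhs => rw [← Nat.prod_primeFactorsList hn]
    exact List.prod_le_pow_card _ _ hq
  have h2 : (n : ℝ) ≤ (q : ℝ) ^ Om n := by exact_mod_cast h1
  have h3 : Real.log n ≤ Real.log ((q : ℝ) ^ Om n) :=
    Real.log_le_log (by exact_mod_cast Nat.pos_of_ne_zero hn) h2
  rwa [Real.log_pow] at h3

theorem dec_of {x B : ℝ} (hx : 3 ≤ x) (hB : B = Real.log (Real.log x)) (hN : NumB B)
    {v : ℕ} (hv : IsTot v) (hsq : ¬ Sq v) (hvx : (v : ℝ) ≤ x) (hlow : x / Real.log x ^ 2 < v)
    (hOm : (Om v : ℝ) ≤ 20 * (B + 1)) (hSy : Sy (rr v) ≤ 200 * (B + 1))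
    (hnosq : ∀ p : ℕ, p.Prime → (pw B : ℝ) < yy p → ¬ p ^ 2 ∣ rr v)
    (hFF : B + B ^ (19 / 20 : ℝ) < FF aa (tl v)) :
    ∃ (s : ℕ) (κ : Fin s → ℕ) (q0 : ℕ) (q : Fin s → ℕ) (r : ℕ), Prof B s κ ∧
      Dec x s κ v q0 q r ∧
      (r ∈ Rbad B ∨
        B ^ (19 / 20 : ℝ) / 2 ≤ ∑ c ∈ Finset.Ioc (pc0 B) (pC1 B), gk (mult κ c)) := by
  obtain ⟨hB1, hn2, hn3, hn4, hn5, hn6, hn7⟩ := hN
  have hv1 : v ≠ 1 := by
    rintro rfl
    apply hsq
    unfold Sq
    rw [rr_one]
    simp [Pm]
  obtain ⟨hq0, htl, hveq, hrr, hPlt, hdl⟩ := totient_decomp hv hv1 hsq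
  set n := rr v with hn
  set q0 := Pm n with hq0def
  set d := tl v with hd
  set m := rr d with hm
  have hn0 : n ≠ 0 := (rr_pos v).ne'
  have hm0 : m ≠ 0 := (rr_pos d).ne'
  have hd0 : 0 < d := htl.pos
  have hφm : Nat.totient m = d := totient_rr htl
  have hpfl : n.primeFactorsList = m.primeFactorsList ++ [q0] := pfl_of_dl hdl
  have hlx : 1 ≤ Real.log x := by
    rw [Real.le_log_iff_exp_le (by linarith)]
    have := Real.exp_one_lt_d9
    linarith
  have hB0 : 0 ≤ Real.log (Real.log x) := Real.log_nonneg hlx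
  have hexpB : Real.exp B = Real.log x := by rw [hB, Real.exp_log (by linarith)]
  -- the split of the list
  set t : ℝ := (pw B : ℝ) with ht
  have ht0 : 0 ≤ t := Nat.cast_nonneg _
  set Ls := m.primeFactorsList.filter (fun p => decide (yy p ≤ t)) with hLs
  set Lb := m.primeFactorsList.filter (fun p => decide (t < yy p)) with hLb
  have hsort : m.primeFactorsList.Pairwise (· ≤ ·) := Nat.primeFactorsList_sorted m |>.pairwise
  have hsplit : m.primeFactorsList = Ls ++ Lb := sorted_split _ hsort t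
  have hLbp : ∀ p ∈ Lb, p.Prime := fun p hp =>
    Nat.prime_of_mem_primeFactorsList (List.mem_of_mem_filter hp)
  have hLsp : ∀ p ∈ Ls, p.Prime := fun p hp =>
    Nat.prime_of_mem_primeFactorsList (List.mem_of_mem_filter hp)
  have hLby : ∀ p ∈ Lb, t < yy p := fun p hp => by
    have := (List.mem_filter.mp hp).2
    simpa using this
  have hLsy : ∀ p ∈ Ls, yy p ≤ t := fun p hp => by
    have := (List.mem_filter.mp hp).2
    simpa using this
  have hLbsort : Lb.Pairwise (· ≤ ·) := hsort.filter _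
  have hmprod : m = Lb.prod * Ls.prod := by
    conv_lhs => rw [← Nat.prod_primeFactorsList hm0, hsplit, List.prod_append, mul_comm]
  have hmn : m ∣ n := by rw [hrr]; exact dvd_mul_left m q0
  have hLbn : Lb.prod ∣ n := (dvd_trans ⟨Ls.prod, hmprod⟩ hmn)
  have hnd : Lb.Nodup := nodup_of_sq Lb hLbsort n hLbn
    (fun p hp => hnosq p (hLbp p hp) (hLby p hp))
  have hLsne : Ls.prod ≠ 0 := by
    intro h
    rw [h, mul_zero] at hmprod
    exact hm0 hmprod
  have hLsdvd : ∀ p : ℕ, p.Prime → p ∣ Ls.prod → p ∈ Ls := by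
    intro p hp hd
    obtain ⟨a, ha, hpa⟩ := (Prime.dvd_prod_iff hp.prime).mp hd
    rw [Nat.prime_dvd_prime_iff_eq hp (hLsp a ha)] at hpa
    rwa [hpa]
  have hφ : d = (Lb.map fun p => p - 1).prod * Nat.totient Ls.prod := by
    rw [← hφm]
    conv_lhs => rw [hmprod]
    apply totient_prod_mul Lb hLbp hnd
    intro p hp hdvd
    have h1 := hLsy p (hLsdvd p (hLbp p hp) hdvd)
    have h2 := hLby p hp
    linarith
  -- data
  set r := Nat.totient Ls.prod with hr
  have hrSm : r ∈ Sm (PT (pw B)) := by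
    apply totient_mem_Sm hLsne ht0
    intro q hq
    exact hLsy q (hLsdvd q (Nat.prime_of_mem_primeFactors hq) (Nat.dvd_of_mem_primeFactors hq))
  have hveq2 : v = (q0 - 1) * ((∏ a : Fin Lb.length, (Lb.get a - 1)) * r) := by
    rw [prod_get Lb (fun p => p - 1), ← hφ]
    exact hveq
  -- sums of `yy`
  have hSyn : (Ls.map yy).sum + (Lb.map yy).sum + yy q0 = Sy n := by
    unfold Sy
    rw [hpfl, hsplit, List.map_append, List.map_append, List.sum_append, List.sum_append]
    simp
  have hLs0 : 0 ≤ (Ls.map yy).sum := List.sum_nonneg (by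
    intro a ha
    rw [List.mem_map] at ha
    obtain ⟨p, _, rfl⟩ := ha
    exact yy_nonneg p)
  have hq0y : 0 ≤ yy q0 := yy_nonneg q0
  have hLbsum : (Lb.map yy).sum ≤ 200 * (B + 1) := by linarith
  have hlen : (Lb.length : ℝ) * t ≤ (Lb.map yy).sum := by
    have : ∀ l : List ℕ, (∀ p ∈ l, t < yy p) → (l.length : ℝ) * t ≤ (l.map yy).sum := by
      intro l
      induction l with
      | nil => simp
      | cons p l ih =>
        intro h
        have h1 := ih (fun q hq => h q (by simp [hq]))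
        have h2 := h p (by simp)
        rw [List.length_cons, List.map_cons, List.sum_cons]
        push_cast
        linarith
    exact this Lb hLby
  have hpw0 : 0 < t := by
    have h1 : 0 < 200 * (B + 1) := by linarith
    have h2 : 0 < 210 * √(B + 1) := by
      have : 0 < √(B + 1) := Real.sqrt_pos.mpr (by linarith)
      linarith
    by_contra h
    have h3 : t = 0 := le_antisymm (not_lt.mp h) ht0
    have h4 : 210 * √(B + 1) * (pw B : ℝ) = 0 := by rw [← ht, h3, mul_zero]
    linarith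
  have hsS : Lb.length ≤ pS B := by
    have h1 : (Lb.length : ℝ) * t ≤ 210 * √(B + 1) * t := by linarith
    have h2 : (Lb.length : ℝ) ≤ 210 * √(B + 1) := le_of_mul_le_mul_right h1 hpw0
    have h3 : (Lb.length : ℝ) ≤ (pS B : ℝ) := h2.trans (Nat.le_ceil _)
    exact_mod_cast h3
  have hS2 : (pS B : ℝ) ≤ 210 * (B + 1) := by
    have h1 : (pS B : ℝ) < 210 * √(B + 1) + 1 := Nat.ceil_lt_add_one (by positivity)
    have h2 : √(B + 1) * 30 ≤ B + 1 := by
      have h3 : √(B + 1) * √(B + 1) = B + 1 := Real.mul_self_sqrt (by linarith)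
      have h4 : 30 ≤ √(B + 1) := by
        apply Real.le_sqrt_of_sq_le
        linarith
      nlinarith
    linarith
  -- all primes of `n` are at most `q0`
  have hle : ∀ p ∈ n.primeFactorsList, p ≤ q0 := by
    intro p hp
    rw [hpfl, List.mem_append] at hp
    rcases hp with hp | hp
    · have h1 : p ∈ dl m := mem_dl.mpr hp
      have h2 : (q0 :: dl m).Pairwise (· ≥ ·) := hdl ▸ dl_sorted n
      exact (List.pairwise_cons.mp h2).1 p h1
    · rw [List.mem_singleton] at hp
      exact hp.le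
  have hyq0 : yy q0 ≤ B + 1 := by
    rw [hB]
    apply LCrude.yy_le_of_le hx hq0 hd0 _ hB0
    rw [← hveq]
    exact hvx
  have hkap_le : ∀ p : ℕ, yy p ≤ B + 1 → kap p ≤ pM B := by
    intro p hp
    rw [kap_le_iff]
    unfold pM
    push_cast
    have := Nat.le_ceil B
    linarith
  have hLbM : ∀ p ∈ Lb, kap p ≤ pM B := by
    intro p hp
    apply hkap_le
    have h1 : p ≤ q0 := hle p (by
      rw [hpfl, List.mem_append]
      left
      exact List.mem_of_mem_filter hp)
    exact (yy_mono h1).trans hyq0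
  have hLbw : ∀ p ∈ Lb, pw B < kap p := by
    intro p hp
    by_contra h
    push Not at h
    rw [kap_le_iff] at h
    have := hLby p hp
    linarith
  have hkapsum : ((Lb.map kap).sum : ℝ) ≤ (Lb.map yy).sum + Lb.length := by
    have : ∀ l : List ℕ, ((l.map kap).sum : ℝ) ≤ (l.map yy).sum + l.length := by
      intro l
      induction l with
      | nil => simp
      | cons p l ih =>
        rw [List.map_cons, List.sum_cons, List.map_cons, List.sum_cons, List.length_cons]
        push_cast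
        have := (kap_lt p).le
        push_cast at ih
        linarith
    exact this Lb
  have hsum : ((∑ a : Fin Lb.length, kap (Lb.get a) : ℕ) : ℝ) ≤ 420 * (B + 1) := by
    rw [sum_get Lb kap]
    have h1 : (Lb.length : ℝ) ≤ pS B := by exact_mod_cast hsS
    linarith
  -- size of `q0`
  have hOmn : (Om n : ℝ) ≤ 20 * B + 21 := by
    have h1 := Om_le_Om_totient hn0
    rw [hn, totient_rr hv] at h1
    have h2 : (Om (rr v) : ℝ) ≤ Om v + 1 := by exact_mod_cast h1
    rw [hn]
    linarith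
  have hOmn1 : 1 ≤ Om n := by
    unfold Om
    rw [hpfl]
    simp
  have hlogn : Real.log x - 2 * B ≤ Real.log n := by
    have h1 : v ≤ n := by
      have := Nat.totient_le n
      rw [hn, totient_rr hv] at this
      rw [hn]; exact this
    have h2 : x / Real.log x ^ 2 ≤ (n : ℝ) := by
      have : (v : ℝ) ≤ n := by exact_mod_cast h1
      linarith
    have h3 : Real.log (x / Real.log x ^ 2) ≤ Real.log n := by
      apply Real.log_le_log _ h2
      positivity
    rw [Real.log_div (by linarith) (by positivity), Real.log_pow, ← hB] at h3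
    push_cast at h3
    linarith
  have hlogq0 : (Real.exp B - 2 * B) / (20 * B + 21) ≤ Real.log q0 := by
    have h1 := log_le_Om_mul hn0 hle hq0.one_le
    have h2 : 0 ≤ Real.log q0 := Real.log_nonneg (by exact_mod_cast hq0.one_le)
    have h3 : (Om n : ℝ) * Real.log q0 ≤ (20 * B + 21) * Real.log q0 := by gcongr
    rw [div_le_iff₀ (by linarith), hexpB]
    linarith
  have hlogq1 : Real.exp B / (30 * B) ≤ Real.log ((q0 - 1 : ℕ) : ℝ) := by
    have h2 := hq0.two_le
    have h3 : ((q0 : ℝ)) / 2 ≤ ((q0 - 1 : ℕ) : ℝ) := by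
      rw [Nat.cast_sub (by omega)]
      have : (2 : ℝ) ≤ q0 := by exact_mod_cast h2
      push_cast
      linarith
    have h4 : Real.log ((q0 : ℝ) / 2) ≤ Real.log ((q0 - 1 : ℕ) : ℝ) := by
      apply Real.log_le_log _ h3
      have : (0 : ℝ) < q0 := by exact_mod_cast hq0.pos
      positivity
    rw [Real.log_div (by exact_mod_cast hq0.ne_zero) (by norm_num)] at h4
    have h5 := Real.log_two_lt_d9
    linarith
  have hD : ((∏ a : Fin Lb.length, ((Lb.get a - 1 : ℕ) : ℝ)) * (r : ℝ)) = (d : ℝ) := by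
    rw [prod_get Lb (fun p => ((p - 1 : ℕ) : ℝ)), hφ]
    push_cast
    rw [List.map_map]
    rfl
  have hxd : ((q0 - 1 : ℕ) : ℝ) ≤ x / (d : ℝ) := by
    have hd0' : (0 : ℝ) < d := by exact_mod_cast hd0
    rw [le_div_iff₀ hd0']
    have h1 : (((q0 - 1) * d : ℕ) : ℝ) ≤ x := by rw [← hveq]; exact hvx
    push_cast at h1 ⊢
    exact h1
  have hq1pos : (0 : ℝ) < ((q0 - 1 : ℕ) : ℝ) := by
    have := hq0.two_le
    exact_mod_cast (by omega : 0 < q0 - 1)
  have hlogxd : Real.exp B / (30 * B) ≤ Real.log (x / (d : ℝ)) :=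
    hlogq1.trans (Real.log_le_log hq1pos hxd)
  have hDec : Dec x Lb.length (fun a => kap (Lb.get a)) v q0 Lb.get r := by
    refine ⟨hq0, fun a => ⟨hLbp _ (List.get_mem _ _), rfl⟩, ?_, hveq2, hvx, ?_, ?_⟩
    · rw [← hB]; exact hrSm
    · rw [hD]
      have h1 : 1 ≤ Real.log (x / (d : ℝ)) := hn3.trans hlogxd
      have h2 : 0 < x / (d : ℝ) := lt_of_lt_of_le hq1pos hxd
      rw [Real.le_log_iff_exp_le h2] at h1
      have := Real.add_one_le_exp (1 : ℝ)
      linarith
    · rw [hD, ← hB, ← hexpB]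
      have h1 : 0 < 30 * B := by linarith
      calc Real.exp B = (30 * B) * (Real.exp B / (30 * B)) := by field_simp
        _ ≤ _ := by gcongr
  refine ⟨Lb.length, fun a => kap (Lb.get a), q0, Lb.get, r,
    ⟨hsS, fun a => hLbM _ (List.get_mem _ _), fun a => hLbw _ (List.get_mem _ _), hsum⟩,
    hDec, ?_⟩
  -- the dichotomy
  by_cases hX1 : pX B ≤ Om r
  · left; left; exact ⟨hrSm, hX1⟩
  push Not at hX1
  by_cases hX2 : 4 * pX B ≤ Sy Ls.prod
  · left; right
    refine ⟨Ls.prod, ⟨?_, hX1.le, hX2⟩, rfl⟩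
    rw [mem_Sm_PT ht0]
    exact ⟨hLsne, fun q hq => hLsy q (hLsdvd q (Nat.prime_of_mem_primeFactors hq)
      (Nat.dvd_of_mem_primeFactors hq))⟩
  push Not at hX2
  right
  -- `Sy` of the small part
  have hSyLs : (Ls.map yy).sum ≤ 4 * pX B := by
    have h1 : List.Perm Ls (Ls.prod).primeFactorsList := Nat.primeFactorsList_unique rfl hLsp
    have h2 : (Ls.map yy).sum = Sy Ls.prod := by
      unfold Sy
      exact (h1.map yy).sum_eq
    linarith
  -- `Gl`
  have hG0 : Gl (n.primeFactorsList.map yy) = FF aa d - yy q0 := by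
    rw [Gl_primeFactorsList, hdl, FL_cons, aCoef_zero]
    unfold FF
    rw [← hm]
    have : (fun i => aCoef (i + 1)) = aa := rfl
    rw [this]
    ring
  set M0 := Om n with hM0
  have hG1 : Gl (n.primeFactorsList.map yy) ≤
      Gl ((Lb ++ [q0]).map yy) + Real.log M0 * (Ls.map yy).sum := by
    have h1 : n.primeFactorsList.map yy = Ls.map yy ++ (Lb ++ [q0]).map yy := by
      rw [hpfl, hsplit, List.append_assoc, List.map_append]
    rw [h1]
    apply Gl_append_le
    · intro a ha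
      rw [List.mem_map] at ha
      obtain ⟨p, _, rfl⟩ := ha
      exact yy_nonneg p
    · rw [hM0]
      unfold Om
      rw [hpfl, hsplit]
      simp only [List.length_map, List.length_append, List.length_cons, List.length_nil]
      omega
  have hG2 := Gl_le_cells (pc0 B) (Lb ++ [q0]) yy kap M0 (by
      rw [hM0]
      unfold Om
      rw [hpfl, hsplit]
      simp only [List.length_append, List.length_cons, List.length_nil]
      omega)
    (fun q _ => ⟨by have := (kap_lt q).le; linarith, yy_le_kap q⟩)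
  -- `q0` is above all cells
  have hyq0' : B - Real.log (30 * B) ≤ yy q0 := by
    have h1 : Real.exp B / (30 * B) ≤ Real.log q0 := by
      have := hn2.trans hlogq0
      linarith
    have h2 : Real.log (Real.exp B / (30 * B)) ≤ Real.log (Real.log q0) := by
      apply Real.log_le_log _ h1
      have := Real.exp_pos B
      have : 0 < 30 * B := by linarith
      positivity
    rw [Real.log_div (Real.exp_pos B).ne' (by linarith), Real.log_exp] at h2
    exact h2.trans (log_log_le_yy q0)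
  have hC1 : (pC1 B : ℝ) ≤ B - Real.log (30 * B) - 2 := by
    unfold pC1
    apply Nat.floor_le
    by_contra h
    push Not at h
    have h1 : pC1 B = 0 := by
      unfold pC1
      rw [Nat.floor_eq_zero]
      linarith
    rw [h1] at hn4
    push_cast at hn4
    linarith
  have hC1q0 : pC1 B < kap q0 := by
    by_contra h
    push Not at h
    rw [kap_le_iff] at h
    linarith
  have hc0C1 : pc0 B ≤ pC1 B := by
    -- `pc0 ≤ pw ≤ √(B+1) ≤ B/2 ≤ pC1`
    have h1 : (pw B : ℝ) ≤ √(B + 1) := Nat.floor_le (Real.sqrt_nonneg _)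
    have h2 : √(B + 1) ≤ B / 2 := by
      rw [Real.sqrt_le_left (by linarith)]
      nlinarith
    have h3 : (pc0 B : ℝ) ≤ pw B := by exact_mod_cast hn5
    have h4 : (pc0 B : ℝ) ≤ pC1 B := by linarith
    exact_mod_cast h4
  have hlk : ∀ a ∈ (Lb ++ [q0]).map kap, pc0 B < a ∧ a ≤ (pM B - 1) + 1 := by
    intro a ha
    have hpM1 : (pM B - 1) + 1 = pM B := by unfold pM; omega
    rw [hpM1]
    rw [List.mem_map] at ha
    obtain ⟨p, hp, rfl⟩ := ha
    rw [List.mem_append, List.mem_singleton] at hp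
    rcases hp with hp | rfl
    · exact ⟨lt_of_le_of_lt hn5 (hLbw p hp), hLbM p hp⟩
    · exact ⟨lt_of_le_of_lt hc0C1 hC1q0, hkap_le _ hyq0⟩
  have hsortk : ((Lb ++ [q0]).map kap).Pairwise (· ≤ ·) := by
    rw [List.pairwise_map]
    have h1 : (Lb ++ [q0]).Pairwise (· ≤ ·) := by
      rw [List.pairwise_append]
      refine ⟨hLbsort, List.pairwise_singleton _ _, ?_⟩
      intro a ha b hb
      rw [List.mem_singleton] at hb
      subst hb
      apply hle
      rw [hpfl, List.mem_append]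
      left
      exact List.mem_of_mem_filter ha
    exact h1.imp fun h => kap_mono h
  have hG3 := sum_gk_cnt (pc0 B) (pM B - 1) _ hsortk hlk
  rw [List.map_map] at hG3
  have hG3' : (List.map ((fun κ : ℕ => (κ : ℝ) - 1 - (pc0 B : ℝ)) ∘ kap) (Lb ++ [q0])) =
      (Lb ++ [q0]).map (fun q : ℕ => (kap q : ℝ) - 1 - (pc0 B : ℝ)) := rfl
  rw [hG3'] at hG3
  -- split of the cell sum
  have hC1M : pC1 B ≤ pM B - 1 := by
    have h1 : (pC1 B : ℝ) ≤ (pM B - 1 : ℕ) := by
      have h2 : B ≤ (pM B - 1 : ℕ) := by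
        unfold pM
        have : ⌈B⌉₊ + 2 - 1 = ⌈B⌉₊ + 1 := by omega
        rw [this]
        push_cast
        have := Nat.le_ceil B
        linarith
      have h3 : 0 ≤ Real.log (30 * B) := Real.log_nonneg (by linarith)
      linarith
    exact_mod_cast h1
  rw [← Finset.sum_Ioc_consecutive _ hc0C1 hC1M] at hG3
  have hlow1 : ∑ c ∈ Finset.Ioc (pc0 B) (pC1 B), gk (cnt ((Lb ++ [q0]).map kap) c) =
      ∑ c ∈ Finset.Ioc (pc0 B) (pC1 B), gk (mult (fun a => kap (Lb.get a)) c) := by
    apply Finset.sum_congr rfl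
    intro c hc
    rw [Finset.mem_Ioc] at hc
    congr 1
    unfold mult
    rw [List.map_append, cnt_append, cnt_map_get, List.map_singleton, cnt_cons, cnt_nil,
      if_pos (lt_of_le_of_lt hc.2 hC1q0)]
    beta_reduce
    omega
  have hhigh : ∑ c ∈ Finset.Ioc (pC1 B) (pM B - 1), gk (cnt ((Lb ++ [q0]).map kap) c) ≤
      ((pM B : ℝ) - pC1 B) * 1000000 := by
    have h1 : ∀ c ∈ Finset.Ioc (pC1 B) (pM B - 1), gk (cnt ((Lb ++ [q0]).map kap) c) ≤ 1000000 := by
      intro c hc
      rw [Finset.mem_Ioc] at hc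
      apply gk_le
      have h2 := cnt_mul_le ((Lb ++ [q0]).map kap) c
      have h3 : (((Lb ++ [q0]).map kap).sum : ℝ) ≤ 420 * (B + 1) := by
        rw [List.map_append, List.sum_append, List.map_singleton, List.sum_singleton]
        push_cast
        have h4 : (Lb.length : ℝ) ≤ pS B := by exact_mod_cast hsS
        have h5 := (kap_lt q0).le
        have h6 : (Lb.map yy).sum + yy q0 ≤ 200 * (B + 1) := by linarith
        have h7 : ((Lb.map kap).sum : ℝ) ≤ (Lb.map yy).sum + Lb.length := hkapsum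
        push_cast at h7
        linarith
      have h4 : ((cnt ((Lb ++ [q0]).map kap) c : ℕ) : ℝ) * c ≤ 420 * (B + 1) := by
        refine le_trans ?_ h3
        exact_mod_cast h2
      have h5 : B / 2 ≤ (c : ℝ) := by
        have : (pC1 B : ℝ) ≤ c := by exact_mod_cast hc.1.le
        linarith
      have h6 : ((cnt ((Lb ++ [q0]).map kap) c : ℕ) : ℝ) ≤ 900 := by
        by_contra h
        push Not at h
        have h7 : 900 * (B / 2) ≤ ((cnt ((Lb ++ [q0]).map kap) c : ℕ) : ℝ) * c := by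
          apply mul_le_mul h.le h5 (by linarith)
          linarith
        linarith
      exact_mod_cast h6
    refine (Finset.sum_le_sum h1).trans ?_
    rw [Finset.sum_const, nsmul_eq_mul, Nat.card_Ioc]
    have h2 : ((pM B - 1 - pC1 B : ℕ) : ℝ) ≤ (pM B : ℝ) - pC1 B := by
      have h3 : (pM B - 1 - pC1 B : ℕ) + pC1 B ≤ pM B := by omega
      have h4 : (((pM B - 1 - pC1 B : ℕ) + pC1 B : ℕ) : ℝ) ≤ (pM B : ℝ) := by exact_mod_cast h3
      push_cast at h4
      linarith
    exact mul_le_mul_of_nonneg_right h2 (by norm_num)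
  -- final inequality
  have hlogM : Real.log M0 ≤ Real.log (20 * B + 21) := by
    apply Real.log_le_log
    · exact_mod_cast hOmn1
    · exact hOmn
  have hlogM0 : 0 ≤ Real.log (20 * B + 21) := Real.log_nonneg (by linarith)
  have e1 : Real.log M0 * (Ls.map yy).sum ≤ Real.log (20 * B + 21) * (4 * pX B) := by
    apply mul_le_mul hlogM hSyLs hLs0 hlogM0
  have e2 : ((pc0 B : ℝ) + 1) * (((Lb ++ [q0]).length : ℝ) * Real.log M0) ≤
      ((pc0 B : ℝ) + 1) * (((pS B : ℝ) + 1) * Real.log (20 * B + 21)) := by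
    have h1 : ((Lb ++ [q0]).length : ℝ) ≤ (pS B : ℝ) + 1 := by
      rw [List.length_append, List.length_singleton]
      push_cast
      have : (Lb.length : ℝ) ≤ pS B := by exact_mod_cast hsS
      linarith
    have h2 : 0 ≤ Real.log M0 := Real.log_natCast_nonneg _
    gcongr
  rw [← hlow1]
  linarith

end Crest.Agent.R020.Uc
end
end

-- ▼ part R020/UcDec
section

/-!
Row 20 (helper702), module (Uc): `StmtDec`.
-/

set_option autoImplicit false

open Filter Topology

noncomputable section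

namespace Crest.Agent.R020.Uc

open Crest.Agent.R020 Crest.Agent.Lib

lemma eventually_two_log_le : ∀ᶠ B : ℝ in atTop, 2 * Real.log B ≤ B ^ (1 / 100 : ℝ) := by
  have h := (isLittleO_log_rpow_atTop (show (0 : ℝ) < 1 / 100 by norm_num)).bound
    (show (0 : ℝ) < 1 / 2 by norm_num)
  filter_upwards [h, eventually_ge_atTop 1] with B hB h1
  rw [Real.norm_eq_abs, Real.norm_eq_abs, abs_of_nonneg (Real.log_nonneg h1),
    abs_of_nonneg (Real.rpow_nonneg (by linarith) _)] at hB
  linarith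

theorem eventually_numB : ∀ᶠ B : ℝ in atTop, NumB B := by
  have hpow : ∀ᶠ B : ℝ in atTop, (100000000 : ℝ) ≤ B ^ (14 / 100 : ℝ) :=
    (tendsto_rpow_atTop (by norm_num : (0 : ℝ) < 14 / 100)).eventually_ge_atTop _
  filter_upwards [eventually_ge_atTop 1000, eventually_two_log_le, hpow] with B hB hlog hp
  have hB0 : 0 < B := by linarith
  have hexp : 1 + B + B ^ 2 / 2 ≤ Real.exp B := Real.quadratic_le_exp_of_nonneg hB0.le
  have hsq : 1000 * B ≤ B ^ 2 := by nlinarith
  have hlogs : 2 * Real.log B = Real.log (B ^ 2) := by rw [Real.log_pow]; push_cast; ring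
  have hL1 : Real.log (20 * B + 21) ≤ B ^ (1 / 100 : ℝ) := by
    refine le_trans (Real.log_le_log (by linarith) ?_) (hlogs ▸ hlog)
    nlinarith
  have hL2 : Real.log (30 * B) ≤ B ^ (1 / 100 : ℝ) := by
    refine le_trans (Real.log_le_log (by linarith) ?_) (hlogs ▸ hlog)
    nlinarith
  have hL10 : 0 ≤ Real.log (20 * B + 21) := Real.log_nonneg (by linarith)
  have hL20 : 0 ≤ Real.log (30 * B) := Real.log_nonneg (by linarith)
  -- comparison of powers
  set P := B ^ (81 / 100 : ℝ) with hP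
  have hP1 : 1 ≤ P := Real.one_le_rpow (by linarith) (by norm_num)
  have hb001 : B ^ (1 / 100 : ℝ) ≤ P := Real.rpow_le_rpow_of_exponent_le (by linarith) (by norm_num)
  have hB95 : B ^ (19 / 20 : ℝ) = P * B ^ (14 / 100 : ℝ) := by
    rw [hP, ← Real.rpow_add hB0]; norm_num
  have hB95' : 100000000 * P ≤ B ^ (19 / 20 : ℝ) := by
    rw [hB95]
    nlinarith
  have hPB : P ≤ B / 10 := by
    have h1 : B = P * B ^ (19 / 100 : ℝ) := by
      rw [hP, ← Real.rpow_add hB0]; norm_num
    have h2 : B ^ (14 / 100 : ℝ) ≤ B ^ (19 / 100 : ℝ) :=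
      Real.rpow_le_rpow_of_exponent_le (by linarith) (by norm_num)
    have h3 : 10 * P ≤ P * B ^ (19 / 100 : ℝ) := by nlinarith
    linarith
  have hsqrt : √(B + 1) * √(B + 1) = B + 1 := Real.mul_self_sqrt (by linarith)
  have hsqrt30 : 30 ≤ √(B + 1) := by
    apply Real.le_sqrt_of_sq_le
    linarith
  have hfl : B - Real.log (30 * B) - 3 < (pC1 B : ℝ) := by
    have := Nat.lt_floor_add_one (B - Real.log (30 * B) - 2)
    unfold pC1
    linarith
  refine ⟨hB, ?_, ?_, ?_, ?_, ?_, ?_⟩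
  · -- h2
    rw [div_add_one (by positivity), div_le_div_iff₀ (by positivity) (by positivity)]
    nlinarith
  · rw [le_div_iff₀ (by positivity)]
    nlinarith
  · linarith
  · -- h5
    unfold pc0 pw
    apply Nat.floor_le_floor
    calc B ^ (3 / 10 : ℝ) ≤ B ^ (1 / 2 : ℝ) :=
          Real.rpow_le_rpow_of_exponent_le (by linarith) (by norm_num)
      _ = √B := by rw [Real.sqrt_eq_rpow]
      _ ≤ √(B + 1) := Real.sqrt_le_sqrt (by linarith)
  · -- h6
    have h1 : √(B + 1) - 1 ≤ (pw B : ℝ) := by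
      have := Nat.lt_floor_add_one (√(B + 1))
      unfold pw
      linarith
    have h2 : 210 * √(B + 1) * (√(B + 1) - 1) ≤ 210 * √(B + 1) * (pw B : ℝ) := by
      apply mul_le_mul_of_nonneg_left h1
      positivity
    nlinarith
  · -- h7
    have e1 : Real.log (20 * B + 21) * (4 * pX B) ≤ 4 * P := by
      have h1 : B ^ (1 / 100 : ℝ) * pX B = P := by
        unfold pX
        rw [← Real.rpow_add hB0, hP]
        norm_num
      have h2 : 0 ≤ pX B := Real.rpow_nonneg hB0.le _
      calc Real.log (20 * B + 21) * (4 * pX B) ≤ B ^ (1 / 100 : ℝ) * (4 * pX B) := by gcongr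
        _ = 4 * (B ^ (1 / 100 : ℝ) * pX B) := by ring
        _ = 4 * P := by rw [h1]
    have e2 : ((pc0 B : ℝ) + 1) * (((pS B : ℝ) + 1) * Real.log (20 * B + 21)) ≤ 860 * P := by
      have h1 : (pc0 B : ℝ) + 1 ≤ 2 * B ^ (3 / 10 : ℝ) := by
        have h2 : (pc0 B : ℝ) ≤ B ^ (3 / 10 : ℝ) := Nat.floor_le (Real.rpow_nonneg hB0.le _)
        have h3 : 1 ≤ B ^ (3 / 10 : ℝ) := Real.one_le_rpow (by linarith) (by norm_num)
        linarith
      have h4 : (pS B : ℝ) + 1 ≤ 430 * B ^ (1 / 2 : ℝ) := by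
        have h5 : (pS B : ℝ) < 210 * √(B + 1) + 1 := Nat.ceil_lt_add_one (by positivity)
        have h6 : √(B + 1) ≤ 2 * √B := by
          rw [Real.sqrt_le_left (by positivity), mul_pow, Real.sq_sqrt hB0.le]
          linarith
        have h7 : 1 ≤ √B := by
          apply Real.le_sqrt_of_sq_le
          linarith
        rw [← Real.sqrt_eq_rpow]
        linarith
      have h8 : B ^ (3 / 10 : ℝ) * (B ^ (1 / 2 : ℝ) * B ^ (1 / 100 : ℝ)) = P := by
        rw [← Real.rpow_add hB0, ← Real.rpow_add hB0, hP]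
        norm_num
      calc ((pc0 B : ℝ) + 1) * (((pS B : ℝ) + 1) * Real.log (20 * B + 21))
          ≤ (2 * B ^ (3 / 10 : ℝ)) * ((430 * B ^ (1 / 2 : ℝ)) * B ^ (1 / 100 : ℝ)) := by
            gcongr
        _ = 860 * (B ^ (3 / 10 : ℝ) * (B ^ (1 / 2 : ℝ) * B ^ (1 / 100 : ℝ))) := by ring
        _ = 860 * P := by rw [h8]
    have e3 : (pM B : ℝ) - pC1 B ≤ 7 * P := by
      have h1 : (pM B : ℝ) < B + 3 := by
        unfold pM
        push_cast
        have := Nat.ceil_lt_add_one hB0.le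
        linarith
      linarith
    have e4 : ((pM B : ℝ) - pC1 B) * 1000000 ≤ 7000000 * P := by linarith
    linarith

theorem stmtDec : StmtDec := by
  obtain ⟨B0, hB0⟩ := eventually_atTop.mp eventually_numB
  exact ⟨B0, fun x hx B hB hB0' v hv hsq hvx hlow hOm hSy hnosq hFF =>
    dec_of hx hB (hB0 B hB0') hv hsq hvx hlow hOm hSy hnosq hFF⟩

end Crest.Agent.R020.Uc
end
end

-- ▼ part R020/UcBad
section

/-!
Row 20 (helper881), module (Uc): the count of totients whose small part is bad (`StmtBad`).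
-/

set_option autoImplicit false

open scoped ENNReal

noncomputable section

namespace Crest.Agent.R020.Uc

open Crest.Agent.R020 Crest.Agent.Lib

namespace Bad

/-- total weight of the bad small parts -/
lemma wt_Rbad_le : ∃ C : ℝ, 0 ≤ C ∧ ∀ B : ℝ, wt (Rbad B) ≤
    ENNReal.ofReal (Real.exp (-(2 / 5 * pX B) + (3 / 2 * (pw B : ℝ) + 50)) +
      Real.exp (-(1 / 5 * pX B) + C)) := by
  obtain ⟨C, hC, h⟩ := LCrude.exists_bigSy_le
  refine ⟨C, hC, fun B => ?_⟩
  rw [ENNReal.ofReal_add (Real.exp_pos _).le (Real.exp_pos _).le]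
  refine (wt_union_le _ _).trans (add_le_add ?_ ?_)
  · exact wt_Om_large_le (Nat.cast_nonneg _) _
  · have h1 : wt {r | ∃ n ∈ LCrude.bigSy (pw B) (pX B) (4 * pX B), n.totient = r} ≤
        ws (fun n => (n.totient : ℝ≥0∞)⁻¹) (LCrude.bigSy (pw B) (pX B) (4 * pX B)) := by
      generalize LCrude.bigSy (pw B) (pX B) (4 * pX B) = S
      exact ws_le_tsum_image (fun v => (v : ℝ≥0∞)⁻¹) {r | ∃ n ∈ S, n.totient = r}
        (fun n : ℕ => n.totient) S (fun v hv => hv)
    refine h1.trans ((h _ _ _).trans (ENNReal.ofReal_le_ofReal (Real.exp_le_exp.2 ?_)))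
    linarith

/-- finite real sums are bounded by the total weight -/
lemma sum_inv_le {A : Set ℕ} {t : ℝ} (ht : 0 ≤ t) (h : wt A ≤ ENNReal.ofReal t) (R : Finset ℕ)
    (hR : ∀ r ∈ R, r ∈ A ∧ r ≠ 0) : ∑ r ∈ R, (1 : ℝ) / r ≤ t := by
  have h1 : ENNReal.ofReal (∑ r ∈ R, (1 : ℝ) / r) ≤ wt A := by
    rw [ENNReal.ofReal_sum_of_nonneg fun r _ => by positivity]
    refine le_trans ?_ (ENNReal.sum_le_tsum R)
    refine Finset.sum_le_sum fun r hr => ?_
    obtain ⟨h2, h3⟩ := hR r hr
    have h4 : (0 : ℝ) < r := by exact_mod_cast Nat.pos_of_ne_zero h3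
    rw [Set.indicator_of_mem h2, one_div, ENNReal.ofReal_inv_of_pos h4, ENNReal.ofReal_natCast]
  exact (ENNReal.ofReal_le_ofReal_iff ht).mp (h1.trans h)

/-- the asymptotic comparison -/
lemma asym (C C' : ℝ) (hC : 0 < C) (hC' : 0 ≤ C') : ∃ B0 : ℝ, 100 ≤ B0 ∧ ∀ B : ℝ, B0 ≤ B → ∀ s : ℕ,
    s ≤ pS B →
    C * (1 + B) ^ 2 * (30 * B) ^ 2 *
      (Real.exp (-(2 / 5 * pX B) + (3 / 2 * (pw B : ℝ) + 50)) + Real.exp (-(1 / 5 * pX B) + C')) *
      (C * (1 + (pM B : ℝ)) ^ 2) ^ s ≤ Real.exp (-B ^ (3 / 4 : ℝ)) := by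
  have hlog : ∀ᶠ B : ℝ in Filter.atTop, Real.log B ≤ 1 / 2 * B ^ (1 / 10 : ℝ) := by
    have h := (isLittleO_log_rpow_atTop (show (0 : ℝ) < 1 / 10 by norm_num)).bound
      (show (0 : ℝ) < 1 / 2 by norm_num)
    filter_upwards [h, Filter.eventually_ge_atTop 1] with B h1 h2
    rw [Real.norm_of_nonneg (Real.log_nonneg h2),
      Real.norm_of_nonneg (Real.rpow_nonneg (by linarith) _)] at h1
    exact h1
  have h20 : ∀ᶠ B : ℝ in Filter.atTop, 10 ≤ B ^ (1 / 20 : ℝ) :=
    (tendsto_rpow_atTop (by norm_num)).eventually_ge_atTop _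
  set K : ℝ := 422 * C + C' + 908 with hK
  have h5 : ∀ᶠ B : ℝ in Filter.atTop, 10 * K ≤ B ^ (1 / 5 : ℝ) :=
    (tendsto_rpow_atTop (by norm_num)).eventually_ge_atTop _
  obtain ⟨B0, hB0⟩ := Filter.eventually_atTop.mp (hlog.and (h20.and h5))
  refine ⟨max 100 B0, le_max_left _ _, ?_⟩
  intro B hB s hs
  have hB100 : 100 ≤ B := (le_max_left _ _).trans hB
  obtain ⟨e1, e2, e3⟩ := hB0 B ((le_max_right _ _).trans hB)
  have hBpos : 0 < B := by linarith
  set E : ℝ := B ^ (1 / 10 : ℝ) with hE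
  set G : ℝ := B ^ (3 / 5 : ℝ) with hG
  set Q : ℝ := √B with hQ
  have hE1 : 1 ≤ E := Real.one_le_rpow (by linarith) (by norm_num)
  have hG1 : 1 ≤ G := Real.one_le_rpow (by linarith) (by norm_num)
  have hQ1 : 1 ≤ Q := by rw [hQ, Real.one_le_sqrt]; linarith
  have hQE : Q * E = G := by
    rw [hQ, hE, hG, Real.sqrt_eq_rpow, ← Real.rpow_add hBpos]
    norm_num
  have hQG : Q ≤ G := by nlinarith
  have hEG : E ≤ G := by nlinarith
  have hGX : 10 * K * G ≤ pX B := by
    have : pX B = B ^ (1 / 5 : ℝ) * G := by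
      rw [pX, hG, ← Real.rpow_add hBpos]; norm_num
    rw [this]
    exact mul_le_mul_of_nonneg_right e3 (by linarith)
  have h34 : 10 * B ^ (3 / 4 : ℝ) ≤ pX B := by
    have : pX B = B ^ (1 / 20 : ℝ) * B ^ (3 / 4 : ℝ) := by
      rw [pX, ← Real.rpow_add hBpos]; norm_num
    rw [this]
    exact mul_le_mul_of_nonneg_right e2 (by positivity)
  have hX0 : 0 ≤ pX B := Real.rpow_nonneg hBpos.le _
  -- elementary bounds
  have b4 : B + 4 ≤ Real.exp E := by
    have h1 : B + 4 ≤ B ^ 2 := by nlinarith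
    have h2 : Real.exp (2 * Real.log B) = B ^ 2 := by
      rw [two_mul, Real.exp_add, Real.exp_log hBpos]; ring
    rw [← h2] at h1
    exact h1.trans (Real.exp_le_exp.2 (by linarith))
  have b1 : (1 + B) ^ 2 ≤ Real.exp (2 * E) := by
    have : Real.exp (2 * E) = Real.exp E ^ 2 := by rw [two_mul, Real.exp_add]; ring
    rw [this]
    exact pow_le_pow_left₀ (by linarith) (by linarith) 2
  have b30 : (30 * B) ^ 2 ≤ Real.exp (8 + 2 * E) := by
    have h1 : Real.exp (8 + 2 * E) = (Real.exp 4 * Real.exp E) ^ 2 := by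
      rw [mul_pow, ← Real.exp_nat_mul, ← Real.exp_nat_mul, ← Real.exp_add]
      norm_num
    rw [h1]
    refine pow_le_pow_left₀ (by linarith) ?_ 2
    have h2 : (30 : ℝ) ≤ Real.exp 4 := by
      have h3 : Real.exp 4 = Real.exp 1 ^ 4 := by rw [← Real.exp_nat_mul]; norm_num
      have h4 := Real.exp_one_gt_d9
      rw [h3]
      have h5 : (2.7 : ℝ) ≤ Real.exp 1 := by linarith
      calc (30 : ℝ) ≤ 2.7 ^ 4 := by norm_num
        _ ≤ _ := pow_le_pow_left₀ (by norm_num) h5 4
    exact mul_le_mul h2 (by linarith) hBpos.le (Real.exp_pos _).le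
  have bC : C ≤ Real.exp C := by have := Real.add_one_le_exp C; linarith
  have hsq : √(B + 1) ≤ 2 * Q := by
    rw [Real.sqrt_le_left (by linarith)]
    have : (2 * Q) ^ 2 = 4 * B := by rw [mul_pow, hQ, Real.sq_sqrt hBpos.le]; norm_num
    rw [this]; linarith
  have hw : (pw B : ℝ) ≤ 2 * Q := (Nat.floor_le (Real.sqrt_nonneg _)).trans hsq
  have hsS : (s : ℝ) ≤ 421 * Q := by
    have h1 : (s : ℝ) ≤ pS B := by exact_mod_cast hs
    have h2 : (pS B : ℝ) < 210 * √(B + 1) + 1 := Nat.ceil_lt_add_one (by positivity)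
    linarith
  have bM : C * (1 + (pM B : ℝ)) ^ 2 ≤ Real.exp (C + 2 * E) := by
    have h1 : (pM B : ℝ) ≤ B + 3 := by
      unfold pM
      push_cast
      have := Nat.ceil_lt_add_one hBpos.le
      linarith
    have h2 : (1 + (pM B : ℝ)) ^ 2 ≤ Real.exp (2 * E) := by
      have : Real.exp (2 * E) = Real.exp E ^ 2 := by rw [two_mul, Real.exp_add]; ring
      rw [this]
      exact pow_le_pow_left₀ (by positivity) (by linarith) 2
    rw [Real.exp_add]
    exact mul_le_mul bC h2 (by positivity) (Real.exp_pos _).le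
  have bMs : (C * (1 + (pM B : ℝ)) ^ 2) ^ s ≤ Real.exp (421 * Q * (C + 2 * E)) := by
    calc (C * (1 + (pM B : ℝ)) ^ 2) ^ s ≤ Real.exp (C + 2 * E) ^ s :=
          pow_le_pow_left₀ (by positivity) bM s
      _ = Real.exp (s * (C + 2 * E)) := (Real.exp_nat_mul _ _).symm
      _ ≤ _ := Real.exp_le_exp.2 (mul_le_mul_of_nonneg_right hsS (by linarith))
  have bS : Real.exp (-(2 / 5 * pX B) + (3 / 2 * (pw B : ℝ) + 50)) +
      Real.exp (-(1 / 5 * pX B) + C') ≤ Real.exp (1 + (-(1 / 5 * pX B) + 3 * Q + 50 + C')) := by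
    have h1 : Real.exp (-(2 / 5 * pX B) + (3 / 2 * (pw B : ℝ) + 50)) ≤
        Real.exp (-(1 / 5 * pX B) + 3 * Q + 50 + C') := Real.exp_le_exp.2 (by linarith)
    have h2 : Real.exp (-(1 / 5 * pX B) + C') ≤
        Real.exp (-(1 / 5 * pX B) + 3 * Q + 50 + C') := Real.exp_le_exp.2 (by linarith)
    rw [Real.exp_add 1]
    have h3 := Real.exp_one_gt_d9
    have h4 := Real.exp_pos (-(1 / 5 * pX B) + 3 * Q + 50 + C')
    nlinarith
  calc C * (1 + B) ^ 2 * (30 * B) ^ 2 *
      (Real.exp (-(2 / 5 * pX B) + (3 / 2 * (pw B : ℝ) + 50)) + Real.exp (-(1 / 5 * pX B) + C')) *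
      (C * (1 + (pM B : ℝ)) ^ 2) ^ s
      ≤ Real.exp C * Real.exp (2 * E) * Real.exp (8 + 2 * E) *
        Real.exp (1 + (-(1 / 5 * pX B) + 3 * Q + 50 + C')) *
        Real.exp (421 * Q * (C + 2 * E)) := by
        gcongr
    _ = Real.exp (C + 2 * E + (8 + 2 * E) + (1 + (-(1 / 5 * pX B) + 3 * Q + 50 + C')) +
        421 * Q * (C + 2 * E)) := by
        rw [← Real.exp_add, ← Real.exp_add, ← Real.exp_add, ← Real.exp_add]
    _ ≤ _ := by
        refine Real.exp_le_exp.2 ?_
        have h1 : 421 * Q * (C + 2 * E) = 421 * C * Q + 842 * G := by rw [← hQE]; ring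
        rw [h1]
        have h2 : C * Q ≤ C * G := mul_le_mul_of_nonneg_left hQG hC.le
        have h3 : C ≤ C * G := le_mul_of_one_le_right hC.le hG1
        have h4 : C' ≤ C' * G := le_mul_of_one_le_right hC' hG1
        have h5 : K * G = 422 * (C * G) + C' * G + 908 * G := by rw [hK]; ring
        have h6 : 10 * K * G = 10 * (K * G) := by ring
        rw [h6, h5] at hGX
        linarith

end Bad

theorem stmtBad : StmtBad := by
  classical
  obtain ⟨C', hC', hR⟩ := Bad.wt_Rbad_le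
  obtain ⟨C, hC, hT⟩ := LS.count_tilt
  obtain ⟨B0, hB0, hA⟩ := Bad.asym C C' hC hC'
  refine ⟨B0, ?_⟩
  intro x hx B hB hBB s κ hP D hD
  have hB100 : 100 ≤ B := hB0.trans hBB
  have hl1 : 1 < Real.log x := by
    by_contra hcon
    push Not at hcon
    have h1 : Real.log x ≤ 1 := hcon
    have h2 : Real.log (Real.log x) ≤ 0 := by
      apply Real.log_nonpos _ h1
      exact Real.log_nonneg (by linarith)
    linarith
  have hx16 : 16 ≤ x := by
    have h1 : Real.exp B = Real.log x := by rw [hB, Real.exp_log (by linarith)]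
    have h2 := Real.add_one_le_exp B
    have h3 : 100 ≤ Real.log x := by linarith
    have h4 : Real.exp (Real.log x) = x := Real.exp_log (by linarith)
    have h5 := Real.add_one_le_exp (Real.log x)
    linarith
  choose! q0 q r hdec hbad using hD
  set R : Finset ℕ := D.image r with hRdef
  set D' : Finset (ℕ × (Fin s → ℕ) × ℕ) := D.image fun v => (q0 v, q v, r v) with hD'
  have hcard : D'.card = D.card := by
    rw [hD']
    apply Finset.card_image_of_injOn
    intro v hv v' hv' h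
    simp only [Prod.mk.injEq] at h
    obtain ⟨h1, h2, h3⟩ := h
    rw [(hdec v hv).hv, (hdec v' hv').hv, h1, h2, h3]
  have hr0 : ∀ ρ ∈ R, ρ ∈ Rbad B ∧ ρ ≠ 0 := by
    intro ρ hρ
    rw [hRdef, Finset.mem_image] at hρ
    obtain ⟨v, hv, rfl⟩ := hρ
    exact ⟨hbad v hv, (hdec v hv).hr.1⟩
  have hκ1 : ∀ a, (1 : ℝ) ≤ κ a := fun a => by
    have := hP.hw a
    exact_mod_cast (show 1 ≤ κ a by omega)
  have hsum := Bad.sum_inv_le (by positivity) (hR B) R hr0
  have key := hT (ι := Fin s) (fun _ => 0) 0 0 (fun p _ => ⟨le_rfl, le_rfl⟩)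
    (fun p _ => by norm_num) (fun a => (κ a : ℝ) - 1) (fun a => by linarith [hκ1 a]) (pM B)
    (fun a => by
      have : (κ a : ℝ) ≤ pM B := by exact_mod_cast hP.hM a
      linarith)
    x (30 * B) 0 _ hx16 (by linarith) le_rfl R (fun ρ hρ => (hr0 ρ hρ).2) D' (by
      intro d hd
      rw [hD', Finset.mem_image] at hd
      obtain ⟨v, hv, rfl⟩ := hd
      have h := hdec v hv
      have hq1 : 1 ≤ q0 v := h.hq0.one_lt.le
      refine ⟨⟨h.hq0, ?_, ?_, ?_, h.h2, ?_⟩, ?_⟩
      · intro a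
        obtain ⟨h3, h4⟩ := h.hq a
        have h5 := yy_le_kap (q v a)
        have h6 := kap_lt (q v a)
        rw [h4] at h5 h6
        exact ⟨h3, by simp only; linarith, by simp only; linarith⟩
      · exact Finset.mem_image_of_mem _ hv
      · have h7 := h.hx
        rw [h.hv] at h7
        push_cast [Nat.cast_sub hq1] at h7 ⊢
        exact h7
      · rw [hB]; exact h.hlam
      · simp)
  rw [hcard, ← hB] at key
  refine key.trans ?_
  have hxl : 0 ≤ x / Real.log x := by positivity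
  have h8 := hA B hBB s hP.hs
  rw [Fintype.card_fin]
  simp only [zero_mul, neg_zero, add_zero, ne_eq, OfNat.ofNat_ne_zero, not_false_eq_true,
    zero_pow, Real.exp_zero, mul_one]
  calc C * (1 + B) ^ 2 * (30 * B) ^ 2 * (x / Real.log x) * (∑ r ∈ R, (1 : ℝ) / r) *
        (C * (1 + (pM B : ℝ)) ^ 2) ^ s
      = x / Real.log x * (C * (1 + B) ^ 2 * (30 * B) ^ 2 * (∑ r ∈ R, (1 : ℝ) / r) *
        (C * (1 + (pM B : ℝ)) ^ 2) ^ s) := by ring
    _ ≤ x / Real.log x * (C * (1 + B) ^ 2 * (30 * B) ^ 2 *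
      (Real.exp (-(2 / 5 * pX B) + (3 / 2 * (pw B : ℝ) + 50)) + Real.exp (-(1 / 5 * pX B) + C')) *
      (C * (1 + (pM B : ℝ)) ^ 2) ^ s) := by
        refine mul_le_mul_of_nonneg_left ?_ hxl
        refine mul_le_mul_of_nonneg_right ?_ (by positivity)
        exact mul_le_mul_of_nonneg_left hsum (by positivity)
    _ ≤ _ := mul_le_mul_of_nonneg_left h8 hxl

end Crest.Agent.R020.Uc
end
end

-- ▼ part R020/UcShift
section

/-!
Row 20 (helper702), module (Uc), part 3: twisted sums over shifted primes for weights `≤ 1`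
attached to the integer cells `kap p`.
-/

set_option autoImplicit false

open scoped ENNReal

noncomputable section

namespace Crest.Agent.R020.Uc

open Crest.Agent.R020 Crest.Agent.Lib

/-- Mertens on one cell, lower bound. -/
lemma cell_sum_ge (k : ℕ) (s : Finset ℕ) (hs : ∀ p : ℕ, p.Prime → kap p = k + 1 → p ∈ s) :
    1 - 18 * Real.exp (-(k : ℝ)) ≤ ∑ p ∈ s with kap p = k + 1, (1 : ℝ) / p := by
  set a : ℝ := Real.exp (Real.exp k) with ha
  set b : ℝ := Real.exp (Real.exp (k + 1)) with hb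
  have ha2 : 2 ≤ a := by
    have h1 : (1 : ℝ) ≤ Real.exp k := Real.one_le_exp (Nat.cast_nonneg k)
    have h2 : Real.exp 1 ≤ a := Real.exp_le_exp.mpr h1
    have h3 := Real.add_one_le_exp (1 : ℝ)
    linarith
  have hab : a ≤ b := by
    rw [ha, hb]
    apply Real.exp_le_exp.mpr
    apply Real.exp_le_exp.mpr
    linarith
  have hM := Lib.Mertens.mertens_two a b ha2 hab
  have hla : Real.log a = Real.exp k := by rw [ha, Real.log_exp]
  have hlb : Real.log b = Real.exp (k + 1) := by rw [hb, Real.log_exp]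
  rw [hla, hlb, Real.log_exp, Real.log_exp] at hM
  have hsub : Lib.Mertens.pr a b ⊆ s.filter (fun p => kap p = k + 1) := by
    intro p hp
    rw [Lib.Mertens.mem_pr (by linarith) (by linarith)] at hp
    obtain ⟨⟨h1, h2⟩, hpp⟩ := hp
    have h3 : yy p ≤ (k : ℝ) + 1 := (yy_le_iff hpp.two_le (by positivity)).mpr h2
    have h4 : (k : ℝ) < yy p := (lt_yy_iff hpp.two_le (Nat.cast_nonneg k)).mpr h1
    have h5 : kap p ≤ k + 1 := (kap_le_iff p (k + 1)).mpr (by push_cast; exact h3)
    have h6 : ¬ kap p ≤ k := by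
      rw [kap_le_iff]
      linarith
    have h7 : kap p = k + 1 := by omega
    rw [Finset.mem_filter]
    exact ⟨hs p hpp h7, h7⟩
  have h5 : ∑ p ∈ Lib.Mertens.pr a b, (1 : ℝ) / p ≤ ∑ p ∈ s with kap p = k + 1, (1 : ℝ) / p :=
    Finset.sum_le_sum_of_subset_of_nonneg hsub fun p _ _ => by positivity
  have h6 := (abs_le.mp hM).1
  have h7 : 18 / Real.exp (k : ℝ) = 18 * Real.exp (-(k : ℝ)) := by
    rw [Real.exp_neg]; ring
  rw [h7] at h6
  linarith




end Crest.Agent.R020.Uc
end
end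

-- ▼ part R020/UcLow

/-!
Row 20 (helper185), module (Uc): `stmtLow`, the statistic is rarely too small
(Chernoff over tuples of primes, counting version).
-/

set_option autoImplicit false

open scoped ENNReal

noncomputable section

namespace Crest.Agent.R020.Uc.Low

open Crest.Agent.R020 Crest.Agent.Lib Crest.Agent.R020.LS Crest.Agent.R020.Uc

/-! ### the weight as an exponential of a statistic -/

lemma wt_eq_exp_St {z : ℕ → ℝ} (hz : ∀ p : ℕ, 0 < z p) {n : ℕ} (hn : n ≠ 0) :
    HallTen.wt z n = Real.exp (St (fun p => Real.log (z p)) n) := by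
  revert hn
  induction n using induction_on_primes with
  | zero => intro h; exact absurd rfl h
  | one => intro _; rw [HallTen.wt_one, St_one, Real.exp_zero]
  | prime_mul p a hp ih =>
    intro h
    have ha : a ≠ 0 := right_ne_zero_of_mul h
    rw [HallTen.wt_mul, HallTen.wt_prime z hp, ih ha, St_mul _ hp.ne_zero ha, St_prime _ hp,
      Real.exp_add, Real.exp_log (hz p)]

/-! ### lower bound for the mean -/

lemma M_ge {k : ℕ → ℝ} (hk : ∀ c, 1 ≤ k c) {c0 C1 C' : ℕ} (hC : C' ≤ C1) {u : ℝ} (hu : 0 ≤ u)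
    (hfull : ∀ p : ℕ, p.Prime → kap p ≤ C' → p ∈ PL u) :
    ∑ c ∈ Finset.Ioc c0 C', Real.log (k c) * (1 - 18 * Real.exp (-((c : ℝ) - 1))) ≤
      LS.M (fun p => Real.log (zz k c0 C1 p)) u := by
  classical
  have h0 : ∀ p, 0 ≤ Real.log (zz k c0 C1 p) := by
    intro p
    unfold zz
    split_ifs
    · exact Real.log_nonneg (hk _)
    · simp
  have h1 : ∑ p ∈ PL u with (c0 < kap p ∧ kap p ≤ C'), Real.log (k (kap p)) / (p : ℝ) ≤
      LS.M (fun p => Real.log (zz k c0 C1 p)) u := by
    unfold LS.M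
    rw [Finset.sum_filter]
    apply Finset.sum_le_sum
    intro p hp
    split_ifs with h
    · show Real.log (k (kap p)) / (p : ℝ) ≤ Real.log (zz k c0 C1 p) / (p : ℝ)
      rw [zz_of_mem ⟨h.1, h.2.trans hC⟩]
    · exact div_nonneg (h0 p) (Nat.cast_nonneg p)
  refine le_trans ?_ h1
  have h2 : ∑ p ∈ PL u with (c0 < kap p ∧ kap p ≤ C'), Real.log (k (kap p)) / (p : ℝ) =
      ∑ c ∈ Finset.Ioc c0 C',
        ∑ p ∈ ((PL u).filter fun p => c0 < kap p ∧ kap p ≤ C') with kap p = c,
        Real.log (k (kap p)) / (p : ℝ) := by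
    rw [Finset.sum_fiberwise_of_maps_to]
    intro p hp
    rw [Finset.mem_filter] at hp
    exact Finset.mem_Ioc.mpr hp.2
  rw [h2]
  apply Finset.sum_le_sum
  intro c hc
  rw [Finset.mem_Ioc] at hc
  obtain ⟨j, rfl⟩ : ∃ j, c = j + 1 := ⟨c - 1, by omega⟩
  have h3 : ∑ p ∈ ((PL u).filter fun p => c0 < kap p ∧ kap p ≤ C') with kap p = j + 1,
      Real.log (k (kap p)) / (p : ℝ) =
      Real.log (k (j + 1)) *
        ∑ p ∈ ((PL u).filter fun p => c0 < kap p ∧ kap p ≤ C') with kap p = j + 1,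
        1 / (p : ℝ) := by
    rw [Finset.mul_sum]
    apply Finset.sum_congr rfl
    intro p hp
    rw [Finset.mem_filter] at hp
    rw [hp.2]
    ring
  rw [h3]
  apply mul_le_mul_of_nonneg_left _ (Real.log_nonneg (hk _))
  have := cell_sum_ge j ((PL u).filter fun p => c0 < kap p ∧ kap p ≤ C') (fun p hp hk' => by
    rw [Finset.mem_filter]
    exact ⟨hfull p hp (by omega), by omega, by omega⟩)
  refine le_trans (le_of_eq ?_) this
  push_cast
  ring_nf

lemma mult_eq {s : ℕ} (κ : Fin s → ℕ) (c : ℕ) :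
    multR κ c = 1 + ∑ a : Fin s, (if c < κ a then (1 : ℝ) else 0) := by
  unfold multR mult
  rw [Finset.sum_boole]
  push_cast
  rfl

/-- total mean -/
lemma mean_ge {s : ℕ} (κ : Fin s → ℕ) (hκ : ∀ a, 1 ≤ κ a) {c0 C1 : ℕ} {B : ℝ} (hB : 0 ≤ B)
    (hC1 : (C1 : ℝ) ≤ B) {K : ℝ} (hK : ∀ c, multR κ c ≤ K)
    (hE : 36 * (K * Real.log K) ≤ Real.exp c0) :
    ∑ c ∈ Finset.Ioc c0 C1, multR κ c * Real.log (multR κ c) - 1 ≤
      LS.M (fun p => Real.log (zz (multR κ) c0 C1 p)) B +
        ∑ a, LS.M (fun p => Real.log (zz (multR κ) c0 C1 p)) ((κ a : ℝ) - 1) := by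
  classical
  have hk1 : ∀ c, 1 ≤ multR κ c := by
    intro c
    unfold multR mult
    push_cast
    have : (0 : ℝ) ≤ ((Finset.univ.filter fun a => c < κ a).card : ℝ) := Nat.cast_nonneg _
    linarith
  have hK1 : 1 ≤ K := (hk1 0).trans (hK 0)
  set e : ℕ → ℝ := fun c => 1 - 18 * Real.exp (-((c : ℝ) - 1)) with he
  have h1 : ∑ c ∈ Finset.Ioc c0 C1, Real.log (multR κ c) * e c ≤
      LS.M (fun p => Real.log (zz (multR κ) c0 C1 p)) B := by
    apply M_ge hk1 le_rfl hB
    intro p hp h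
    rw [mem_PL hB]
    refine ⟨hp, ?_⟩
    have h2 := (kap_le_iff p C1).mp h
    linarith
  have h2 : ∀ a, ∑ c ∈ Finset.Ioc c0 C1, (if c < κ a then (1 : ℝ) else 0) *
      (Real.log (multR κ c) * e c) ≤
      LS.M (fun p => Real.log (zz (multR κ) c0 C1 p)) ((κ a : ℝ) - 1) := by
    intro a
    have hκa := hκ a
    have hu : (0 : ℝ) ≤ (κ a : ℝ) - 1 := by
      have : (1 : ℝ) ≤ κ a := by exact_mod_cast hκa
      linarith
    have h3 := M_ge (k := multR κ) hk1 (c0 := c0) (C1 := C1) (C' := min C1 (κ a - 1))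
      (min_le_left _ _) hu (fun p hp h => by
        rw [mem_PL hu]
        refine ⟨hp, ?_⟩
        have h4 : kap p ≤ κ a - 1 := h.trans (min_le_right _ _)
        have h5 := (kap_le_iff p (κ a - 1)).mp h4
        rw [Nat.cast_sub hκa] at h5
        simpa using h5)
    refine le_trans (le_of_eq ?_) h3
    have h6 : Finset.Ioc c0 (min C1 (κ a - 1)) = (Finset.Ioc c0 C1).filter (fun c => c < κ a) := by
      ext c
      simp only [Finset.mem_Ioc, Finset.mem_filter, le_min_iff]
      omega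
    rw [h6, Finset.sum_filter]
    apply Finset.sum_congr rfl
    intro c _
    split_ifs
    · rw [one_mul]
    · rw [zero_mul]
  have h3 : ∑ a : Fin s, ∑ c ∈ Finset.Ioc c0 C1, (if c < κ a then (1 : ℝ) else 0) *
      (Real.log (multR κ c) * e c) = ∑ c ∈ Finset.Ioc c0 C1, (multR κ c - 1) *
      (Real.log (multR κ c) * e c) := by
    rw [Finset.sum_comm]
    apply Finset.sum_congr rfl
    intro c _
    rw [← Finset.sum_mul]
    congr 1
    rw [mult_eq]
    ring
  have h4 : ∑ c ∈ Finset.Ioc c0 C1, multR κ c * (Real.log (multR κ c) * e c) ≤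
      LS.M (fun p => Real.log (zz (multR κ) c0 C1 p)) B +
        ∑ a, LS.M (fun p => Real.log (zz (multR κ) c0 C1 p)) ((κ a : ℝ) - 1) := by
    have h5 := Finset.sum_le_sum (fun a (_ : a ∈ (Finset.univ : Finset (Fin s))) => h2 a)
    rw [h3] at h5
    have h6 : ∑ c ∈ Finset.Ioc c0 C1, multR κ c * (Real.log (multR κ c) * e c) =
        ∑ c ∈ Finset.Ioc c0 C1, Real.log (multR κ c) * e c +
        ∑ c ∈ Finset.Ioc c0 C1, (multR κ c - 1) * (Real.log (multR κ c) * e c) := by
      rw [← Finset.sum_add_distrib]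
      apply Finset.sum_congr rfl
      intro c _
      ring
    rw [h6]
    linarith
  refine le_trans ?_ h4
  have h5 : ∀ c ∈ Finset.Ioc c0 C1, multR κ c * Real.log (multR κ c) -
      18 * (K * Real.log K) * Real.exp (-((c : ℝ) - 1)) ≤
      multR κ c * (Real.log (multR κ c) * e c) := by
    intro c _
    have h6 := hk1 c
    have h7 := hK c
    have h8 : multR κ c * Real.log (multR κ c) ≤ K * Real.log K := by
      have h9 := Real.log_nonneg h6
      have h10 := Real.log_le_log (by linarith) h7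
      exact mul_le_mul h7 h10 h9 (by linarith)
    have h11 : 0 < Real.exp (-((c : ℝ) - 1)) := Real.exp_pos _
    have h12 : multR κ c * (Real.log (multR κ c) * e c) =
        multR κ c * Real.log (multR κ c) -
        18 * (multR κ c * Real.log (multR κ c)) * Real.exp (-((c : ℝ) - 1)) := by
      rw [he]
      ring
    rw [h12]
    nlinarith [mul_le_mul_of_nonneg_right h8 h11.le]
  have h6 := Finset.sum_le_sum h5
  rw [Finset.sum_sub_distrib, ← Finset.mul_sum] at h6
  have h7 := sum_exp_neg_Ioc_le c0 C1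
  have h8 : 18 * (K * Real.log K) * ∑ c ∈ Finset.Ioc c0 C1, Real.exp (-((c : ℝ) - 1)) ≤ 1 := by
    have h9 : 0 ≤ K * Real.log K := mul_nonneg (by linarith) (Real.log_nonneg hK1)
    calc 18 * (K * Real.log K) * ∑ c ∈ Finset.Ioc c0 C1, Real.exp (-((c : ℝ) - 1))
        ≤ 18 * (K * Real.log K) * (2 * Real.exp (-(c0 : ℝ))) := by gcongr
      _ = (36 * (K * Real.log K)) * Real.exp (-(c0 : ℝ)) := by ring
      _ ≤ Real.exp c0 * Real.exp (-(c0 : ℝ)) := by gcongr
      _ = 1 := by rw [← Real.exp_add]; simp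
  linarith

/-- harmonic sum over smooth numbers -/
lemma sum_inv_Sm_le {T : ℝ} (hT : 0 ≤ T) (R : Finset ℕ) (hR : ∀ r ∈ R, r ∈ Sm (PT T)) :
    ∑ r ∈ R, (1 : ℝ) / r ≤ Real.exp (T + 32) := by
  have h1 : ENNReal.ofReal (∑ r ∈ R, (1 : ℝ) / r) ≤ wt (Sm (PT T)) := by
    rw [ENNReal.ofReal_sum_of_nonneg (fun r _ => by positivity)]
    unfold wt ws
    calc ∑ r ∈ R, ENNReal.ofReal ((1 : ℝ) / r)
        = ∑ r ∈ R, (Sm (PT T)).indicator (fun v : ℕ => (v : ℝ≥0∞)⁻¹) r := by
          apply Finset.sum_congr rfl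
          intro r hr
          have h2 := hR r hr
          rw [Set.indicator_of_mem h2]
          have h3 : (0 : ℝ) < r := by
            have := h2.1
            positivity
          rw [one_div, ENNReal.ofReal_inv_of_pos h3, ENNReal.ofReal_natCast]
      _ ≤ ∑' v : ℕ, (Sm (PT T)).indicator (fun v : ℕ => (v : ℝ≥0∞)⁻¹) v := ENNReal.sum_le_tsum R
  have h2 := h1.trans (wt_Sm_le hT)
  exact (ENNReal.ofReal_le_ofReal_iff (Real.exp_pos _).le).mp h2

/-! ### asymptotics, `t = B ^ (1/100)` -/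

/-- the parameters in terms of `t = B ^ (1/100)` -/
structure Par (B t : ℝ) : Prop where
  ht : (200000 : ℝ) ≤ t
  hB : B = t ^ 100
  hlog : Real.log B ≤ t

lemma exists_par (C : ℝ) : ∃ B0 : ℝ, ∀ B, B0 ≤ B → ∃ t, Par B t ∧ C ≤ t := by
  have h1 : ∀ᶠ B : ℝ in Filter.atTop, Real.log B ≤ B ^ (1 / 100 : ℝ) := by
    have := (isLittleO_log_rpow_atTop (r := 1 / 100) (by norm_num)).bound (c := 1) (by norm_num)
    filter_upwards [this, Filter.eventually_ge_atTop 1] with B hB hB1
    rw [Real.norm_eq_abs, Real.norm_eq_abs, one_mul, abs_of_nonneg (Real.log_nonneg hB1),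
      abs_of_nonneg (by positivity)] at hB
    exact hB
  have h2 : ∀ᶠ B : ℝ in Filter.atTop, max C 200000 ≤ B ^ (1 / 100 : ℝ) :=
    (tendsto_rpow_atTop (by norm_num)).eventually_ge_atTop _
  obtain ⟨B0, hB0⟩ := (((h1.and h2).and (Filter.eventually_ge_atTop 1))).exists_forall_of_atTop
  refine ⟨B0, fun B hB => ⟨B ^ (1 / 100 : ℝ), ?_, ?_⟩⟩
  · obtain ⟨⟨h3, h4⟩, h5⟩ := hB0 B hB
    refine ⟨(le_max_right _ _).trans h4, ?_, h3⟩
    rw [← Real.rpow_natCast, ← Real.rpow_mul (by linarith)]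
    norm_num
  · exact (le_max_left _ _).trans (hB0 B hB).1.2

namespace Par

variable {B t : ℝ}

lemma one_le (h : Par B t) : 1 ≤ t := by linarith [h.ht]

lemma B_ge (h : Par B t) : t ≤ B := by
  rw [h.hB]
  have := h.one_le
  exact le_self_pow₀ this (by norm_num)

lemma rpow (h : Par B t) (n : ℕ) {r : ℝ} (hr : r = n / 100) : B ^ r = t ^ n := by
  have ht : 0 ≤ t := by linarith [h.one_le]
  rw [h.hB, ← Real.rpow_natCast t 100, ← Real.rpow_mul ht, ← Real.rpow_natCast t n, hr]
  congr 1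
  push_cast
  ring

lemma sqrt_le (h : Par B t) : √(B + 1) ≤ 2 * t ^ 50 := by
  have h1 := h.one_le
  rw [Real.sqrt_le_left (by positivity)]
  have h2 : B = (t ^ 50) ^ 2 := by rw [h.hB]; ring
  have h3 : 1 ≤ t ^ 50 := one_le_pow₀ h1
  nlinarith

lemma pS_le (h : Par B t) : (pS B : ℝ) ≤ 421 * t ^ 50 := by
  unfold pS
  have h1 : (⌈210 * √(B + 1)⌉₊ : ℝ) < 210 * √(B + 1) + 1 := Nat.ceil_lt_add_one (by positivity)
  have h2 := h.sqrt_le
  have h3 : 1 ≤ t ^ 50 := one_le_pow₀ h.one_le
  linarith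

lemma K_le (h : Par B t) : 1 + (pS B : ℝ) ≤ B := by
  have h1 := h.pS_le
  have h3 : 1 ≤ t ^ 50 := one_le_pow₀ h.one_le
  have h4 : 200000 * t ^ 50 ≤ t ^ 100 := by
    calc 200000 * t ^ 50 ≤ t * t ^ 50 := by
          have := h.ht
          gcongr
      _ ≤ t ^ 50 * t ^ 50 := by
          have : t ≤ t ^ 50 := le_self_pow₀ h.one_le (by norm_num)
          gcongr
      _ = t ^ 100 := by ring
  have h5 := h.hB
  linarith

lemma exp_ge (h : Par B t) {K : ℝ} (hK1 : 1 ≤ K) (hK : K ≤ B) :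
    36 * (K * Real.log K) ≤ Real.exp (pc0 B) := by
  have ht := h.ht
  have h1 := h.one_le
  have h2 : Real.log K ≤ t := (Real.log_le_log (by linarith) hK).trans h.hlog
  have h0 : 0 ≤ Real.log K := Real.log_nonneg hK1
  have hB0 : 0 < B := by linarith
  have h3 : (t ^ 30 - 1 : ℝ) ≤ pc0 B := by
    unfold pc0
    rw [h.rpow 30 (by norm_num)]
    have := Nat.lt_floor_add_one (t ^ 30)
    linarith
  have h4 : t ^ 2 ≤ t ^ 30 := pow_le_pow_right₀ h1 (by norm_num)
  have h5 : 3 * t ≤ (pc0 B : ℝ) := by nlinarith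
  calc 36 * (K * Real.log K) ≤ 36 * (B * t) := by gcongr
    _ = 36 * t * B := by ring
    _ ≤ Real.exp t * Real.exp t * Real.exp t := by
        have h6 : 36 * t ≤ Real.exp t * Real.exp t := by
          have h7 := Real.add_one_le_exp t
          nlinarith
        have h8 : B ≤ Real.exp t := by
          rw [← Real.log_le_iff_le_exp hB0]
          exact h.hlog
        exact mul_le_mul h6 h8 hB0.le (by positivity)
    _ = Real.exp (3 * t) := by rw [← Real.exp_add, ← Real.exp_add]; ring_nf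
    _ ≤ _ := Real.exp_le_exp.mpr h5

lemma final (h : Par B t) {C : ℝ} (hC0 : 0 < C) (hC : C ≤ t) {s : ℕ} (hs : s ≤ pS B) :
    C * (1 + B) ^ 2 * (30 * B) ^ 2 * Real.exp (pw B + 32) * (C * (1 + (B + 3)) ^ 2) ^ s *
      Real.exp (-((pF B - 1) ^ 2 / (4 * Real.log (1 + (pS B : ℝ)) ^ 2 * (6000 * (B + 1))))) ≤
      Real.exp (-B ^ (3 / 4 : ℝ)) := by
  have ht := h.ht
  have h1 := h.one_le
  have hBt := h.B_ge
  have hB0 : 0 < B := by linarith
  have hBexp : ∀ n : ℕ, B ^ n ≤ Real.exp (n * t) := by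
    intro n
    have h8 : B ≤ Real.exp t := by
      rw [← Real.log_le_iff_le_exp hB0]
      exact h.hlog
    calc B ^ n ≤ Real.exp t ^ n := by gcongr
      _ = Real.exp (n * t) := by rw [← Real.exp_nat_mul]
  have e1 : C * (1 + B) ^ 2 * (30 * B) ^ 2 ≤ Real.exp (6 * t) := by
    calc C * (1 + B) ^ 2 * (30 * B) ^ 2 ≤ B * (2 * B) ^ 2 * (30 * B) ^ 2 := by
          have : C ≤ B := hC.trans hBt
          gcongr
          linarith
      _ = 3600 * B ^ 5 := by ring
      _ ≤ B * B ^ 5 := by gcongr; linarith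
      _ = B ^ 6 := by ring
      _ ≤ Real.exp ((6 : ℕ) * t) := hBexp 6
      _ = _ := by norm_num
  have hpw : (pw B : ℝ) ≤ 2 * t ^ 50 := by
    unfold pw
    exact (Nat.floor_le (Real.sqrt_nonneg _)).trans h.sqrt_le
  have e2 : Real.exp (pw B + 32) ≤ Real.exp (2 * t ^ 50 + 32) := by
    apply Real.exp_le_exp.mpr
    linarith
  have e3 : (C * (1 + (B + 3)) ^ 2) ^ s ≤ Real.exp (4 * (421 * t ^ 50) * t) := by
    have h3 : C * (1 + (B + 3)) ^ 2 ≤ Real.exp (4 * t) := by
      calc C * (1 + (B + 3)) ^ 2 ≤ B * (2 * B) ^ 2 := by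
            have : C ≤ B := hC.trans hBt
            gcongr
            linarith
        _ = 4 * B ^ 3 := by ring
        _ ≤ B * B ^ 3 := by gcongr; linarith
        _ = B ^ 4 := by ring
        _ ≤ Real.exp ((4 : ℕ) * t) := hBexp 4
        _ = _ := by norm_num
    calc (C * (1 + (B + 3)) ^ 2) ^ s ≤ Real.exp (4 * t) ^ s := by gcongr
      _ = Real.exp (s * (4 * t)) := by rw [← Real.exp_nat_mul]
      _ ≤ _ := by
        apply Real.exp_le_exp.mpr
        have h4 : (s : ℝ) ≤ 421 * t ^ 50 := by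
          have : (s : ℝ) ≤ pS B := by exact_mod_cast hs
          exact this.trans h.pS_le
        nlinarith
  have hS1 : (1 : ℝ) ≤ pS B := by
    unfold pS
    have : 0 < ⌈210 * √(B + 1)⌉₊ := Nat.ceil_pos.mpr (by positivity)
    exact_mod_cast this
  have e4 : t ^ 77 ≤ (pF B - 1) ^ 2 /
      (4 * Real.log (1 + (pS B : ℝ)) ^ 2 * (6000 * (B + 1))) := by
    have hL0 : 0 < Real.log (1 + (pS B : ℝ)) := Real.log_pos (by linarith)
    have hL1 : Real.log (1 + (pS B : ℝ)) ≤ t :=
      (Real.log_le_log (by linarith) h.K_le).trans h.hlog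
    rw [le_div_iff₀ (by positivity)]
    have h3 : pF B = t ^ 90 := by
      unfold pF
      exact h.rpow 90 (by norm_num)
    have h4 : t ^ 90 / 2 ≤ pF B - 1 := by
      rw [h3]
      have : t ≤ t ^ 90 := le_self_pow₀ h1 (by norm_num)
      linarith
    calc t ^ 77 * (4 * Real.log (1 + (pS B : ℝ)) ^ 2 * (6000 * (B + 1)))
        ≤ t ^ 77 * (4 * t ^ 2 * (6000 * (2 * B))) := by
          gcongr
          linarith
      _ = 48000 * t ^ 179 := by rw [h.hB]; ring
      _ ≤ (t / 4) * t ^ 179 := by gcongr; linarith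
      _ = (t ^ 90 / 2) ^ 2 := by ring
      _ ≤ (pF B - 1) ^ 2 := by gcongr
  have e5 : Real.exp (-((pF B - 1) ^ 2 /
      (4 * Real.log (1 + (pS B : ℝ)) ^ 2 * (6000 * (B + 1))))) ≤ Real.exp (-t ^ 77) :=
    Real.exp_le_exp.mpr (by linarith)
  calc C * (1 + B) ^ 2 * (30 * B) ^ 2 * Real.exp (pw B + 32) * (C * (1 + (B + 3)) ^ 2) ^ s *
      Real.exp (-((pF B - 1) ^ 2 / (4 * Real.log (1 + (pS B : ℝ)) ^ 2 * (6000 * (B + 1)))))
      ≤ Real.exp (6 * t) * Real.exp (2 * t ^ 50 + 32) * Real.exp (4 * (421 * t ^ 50) * t) *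
        Real.exp (-t ^ 77) := by gcongr
    _ = Real.exp (6 * t + (2 * t ^ 50 + 32) + 4 * (421 * t ^ 50) * t + -t ^ 77) := by
        rw [← Real.exp_add, ← Real.exp_add, ← Real.exp_add]
    _ ≤ _ := by
        apply Real.exp_le_exp.mpr
        rw [h.rpow 75 (by norm_num)]
        have p1 : t ≤ t ^ 51 := le_self_pow₀ h1 (by norm_num)
        have p2 : t ^ 50 ≤ t ^ 51 := pow_le_pow_right₀ h1 (by norm_num)
        have p3 : (1 : ℝ) ≤ t ^ 51 := one_le_pow₀ h1
        have p4 : 200000 * t ^ 51 ≤ t ^ 52 := by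
          calc 200000 * t ^ 51 ≤ t * t ^ 51 := by gcongr
            _ = t ^ 52 := by ring
        have p5 : t ^ 52 ≤ t ^ 75 := pow_le_pow_right₀ h1 (by norm_num)
        have p6 : 200000 * t ^ 75 ≤ t ^ 76 := by
          calc 200000 * t ^ 75 ≤ t * t ^ 75 := by gcongr
            _ = t ^ 76 := by ring
        have p7 : t ^ 76 ≤ t ^ 77 := pow_le_pow_right₀ h1 (by norm_num)
        have p8 : 4 * (421 * t ^ 50) * t = 1684 * t ^ 51 := by ring
        have p9 : (1 : ℝ) ≤ t ^ 75 := one_le_pow₀ h1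
        rw [p8]
        linarith

end Par

end Crest.Agent.R020.Uc.Low

namespace Crest.Agent.R020.Uc

open Crest.Agent.R020 Crest.Agent.Lib Crest.Agent.R020.Uc.Low

/-- the statistic is rarely too small -/
theorem stmtLow : StmtLow := by
  classical
  obtain ⟨C, hC, hT⟩ := LS.count_lower
  obtain ⟨B0, hB0⟩ := Low.exists_par C
  refine ⟨max B0 2, ?_⟩
  intro x hx B hBx hB s κ hP D hD
  obtain ⟨t, hpar, hCt⟩ := hB0 B ((le_max_left _ _).trans hB)
  have ht := hpar.ht
  have hBt := hpar.B_ge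
  have hB0' : 0 < B := by linarith
  -- size of `x`
  have hlx : Real.log x = Real.exp B := by
    rw [hBx, Real.exp_log (Real.log_pos (by linarith))]
  have hx16 : 16 ≤ x := by
    have h1 : Real.exp (Real.exp B) = x := by rw [← hlx, Real.exp_log (by linarith)]
    rw [← h1]
    have h2 := Real.add_one_le_exp B
    have h3 := Real.add_one_le_exp (Real.exp B)
    linarith
  -- choose decompositions
  have hD1 : ∀ v ∈ D, ∃ d : ℕ × (Fin s → ℕ) × ℕ, Dec x s κ v d.1 d.2.1 d.2.2 := by
    intro v hv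
    obtain ⟨⟨q0, q, r, h⟩, _⟩ := hD v hv
    exact ⟨(q0, q, r), h⟩
  choose! f hf using hD1
  have hinj : Set.InjOn f D := by
    intro v hv v' hv' he
    have h1 := (hf v hv).hv
    have h2 := (hf v' hv').hv
    rw [he] at h1
    exact h1.trans h2.symm
  set R : Finset ℕ := D.image fun v => (f v).2.2 with hR
  set z : ℕ → ℝ := zz (multR κ) (pc0 B) (pC1 B) with hz
  set ℓ : ℕ → ℝ := fun p => Real.log (z p) with hℓ
  set L : ℝ := Real.log (1 + (pS B : ℝ)) with hL
  have hk1 : ∀ c, 1 ≤ multR κ c := by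
    intro c
    unfold multR mult
    push_cast
    have : (0 : ℝ) ≤ ((Finset.univ.filter fun a => c < κ a).card : ℝ) := Nat.cast_nonneg _
    linarith
  have hkK : ∀ c, multR κ c ≤ 1 + (pS B : ℝ) := by
    intro c
    unfold multR mult
    push_cast
    have h1 : (Finset.univ.filter fun a => c < κ a).card ≤ pS B := by
      refine (Finset.card_le_univ _).trans ?_
      rw [Fintype.card_fin]
      exact hP.hs
    have : ((Finset.univ.filter fun a => c < κ a).card : ℝ) ≤ pS B := by exact_mod_cast h1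
    linarith
  have hS1 : (1 : ℝ) ≤ pS B := by
    unfold pS
    have : 0 < ⌈210 * √(B + 1)⌉₊ := Nat.ceil_pos.mpr (by positivity)
    exact_mod_cast this
  have hz1 : ∀ p, 1 ≤ z p ∧ z p ≤ 1 + (pS B : ℝ) := by
    intro p
    rw [hz]
    unfold zz
    split_ifs
    · exact ⟨hk1 _, hkK _⟩
    · exact ⟨le_rfl, by linarith⟩
  have hℓb : ∀ p : ℕ, p.Prime → 0 ≤ ℓ p ∧ ℓ p ≤ L := by
    intro p _
    have := hz1 p
    exact ⟨Real.log_nonneg this.1, Real.log_le_log (by linarith) this.2⟩
  have hL0 : 0 < L := Real.log_pos (by linarith)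
  have hκ1 : ∀ a, 1 ≤ κ a := fun a => by have := hP.hw a; omega
  have hpF : pF B = t ^ 90 := by
    unfold pF
    exact hpar.rpow 90 (by norm_num)
  have hpF1 : 1 ≤ pF B := by rw [hpF]; exact one_le_pow₀ hpar.one_le
  have hC1 : (pC1 B : ℝ) ≤ B := by
    unfold pC1
    rcases le_or_gt (B - Real.log (30 * B) - 2) 0 with h | h
    · rw [Nat.floor_eq_zero.mpr (by linarith)]
      simpa using hB0'.le
    · refine (Nat.floor_le h.le).trans ?_
      have : 0 ≤ Real.log (30 * B) := Real.log_nonneg (by linarith)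
      linarith
  have hmean := Low.mean_ge κ hκ1 (c0 := pc0 B) (C1 := pC1 B) hB0'.le hC1 hkK
    (hpar.exp_ge (by linarith) hpar.K_le)
  rw [← hz] at hmean
  -- sizes
  have hsR : (s : ℝ) ≤ 210 * √(B + 1) + 1 := by
    have h1 : (s : ℝ) ≤ pS B := by exact_mod_cast hP.hs
    refine h1.trans ?_
    unfold pS
    exact (Nat.ceil_lt_add_one (by positivity)).le
  have hsB : (s : ℝ) ≤ 211 * (B + 1) := by
    have h1 : √(B + 1) ≤ B + 1 := by
      rw [Real.sqrt_le_left (by linarith)]
      nlinarith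
    linarith
  have hV : (Real.log (Real.log x) + 27) + ∑ a, (((κ a : ℝ) - 1) + 27) ≤ 6000 * (B + 1) := by
    rw [← hBx, Finset.sum_add_distrib, Finset.sum_sub_distrib]
    have h1 := hP.hsum
    push_cast at h1
    simp only [Finset.sum_const, Finset.card_univ, Fintype.card_fin, nsmul_eq_mul, mul_one]
    linarith
  have hR0 : ∀ r ∈ R, r ∈ Sm (PT (pw B)) := by
    intro r hr
    rw [hR, Finset.mem_image] at hr
    obtain ⟨v, hv, rfl⟩ := hr
    have := (hf v hv).hr
    rwa [← hBx] at this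
  have hcard : ((D.image f).card : ℝ) ≤ C * (1 + Real.log (Real.log x)) ^ 2 * (30 * B) ^ 2 *
      (x / Real.log x) * (∑ r ∈ R, (1 : ℝ) / r) * (C * (1 + (B + 3)) ^ 2) ^ (Fintype.card (Fin s)) *
      Real.exp (-((pF B - 1) ^ 2 / (4 * L ^ 2 * (6000 * (B + 1))))) := by
    apply hT ℓ L hL0 hℓb (fun a => (κ a : ℝ) - 1) (fun a => by
        have : (1 : ℝ) ≤ κ a := by exact_mod_cast hκ1 a
        linarith) (B + 3) (fun a => by
        have h1 : (κ a : ℝ) ≤ pM B := by exact_mod_cast hP.hM a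
        have h2 : (pM B : ℝ) ≤ B + 3 := by
          unfold pM
          push_cast
          have := Nat.ceil_lt_add_one hB0'.le
          linarith
        linarith) x (30 * B) (6000 * (B + 1)) (pF B - 1) hx16 (by linarith) hV (by linarith)
        (by linarith) R (fun r hr => (hR0 r hr).1)
    intro d hd
    rw [Finset.mem_image] at hd
    obtain ⟨v, hv, rfl⟩ := hd
    have hdec := hf v hv
    have hq1 : ∀ a, (f v).2.1 a - 1 ≠ 0 := by
      intro a
      have := (hdec.hq a).1.two_le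
      omega
    have hq01 : (f v).1 - 1 ≠ 0 := by
      have := hdec.hq0.two_le
      omega
    have hprod : ∏ a, ((f v).2.1 a - 1) ≠ 0 := Finset.prod_ne_zero_iff.mpr fun a _ => hq1 a
    have hr0 : (f v).2.2 ≠ 0 := hdec.hr.1
    have hv0 : v ≠ 0 := by
      rw [hdec.hv]
      exact mul_ne_zero hq01 (mul_ne_zero hprod hr0)
    refine ⟨⟨hdec.hq0, ?_, ?_, ?_, ?_, ?_⟩, ?_⟩
    · intro a
      obtain ⟨h1, h2⟩ := hdec.hq a
      refine ⟨h1, ?_, ?_⟩
      · have := kap_lt ((f v).2.1 a)
        rw [h2] at this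
        show (κ a : ℝ) - 1 ≤ _
        linarith
      · have := yy_le_kap ((f v).2.1 a)
        rw [h2] at this
        show yy ((f v).2.1 a) ≤ (κ a : ℝ) - 1 + 1
        linarith
    · rw [hR, Finset.mem_image]
      exact ⟨v, hv, rfl⟩
    · have h1 := hdec.hx
      rw [hdec.hv] at h1
      push_cast at h1
      rw [LS.cast_prime_sub_one hdec.hq0] at h1
      exact h1
    · exact hdec.h2
    · have := hdec.hlam
      rwa [← hBx] at this
    · -- the statistic
      have h1 := (hD v hv).2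
      rw [Low.wt_eq_exp_St (fun p => by linarith [(hz1 p).1]) hv0, Real.exp_lt_exp] at h1
      have h2 : LS.St ℓ v = LS.St ℓ ((f v).1 - 1) + (∑ a, LS.St ℓ ((f v).2.1 a - 1) +
          LS.St ℓ (f v).2.2) := by
        conv_lhs => rw [hdec.hv]
        rw [LS.St_mul ℓ hq01 (mul_ne_zero hprod hr0), LS.St_mul ℓ hprod hr0]
        congr 2
        have key : ∀ S : Finset (Fin s), LS.St ℓ (∏ a ∈ S, ((f v).2.1 a - 1)) =
            ∑ a ∈ S, LS.St ℓ ((f v).2.1 a - 1) := by
          intro S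
          induction S using Finset.induction_on with
          | empty => simp [LS.St_one]
          | insert a S ha ih =>
            rw [Finset.prod_insert ha, Finset.sum_insert ha, LS.St_mul ℓ (hq1 a)
              (Finset.prod_ne_zero_iff.mpr fun a _ => hq1 a), ih]
        exact key Finset.univ
      have h3 : 0 ≤ LS.St ℓ (f v).2.2 := LS.St_nonneg (fun p hp => (hℓb p hp).1) _
      change LS.St ℓ v < pA B κ at h1
      unfold pA at h1
      rw [← hBx]
      linarith
  rw [Finset.card_image_of_injOn hinj, ← hBx, Fintype.card_fin] at hcard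
  refine hcard.trans ?_
  have hsum := Low.sum_inv_Sm_le (T := (pw B : ℝ)) (Nat.cast_nonneg _) R hR0
  have hfin := hpar.final hC hCt hP.hs
  have hlx0 : 0 < x / Real.log x := by
    rw [hlx]
    have := Real.exp_pos B
    positivity
  calc C * (1 + B) ^ 2 * (30 * B) ^ 2 *
      (x / Real.log x) * (∑ r ∈ R, (1 : ℝ) / r) * (C * (1 + (B + 3)) ^ 2) ^ s *
      Real.exp (-((pF B - 1) ^ 2 / (4 * L ^ 2 * (6000 * (B + 1)))))
      ≤ C * (1 + B) ^ 2 * (30 * B) ^ 2 *
      (x / Real.log x) * Real.exp (pw B + 32) * (C * (1 + (B + 3)) ^ 2) ^ s *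
      Real.exp (-((pF B - 1) ^ 2 / (4 * L ^ 2 * (6000 * (B + 1))))) := by gcongr
    _ = (x / Real.log x) * (C * (1 + B) ^ 2 * (30 * B) ^ 2 * Real.exp (pw B + 32) *
      (C * (1 + (B + 3)) ^ 2) ^ s *
      Real.exp (-((pF B - 1) ^ 2 / (4 * L ^ 2 * (6000 * (B + 1)))))) := by ring
    _ ≤ _ := by gcongr

end Crest.Agent.R020.Uc
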