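import Crest.Agent.R020.ChainS1_Mg
import Crest.Agent.R020.ChainFin
import Crest.Agent.R020.Tail_Mg
import Crest.Agent.R020.Final2
import Crest.Agent.R020.Sq
import Crest.Agent.R020.LStatG_Mg
import Mathlib
import Crest.Agent.R020.UcDefs
import Crest.Agent.R020.UcLow_Mg
import Crest.Agent.R020.UcUnion
import Crest.Agent.R020.PreU
import Crest.Agent.R020.Stmt
import Crest.Agent.R020.Abn4
import Crest.Agent.R020.TopBasic

-- ▼ part R020/Assemble
section

/-!
Row 20: assembly. Both frozen statements from the five number-theoretic inputs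
`StmtZ`, `StmtU`, `StmtL`, `StmtUc`, `StmtLc`.
-/

set_option autoImplicit false

open scoped ENNReal Topology
open MeasureTheory Filter Crest.NumberTheoryR.TotientScale

noncomputable section

namespace Crest.Agent.R020

theorem asm_up (hZ : StmtZ) (hU : StmtU) (hL : StmtL) {ρ : ℝ} (hρ0 : 0 < ρ) (hρ1 : ρ < 1)
    (hρ : HasSum (fun j : ℕ => aCoef (j + 1) * ρ ^ (j + 1)) 1) : StmtUpChain ρ := by
  have hT := stmtTail hZ
  exact stmtUpChain (stmtFup (by norm_num) psUp stmtSq hT hU)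
    (stmtFupV (by norm_num) psUp stmtSq hT) (stmtFlow (by norm_num) psLow hZ hT hL) hZ hρ0 hρ1 hρ

theorem asm_low (hZ : StmtZ) (hU : StmtU) (hL : StmtL) {ρ : ℝ} (hρ0 : 0 < ρ) (hρ1 : ρ < 1)
    (hρ : HasSum (fun j : ℕ => aCoef (j + 1) * ρ ^ (j + 1)) 1) : StmtLowChain ρ := by
  have hT := stmtTail hZ
  exact stmtLowChain (stmtFup (by norm_num) psUp stmtSq hT hU)
    (stmtFupV (by norm_num) psUp stmtSq hT) (stmtFlow (by norm_num) psLow hZ hT hL) hZ
    (stmtW hL stmtMlow) hρ0 hρ1 hρ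

/-- The chain from (Z), (U), (L). -/
theorem asm_chain (hZ : StmtZ) (hU : StmtU) (hL : StmtL) : StmtChain :=
  stmtChain_of (fun _ h0 h1 h => asm_low hZ hU hL h0 h1 h)
    (fun _ h0 h1 h => asm_up hZ hU hL h0 h1 h) (fun _ h0 h1 h => exists_asy hZ stmtR3 h0 h1 h)

theorem asm_S1 (hZ : StmtZ) (hU : StmtU) (hL : StmtL) : StmtS1 := by
  apply ChainS1.stmtS1_of
  intro ρ h0 h1 h
  obtain ⟨μ, _, h2, h3⟩ := exists_asy hZ stmtR3 h0 h1 h
  exact ⟨asm_up hZ hU hL h0 h1 h, asm_low hZ hU hL h0 h1 h, μ, h2, h3⟩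

theorem asm_top (hZ : StmtZ) (hU : StmtU) (hL : StmtL) (hUc : StmtUc) (hLc : StmtLc) : StmtTop :=
  stmtTop_of hUc hLc (asm_S1 hZ hU hL) (asm_chain hZ hU hL)

/-- S0026 from the five inputs. -/
theorem asm_26 (hZ : StmtZ) (hU : StmtU) (hL : StmtL) (hUc : StmtUc) (hLc : StmtLc)
    (c : ℝ) (hc : 0 < c) :
    Tendsto (fun x : ℝ => (totientCount (c * x) : ℝ) / (totientCount x : ℝ)) atTop (𝓝 c) :=
  result26_of (asm_chain hZ hU hL) (asm_top hZ hU hL hUc hLc) c hc

/-- S0027 from the five inputs. -/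
theorem asm_27 (hZ : StmtZ) (hU : StmtU) (hL : StmtL) (hUc : StmtUc) (hLc : StmtLc)
    (ρ : ℝ) (hρ0 : 0 < ρ) (hρ1 : ρ < 1)
    (hρ : HasSum (fun j : ℕ => aCoef (j + 1) * ρ ^ (j + 1)) 1) :
    ∃ A : ℝ → ℝ, (∃ c₁ c₂ : ℝ, 0 < c₁ ∧ ∀ s ∈ Set.Ico (0 : ℝ) 1, c₁ ≤ A s ∧ A s ≤ c₂) ∧
      Tendsto (fun x : ℝ =>
          (totientCount x : ℝ) / (x / Real.log x * scaleG ρ x * A (phase ρ x)))
        atTop (𝓝 1) :=
  result27_of (asm_chain hZ hU hL) (asm_top hZ hU hL hUc hLc) ρ hρ0 hρ1 hρ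

end Crest.Agent.R020
end
end

-- ▼ part R020/CollLFin
section

/-!
Row 20: `StmtL` and `StmtLc`.
-/

set_option autoImplicit false

open scoped ENNReal

namespace Crest.Agent.R020

namespace Coll

theorem stmtStat : StmtStat := by
  obtain ⟨Y0, h⟩ := LS.statPlain
  refine ⟨Y0, fun Y hY => le_trans ?_ (h Y hY)⟩
  unfold wt2
  refine ENNReal.tsum_le_tsum fun p => ?_
  refine Set.indicator_le_indicator_of_subset ?_ (fun _ => zero_le) p
  rintro q ⟨⟨h1, h2⟩, h3, h4⟩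
  exact ⟨h1, h2, h3, h4⟩

theorem stmtStatC : StmtStatC := by
  obtain ⟨B0, h⟩ := LS.statCount
  refine ⟨B0, fun x hx hB Y hY => le_trans ?_ (h x hx hB Y hY)⟩
  refine ENNReal.tsum_le_tsum fun p => ?_
  refine Set.indicator_le_indicator_of_subset ?_ (fun _ => zero_le) p
  rintro q ⟨h1, h2, h3, h4, _, h6, h7, h8, h9⟩
  exact ⟨h1, h2, h3, h4, h6, h7, h8, h9⟩

end Coll

theorem stmtL : StmtL := Coll.stmtL_of Coll.stmtStat

theorem stmtLc : StmtLc := Coll.stmtLc_of Coll.stmtStatC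

end Crest.Agent.R020
end

-- ▼ part R020/UcHigh
section

/-!
Row 20 (helper984), module (Uc): `StmtHigh` from the Rankin count.
-/

set_option autoImplicit false

open scoped ENNReal

noncomputable section

namespace Crest.Agent.R020.Uc

open Crest.Agent.R020 Crest.Agent.Lib Filter

lemma pS_le {B : ℝ} (hB : 3 ≤ B) : (1 + (pS B : ℝ)) ≤ 212 * B := by
  unfold pS
  have h1 : √(B + 1) ≤ B - 1 := by
    rw [Real.sqrt_le_left (by linarith)]
    nlinarith
  have h2 := Nat.ceil_lt_add_one (show 0 ≤ 210 * √(B + 1) by positivity)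
  linarith

lemma le_pS_sq {B : ℝ} (hB : 0 ≤ B) : B + 1 ≤ (1 + (pS B : ℝ)) ^ 2 := by
  unfold pS
  have h1 : 210 * √(B + 1) ≤ (⌈210 * √(B + 1)⌉₊ : ℝ) := Nat.le_ceil _
  have h2 : 0 ≤ √(B + 1) := Real.sqrt_nonneg _
  have h3 : √(B + 1) ≤ 1 + (⌈210 * √(B + 1)⌉₊ : ℝ) := by linarith
  calc B + 1 = √(B + 1) ^ 2 := by rw [Real.sq_sqrt (by linarith)]
    _ ≤ _ := pow_le_pow_left₀ h2 h3 2

lemma eventually_params : ∀ᶠ B : ℝ in atTop, 100 ≤ B ∧ 11 + Real.log B ≤ B ^ (3 / 10 : ℝ) ∧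
    130 ≤ B ^ (1 / 20 : ℝ) := by
  have h1 : ∀ᶠ B : ℝ in atTop, Real.log B ≤ 1 / 2 * B ^ (3 / 10 : ℝ) := by
    have := (isLittleO_log_rpow_atTop (show (0:ℝ) < 3 / 10 by norm_num)).bound
      (show (0:ℝ) < 1 / 2 by norm_num)
    filter_upwards [this, eventually_ge_atTop (1:ℝ)] with B hB hB1
    rw [Real.norm_of_nonneg (Real.log_nonneg hB1),
      Real.norm_of_nonneg (Real.rpow_nonneg (by linarith) _)] at hB
    exact hB
  have h2 : ∀ᶠ B : ℝ in atTop, (22:ℝ) ≤ B ^ (3 / 10 : ℝ) :=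
    (tendsto_rpow_atTop (by norm_num)).eventually_ge_atTop 22
  have h3 : ∀ᶠ B : ℝ in atTop, (130:ℝ) ≤ B ^ (1 / 20 : ℝ) :=
    (tendsto_rpow_atTop (by norm_num)).eventually_ge_atTop 130
  filter_upwards [h1, h2, h3, eventually_ge_atTop (100:ℝ)] with B a b c d
  exact ⟨d, by linarith, c⟩

theorem stmtHigh : StmtHigh := by
  obtain ⟨B0, hB0⟩ := eventually_atTop.1 eventually_params
  refine ⟨B0, ?_⟩
  intro x hx B hB hBB s κ hprof hgk D hD
  obtain ⟨hB100, hlogB, hB20⟩ := hB0 B hBB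
  have hBpos : 0 < B := by linarith
  have hlx : 1 ≤ Real.log x := by
    rw [Real.le_log_iff_exp_le (by linarith)]
    have := Real.exp_one_lt_d9
    linarith
  have hlx4 : 2 ≤ Real.log x := by
    have h1 : B ≤ Real.log x := by
      rw [hB]
      have := Real.log_le_sub_one_of_pos (show 0 < Real.log x by linarith)
      linarith
    linarith
  have hx4 : 4 ≤ x := by
    have h1 : Real.exp 2 ≤ x := by
      rw [← Real.le_log_iff_exp_le (by linarith)]; exact hlx4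
    have h2 := Real.add_one_le_exp (1:ℝ)
    have h3 : Real.exp 2 = Real.exp 1 * Real.exp 1 := by rw [← Real.exp_add]; norm_num
    nlinarith [Real.exp_pos 1]
  set K : ℝ := 1 + (pS B : ℝ) with hK
  have hK1 : 1 ≤ K := by rw [hK]; have : (0:ℝ) ≤ pS B := Nat.cast_nonneg _; linarith
  have hKle : K ≤ 212 * B := pS_le (by linarith)
  have hKsq : B + 1 ≤ K ^ 2 := le_pS_sq hBpos.le
  -- `c0`
  have hc0 : B ^ (3 / 10 : ℝ) - 1 ≤ (pc0 B : ℝ) := by
    unfold pc0
    have := Nat.lt_floor_add_one (B ^ (3 / 10 : ℝ))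
    linarith
  have hc0' : (pc0 B : ℝ) ≤ B ^ (3 / 10 : ℝ) := by
    unfold pc0
    exact Nat.floor_le (Real.rpow_nonneg hBpos.le _)
  have hlog2 := Real.log_two_lt_d9
  have hlog7 : Real.log 7632 ≤ 10 := by
    have h1 : Real.log 7632 ≤ Real.log (2 ^ 13) := Real.log_le_log (by norm_num) (by norm_num)
    rw [Real.log_pow] at h1
    push_cast at h1
    linarith
  have h36 : 36 * K ≤ Real.exp (pc0 B : ℝ) := by
    have h1 : 36 * K ≤ 7632 * B := by linarith
    refine h1.trans ?_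
    rw [← Real.log_le_iff_le_exp (by positivity), Real.log_mul (by norm_num) hBpos.ne']
    linarith
  have hKK : K ^ 2 * (Real.log (Real.log x) + 30) ≤ Real.exp (Real.exp (pc0 B : ℝ)) := by
    rw [← hB]
    have h10 : (10:ℝ) ≤ pc0 B := by
      have := Real.log_nonneg (show (1:ℝ) ≤ B by linarith)
      linarith
    have h1 : 4 * (pc0 B : ℝ) ≤ Real.exp (pc0 B : ℝ) := by
      have h2 := Real.quadratic_le_exp_of_nonneg (show (0:ℝ) ≤ pc0 B by linarith)
      nlinarith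
    have h3 : Real.exp (pc0 B : ℝ) ^ 4 ≤ Real.exp (Real.exp (pc0 B : ℝ)) := by
      rw [← Real.exp_nat_mul]
      apply Real.exp_le_exp.2
      push_cast
      linarith
    refine le_trans ?_ h3
    have h4 : (36 * K) ^ 4 ≤ Real.exp (pc0 B : ℝ) ^ 4 := pow_le_pow_left₀ (by linarith) h36 4
    refine le_trans ?_ h4
    have h5 : B + 30 ≤ 36 ^ 4 * K ^ 2 := by nlinarith
    calc K ^ 2 * (B + 30) ≤ K ^ 2 * (36 ^ 4 * K ^ 2) := mul_le_mul_of_nonneg_left h5 (by positivity)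
      _ = (36 * K) ^ 4 := by ring
  have hk1 : ∀ c, 1 ≤ multR κ c := by
    intro c
    unfold multR mult
    push_cast
    have : (0:ℝ) ≤ ((Finset.univ.filter fun a => c < κ a).card : ℝ) := Nat.cast_nonneg _
    linarith
  have hkK : ∀ c, multR κ c ≤ K := by
    intro c
    unfold multR mult
    push_cast
    have h1 : (Finset.univ.filter fun a => c < κ a).card ≤ s := by
      refine (Finset.card_filter_le _ _).trans ?_
      simp
    have h2 : ((Finset.univ.filter fun a => c < κ a).card : ℝ) ≤ (pS B : ℝ) := by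
      exact_mod_cast h1.trans hprof.hs
    rw [hK]
    linarith
  have hmain := card_le (multR κ) (pc0 B) (pC1 B) hk1 hkK hx4 hKK h36 (pA B κ) D hD
  refine hmain.trans ?_
  rw [← hB]
  -- the exponent
  have hC1 : B - Real.log (30 * B) - 3 ≤ (pC1 B : ℝ) := by
    unfold pC1
    have := Nat.lt_floor_add_one (B - Real.log (30 * B) - 2)
    linarith
  have hcard : (pC1 B : ℝ) - (pc0 B : ℝ) ≤ ((Finset.Ioc (pc0 B) (pC1 B)).card : ℝ) := by
    rw [Nat.card_Ioc]
    have : pC1 B ≤ (pC1 B - pc0 B) + pc0 B := by omega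
    have h : (pC1 B : ℝ) ≤ ((pC1 B - pc0 B : ℕ) : ℝ) + (pc0 B : ℝ) := by exact_mod_cast this
    linarith
  have hsumgk : ∑ c ∈ Finset.Ioc (pc0 B) (pC1 B), (multR κ c - 1) - pA B κ =
      pF B - ((Finset.Ioc (pc0 B) (pC1 B)).card : ℝ) -
        ∑ c ∈ Finset.Ioc (pc0 B) (pC1 B), gk (mult κ c) := by
    unfold pA gk multR
    rw [Finset.sum_sub_distrib, Finset.sum_sub_distrib, Finset.sum_const, nsmul_eq_mul]
    ring
  have hlog30 : Real.log (30 * B) ≤ 4 + Real.log B := by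
    rw [Real.log_mul (by norm_num) hBpos.ne']
    have h1 : Real.log 30 ≤ Real.log (2 ^ 5) := Real.log_le_log (by norm_num) (by norm_num)
    rw [Real.log_pow] at h1
    push_cast at h1
    linarith
  have hlogK : Real.log (86 * K ^ 2) ≤ 17 + 2 * Real.log B := by
    have h1 : 86 * K ^ 2 ≤ 3865184 * B ^ 2 := by nlinarith
    have h2 : Real.log (86 * K ^ 2) ≤ Real.log (3865184 * B ^ 2) :=
      Real.log_le_log (by positivity) h1
    have h4 : Real.log (3865184 * B ^ 2) = Real.log 3865184 + 2 * Real.log B := by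
      rw [Real.log_mul (by norm_num) (by positivity), Real.log_pow]
      push_cast
      ring
    have h3 : Real.log 3865184 ≤ Real.log (2 ^ 22) := Real.log_le_log (by norm_num) (by norm_num)
    rw [Real.log_pow] at h3
    push_cast at h3
    linarith
  -- powers of `B`
  have hB1 : (1:ℝ) ≤ B := by linarith
  have p3 : B ^ (3 / 10 : ℝ) ≤ B ^ (9 / 10 : ℝ) := Real.rpow_le_rpow_of_exponent_le hB1 (by norm_num)
  have p4 : B ^ (3 / 4 : ℝ) ≤ B ^ (9 / 10 : ℝ) := Real.rpow_le_rpow_of_exponent_le hB1 (by norm_num)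
  have p9 : 1 ≤ B ^ (9 / 10 : ℝ) := Real.one_le_rpow hB1 (by norm_num)
  have p95 : B ^ (19 / 20 : ℝ) = B ^ (9 / 10 : ℝ) * B ^ (1 / 20 : ℝ) := by
    rw [← Real.rpow_add hBpos]; norm_num
  have hexp : B + 36 + ∑ c ∈ Finset.Ioc (pc0 B) (pC1 B), (multR κ c - 1) - pA B κ ≤
      -B ^ (3 / 4 : ℝ) - Real.log (86 * K ^ 2) := by
    have e1 : B + 36 + ∑ c ∈ Finset.Ioc (pc0 B) (pC1 B), (multR κ c - 1) - pA B κ =
        B + 36 + (∑ c ∈ Finset.Ioc (pc0 B) (pC1 B), (multR κ c - 1) - pA B κ) := by ring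
    rw [e1, hsumgk]
    have hF : pF B = B ^ (9 / 10 : ℝ) := rfl
    rw [hF]
    have h130 : 130 * B ^ (9 / 10 : ℝ) ≤ B ^ (19 / 20 : ℝ) := by
      rw [p95]; nlinarith
    have hlb : Real.log B ≤ B ^ (9 / 10 : ℝ) := by linarith
    linarith
  have hK86 : 0 < 86 * K ^ 2 := by positivity
  have hxl : 0 ≤ x / Real.log x := by positivity
  calc x / Real.log x * (86 * K ^ 2) *
        Real.exp (B + 36 + ∑ c ∈ Finset.Ioc (pc0 B) (pC1 B), (multR κ c - 1) - pA B κ)
      ≤ x / Real.log x * (86 * K ^ 2) * Real.exp (-B ^ (3 / 4 : ℝ) - Real.log (86 * K ^ 2)) := by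
        gcongr
    _ = x / Real.log x * Real.exp (-B ^ (3 / 4 : ℝ)) := by
        rw [Real.exp_sub, Real.exp_log hK86]
        field_simp

end Crest.Agent.R020.Uc
end
end

-- ▼ part R020/UcFin
section

/-!
Row 20 (helper702): `StmtUc`, the counting version of the availability lemma.
-/

set_option autoImplicit false

namespace Crest.Agent.R020

theorem stmtUc : StmtUc := Uc.stmtUnion Uc.stmtDec Uc.stmtBad Uc.stmtLow Uc.stmtHigh

end Crest.Agent.R020
end

-- ▼ part R020/LemB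
section

/-!
Row 20 (helper162): the twisted-sum hypothesis, preimages with large `Σ yy`, squares, tuples.
-/

set_option autoImplicit false

open scoped ENNReal
open Crest.NumberTheoryR.TotientScale

noncomputable section

namespace Crest.Agent.R020

/-- completely multiplicative real function with given values at primes -/
def gz (z : ℕ → ℝ) : ℕ →*₀ ℝ where
  toFun n := if n = 0 then 0 else (n.primeFactorsList.map z).prod
  map_zero' := by simp
  map_one' := by simp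
  map_mul' a b := by
    by_cases ha : a = 0
    · simp [ha]
    by_cases hb : b = 0
    · simp [hb]
    rw [if_neg ha, if_neg hb, if_neg (mul_ne_zero ha hb),
      ((Nat.perm_primeFactorsList_mul ha hb).map z).prod_eq, List.map_append, List.prod_append]

lemma gz_apply (z : ℕ → ℝ) {n : ℕ} (hn : n ≠ 0) : gz z n = (n.primeFactorsList.map z).prod := by
  show (if n = 0 then 0 else (n.primeFactorsList.map z).prod) = _
  rw [if_neg hn]

lemma gz_prime (z : ℕ → ℝ) {p : ℕ} (hp : p.Prime) : gz z p = z p := by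
  rw [gz_apply z hp.ne_zero, Nat.primeFactorsList_prime hp]
  simp

lemma gz_const (c : ℝ) {n : ℕ} (hn : n ≠ 0) : gz (fun _ => c) n = c ^ Om n := by
  rw [gz_apply _ hn, List.map_const', List.prod_replicate]

lemma gz_nonneg {z : ℕ → ℝ} (hz : ∀ p, p.Prime → 0 ≤ z p) (n : ℕ) : 0 ≤ gz z n := by
  by_cases hn : n = 0
  · rw [hn, map_zero]
  rw [gz_apply z hn]
  apply List.prod_nonneg
  intro a ha
  obtain ⟨p, hp, rfl⟩ := List.mem_map.mp ha
  exact hz p (Nat.prime_of_mem_primeFactorsList hp)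

lemma cm_eq_gz {z : ℕ → ℝ} (hz : ∀ p, p.Prime → 0 ≤ z p) {n : ℕ} (hn : n ≠ 0) :
    cm (fun p => ENNReal.ofReal (z p / p)) n = ENNReal.ofReal (gz z n / n) := by
  have h1 : cm (fun p => ENNReal.ofReal (z p / p)) n
      = cm (fun p => ENNReal.ofReal (z p)) n * cm (fun p => (p : ℝ≥0∞)⁻¹) n := by
    rw [← cm_mul_fun]
    have h : ∀ p : ℕ, p.Prime → ENNReal.ofReal (z p / p) = ENNReal.ofReal (z p) * (p : ℝ≥0∞)⁻¹ := by
      intro p hp
      have hp0 : (0 : ℝ) < p := by exact_mod_cast hp.pos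
      rw [div_eq_mul_inv, ENNReal.ofReal_mul (hz p hp), ENNReal.ofReal_inv_of_pos hp0,
        ENNReal.ofReal_natCast]
    exact le_antisymm (cm_mono (fun p hp => (h p hp).le) n) (cm_mono (fun p hp => (h p hp).ge) n)
  rw [h1, cm_inv hn]
  have hn0 : (0 : ℝ) < n := by exact_mod_cast Nat.pos_of_ne_zero hn
  rw [div_eq_mul_inv, ENNReal.ofReal_mul (gz_nonneg hz n), ENNReal.ofReal_inv_of_pos hn0,
    ENNReal.ofReal_natCast]
  congr 1
  rw [gz_apply z hn]
  unfold cm
  have : ∀ l : List ℕ, (∀ p ∈ l, p.Prime) →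
      (l.map fun p => ENNReal.ofReal (z p)).prod = ENNReal.ofReal (l.map z).prod := by
    intro l
    induction l with
    | nil => simp
    | cons a l ih =>
      intro hl
      simp only [List.map_cons, List.prod_cons]
      rw [ih fun p hp => hl p (by simp [hp]), ENNReal.ofReal_mul (hz a (hl a (by simp)))]
  exact this _ fun p hp => Nat.prime_of_mem_primeFactorsList hp

/-- The twisted shifted-prime sum in unit cells (proved by helper185). -/
def TSHyp (C : ℝ) : Prop :=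
  ∀ g : ℕ →*₀ ℝ, (∀ p : ℕ, p.Prime → 0 ≤ g p ∧ g p ≤ 3 / 2) → ∀ u : ℝ, 0 ≤ u →
    ∀ S : Finset ℕ, (∀ q ∈ S, q.Prime ∧ u ≤ yy q ∧ yy q ≤ u + 1) →
      ∑ q ∈ S, g (q - 1) / ((q - 1 : ℕ) : ℝ) ≤
        C * (1 + u) ^ 2 * Real.exp (-u) * Real.exp (∑ p ∈ PT u, g p / p)

/-- `exp (3/10 yy q - Ω(q-1)) / (q-1)` -/
def hB (q : ℕ) : ℝ := Real.exp (3 / 10 * yy q - Om (q - 1)) / ((q - 1 : ℕ) : ℝ)

lemma hB_nonneg (q : ℕ) : 0 ≤ hB q := div_nonneg (Real.exp_pos _).le (Nat.cast_nonneg _)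

lemma exp_yy_le {p : ℕ} (hp : 1 ≤ p) : Real.exp (yy p) ≤ p := by
  have hp1 : (1 : ℝ) ≤ p := by exact_mod_cast hp
  unfold yy
  rcases max_choice 0 (Real.log (Real.log (p : ℝ))) with h | h
  · rw [h, Real.exp_zero]; exact hp1
  · rw [h]
    rcases eq_or_lt_of_le hp1 with h1 | h1
    · rw [← h1]; simp
    · have hl : 0 < Real.log p := Real.log_pos h1
      rw [Real.exp_log hl]
      have := Real.log_le_sub_one_of_pos (show (0 : ℝ) < p by linarith)
      linarith

lemma eq_two_of_kap {q : ℕ} (hq : q.Prime) (h : kap q = 0) : q = 2 := by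
  by_contra h2
  have h3 : 3 ≤ q := by have := hq.two_le; omega
  have h4 : yy q ≤ 0 := by
    have := yy_le_kap q
    rw [h] at this
    exact_mod_cast this
  rw [yy_le_iff hq.two_le le_rfl, Real.exp_zero] at h4
  have h5 : (3 : ℝ) ≤ q := by exact_mod_cast h3
  have := Real.exp_one_lt_d9
  linarith

lemma sum_hB_le {C0 : ℝ} (hC0 : 0 ≤ C0) (hTS : TSHyp C0) :
    ∃ C : ℝ, 0 ≤ C ∧ ∀ T : ℝ, 0 ≤ T → ∑ q ∈ PT T, hB q ≤ C := by
  -- the summable majorant
  have hsum : Summable fun k : ℕ => ((k : ℝ) ^ 2 * Real.exp (-(33 / 100) * k)) :=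
    Real.summable_pow_mul_exp_neg_nat_mul 2 (by norm_num)
  have hsum2 : Summable fun k : ℕ =>
      (((k + 1 : ℕ) : ℝ) ^ 2 * Real.exp (-(33 / 100) * ((k + 1 : ℕ) : ℝ))) :=
    (summable_nat_add_iff (f := fun k : ℕ => ((k : ℝ) ^ 2 * Real.exp (-(33 / 100) * k))) 1).mpr hsum
  set S := ∑' k : ℕ, (((k + 1 : ℕ) : ℝ) ^ 2 * Real.exp (-(33 / 100) * ((k + 1 : ℕ) : ℝ))) with hS
  have hS0 : 0 ≤ S := tsum_nonneg fun k => by positivity
  refine ⟨1 + C0 * Real.exp 13 * S, by positivity, fun T hT => ?_⟩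
  set M := ⌈T⌉₊ with hM
  have hmaps : ∀ q ∈ PT T, kap q ∈ Finset.range (M + 1) := by
    intro q hq
    rw [Finset.mem_range]
    have h1 := ((mem_PT hT).mp hq).2
    have : kap q ≤ M := Nat.ceil_le_ceil h1
    omega
  rw [← Finset.sum_fiberwise_of_maps_to hmaps, Finset.sum_range_succ']
  have h0 : ∑ q ∈ (PT T).filter (fun q => kap q = 0), hB q ≤ 1 := by
    have hsub : (PT T).filter (fun q => kap q = 0) ⊆ {2} := by
      intro q hq
      rw [Finset.mem_filter] at hq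
      rw [Finset.mem_singleton]
      exact eq_two_of_kap (prime_of_mem_PT hq.1) hq.2
    calc ∑ q ∈ (PT T).filter (fun q => kap q = 0), hB q ≤ ∑ q ∈ {2}, hB q :=
          Finset.sum_le_sum_of_subset_of_nonneg hsub fun q _ _ => hB_nonneg q
      _ = 1 := by
          rw [Finset.sum_singleton]
          unfold hB Om
          rw [yy_two]
          norm_num
  have hk : ∀ k ∈ Finset.range M, ∑ q ∈ (PT T).filter (fun q => kap q = k + 1), hB q ≤
      C0 * Real.exp 13 * (((k + 1 : ℕ) : ℝ) ^ 2 * Real.exp (-(33 / 100) * ((k + 1 : ℕ) : ℝ))) := by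
    intro k _
    have hu : (0 : ℝ) ≤ k := Nat.cast_nonneg k
    have h1 := hTS (gz fun _ => Real.exp (-1)) (fun p hp => by
      rw [gz_prime _ hp]
      refine ⟨(Real.exp_pos _).le, ?_⟩
      have : Real.exp (-1) ≤ Real.exp 0 := Real.exp_le_exp.mpr (by norm_num)
      rw [Real.exp_zero] at this
      linarith) k hu ((PT T).filter (fun q => kap q = k + 1)) (fun q hq => by
        rw [Finset.mem_filter] at hq
        refine ⟨prime_of_mem_PT hq.1, ?_, ?_⟩
        · have := kap_lt q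
          rw [hq.2] at this
          push_cast at this
          linarith
        · have := yy_le_kap q
          rw [hq.2] at this
          exact_mod_cast this)
    have h2 : ∀ q ∈ (PT T).filter (fun q => kap q = k + 1), hB q ≤
        Real.exp (3 / 10 * (k + 1)) * ((gz fun _ => Real.exp (-1)) (q - 1) / ((q - 1 : ℕ) : ℝ)) := by
      intro q hq
      rw [Finset.mem_filter] at hq
      have hqp := prime_of_mem_PT hq.1
      have hq1 : q - 1 ≠ 0 := by have := hqp.two_le; omega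
      rw [gz_const _ hq1]
      unfold hB
      rw [← mul_div_assoc]
      apply div_le_div_of_nonneg_right _ (Nat.cast_nonneg _)
      rw [← Real.exp_nat_mul, ← Real.exp_add]
      apply Real.exp_le_exp.mpr
      have := yy_le_kap q
      rw [hq.2] at this
      push_cast at this
      linarith
    have h3 : ∑ p ∈ PT (k : ℝ), (gz fun _ => Real.exp (-1)) p / p ≤ Real.exp (-1) * (k + 30) := by
      have h4 : ∀ p ∈ PT (k : ℝ), (gz fun _ => Real.exp (-1)) p / p = Real.exp (-1) * (1 / p) := by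
        intro p hp
        rw [gz_prime _ (prime_of_mem_PT hp)]
        ring
      rw [Finset.sum_congr rfl h4, ← Finset.mul_sum]
      exact mul_le_mul_of_nonneg_left (sum_PT_le hu) (Real.exp_pos _).le
    calc ∑ q ∈ (PT T).filter (fun q => kap q = k + 1), hB q
        ≤ ∑ q ∈ (PT T).filter (fun q => kap q = k + 1), Real.exp (3 / 10 * (k + 1)) *
          ((gz fun _ => Real.exp (-1)) (q - 1) / ((q - 1 : ℕ) : ℝ)) := Finset.sum_le_sum h2
      _ = Real.exp (3 / 10 * (k + 1)) * ∑ q ∈ (PT T).filter (fun q => kap q = k + 1),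
          ((gz fun _ => Real.exp (-1)) (q - 1) / ((q - 1 : ℕ) : ℝ)) := by rw [Finset.mul_sum]
      _ ≤ Real.exp (3 / 10 * (k + 1)) * (C0 * (1 + k) ^ 2 * Real.exp (-k) *
          Real.exp (Real.exp (-1) * (k + 30))) := by
          gcongr
          refine h1.trans ?_
          gcongr
      _ = C0 * ((k + 1 : ℕ) : ℝ) ^ 2 * Real.exp (3 / 10 * (k + 1) + -k + Real.exp (-1) * (k + 30)) := by
          rw [Real.exp_add, Real.exp_add]
          push_cast
          ring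
      _ ≤ C0 * ((k + 1 : ℕ) : ℝ) ^ 2 * Real.exp (13 + -(33 / 100) * ((k + 1 : ℕ) : ℝ)) := by
          apply mul_le_mul_of_nonneg_left _ (by positivity)
          apply Real.exp_le_exp.mpr
          have he : Real.exp (-1) ≤ 0.37 := by
            have := Real.exp_neg_one_lt_d9
            linarith
          have he2 : Real.exp (-1) * (k + 30) ≤ 0.37 * (k + 30) := by gcongr
          push_cast
          linarith
      _ = _ := by
          rw [Real.exp_add]
          ring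
  have h4 : ∑ k ∈ Finset.range M, ∑ q ∈ (PT T).filter (fun q => kap q = k + 1), hB q ≤
      C0 * Real.exp 13 * S := by
    refine (Finset.sum_le_sum hk).trans ?_
    rw [← Finset.mul_sum]
    gcongr
    exact hsum2.sum_le_tsum _ fun k _ => by positivity
  linarith

/-- local factors for (b) -/
def bB (p k : ℕ) : ℝ≥0∞ :=
  if k = 0 then 1 else ENNReal.ofReal (Real.exp (3 / 10 * (k * yy p) - ((k - 1 : ℕ) + Om (p - 1)))) *
    ((p ^ (k - 1) * (p - 1) : ℕ) : ℝ≥0∞)⁻¹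

lemma tsum_bB_le {p : ℕ} (hp : p.Prime) : ∑' k, bB p k ≤ ENNReal.ofReal (Real.exp (2 * hB p)) := by
  rw [tsum_eq_zero_add' (ENNReal.summable)]
  have hp1 : 0 < p - 1 := by have := hp.two_le; omega
  have hp1' : (0 : ℝ) < ((p - 1 : ℕ) : ℝ) := by exact_mod_cast hp1
  have hp0 : (0 : ℝ) < p := by exact_mod_cast hp.pos
  have h1 : ∀ j : ℕ, bB p (j + 1) ≤ ENNReal.ofReal (hB p) * (ENNReal.ofReal (1 / 2)) ^ j := by
    intro j
    unfold bB
    have hpos : (0 : ℝ) < ((p ^ (j + 1 - 1) * (p - 1) : ℕ) : ℝ) := by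
      exact_mod_cast Nat.mul_pos (pow_pos hp.pos _) hp1
    rw [if_neg (by omega), ← ENNReal.ofReal_pow (by norm_num), ← ENNReal.ofReal_mul (hB_nonneg p),
      ← ENNReal.ofReal_natCast, ← ENNReal.ofReal_inv_of_pos hpos,
      ← ENNReal.ofReal_mul (Real.exp_pos _).le]
    apply ENNReal.ofReal_le_ofReal
    simp only [Nat.add_sub_cancel]
    have h2 : Real.exp (3 / 10 * (((j : ℝ) + 1) * yy p) - ((j : ℝ) + Om (p - 1))) =
        Real.exp (3 / 10 * yy p - Om (p - 1)) * (Real.exp (3 / 10 * yy p - 1)) ^ j := by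
      rw [← Real.exp_nat_mul, ← Real.exp_add]
      congr 1
      push_cast
      ring
    have h3 : Real.exp (3 / 10 * yy p - 1) ≤ p * (1 / 2) := by
      have h4 : Real.exp (3 / 10 * yy p - 1) = Real.exp (3 / 10 * yy p) * Real.exp (-1) := by
        rw [← Real.exp_add]; ring_nf
      rw [h4]
      have h5 : Real.exp (3 / 10 * yy p) ≤ p := by
        refine le_trans ?_ (exp_yy_le hp.one_le)
        apply Real.exp_le_exp.mpr
        have := yy_nonneg p
        linarith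
      have h6 : Real.exp (-1) ≤ 1 / 2 := by
        have := Real.exp_neg_one_lt_d9
        linarith
      gcongr
    unfold hB
    push_cast
    rw [h2]
    have h7 : (Real.exp (3 / 10 * yy p - 1)) ^ j ≤ (p * (1 / 2)) ^ j := by gcongr
    rw [mul_pow] at h7
    set A := Real.exp (3 / 10 * yy p - Om (p - 1)) with hA
    have hA0 : 0 < A := Real.exp_pos _
    calc A * Real.exp (3 / 10 * yy p - 1) ^ j * ((p : ℝ) ^ j * ((p - 1 : ℕ) : ℝ))⁻¹
        ≤ A * ((p : ℝ) ^ j * (1 / 2) ^ j) * ((p : ℝ) ^ j * ((p - 1 : ℕ) : ℝ))⁻¹ := by gcongr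
      _ = A / ((p - 1 : ℕ) : ℝ) * (1 / 2) ^ j := by field_simp
  have h2 : ∑' j, bB p (j + 1) ≤ ENNReal.ofReal (2 * hB p) := by
    refine (ENNReal.tsum_le_tsum h1).trans ?_
    rw [ENNReal.tsum_mul_left, ENNReal.tsum_geometric]
    have h3 : (1 - ENNReal.ofReal (1 / 2))⁻¹ = ENNReal.ofReal 2 := by
      have : (1 : ℝ≥0∞) - ENNReal.ofReal (1 / 2) = ENNReal.ofReal (1 / 2) := by
        rw [← ENNReal.ofReal_one, ← ENNReal.ofReal_sub 1 (by norm_num)]
        norm_num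
      rw [this, ← ENNReal.ofReal_inv_of_pos (by norm_num)]
      norm_num
    rw [h3, ← ENNReal.ofReal_mul (hB_nonneg p), mul_comm]
  have h0 : bB p 0 = ENNReal.ofReal 1 := by simp [bB]
  rw [h0]
  refine (add_le_add le_rfl h2).trans ?_
  rw [← ENNReal.ofReal_add zero_le_one (by have := hB_nonneg p; linarith)]
  apply ENNReal.ofReal_le_ofReal
  have := Real.add_one_le_exp (2 * hB p)
  linarith

/-- (b), in the form of a sum over preimages. -/
theorem ws_Sy_large {C0 : ℝ} (hC0 : 0 ≤ C0) (hTS : TSHyp C0) :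
    ∃ C : ℝ, 0 ≤ C ∧ ∀ T : ℝ, 0 ≤ T → ∀ X S : ℝ,
      ws (fun n => ((n.totient : ℕ) : ℝ≥0∞)⁻¹) {n | n ∈ Sm (PT T) ∧ (Om n.totient : ℝ) ≤ X ∧ S ≤ Sy n}
        ≤ ENNReal.ofReal (Real.exp (X - 3 / 10 * S + C)) := by
  obtain ⟨C, hC, hsum⟩ := sum_hB_le hC0 hTS
  refine ⟨2 * C, by positivity, fun T hT X S => ?_⟩
  let f : ℕ → ℝ≥0∞ := fun n => ENNReal.ofReal (Real.exp (3 / 10 * Sy n - Om n.totient)) *
    ((n.totient : ℕ) : ℝ≥0∞)⁻¹
  have h1 : ws f (Sm (PT T)) ≤ ∏ p ∈ PT T, ∑' k, bB p k := by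
    apply smooth_sum f bB
    · show ENNReal.ofReal _ * _ ≤ 1
      simp [Sy, Om]
    · intro p k u hp hu hpu
      rcases Nat.eq_zero_or_pos k with rfl | hk
      · simp [bB]
      · have hcop : Nat.Coprime (p ^ k) u :=
          Nat.Coprime.pow_left k ((Nat.Prime.coprime_iff_not_dvd hp).mpr hpu)
        have hpk : p ^ k ≠ 0 := pow_ne_zero _ hp.ne_zero
        have ht1 : (p ^ k).totient ≠ 0 := (Nat.totient_pos.mpr (Nat.pos_of_ne_zero hpk)).ne'
        have ht2 : u.totient ≠ 0 := (Nat.totient_pos.mpr (Nat.pos_of_ne_zero hu)).ne'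
        show ENNReal.ofReal (Real.exp (3 / 10 * Sy (p ^ k * u) - Om (p ^ k * u).totient)) *
          (((p ^ k * u).totient : ℕ) : ℝ≥0∞)⁻¹ ≤ bB p k * (ENNReal.ofReal
            (Real.exp (3 / 10 * Sy u - Om u.totient)) * ((u.totient : ℕ) : ℝ≥0∞)⁻¹)
        rw [Nat.totient_mul hcop, Om_mul ht1 ht2, Sy_mul hpk hu, Sy_prime_pow hp,
          Om_totient_prime_pow hp hk, inv_mul_nat, Nat.totient_prime_pow hp hk]
        unfold bB
        rw [if_neg hk.ne']
        have e1 : Real.exp (3 / 10 * (k * yy p + Sy u) -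
            ((((k - 1) + Om (p - 1)) + Om u.totient : ℕ) : ℝ)) =
            Real.exp (3 / 10 * (k * yy p) - ((k - 1 : ℕ) + Om (p - 1))) *
              Real.exp (3 / 10 * Sy u - Om u.totient) := by
          rw [← Real.exp_add]
          congr 1
          push_cast
          ring
        rw [e1, ENNReal.ofReal_mul (Real.exp_pos _).le]
        apply le_of_eq
        ring
    · exact fun p hp => prime_of_mem_PT hp
  have h2 : ∏ p ∈ PT T, ∑' k, bB p k ≤ ENNReal.ofReal (Real.exp (2 * C)) := by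
    calc ∏ p ∈ PT T, ∑' k, bB p k ≤ ∏ p ∈ PT T, ENNReal.ofReal (Real.exp (2 * hB p)) :=
          Finset.prod_le_prod' fun p hp => tsum_bB_le (prime_of_mem_PT hp)
      _ = ENNReal.ofReal (Real.exp (∑ p ∈ PT T, 2 * hB p)) := by
          rw [Real.exp_sum, ENNReal.ofReal_prod_of_nonneg fun p _ => (Real.exp_pos _).le]
      _ ≤ _ := by
          apply ENNReal.ofReal_le_ofReal
          apply Real.exp_le_exp.mpr
          rw [← Finset.mul_sum]
          have := hsum T hT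
          linarith
  have h3 : ws (fun n => ((n.totient : ℕ) : ℝ≥0∞)⁻¹)
      {n | n ∈ Sm (PT T) ∧ (Om n.totient : ℝ) ≤ X ∧ S ≤ Sy n} ≤
      ENNReal.ofReal (Real.exp (X - 3 / 10 * S)) * ws f (Sm (PT T)) := by
    unfold ws
    rw [← ENNReal.tsum_mul_left]
    apply ENNReal.tsum_le_tsum
    intro n
    by_cases hn : n ∈ {n | n ∈ Sm (PT T) ∧ (Om n.totient : ℝ) ≤ X ∧ S ≤ Sy n}
    · rw [Set.indicator_of_mem hn, Set.indicator_of_mem hn.1]
      show _ ≤ ENNReal.ofReal (Real.exp (X - 3 / 10 * S)) *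
        (ENNReal.ofReal (Real.exp (3 / 10 * Sy n - Om n.totient)) * _)
      rw [← mul_assoc]
      apply le_mul_of_one_le_left (zero_le)
      rw [← ENNReal.ofReal_mul (Real.exp_pos _).le, ENNReal.one_le_ofReal, ← Real.exp_add,
        Real.one_le_exp_iff]
      have h4 := hn.2.1
      have h5 := hn.2.2
      linarith
    · rw [Set.indicator_of_notMem hn]; exact zero_le
  refine h3.trans ?_
  rw [Real.exp_add, ENNReal.ofReal_mul (Real.exp_pos _).le]
  exact mul_le_mul' le_rfl (h1.trans h2)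

/-- (b), distinct values. -/
theorem wt_Sy_large {C0 : ℝ} (hC0 : 0 ≤ C0) (hTS : TSHyp C0) :
    ∃ C : ℝ, 0 ≤ C ∧ ∀ T : ℝ, 0 ≤ T → ∀ X S : ℝ,
      wt {v | ∃ n ∈ Sm (PT T), n.totient = v ∧ (Om v : ℝ) ≤ X ∧ S ≤ Sy n}
        ≤ ENNReal.ofReal (Real.exp (X - 3 / 10 * S + C)) := by
  obtain ⟨C, hC, h⟩ := ws_Sy_large hC0 hTS
  refine ⟨C, hC, fun T hT X S => le_trans ?_ (h T hT X S)⟩
  unfold wt
  refine (ws_le_tsum_image _ _ (fun n : ℕ => n.totient)
    {n | n ∈ Sm (PT T) ∧ (Om n.totient : ℝ) ≤ X ∧ S ≤ Sy n} ?_).trans le_rfl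
  rintro v ⟨n, hn, rfl, h1, h2⟩
  exact ⟨n, ⟨hn, h1, h2⟩, rfl⟩

end Crest.Agent.R020
end
end

-- ▼ part R020/LemC
section

/-!
Row 20 (helper162): squares of large primes, tuples of large primes.
-/

set_option autoImplicit false

open scoped ENNReal
open Crest.NumberTheoryR.TotientScale

noncomputable section

namespace Crest.Agent.R020

/-! ### squares -/

/-- telescoping: `∑_{m > M} 1/(m(m-1)) ≤ 1/M` -/
lemma tsum_inv_mul_pred_le {M : ℕ} (hM : 1 ≤ M) :
    ∑' m : ℕ, ({m : ℕ | M < m}.indicator (fun m : ℕ => ((m * (m - 1) : ℕ) : ℝ≥0∞)⁻¹)) m ≤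
      ENNReal.ofReal (1 / M) := by
  apply ENNReal.tsum_le_of_sum_range_le
  intro n
  have key : ∀ n : ℕ, ∑ m ∈ Finset.range (M + 1 + n),
      ({m : ℕ | M < m}.indicator (fun m : ℕ => ((m * (m - 1) : ℕ) : ℝ≥0∞)⁻¹)) m ≤
      ENNReal.ofReal (1 / M - 1 / (M + n)) := by
    intro n
    induction n with
    | zero =>
      simp only [add_zero]
      rw [Finset.sum_eq_zero]
      · exact zero_le
      · intro m hm
        rw [Set.indicator_of_notMem]
        rw [Finset.mem_range] at hm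
        simp only [Set.mem_ofPred_eq, not_lt]
        omega
    | succ n ih =>
      rw [← add_assoc, Finset.sum_range_succ, Set.indicator_of_mem (by
        simp only [Set.mem_ofPred_eq]; omega)]
      have hMn : (0 : ℝ) < (M : ℝ) + n := by
        have : (1 : ℝ) ≤ M := by exact_mod_cast hM
        positivity
      have h1 : (((M + 1 + n) * (M + 1 + n - 1) : ℕ) : ℝ≥0∞)⁻¹ =
          ENNReal.ofReal (1 / (M + n) - 1 / (M + (n + 1))) := by
        rw [← ENNReal.ofReal_natCast, ← ENNReal.ofReal_inv_of_pos]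
        · congr 1
          rw [show M + 1 + n - 1 = M + n by omega]
          push_cast
          field_simp
          ring
        · rw [show M + 1 + n - 1 = M + n by omega]
          push_cast
          positivity
      rw [h1]
      refine (add_le_add ih le_rfl).trans ?_
      have hM0 : (0 : ℝ) < M := by exact_mod_cast hM
      have hn0 : (0 : ℝ) ≤ n := Nat.cast_nonneg n
      rw [← ENNReal.ofReal_add]
      · apply ENNReal.ofReal_le_ofReal
        push_cast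
        linarith
      · rw [sub_nonneg]
        apply one_div_le_one_div_of_le hM0
        linarith
      · rw [sub_nonneg]
        apply one_div_le_one_div_of_le hMn
        linarith
  calc _ ≤ ∑ m ∈ Finset.range (M + 1 + n),
      ({m : ℕ | M < m}.indicator (fun m : ℕ => ((m * (m - 1) : ℕ) : ℝ≥0∞)⁻¹)) m :=
        Finset.sum_le_sum_of_subset (Finset.range_mono (by omega))
    _ ≤ _ := key n
    _ ≤ _ := by
        apply ENNReal.ofReal_le_ofReal
        have : (0 : ℝ) ≤ 1 / ((M : ℝ) + n) := by positivity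
        linarith

/-- `q (q-1)` divides `φ n` if `q² ∣ n`. -/
lemma mul_pred_dvd_totient {q n : ℕ} (hq : q.Prime) (h : q ^ 2 ∣ n) : q * (q - 1) ∣ n.totient := by
  have h1 : (q ^ 2).totient ∣ n.totient := Nat.totient_dvd_of_dvd h
  rw [Nat.totient_prime_pow hq (by norm_num)] at h1
  simpa using h1

lemma wt_sq_gens_le {w : ℝ} (hw : 0 ≤ w) :
    wt {m | ∃ q : ℕ, q.Prime ∧ w < yy q ∧ m = q * (q - 1)} ≤
      ENNReal.ofReal (2 * Real.exp (-Real.exp w)) := by
  set z := Real.exp (Real.exp w) with hz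
  have hz1 : 2 ≤ z := by
    have h1 : (1 : ℝ) ≤ Real.exp w := Real.one_le_exp hw
    have h2 : Real.exp 1 ≤ z := Real.exp_le_exp.mpr h1
    have h3 := Real.add_one_le_exp (1 : ℝ)
    linarith
  have hM : 1 ≤ ⌊z⌋₊ := Nat.le_floor (by push_cast; linarith)
  refine (ws_le_tsum_image _ _ (fun q : ℕ => q * (q - 1)) {m : ℕ | ⌊z⌋₊ < m} ?_).trans
    ((tsum_inv_mul_pred_le hM).trans ?_)
  · rintro v ⟨q, hq, hwq, rfl⟩
    refine ⟨q, ?_, rfl⟩
    rw [lt_yy_iff hq.two_le hw] at hwq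
    exact (Nat.floor_lt (Real.exp_pos _).le).mpr hwq
  · apply ENNReal.ofReal_le_ofReal
    have h1 : z < (⌊z⌋₊ : ℝ) + 1 := Nat.lt_floor_add_one z
    have h2 : z / 2 ≤ (⌊z⌋₊ : ℝ) := by linarith
    calc (1 : ℝ) / ⌊z⌋₊ ≤ 1 / (z / 2) := by
          apply one_div_le_one_div_of_le (by linarith) h2
      _ = 2 * Real.exp (-Real.exp w) := by
          rw [Real.exp_neg, ← hz]
          field_simp

/-- S0d / X3: preimages divisible by the square of a large prime. -/
theorem wt_sq_le {T w : ℝ} (hT : 0 ≤ T) (hw : 0 ≤ w) :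
    wt {v | ∃ n ∈ Sm (PT T), n.totient = v ∧ ∃ q : ℕ, q.Prime ∧ w < yy q ∧ q ^ 2 ∣ n} ≤
      ENNReal.ofReal (2 * Real.exp (-Real.exp w + T + 32)) := by
  refine (wt_mul_le _ {m | ∃ q : ℕ, q.Prime ∧ w < yy q ∧ m = q * (q - 1)} (Sm (PT T)) ?_).trans ?_
  · rintro v ⟨n, hn, rfl, q, hq, hwq, hqn⟩
    obtain ⟨u, hu⟩ := mul_pred_dvd_totient hq hqn
    refine ⟨q * (q - 1), ⟨q, hq, hwq, rfl⟩, u, ?_, hu.symm⟩
    have hS := totient_mem_Sm hn.1 hT ((mem_Sm_PT hT).mp hn).2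
    have hu0 : u ≠ 0 := by
      rintro rfl
      rw [mul_zero] at hu
      exact hS.1 hu
    refine ⟨hu0, fun p hp => hS.2 p ?_⟩
    exact Nat.primeFactors_mono ⟨q * (q - 1), by rw [hu]; ring⟩ hS.1 hp
  · refine (mul_le_mul' (wt_sq_gens_le hw) (wt_Sm_le hT)).trans ?_
    rw [← ENNReal.ofReal_mul (by positivity), mul_assoc, ← Real.exp_add]
    apply ENNReal.ofReal_le_ofReal
    apply le_of_eq
    ring_nf

/-! ### tuples -/

/-- `q - 1` for primes `q` with `yy q ≤ T` -/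
def QT (T : ℝ) : Set ℕ := {m | ∃ q : ℕ, q.Prime ∧ yy q ≤ T ∧ m = q - 1}

lemma wt_image_pred_le (s : Finset ℕ) (hs : ∀ q ∈ s, q.Prime) :
    wt {m | ∃ q ∈ s, m = q - 1} ≤ ENNReal.ofReal (∑ q ∈ s, 1 / ((q - 1 : ℕ) : ℝ)) := by
  refine (ws_le_tsum_image _ _ (fun q : ℕ => q - 1) (s : Set ℕ) ?_).trans ?_
  · rintro v ⟨q, hq, rfl⟩
    exact ⟨q, hq, rfl⟩
  · rw [tsum_eq_sum (s := s)]
    · rw [ENNReal.ofReal_sum_of_nonneg fun q _ => by positivity]
      apply Finset.sum_le_sum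
      intro q hq
      rw [Set.indicator_of_mem (by exact_mod_cast hq)]
      have h1 : 0 < q - 1 := by have := (hs q hq).two_le; omega
      have h2 : (0 : ℝ) < ((q - 1 : ℕ) : ℝ) := by exact_mod_cast h1
      rw [one_div, ENNReal.ofReal_inv_of_pos h2, ENNReal.ofReal_natCast]
    · intro q hq
      rw [Set.indicator_of_notMem (by exact_mod_cast hq)]

lemma inv_pred_le {q : ℕ} (hq : q.Prime) :
    1 / ((q - 1 : ℕ) : ℝ) ≤ 1 / (q : ℝ) + 2 * (1 / (q : ℝ)) ^ 2 := by
  have h2 : (2 : ℝ) ≤ q := by exact_mod_cast hq.two_le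
  rw [Nat.cast_sub hq.one_le, Nat.cast_one]
  rw [div_le_iff₀ (by linarith)]
  have h3 : (1 / (q : ℝ) + 2 * (1 / (q : ℝ)) ^ 2) * ((q : ℝ) - 1) =
      1 + (1 / (q : ℝ)) * (1 - 2 * (1 / q)) := by
    field_simp
    ring
  rw [h3]
  have h4 : 1 / (q : ℝ) ≤ 1 / 2 := one_div_le_one_div_of_le (by norm_num) h2
  have h5 : 0 ≤ 1 / (q : ℝ) := by positivity
  nlinarith

lemma wt_QT_le {T : ℝ} (hT : 0 ≤ T) : wt (QT T) ≤ ENNReal.ofReal (T + 32) := by
  have h1 : wt (QT T) ≤ wt {m | ∃ q ∈ PT T, m = q - 1} := by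
    apply wt_mono
    rintro m ⟨q, hq, hqT, rfl⟩
    exact ⟨q, (mem_PT hT).mpr ⟨hq, hqT⟩, rfl⟩
  refine h1.trans ((wt_image_pred_le _ fun q hq => prime_of_mem_PT hq).trans ?_)
  apply ENNReal.ofReal_le_ofReal
  calc ∑ q ∈ PT T, 1 / ((q - 1 : ℕ) : ℝ) ≤ ∑ q ∈ PT T, (1 / (q : ℝ) + 2 * (1 / (q : ℝ)) ^ 2) :=
        Finset.sum_le_sum fun q hq => inv_pred_le (prime_of_mem_PT hq)
    _ ≤ T + 32 := by
        rw [Finset.sum_add_distrib, ← Finset.mul_sum]
        have := sum_PT_le hT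
        have := sum_inv_sq_le (PT T) fun q hq => prime_of_mem_PT hq
        linarith

/-- products of `N` elements `q - 1` -/
def BP (T : ℝ) (N : ℕ) : Set ℕ :=
  {m | ∃ L : List ℕ, L.length = N ∧ (∀ q ∈ L, q.Prime ∧ yy q ≤ T) ∧ m = (L.map (· - 1)).prod}

lemma wt_BP_le {T : ℝ} (hT : 0 ≤ T) (N : ℕ) : wt (BP T N) ≤ ENNReal.ofReal (T + 32) ^ N := by
  induction N with
  | zero =>
    rw [pow_zero]
    unfold wt ws
    rw [tsum_eq_single 1]
    · by_cases h : (1 : ℕ) ∈ BP T 0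
      · rw [Set.indicator_of_mem h]; simp
      · rw [Set.indicator_of_notMem h]; exact zero_le
    · intro m hm
      rw [Set.indicator_of_notMem]
      rintro ⟨L, hL, _, rfl⟩
      rw [List.length_eq_zero_iff] at hL
      subst hL
      simp at hm
  | succ N ih =>
    refine (wt_mul_le _ (QT T) (BP T N) ?_).trans ?_
    · rintro m ⟨L, hL, hq, rfl⟩
      rcases L with _ | ⟨q, L⟩
      · simp at hL
      · simp only [List.length_cons, Nat.add_right_cancel_iff] at hL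
        refine ⟨q - 1, ⟨q, (hq q (by simp)).1, (hq q (by simp)).2, rfl⟩, (L.map (· - 1)).prod,
          ⟨L, hL, fun x hx => hq x (by simp [hx]), rfl⟩, ?_⟩
        simp
    · rw [pow_succ, mul_comm]
      exact mul_le_mul' ih (wt_QT_le hT)

/-- products of at most `N` elements `q - 1` -/
def BPle (T : ℝ) (N : ℕ) : Set ℕ :=
  {m | ∃ L : List ℕ, L.length ≤ N ∧ (∀ q ∈ L, q.Prime ∧ yy q ≤ T) ∧ m = (L.map (· - 1)).prod}

lemma wt_BPle_le {T : ℝ} (hT : 0 ≤ T) (N : ℕ) :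
    wt (BPle T N) ≤ ENNReal.ofReal ((N + 1) * (T + 32) ^ N) := by
  have h1 : wt (BPle T N) ≤ ∑' i : Fin (N + 1), wt (BP T i) := by
    apply ws_le_tsum
    rintro v ⟨L, hL, hq, rfl⟩
    exact ⟨⟨L.length, by omega⟩, L, rfl, hq, rfl⟩
  refine h1.trans ?_
  rw [tsum_fintype]
  have h2 : ∀ i : Fin (N + 1), wt (BP T i) ≤ ENNReal.ofReal ((T + 32) ^ N) := by
    intro i
    refine (wt_BP_le hT i).trans ?_
    rw [← ENNReal.ofReal_pow (by linarith)]
    apply ENNReal.ofReal_le_ofReal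
    apply pow_le_pow_right₀ (by linarith)
    omega
  calc ∑ i : Fin (N + 1), wt (BP T i) ≤ ∑ i : Fin (N + 1), ENNReal.ofReal ((T + 32) ^ N) :=
        Finset.sum_le_sum fun i _ => h2 i
    _ = ENNReal.ofReal ((N + 1) * (T + 32) ^ N) := by
        rw [Finset.sum_const, Finset.card_univ, Fintype.card_fin, nsmul_eq_mul,
          ENNReal.ofReal_mul (by positivity)]
        congr 1
        rw [← ENNReal.ofReal_natCast]
        push_cast
        rfl

/-! ### splitting a preimage at a threshold -/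

lemma exists_split (w : ℝ) (L : List ℕ) (hL : L.Pairwise (· ≤ ·)) :
    ∃ Ls Lb : List ℕ, L = Ls ++ Lb ∧ (∀ q ∈ Ls, yy q ≤ w) ∧ (∀ q ∈ Lb, w < yy q) := by
  induction L with
  | nil => exact ⟨[], [], rfl, by simp, by simp⟩
  | cons q L ih =>
    rw [List.pairwise_cons] at hL
    by_cases h : yy q ≤ w
    · obtain ⟨Ls, Lb, rfl, h1, h2⟩ := ih hL.2
      refine ⟨q :: Ls, Lb, rfl, ?_, h2⟩
      intro x hx
      rcases List.mem_cons.mp hx with rfl | hx
      · exact h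
      · exact h1 x hx
    · refine ⟨[], q :: L, rfl, by simp, ?_⟩
      intro x hx
      rcases List.mem_cons.mp hx with rfl | hx
      · exact lt_of_not_ge h
      · exact lt_of_lt_of_le (lt_of_not_ge h) (yy_mono (hL.1 x hx))

lemma totient_prod_nodup (L : List ℕ) (hp : ∀ q ∈ L, q.Prime) (hn : L.Nodup) :
    L.prod.totient = (L.map (· - 1)).prod := by
  induction L with
  | nil => simp
  | cons q L ih =>
    rw [List.nodup_cons] at hn
    have hq := hp q (by simp)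
    have hcop : Nat.Coprime q L.prod := by
      rw [Nat.Prime.coprime_iff_not_dvd hq]
      intro hdvd
      obtain ⟨x, hx, hqx⟩ := (Prime.dvd_prod_iff hq.prime).mp hdvd
      have := (Nat.prime_dvd_prime_iff_eq hq (hp x (by simp [hx]))).mp hqx
      exact hn.1 (this ▸ hx)
    rw [List.prod_cons, Nat.totient_mul hcop, Nat.totient_prime hq,
      ih (fun x hx => hp x (by simp [hx])) hn.2]
    simp

/-- Structure of a preimage: small part, big part. -/
lemma split_preimage {n : ℕ} (hn : n ≠ 0) (w : ℝ) :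
    ∃ (m : ℕ) (Lb : List ℕ), m ≠ 0 ∧ n.primeFactorsList = m.primeFactorsList ++ Lb ∧
      (∀ q ∈ m.primeFactorsList, yy q ≤ w) ∧ (∀ q ∈ Lb, q.Prime ∧ w < yy q) ∧
      Lb.Pairwise (· ≤ ·) ∧ (m.primeFactorsList.Pairwise (· ≤ ·)) ∧
      n.totient = m.totient * Lb.prod.totient ∧
      (¬ Lb.Nodup → ∃ q : ℕ, q.Prime ∧ w < yy q ∧ q ^ 2 ∣ n) := by
  have hsort : n.primeFactorsList.Pairwise (· ≤ ·) := (Nat.primeFactorsList_sorted n).pairwise
  obtain ⟨Ls, Lb, hsplit, h1, h2⟩ := exists_split w _ hsort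
  have hprime : ∀ q ∈ Ls ++ Lb, q.Prime := by
    intro q hq
    rw [← hsplit] at hq
    exact Nat.prime_of_mem_primeFactorsList hq
  have hps : ∀ q ∈ Ls, q.Prime := fun q hq => hprime q (List.mem_append_left _ hq)
  have hpb : ∀ q ∈ Lb, q.Prime := fun q hq => hprime q (List.mem_append_right _ hq)
  rw [hsplit] at hsort
  rw [List.pairwise_append] at hsort
  have hms : Ls.prod ≠ 0 := by
    intro h
    rw [List.prod_eq_zero_iff] at h
    exact Nat.not_prime_zero (hps 0 h)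
  have hmb : Lb.prod ≠ 0 := by
    intro h
    rw [List.prod_eq_zero_iff] at h
    exact Nat.not_prime_zero (hpb 0 h)
  have hLs : Ls.prod.primeFactorsList = Ls := by
    have h3 : List.Perm Ls Ls.prod.primeFactorsList := Nat.primeFactorsList_unique rfl hps
    exact h3.symm.eq_of_pairwise (fun a b _ _ h1 h2 => le_antisymm h1 h2)
      (Nat.primeFactorsList_sorted _).pairwise hsort.1
  have hprod : n = Ls.prod * Lb.prod := by
    rw [← Nat.prod_primeFactorsList hn, hsplit, List.prod_append]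
  have hcop : Nat.Coprime Ls.prod Lb.prod := by
    rw [Nat.coprime_iff_gcd_eq_one]
    by_contra hne
    obtain ⟨p, hp, hpd⟩ := Nat.exists_prime_and_dvd hne
    have hp1 := (Nat.dvd_gcd_iff.mp hpd).1
    have hp2 := (Nat.dvd_gcd_iff.mp hpd).2
    obtain ⟨x, hx, hpx⟩ := (Prime.dvd_prod_iff hp.prime).mp hp1
    obtain ⟨y, hy, hpy⟩ := (Prime.dvd_prod_iff hp.prime).mp hp2
    have e1 := (Nat.prime_dvd_prime_iff_eq hp (hps x hx)).mp hpx
    have e2 := (Nat.prime_dvd_prime_iff_eq hp (hpb y hy)).mp hpy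
    have h3 := h1 x hx
    have h4 := h2 y hy
    rw [← e1] at h3
    rw [← e2] at h4
    linarith
  refine ⟨Ls.prod, Lb, hms, ?_, ?_, fun q hq => ⟨hpb q hq, h2 q hq⟩, hsort.2.1, ?_, ?_, ?_⟩
  · rw [hLs, hsplit]
  · rw [hLs]; exact h1
  · rw [hLs]; exact hsort.1
  · conv_lhs => rw [hprod]
    rw [Nat.totient_mul hcop]
  · intro hnd
    rw [List.nodup_iff_sublist] at hnd
    push Not at hnd
    obtain ⟨q, hq⟩ := hnd
    have hq1 : q ∈ Lb := hq.subset (by simp)
    refine ⟨q, hpb q hq1, h2 q hq1, ?_⟩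
    have h3 : [q, q].prod ∣ Lb.prod := hq.prod_dvd_prod
    have h4 : q ^ 2 ∣ Lb.prod := by
      rw [pow_two]
      simpa using h3
    rw [hprod]
    exact Dvd.dvd.mul_left h4 _

end Crest.Agent.R020
end
end

-- ▼ part R020/LemD
section

/-!
Row 20 (helper162): the main part of (U): one pattern of cells, Rankin / Chernoff.
-/

set_option autoImplicit false

open scoped ENNReal
open Crest.NumberTheoryR.TotientScale

noncomputable section

namespace Crest.Agent.R020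

/-- `exp(∑_{p | v} a p) / v` -/
def ecm (a : ℕ → ℝ) (v : ℕ) : ℝ≥0∞ := cm (fun p => ENNReal.ofReal (Real.exp (a p) / p)) v

/-- `∑_{p | v} a p`, with multiplicity -/
def La (a : ℕ → ℝ) (v : ℕ) : ℝ := (v.primeFactorsList.map a).sum

lemma ecm_eq (a : ℕ → ℝ) {v : ℕ} (hv : v ≠ 0) :
    ecm a v = ENNReal.ofReal (Real.exp (La a v)) * (v : ℝ≥0∞)⁻¹ := by
  unfold ecm
  rw [cm_eq_gz (z := fun p => Real.exp (a p)) (fun p _ => (Real.exp_pos _).le) hv]
  have hn0 : (0 : ℝ) < v := by exact_mod_cast Nat.pos_of_ne_zero hv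
  rw [div_eq_mul_inv, ENNReal.ofReal_mul (gz_nonneg (fun p _ => (Real.exp_pos _).le) v),
    ENNReal.ofReal_inv_of_pos hn0, ENNReal.ofReal_natCast, gz_apply _ hv]
  congr 2
  unfold La
  have : ∀ l : List ℕ, (l.map fun p => Real.exp (a p)).prod = Real.exp (l.map a).sum := by
    intro l
    induction l with
    | nil => simp
    | cons x l ih => simp [ih, Real.exp_add]
  exact this _

lemma ecm_mul (a : ℕ → ℝ) {u v : ℕ} (hu : u ≠ 0) (hv : v ≠ 0) :
    ecm a (u * v) = ecm a u * ecm a v := cm_mul _ hu hv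


/-- upper Rankin: if `La a v ≥ R` on `A ⊆ Sm s` -/
lemma wt_le_of_ge (a : ℕ → ℝ) (A : Set ℕ) (s : Finset ℕ) (hs : ∀ p ∈ s, p.Prime)
    (hz : ∀ p ∈ s, Real.exp (a p) / p ≤ 3 / 4) (R : ℝ) (hA : ∀ v ∈ A, v ∈ Sm s ∧ R ≤ La a v) :
    wt A ≤ ENNReal.ofReal (Real.exp (-R +
      ∑ p ∈ s, (Real.exp (a p) / p + 2 * (Real.exp (a p) / p) ^ 2))) := by
  have h1 : wt A ≤ ENNReal.ofReal (Real.exp (-R)) * ws (ecm a) (Sm s) := by
    unfold wt ws
    rw [← ENNReal.tsum_mul_left]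
    apply ENNReal.tsum_le_tsum
    intro v
    by_cases hv : v ∈ A
    · obtain ⟨h2, h3⟩ := hA v hv
      rw [Set.indicator_of_mem hv, Set.indicator_of_mem h2, ecm_eq a h2.1, ← mul_assoc]
      apply le_mul_of_one_le_left (zero_le)
      rw [← ENNReal.ofReal_mul (Real.exp_pos _).le, ENNReal.one_le_ofReal, ← Real.exp_add,
        Real.one_le_exp_iff]
      linarith
    · rw [Set.indicator_of_notMem hv]; exact zero_le
  refine h1.trans ?_
  rw [Real.exp_add, ENNReal.ofReal_mul (Real.exp_pos _).le]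
  apply mul_le_mul' le_rfl
  exact rankin (fun p => Real.exp (a p)) s hs fun p hp => ⟨(Real.exp_pos _).le, hz p hp⟩

/-- lower Rankin / Chernoff: if `La a v ≤ R` on `A` -/
lemma wt_le_of_le (a : ℕ → ℝ) (A : Set ℕ) (hA0 : ∀ v ∈ A, v ≠ 0) {τ : ℝ} (hτ : 0 ≤ τ) (R : ℝ)
    (hA : ∀ v ∈ A, La a v ≤ R) :
    wt A ≤ ENNReal.ofReal (Real.exp (τ * R)) * ws (ecm fun p => -(τ * a p)) A := by
  unfold wt ws
  rw [← ENNReal.tsum_mul_left]
  apply ENNReal.tsum_le_tsum
  intro v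
  by_cases hv : v ∈ A
  · rw [Set.indicator_of_mem hv, Set.indicator_of_mem hv, ecm_eq _ (hA0 v hv), ← mul_assoc]
    apply le_mul_of_one_le_left (zero_le)
    rw [← ENNReal.ofReal_mul (Real.exp_pos _).le, ENNReal.one_le_ofReal, ← Real.exp_add,
      Real.one_le_exp_iff]
    have h1 : La (fun p => -(τ * a p)) v = -(τ * La a v) := by
      unfold La
      have : ∀ l : List ℕ, (l.map fun p => -(τ * a p)).sum = -(τ * (l.map a).sum) := by
        intro l
        induction l with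
        | nil => simp
        | cons x l ih =>
          simp only [List.map_cons, List.sum_cons, ih]
          ring
      exact this _
    rw [h1]
    have := mul_le_mul_of_nonneg_left (hA v hv) hτ
    linarith
  · rw [Set.indicator_of_notMem hv]; exact zero_le

/-! ### prime sums in cells -/

lemma sum_exp_neg_le (c0 u : ℕ) : ∑ κ ∈ Finset.Ioc c0 u, Real.exp (-((κ : ℝ) - 1)) ≤ 8 / 5 := by
  have h1 : ∑ κ ∈ Finset.Ioc c0 u, Real.exp (-((κ : ℝ) - 1)) ≤
      ∑ κ ∈ Finset.Ioc 0 u, Real.exp (-((κ : ℝ) - 1)) := by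
    apply Finset.sum_le_sum_of_subset_of_nonneg
    · intro κ hκ
      rw [Finset.mem_Ioc] at hκ ⊢
      omega
    · intro κ _ _
      exact (Real.exp_pos _).le
  have h2 : ∀ n : ℕ, ∑ κ ∈ Finset.Ioc 0 n, Real.exp (-((κ : ℝ) - 1)) ≤ 8 / 5 - Real.exp (-(n : ℝ)) * (8 / 5) := by
    intro n
    induction n with
    | zero => simp
    | succ n ih =>
      rw [show n + 1 = n.succ from rfl, Finset.sum_Ioc_succ_top (Nat.zero_le n)]
      have h3 : Real.exp (-((n.succ : ℕ) : ℝ)) = Real.exp (-(n : ℝ)) * Real.exp (-1) := by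
        rw [← Real.exp_add]; push_cast; ring_nf
      have h4 : Real.exp (-(((n.succ : ℕ) : ℝ) - 1)) = Real.exp (-(n : ℝ)) := by
        push_cast; ring_nf
      rw [h3, h4]
      have h5 : Real.exp (-1) ≤ 3 / 8 := by
        have := Real.exp_neg_one_lt_d9
        linarith
      have h6 : 0 < Real.exp (-(n : ℝ)) := Real.exp_pos _
      nlinarith
  have h3 := h2 u
  have h4 : 0 < Real.exp (-(u : ℝ)) := Real.exp_pos _
  linarith

lemma sum_cells_le (c0 u : ℕ) (b : ℕ → ℝ) {B : ℝ} (hb : ∀ κ, 0 ≤ b κ ∧ b κ ≤ B) :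
    ∑ p ∈ PT u, (if c0 < kap p then b (kap p) else 1) / (p : ℝ) ≤
      c0 + 30 + ∑ κ ∈ Finset.Ioc c0 u, b κ + 29 * B := by
  have hu : (0 : ℝ) ≤ u := Nat.cast_nonneg u
  have hc : (0 : ℝ) ≤ c0 := Nat.cast_nonneg c0
  have hB : 0 ≤ B := (hb 0).1.trans (hb 0).2
  rw [← Finset.sum_filter_add_sum_filter_not (PT u) (fun p => c0 < kap p)]
  have h1 : ∑ p ∈ (PT u).filter (fun p => ¬ c0 < kap p),
      (if c0 < kap p then b (kap p) else 1) / (p : ℝ) ≤ c0 + 30 := by
    calc ∑ p ∈ (PT u).filter (fun p => ¬ c0 < kap p), (if c0 < kap p then b (kap p) else 1) / (p : ℝ)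
        = ∑ p ∈ (PT u).filter (fun p => ¬ c0 < kap p), 1 / (p : ℝ) := by
          apply Finset.sum_congr rfl
          intro p hp
          rw [Finset.mem_filter] at hp
          rw [if_neg hp.2]
      _ ≤ ∑ p ∈ PT c0, 1 / (p : ℝ) := by
          apply Finset.sum_le_sum_of_subset_of_nonneg
          · intro p hp
            rw [Finset.mem_filter, mem_PT hu] at hp
            rw [mem_PT hc]
            refine ⟨hp.1.1, (yy_le_kap p).trans ?_⟩
            exact_mod_cast (not_lt.mp hp.2)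
          · intro p _ _
            positivity
      _ ≤ _ := sum_PT_le hc
  have h2 : ∑ p ∈ (PT u).filter (fun p => c0 < kap p),
      (if c0 < kap p then b (kap p) else 1) / (p : ℝ) ≤ ∑ κ ∈ Finset.Ioc c0 u, b κ + 29 * B := by
    have hmaps : ∀ p ∈ (PT u).filter (fun p => c0 < kap p), kap p ∈ Finset.Ioc c0 u := by
      intro p hp
      rw [Finset.mem_filter, mem_PT hu] at hp
      rw [Finset.mem_Ioc]
      exact ⟨hp.2, (kap_le_iff p u).mpr hp.1.2⟩
    rw [← Finset.sum_fiberwise_of_maps_to hmaps]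
    have h3 : ∀ κ ∈ Finset.Ioc c0 u, ∑ p ∈ ((PT u).filter (fun p => c0 < kap p)).filter
        (fun p => kap p = κ), (if c0 < kap p then b (kap p) else 1) / (p : ℝ) ≤
        b κ + 18 * B * Real.exp (-((κ : ℝ) - 1)) := by
      intro κ hκ
      rw [Finset.mem_Ioc] at hκ
      obtain ⟨k, rfl⟩ : ∃ k, κ = k + 1 := ⟨κ - 1, by omega⟩
      have h4 : ∑ p ∈ ((PT u).filter (fun p => c0 < kap p)).filter (fun p => kap p = k + 1),
          (if c0 < kap p then b (kap p) else 1) / (p : ℝ) = b (k + 1) *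
          ∑ p ∈ ((PT u).filter (fun p => c0 < kap p)).filter (fun p => kap p = k + 1),
            1 / (p : ℝ) := by
        rw [Finset.mul_sum]
        apply Finset.sum_congr rfl
        intro p hp
        rw [Finset.mem_filter, Finset.mem_filter] at hp
        rw [if_pos hp.1.2, hp.2]
        ring
      rw [h4]
      have h5 := cell_sum_le k (((PT u).filter (fun p => c0 < kap p)).filter
        (fun p => kap p = k + 1)) (fun p hp => by
          rw [Finset.mem_filter, Finset.mem_filter] at hp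
          exact ⟨prime_of_mem_PT hp.1.1, hp.2⟩)
      have h6 := hb (k + 1)
      have h7 : -(((k + 1 : ℕ) : ℝ) - 1) = -(k : ℝ) := by push_cast; ring
      rw [h7]
      calc b (k + 1) * ∑ p ∈ ((PT u).filter (fun p => c0 < kap p)).filter (fun p => kap p = k + 1),
            1 / (p : ℝ) ≤ b (k + 1) * (1 + 18 * Real.exp (-(k : ℝ))) :=
            mul_le_mul_of_nonneg_left h5 h6.1
        _ = b (k + 1) + b (k + 1) * (18 * Real.exp (-(k : ℝ))) := by ring
        _ ≤ b (k + 1) + B * (18 * Real.exp (-(k : ℝ))) := by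
            have : 0 < Real.exp (-(k : ℝ)) := Real.exp_pos _
            nlinarith [h6.2]
        _ = _ := by ring
    refine (Finset.sum_le_sum h3).trans ?_
    rw [Finset.sum_add_distrib, ← Finset.mul_sum]
    have h8 := sum_exp_neg_le c0 u
    have h9 : 18 * B * ∑ κ ∈ Finset.Ioc c0 u, Real.exp (-((κ : ℝ) - 1)) ≤ 18 * B * (8 / 5) := by
      gcongr
    linarith
  linarith

/-! ### double counting -/

lemma sum_map_Ioc (c0 M : ℕ) (f : ℕ → ℝ) (l : List ℕ) (hl : ∀ x ∈ l, x ≤ M + 1) :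
    (l.map fun x => ∑ κ ∈ Finset.Ioc c0 (x - 1), f κ).sum =
      ∑ κ ∈ Finset.Ioc c0 M, (cnt l κ : ℝ) * f κ := by
  induction l with
  | nil => simp [cnt_nil]
  | cons x l ih =>
    rw [List.map_cons, List.sum_cons, ih fun y hy => hl y (by simp [hy])]
    have hx := hl x (by simp)
    have h1 : ∑ κ ∈ Finset.Ioc c0 (x - 1), f κ =
        ∑ κ ∈ Finset.Ioc c0 M, (if κ < x then f κ else 0) := by
      rw [← Finset.sum_filter]
      apply Finset.sum_congr _ fun _ _ => rfl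
      ext κ
      simp only [Finset.mem_filter, Finset.mem_Ioc]
      omega
    rw [h1, ← Finset.sum_add_distrib]
    apply Finset.sum_congr rfl
    intro κ _
    rw [cnt_cons]
    split_ifs <;> push_cast <;> ring

/-! ### the product sets -/

/-- `q - 1` for primes in the cell `κ` -/
def Qk (κ : ℕ) : Set ℕ := {m | ∃ q : ℕ, q.Prime ∧ kap q = κ ∧ m = q - 1}

/-- products of shifted primes with pattern `l` times an element of `U` -/
def PSl (U : Set ℕ) (l : List ℕ) : Set ℕ :=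
  {v | ∃ L : List ℕ, (∀ q ∈ L, q.Prime) ∧ L.map kap = l ∧ ∃ u ∈ U, v = (L.map (· - 1)).prod * u}

lemma PSl_ne_zero {U : Set ℕ} (hU : ∀ u ∈ U, u ≠ 0) {l : List ℕ} {v : ℕ} (hv : v ∈ PSl U l) :
    v ≠ 0 := by
  obtain ⟨L, hL, _, u, hu, rfl⟩ := hv
  apply mul_ne_zero _ (hU u hu)
  intro h
  rw [List.prod_eq_zero_iff] at h
  obtain ⟨q, hq, h0⟩ := List.mem_map.mp h
  have := (hL q hq).two_le
  omega

lemma ws_PSl_le (a : ℕ → ℝ) (U : Set ℕ) (hU : ∀ u ∈ U, u ≠ 0) (l : List ℕ) (bnd : ℕ → ℝ≥0∞)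
    (hb : ∀ κ ∈ l, ws (ecm a) (Qk κ) ≤ bnd κ) :
    ws (ecm a) (PSl U l) ≤ (l.map bnd).prod * ws (ecm a) U := by
  induction l with
  | nil =>
    simp only [List.map_nil, List.prod_nil, one_mul]
    apply ws_mono_set
    rintro v ⟨L, hL, hLl, u, hu, rfl⟩
    rw [List.map_eq_nil_iff] at hLl
    subst hLl
    simpa using hu
  | cons κ l ih =>
    rw [List.map_cons, List.prod_cons, mul_assoc]
    refine (ws_mul_le (ecm a) (PSl U (κ :: l)) (Qk κ) (PSl U l) ?_).trans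
      (mul_le_mul' (hb κ (by simp)) (ih fun x hx => hb x (by simp [hx])))
    rintro v ⟨L, hL, hLl, u, hu, rfl⟩
    rcases L with _ | ⟨q, L⟩
    · simp at hLl
    · simp only [List.map_cons, List.cons.injEq] at hLl
      have hq := hL q (by simp)
      have h2 : (L.map (· - 1)).prod * u ∈ PSl U l :=
        ⟨L, fun x hx => hL x (by simp [hx]), hLl.2, u, hu, rfl⟩
      refine ⟨q - 1, ⟨q, hq, hLl.1, rfl⟩, (L.map (· - 1)).prod * u, h2, ?_, ?_⟩
      · simp [mul_assoc]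
      · rw [List.map_cons, List.prod_cons, mul_assoc, ecm_mul a _ (PSl_ne_zero hU h2)]
        have := hq.two_le
        omega

/-- twisted sum over a cell -/
lemma ws_Qk_le {C0 : ℝ} (hTS : TSHyp C0) (a : ℕ → ℝ) (ha : ∀ p, p.Prime → a p ≤ 0) (k : ℕ) :
    ws (ecm a) (Qk (k + 1)) ≤ ENNReal.ofReal (C0 * (1 + k) ^ 2 * Real.exp (-k) *
      Real.exp (∑ p ∈ PT k, Real.exp (a p) / p)) := by
  have hk : (0 : ℝ) ≤ (k : ℝ) + 1 := by positivity
  set s := (PT ((k : ℝ) + 1)).filter (fun q => kap q = k + 1) with hs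
  have h1 : ws (ecm a) (Qk (k + 1)) ≤ ∑ q ∈ s, ecm a (q - 1) := by
    refine (ws_le_tsum_image (ecm a) _ (fun q : ℕ => q - 1) (s : Set ℕ) ?_).trans ?_
    · rintro v ⟨q, hq, hqk, rfl⟩
      refine ⟨q, ?_, rfl⟩
      rw [hs, Finset.coe_filter, Set.mem_ofPred_eq, mem_PT hk]
      refine ⟨⟨hq, ?_⟩, hqk⟩
      have := yy_le_kap q
      rw [hqk] at this
      exact_mod_cast this
    · rw [tsum_eq_sum (s := s)]
      · apply Finset.sum_le_sum
        intro q hq
        rw [Set.indicator_of_mem (by exact_mod_cast hq)]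
      · intro q hq
        rw [Set.indicator_of_notMem (by exact_mod_cast hq)]
  have h2 : ∀ q ∈ s, ecm a (q - 1) =
      ENNReal.ofReal (gz (fun p => Real.exp (a p)) (q - 1) / ((q - 1 : ℕ) : ℝ)) := by
    intro q hq
    rw [hs, Finset.mem_filter] at hq
    have := (prime_of_mem_PT hq.1).two_le
    unfold ecm
    rw [cm_eq_gz (z := fun p => Real.exp (a p)) (fun p _ => (Real.exp_pos _).le) (by omega)]
  rw [Finset.sum_congr rfl h2, ← ENNReal.ofReal_sum_of_nonneg] at h1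
  · refine h1.trans (ENNReal.ofReal_le_ofReal ?_)
    have h3 := hTS (gz fun p => Real.exp (a p)) (fun p hp => by
      rw [gz_prime _ hp]
      refine ⟨(Real.exp_pos _).le, ?_⟩
      have : Real.exp (a p) ≤ Real.exp 0 := Real.exp_le_exp.mpr (ha p hp)
      rw [Real.exp_zero] at this
      linarith) k (Nat.cast_nonneg k) s (fun q hq => by
        rw [hs, Finset.mem_filter, mem_PT hk] at hq
        refine ⟨hq.1.1, ?_, hq.1.2⟩
        have := kap_lt q
        rw [hq.2] at this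
        push_cast at this
        linarith)
    refine h3.trans (le_of_eq ?_)
    congr 2
    apply Finset.sum_congr rfl
    intro p hp
    rw [gz_prime _ (prime_of_mem_PT hp)]
  · intro q _
    exact div_nonneg (gz_nonneg (fun p _ => (Real.exp_pos _).le) _) (Nat.cast_nonneg _)

end Crest.Agent.R020
end
end

-- ▼ part R020/LemE
section

/-!
Row 20 (helper162): the bounds for one pattern `l` of cells.
-/

set_option autoImplicit false

open scoped ENNReal
open Crest.NumberTheoryR.TotientScale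

noncomputable section

namespace Crest.Agent.R020

/-- `log max(1, cnt l κ)` -/
def lm (l : List ℕ) (κ : ℕ) : ℝ := Real.log (max 1 (cnt l κ) : ℕ)

lemma lm_nonneg (l : List ℕ) (κ : ℕ) : 0 ≤ lm l κ := by
  unfold lm
  apply Real.log_nonneg
  exact_mod_cast le_max_left 1 (cnt l κ)

lemma lm_le {l : List ℕ} {N : ℕ} (hN : 1 ≤ N) (hl : l.length ≤ N) (κ : ℕ) :
    lm l κ ≤ Real.log N := by
  unfold lm
  apply Real.log_le_log
  · have : 1 ≤ max 1 (cnt l κ) := le_max_left 1 _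
    exact_mod_cast this
  · have h1 := cnt_le_length l κ
    have : max 1 (cnt l κ) ≤ N := max_le hN (h1.trans hl)
    exact_mod_cast this

lemma exp_lm (l : List ℕ) (κ : ℕ) : Real.exp (lm l κ) = (max 1 (cnt l κ) : ℕ) := by
  unfold lm
  apply Real.exp_log
  have : 1 ≤ max 1 (cnt l κ) := le_max_left 1 _
  exact_mod_cast this

/-- the weight exponent of a prime -/
def aw (c0 : ℕ) (l : List ℕ) (p : ℕ) : ℝ := if c0 < kap p then lm l (kap p) else 0

lemma aw_nonneg (c0 : ℕ) (l : List ℕ) (p : ℕ) : 0 ≤ aw c0 l p := by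
  unfold aw
  split_ifs
  · exact lm_nonneg _ _
  · exact le_rfl

/-- `L*` -/
def Lstar (c0 T : ℕ) (l : List ℕ) : ℝ := ∑ κ ∈ Finset.Ioc c0 T, (cnt l κ : ℝ) * lm l κ

lemma cnt_mul_lm (l : List ℕ) (κ : ℕ) : (cnt l κ : ℝ) * lm l κ - cnt l κ = gk (cnt l κ) := by
  unfold gk lm
  rcases Nat.eq_zero_or_pos (cnt l κ) with h | h
  · rw [h]; simp
  · rw [max_eq_right (show 1 ≤ cnt l κ from h)]

lemma one_le_cnt {l : List ℕ} {κ x : ℕ} (hx : x ∈ l) (h : κ < x) : 1 ≤ cnt l κ := by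
  unfold cnt
  rw [Nat.one_le_iff_ne_zero, Ne, List.countP_eq_zero]
  push Not
  exact ⟨x, hx, by simpa using h⟩

lemma exp_neg_le_quad {x : ℝ} (hx : 0 ≤ x) : Real.exp (-x) ≤ 1 - x + x ^ 2 / 2 := by
  have h1 := Real.quadratic_le_exp_of_nonneg hx
  have h2 : Real.exp (-x) ≤ 1 / (1 + x + x ^ 2 / 2) := by
    rw [Real.exp_neg, ← one_div]
    exact one_div_le_one_div_of_le (by positivity) h1
  refine h2.trans ?_
  rw [div_le_iff₀ (by positivity)]
  nlinarith [pow_nonneg hx 3, pow_nonneg hx 4]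

lemma La_nonpos {a : ℕ → ℝ} (ha : ∀ p, a p ≤ 0) (v : ℕ) : La a v ≤ 0 := by
  unfold La
  have : ∀ l : List ℕ, (l.map a).sum ≤ 0 := by
    intro l
    induction l with
    | nil => simp
    | cons x l ih =>
      rw [List.map_cons, List.sum_cons]
      have := ha x
      linarith
  exact this _

/-- the data of a pattern -/
structure Pat (c0 w T N : ℕ) (l : List ℕ) : Prop where
  sorted : l.Pairwise (· ≤ ·)
  lt : ∀ x ∈ l, w < x
  le : ∀ x ∈ l, x ≤ T
  len : l.length ≤ N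
  ne : l ≠ []
  hc : c0 ≤ w
  hN : 1 ≤ N

/-- all primes of an element of `PSl` -/
lemma PSl_mem_Sm {w : ℕ} {l : List ℕ} {M : ℕ} (hM : ∀ x ∈ l, x ≤ M) (hw : w ≤ M) {v : ℕ}
    (hv : v ∈ PSl (Sm (PT w)) l) : v ∈ Sm (PT M) := by
  have hM0 : (0 : ℝ) ≤ M := Nat.cast_nonneg M
  have hw0 : (0 : ℝ) ≤ w := Nat.cast_nonneg w
  refine ⟨PSl_ne_zero (fun u hu => hu.1) hv, fun p hp => ?_⟩
  obtain ⟨L, hL, hLl, u, hu, rfl⟩ := hv
  have hpp := Nat.prime_of_mem_primeFactors hp
  rw [Finset.mem_coe, mem_PT hM0]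
  refine ⟨hpp, ?_⟩
  have hdvd := Nat.dvd_of_mem_primeFactors hp
  rcases (Nat.Prime.dvd_mul hpp).mp hdvd with h | h
  · obtain ⟨y, hy, hpy⟩ := (Prime.dvd_prod_iff hpp.prime).mp h
    obtain ⟨q, hq, rfl⟩ := List.mem_map.mp hy
    have h1 : p ≤ q - 1 := Nat.le_of_dvd (by have := (hL q hq).two_le; omega) hpy
    have h2 : yy p ≤ yy q := yy_mono (by omega)
    have h3 : kap q ∈ l := by rw [← hLl]; exact List.mem_map.mpr ⟨q, hq, rfl⟩
    have h4 := yy_le_kap q
    have h5 : (kap q : ℝ) ≤ M := by exact_mod_cast hM _ h3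
    linarith
  · have h1 : p ∈ u.primeFactors := Nat.mem_primeFactors.mpr ⟨hpp, h, hu.1⟩
    have h2 := ((mem_PT hw0).mp (hu.2 p h1)).2
    have h3 : (w : ℝ) ≤ M := by exact_mod_cast hw
    linarith

/-- Case 1: many prime factors. -/
theorem case1 {c0 w T N : ℕ} {l : List ℕ} (P : Pat c0 w T N l) (F : ℝ)
    (hbig : (N : ℝ) ^ 2 * (T + 30) ≤ Real.exp (Real.exp c0)) :
    wt {v | v ∈ PSl (Sm (PT w)) l ∧ Lstar c0 T l - F ≤ La (aw c0 l) v} ≤
      ENNReal.ofReal (Real.exp (F - Gl (l.map fun κ : ℕ => (κ : ℝ) - 1 - c0) +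
        (c0 + 35 + 29 * N))) := by
  -- the largest entry
  obtain ⟨M, hM, hMmax⟩ : ∃ M ∈ l, ∀ x ∈ l, x ≤ M := by
    have hne := P.ne
    refine ⟨l.getLast hne, List.getLast_mem hne, ?_⟩
    intro x hx
    have h := P.sorted
    rw [List.pairwise_iff_getElem] at h
    obtain ⟨i, hi, rfl⟩ := List.getElem_of_mem hx
    rw [List.getLast_eq_getElem]
    rcases Nat.lt_or_ge i (l.length - 1) with h1 | h1
    · exact h i (l.length - 1) hi (by omega) h1
    · have : i = l.length - 1 := by omega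
      subst this
      exact le_rfl
  have hwM : w < M := P.lt M hM
  have hMT : M ≤ T := P.le M hM
  have hN1 : (1 : ℝ) ≤ N := by exact_mod_cast P.hN
  have hM0 : (0 : ℝ) ≤ M := Nat.cast_nonneg M
  have hT0 : (0 : ℝ) ≤ T := Nat.cast_nonneg T
  set X := Real.exp (Real.exp c0) with hX
  have hXpos : 0 < X := Real.exp_pos _
  -- facts about primes in high cells
  have hhigh : ∀ p : ℕ, p.Prime → c0 < kap p → X < p := by
    intro p hp h
    have h1 : (c0 : ℝ) < yy p := by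
      by_contra h2
      push Not at h2
      have := (kap_le_iff p c0).mpr h2
      omega
    exact (lt_yy_iff hp.two_le (Nat.cast_nonneg c0)).mp h1
  have hea : ∀ p : ℕ, Real.exp (aw c0 l p) =
      if c0 < kap p then ((max 1 (cnt l (kap p)) : ℕ) : ℝ) else 1 := by
    intro p
    unfold aw
    split_ifs
    · exact exp_lm _ _
    · exact Real.exp_zero
  have hmaxN : ∀ κ, ((max 1 (cnt l κ) : ℕ) : ℝ) ≤ N := by
    intro κ
    have h1 := cnt_le_length l κ
    have : max 1 (cnt l κ) ≤ N := max_le P.hN (h1.trans P.len)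
    exact_mod_cast this
  have hNX : (N : ℝ) * (N * (T + 30)) ≤ X := by nlinarith
  -- apply Rankin
  refine (wt_le_of_ge (aw c0 l) _ (PT M) (fun p hp => prime_of_mem_PT hp) ?_
    (Lstar c0 T l - F) ?_).trans ?_
  · intro p hp
    have hpp := prime_of_mem_PT hp
    have hp2 : (2 : ℝ) ≤ p := by exact_mod_cast hpp.two_le
    rw [hea p]
    split_ifs with h
    · have h1 := hhigh p hpp h
      rw [div_le_iff₀ (by linarith)]
      have h2 := hmaxN (kap p)
      have h3 : (N : ℝ) * 30 ≤ X := by nlinarith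
      linarith
    · rw [div_le_iff₀ (by linarith)]
      linarith
  · rintro v ⟨hv, hL⟩
    exact ⟨PSl_mem_Sm hMmax hwM.le hv, hL⟩
  · apply ENNReal.ofReal_le_ofReal
    apply Real.exp_le_exp.mpr
    rw [Finset.sum_add_distrib]
    -- linear part
    have h1 : ∑ p ∈ PT M, Real.exp (aw c0 l p) / p ≤
        c0 + 30 + ∑ κ ∈ Finset.Ioc c0 M, ((max 1 (cnt l κ) : ℕ) : ℝ) + 29 * N := by
      have h2 := sum_cells_le c0 M (fun κ => ((max 1 (cnt l κ) : ℕ) : ℝ)) (B := N)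
        (fun κ => ⟨Nat.cast_nonneg _, hmaxN κ⟩)
      refine le_trans (le_of_eq ?_) h2
      apply Finset.sum_congr rfl
      intro p _
      rw [hea p]
    have h3 : ∑ κ ∈ Finset.Ioc c0 M, ((max 1 (cnt l κ) : ℕ) : ℝ) ≤
        ∑ κ ∈ Finset.Ioc c0 T, (cnt l κ : ℝ) + 1 := by
      have h4 : ∀ κ ∈ Finset.Ioc c0 M, ((max 1 (cnt l κ) : ℕ) : ℝ) ≤
          (cnt l κ : ℝ) + (if κ = M then 1 else 0) := by
        intro κ hκ
        rw [Finset.mem_Ioc] at hκ
        rcases Nat.lt_or_ge κ M with h5 | h5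
        · have h6 := one_le_cnt hM h5
          rw [max_eq_right h6, if_neg (by omega), add_zero]
        · have h7 : κ = M := by omega
          rw [if_pos h7]
          have : max 1 (cnt l κ) ≤ cnt l κ + 1 := max_le (by omega) (by omega)
          exact_mod_cast this
      refine (Finset.sum_le_sum h4).trans ?_
      rw [Finset.sum_add_distrib, Finset.sum_ite_eq' (Finset.Ioc c0 M) M fun _ => (1 : ℝ)]
      have h5 : ∑ κ ∈ Finset.Ioc c0 M, (cnt l κ : ℝ) ≤ ∑ κ ∈ Finset.Ioc c0 T, (cnt l κ : ℝ) := by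
        apply Finset.sum_le_sum_of_subset_of_nonneg
        · intro κ hκ
          rw [Finset.mem_Ioc] at hκ ⊢
          omega
        · intro κ _ _
          exact Nat.cast_nonneg _
      have h6 : (if M ∈ Finset.Ioc c0 M then (1 : ℝ) else 0) ≤ 1 := by
        split_ifs <;> norm_num
      linarith
    -- quadratic part
    have h5 : ∑ p ∈ PT M, 2 * (Real.exp (aw c0 l p) / p) ^ 2 ≤ 4 := by
      have h6 : ∀ p ∈ PT M, 2 * (Real.exp (aw c0 l p) / p) ^ 2 ≤
          2 * (1 / (p : ℝ)) ^ 2 + 2 / (T + 30) * (1 / p) := by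
        intro p hp
        have hpp := prime_of_mem_PT hp
        have hp2 : (2 : ℝ) ≤ p := by exact_mod_cast hpp.two_le
        have hp0 : (0 : ℝ) < p := by linarith
        rw [hea p]
        split_ifs with h
        · have h7 := hhigh p hpp h
          have h8 := hmaxN (kap p)
          have h9 : (0 : ℝ) ≤ ((max 1 (cnt l (kap p)) : ℕ) : ℝ) := Nat.cast_nonneg _
          have h10 : (((max 1 (cnt l (kap p)) : ℕ) : ℝ)) ^ 2 ≤ (N : ℝ) ^ 2 := by gcongr
          have h11 : ((((max 1 (cnt l (kap p)) : ℕ) : ℝ)) / p) ^ 2 ≤ 1 / (T + 30) * (1 / p) := by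
            rw [div_pow, div_mul_div_comm, one_mul, div_le_div_iff₀ (by positivity) (by positivity)]
            calc (((max 1 (cnt l (kap p)) : ℕ) : ℝ)) ^ 2 * ((T + 30) * p)
                ≤ (N : ℝ) ^ 2 * ((T + 30) * p) := by gcongr
              _ = ((N : ℝ) ^ 2 * (T + 30)) * p := by ring
              _ ≤ X * p := by gcongr
              _ ≤ p * p := by gcongr
              _ = 1 * (p : ℝ) ^ 2 := by ring
          have h12 : 0 ≤ 2 * (1 / (p : ℝ)) ^ 2 := by positivity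
          have h13 : 2 / ((T : ℝ) + 30) * (1 / p) = 2 * (1 / (T + 30) * (1 / p)) := by ring
          rw [h13]
          linarith
        · have : 0 ≤ 2 / ((T : ℝ) + 30) * (1 / p) := by positivity
          linarith
      refine (Finset.sum_le_sum h6).trans ?_
      rw [Finset.sum_add_distrib, ← Finset.mul_sum, ← Finset.mul_sum]
      have h7 := sum_inv_sq_le (PT M) fun p hp => prime_of_mem_PT hp
      have h8 := sum_PT_le hM0
      have h9 : 2 / ((T : ℝ) + 30) * ∑ p ∈ PT M, 1 / (p : ℝ) ≤ 2 := by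
        have hMT' : (M : ℝ) ≤ T := by exact_mod_cast hMT
        calc 2 / ((T : ℝ) + 30) * ∑ p ∈ PT M, 1 / (p : ℝ) ≤ 2 / ((T : ℝ) + 30) * (T + 30) := by
              gcongr
              linarith
          _ = 2 := by field_simp
      linarith
    -- cell sum
    have h6 : Gl (l.map fun κ : ℕ => (κ : ℝ) - 1 - c0) =
        Lstar c0 T l - ∑ κ ∈ Finset.Ioc c0 T, (cnt l κ : ℝ) := by
      rw [← sum_gk_cnt c0 T l P.sorted (fun x hx => ⟨lt_of_le_of_lt P.hc (P.lt x hx),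
        (P.le x hx).trans (by omega)⟩)]
      unfold Lstar
      rw [← Finset.sum_sub_distrib]
      apply Finset.sum_congr rfl
      intro κ _
      rw [cnt_mul_lm]
    linarith

/-- Case 2: few prime factors. -/
theorem case2 {C0 : ℝ} (hC0 : 1 ≤ C0) (hTS : TSHyp C0) {c0 w T N : ℕ} {l : List ℕ}
    (P : Pat c0 w T N l) (F τ S : ℝ) (hτ : 0 ≤ τ) (hS : ((l.map fun κ : ℕ => (κ : ℝ)).sum) ≤ S) :
    wt {v | v ∈ PSl (Sm (PT w)) l ∧ La (aw c0 l) v ≤ Lstar c0 T l - F} ≤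
      ENNReal.ofReal (Real.exp (-(τ * F) + τ ^ 2 / 2 * Real.log N ^ 2 * S + (w + 32)) *
        (C0 * (1 + T) ^ 2 * Real.exp 59) ^ N) := by
  have hw0 : (0 : ℝ) ≤ w := Nat.cast_nonneg w
  have hT0 : (0 : ℝ) ≤ T := Nat.cast_nonneg T
  have hN1 : (1 : ℝ) ≤ N := by exact_mod_cast P.hN
  have hlogN : 0 ≤ Real.log N := Real.log_nonneg hN1
  set a : ℕ → ℝ := fun p => -(τ * aw c0 l p) with ha
  set A := {v | v ∈ PSl (Sm (PT w)) l ∧ La (aw c0 l) v ≤ Lstar c0 T l - F} with hA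
  have h1 := wt_le_of_le (aw c0 l) A (fun v hv => PSl_ne_zero (fun u hu => hu.1) hv.1) hτ
    (Lstar c0 T l - F) (fun v hv => hv.2)
  have h2 : ws (ecm a) A ≤ ws (ecm a) (PSl (Sm (PT w)) l) := ws_mono_set _ fun v hv => hv.1
  -- bound for one cell
  let e : ℕ → ℝ := fun κ => 59 - τ * ∑ κ' ∈ Finset.Ioc c0 (κ - 1), lm l κ' +
    τ ^ 2 / 2 * Real.log N ^ 2 * κ
  let bnd : ℕ → ℝ≥0∞ := fun κ => ENNReal.ofReal (C0 * (1 + T) ^ 2 * Real.exp (e κ))
  have hbnd : ∀ κ ∈ l, ws (ecm a) (Qk κ) ≤ bnd κ := by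
    intro κ hκ
    have hκw := P.lt κ hκ
    have hκT := P.le κ hκ
    have hc := P.hc
    obtain ⟨k, rfl⟩ : ∃ k, κ = k + 1 := ⟨κ - 1, by omega⟩
    refine (ws_Qk_le hTS a (fun p _ => ?_) k).trans (ENNReal.ofReal_le_ofReal ?_)
    · simp only [ha]
      have := mul_nonneg hτ (aw_nonneg c0 l p)
      linarith
    · have h3 : ∑ p ∈ PT k, Real.exp (a p) / p ≤
          c0 + 30 + ∑ κ' ∈ Finset.Ioc c0 k, Real.exp (-(τ * lm l κ')) + 29 * 1 := by
        have h4 := sum_cells_le c0 k (fun κ' => Real.exp (-(τ * lm l κ'))) (B := 1)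
          (fun κ' => ⟨(Real.exp_pos _).le, by
            rw [Real.exp_le_one_iff]
            have := mul_nonneg hτ (lm_nonneg l κ')
            linarith⟩)
        refine le_trans (le_of_eq ?_) h4
        apply Finset.sum_congr rfl
        intro p _
        simp only [ha]
        unfold aw
        split_ifs
        · rfl
        · rw [mul_zero, neg_zero, Real.exp_zero]
      have h4 : ∑ κ' ∈ Finset.Ioc c0 k, Real.exp (-(τ * lm l κ')) ≤
          ((k : ℝ) - c0) - τ * ∑ κ' ∈ Finset.Ioc c0 k, lm l κ' +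
            τ ^ 2 / 2 * Real.log N ^ 2 * (k - c0) := by
        have h5 : ∀ κ' ∈ Finset.Ioc c0 k, Real.exp (-(τ * lm l κ')) ≤
            1 - τ * lm l κ' + τ ^ 2 / 2 * Real.log N ^ 2 := by
          intro κ' _
          have h6 := exp_neg_le_quad (mul_nonneg hτ (lm_nonneg l κ'))
          have h7 := lm_le P.hN P.len κ'
          have h8 := lm_nonneg l κ'
          have h9 : lm l κ' ^ 2 ≤ Real.log N ^ 2 := by gcongr
          have h10 : (τ * lm l κ') ^ 2 / 2 ≤ τ ^ 2 / 2 * Real.log N ^ 2 := by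
            rw [mul_pow]
            have : 0 ≤ τ ^ 2 := sq_nonneg τ
            nlinarith
          linarith
        refine (Finset.sum_le_sum h5).trans (le_of_eq ?_)
        rw [Finset.sum_add_distrib, Finset.sum_sub_distrib, Finset.sum_const, Finset.sum_const,
          Nat.card_Ioc, ← Finset.mul_sum, nsmul_eq_mul, nsmul_eq_mul, Nat.cast_sub (by omega)]
        ring
      have hk0 : (0 : ℝ) ≤ k := Nat.cast_nonneg k
      have hkT : (k : ℝ) + 1 ≤ T := by exact_mod_cast hκT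
      calc C0 * (1 + (k : ℝ)) ^ 2 * Real.exp (-k) * Real.exp (∑ p ∈ PT k, Real.exp (a p) / p)
          = C0 * (1 + (k : ℝ)) ^ 2 * Real.exp (-k + ∑ p ∈ PT k, Real.exp (a p) / p) := by
            rw [Real.exp_add]; ring
        _ ≤ C0 * (1 + T) ^ 2 * Real.exp (e (k + 1)) := by
            apply mul_le_mul
            · gcongr
              linarith
            · apply Real.exp_le_exp.mpr
              simp only [e, Nat.add_sub_cancel]
              have h5 : τ ^ 2 / 2 * Real.log N ^ 2 * ((k : ℝ) - c0) ≤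
                  τ ^ 2 / 2 * Real.log N ^ 2 * ((k + 1 : ℕ) : ℝ) := by
                apply mul_le_mul_of_nonneg_left _ (by positivity)
                push_cast
                have : (0 : ℝ) ≤ c0 := Nat.cast_nonneg c0
                linarith
              linarith
            · exact (Real.exp_pos _).le
            · positivity
  have h3 := ws_PSl_le a (Sm (PT w)) (fun u hu => hu.1) l bnd hbnd
  have h4 : ws (ecm a) (Sm (PT w)) ≤ ENNReal.ofReal (Real.exp (w + 32)) := by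
    refine le_trans ?_ (wt_Sm_le hw0)
    apply ws_mono_fun
    intro v hv
    rw [ecm_eq a hv.1]
    apply mul_le_of_le_one_left (zero_le)
    rw [← ENNReal.ofReal_one]
    apply ENNReal.ofReal_le_ofReal
    rw [Real.exp_le_one_iff]
    apply La_nonpos
    intro p
    simp only [ha]
    have := mul_nonneg hτ (aw_nonneg c0 l p)
    linarith
  have h5 : (l.map bnd).prod ≤ ENNReal.ofReal ((C0 * (1 + T) ^ 2 * Real.exp 59) ^ N *
      Real.exp (-(τ * Lstar c0 T l) + τ ^ 2 / 2 * Real.log N ^ 2 * S)) := by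
    have hD1 : 1 ≤ C0 * (1 + (T : ℝ)) ^ 2 * Real.exp 59 := by
      have h6 : 1 ≤ Real.exp 59 := Real.one_le_exp (by norm_num)
      have h7 : 1 ≤ (1 + (T : ℝ)) ^ 2 := by nlinarith
      have h8 : 1 ≤ C0 * (1 + (T : ℝ)) ^ 2 := by nlinarith
      nlinarith
    have h6 : ∀ l' : List ℕ, (l'.map bnd).prod = ENNReal.ofReal
        ((C0 * (1 + T) ^ 2 * Real.exp 59) ^ l'.length *
          Real.exp (-(τ * (l'.map fun κ => ∑ κ' ∈ Finset.Ioc c0 (κ - 1), lm l κ').sum) +
            τ ^ 2 / 2 * Real.log N ^ 2 * (l'.map fun κ : ℕ => (κ : ℝ)).sum)) := by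
      intro l'
      induction l' with
      | nil => simp
      | cons κ l' ih =>
        simp only [List.map_cons, List.prod_cons, List.sum_cons, List.length_cons]
        rw [ih]
        simp only [bnd]
        rw [← ENNReal.ofReal_mul (by positivity)]
        congr 1
        rw [pow_succ (C0 * (1 + (T : ℝ)) ^ 2 * Real.exp 59) l'.length]
        have e1 : C0 * (1 + (T : ℝ)) ^ 2 * Real.exp (e κ) =
            (C0 * (1 + (T : ℝ)) ^ 2 * Real.exp 59) *
              Real.exp (-(τ * ∑ κ' ∈ Finset.Ioc c0 (κ - 1), lm l κ') +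
                τ ^ 2 / 2 * Real.log N ^ 2 * κ) := by
          rw [mul_assoc (C0 * (1 + (T : ℝ)) ^ 2), ← Real.exp_add]
          simp only [e]
          congr 2
          ring
        rw [e1]
        have e2 : Real.exp (-(τ * (∑ κ' ∈ Finset.Ioc c0 (κ - 1), lm l κ' +
            (l'.map fun κ => ∑ κ' ∈ Finset.Ioc c0 (κ - 1), lm l κ').sum)) +
            τ ^ 2 / 2 * Real.log N ^ 2 * ((κ : ℝ) + (l'.map fun κ : ℕ => (κ : ℝ)).sum)) =
            Real.exp (-(τ * ∑ κ' ∈ Finset.Ioc c0 (κ - 1), lm l κ') +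
                τ ^ 2 / 2 * Real.log N ^ 2 * κ) *
            Real.exp (-(τ * (l'.map fun κ => ∑ κ' ∈ Finset.Ioc c0 (κ - 1), lm l κ').sum) +
            τ ^ 2 / 2 * Real.log N ^ 2 * (l'.map fun κ : ℕ => (κ : ℝ)).sum) := by
          rw [← Real.exp_add]
          congr 1
          ring
        rw [e2]
        ring
    rw [h6 l]
    apply ENNReal.ofReal_le_ofReal
    apply mul_le_mul
    · exact pow_le_pow_right₀ hD1 P.len
    · apply Real.exp_le_exp.mpr
      rw [sum_map_Ioc c0 T (lm l) l (fun x hx => (P.le x hx).trans (by omega))]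
      have h7 : τ ^ 2 / 2 * Real.log N ^ 2 * (l.map fun κ : ℕ => (κ : ℝ)).sum ≤
          τ ^ 2 / 2 * Real.log N ^ 2 * S := mul_le_mul_of_nonneg_left hS (by positivity)
      unfold Lstar
      linarith
    · exact (Real.exp_pos _).le
    · positivity
  calc wt A ≤ ENNReal.ofReal (Real.exp (τ * (Lstar c0 T l - F))) *
        ((ENNReal.ofReal ((C0 * (1 + T) ^ 2 * Real.exp 59) ^ N *
      Real.exp (-(τ * Lstar c0 T l) + τ ^ 2 / 2 * Real.log N ^ 2 * S))) *
        ENNReal.ofReal (Real.exp (w + 32))) :=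
        h1.trans (mul_le_mul' le_rfl (h2.trans (h3.trans (mul_le_mul' h5 h4))))
    _ = _ := by
        rw [← ENNReal.ofReal_mul (by positivity), ← ENNReal.ofReal_mul (Real.exp_pos _).le]
        congr 1
        have e1 : Real.exp (-(τ * F) + τ ^ 2 / 2 * Real.log N ^ 2 * S + (w + 32)) =
            Real.exp (τ * (Lstar c0 T l - F)) *
            Real.exp (-(τ * Lstar c0 T l) + τ ^ 2 / 2 * Real.log N ^ 2 * S) *
            Real.exp (w + 32) := by
          rw [← Real.exp_add, ← Real.exp_add]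
          congr 1
          ring
        rw [e1]
        ring

end Crest.Agent.R020
end
end

-- ▼ part R020/LemF
section

/-!
Row 20 (helper162): union over patterns and the non-asymptotic form of (U).
-/

set_option autoImplicit false

open scoped ENNReal
open Crest.NumberTheoryR.TotientScale

noncomputable section

namespace Crest.Agent.R020

/-- pattern with defect at least `E` and total height at most `S` -/
structure PatE (c0 w T N : ℕ) (E S : ℝ) (l : List ℕ) : Prop extends Pat c0 w T N l where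
  defect : E ≤ Gl (l.map fun κ : ℕ => (κ : ℝ) - 1 - c0)
  height : (l.map fun κ : ℕ => (κ : ℝ)).sum ≤ S

theorem wt_PSl_le {C0 : ℝ} (hC0 : 1 ≤ C0) (hTS : TSHyp C0) {c0 w T N : ℕ} {l : List ℕ} {E S : ℝ}
    (P : PatE c0 w T N E S l) (F τ : ℝ) (hτ : 0 ≤ τ)
    (hbig : (N : ℝ) ^ 2 * (T + 30) ≤ Real.exp (Real.exp c0)) :
    wt (PSl (Sm (PT w)) l) ≤ ENNReal.ofReal (Real.exp (F - E + (c0 + 35 + 29 * N))) +
      ENNReal.ofReal (Real.exp (-(τ * F) + τ ^ 2 / 2 * Real.log N ^ 2 * S + (w + 32)) *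
        (C0 * (1 + T) ^ 2 * Real.exp 59) ^ N) := by
  have h1 : PSl (Sm (PT w)) l ⊆
      {v | v ∈ PSl (Sm (PT w)) l ∧ Lstar c0 T l - F ≤ La (aw c0 l) v} ∪
      {v | v ∈ PSl (Sm (PT w)) l ∧ La (aw c0 l) v ≤ Lstar c0 T l - F} := by
    intro v hv
    rcases le_total (Lstar c0 T l - F) (La (aw c0 l) v) with h | h
    · exact Or.inl ⟨hv, h⟩
    · exact Or.inr ⟨hv, h⟩
  refine (wt_mono h1).trans ((wt_union_le _ _).trans (add_le_add ?_ ?_))
  · refine (case1 P.toPat F hbig).trans (ENNReal.ofReal_le_ofReal (Real.exp_le_exp.mpr ?_))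
    have := P.defect
    linarith
  · exact case2 hC0 hTS P.toPat F τ S hτ P.height

/-- pattern from an index -/
def patOf {T N : ℕ} (i : Fin (N + 1)) (f : Fin N → Fin (T + 1)) : List ℕ :=
  ((List.ofFn f).take (i : ℕ)).map fun x : Fin (T + 1) => (x : ℕ)

lemma exists_patOf {T N : ℕ} {l : List ℕ} (hl : l.length ≤ N) (hT : ∀ x ∈ l, x ≤ T) :
    ∃ (i : Fin (N + 1)) (f : Fin N → Fin (T + 1)), patOf i f = l := by
  refine ⟨⟨l.length, by omega⟩, fun j => if h : (j : ℕ) < l.length then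
    ⟨l[(j : ℕ)], by have := hT _ (List.getElem_mem h); omega⟩ else 0, ?_⟩
  unfold patOf
  apply List.ext_getElem
  · simp [hl]
  · intro k h1 h2
    simp only [List.getElem_map, List.getElem_take, List.getElem_ofFn]
    rw [dif_pos h2]

/-- union over patterns -/
theorem wt_patterns_le {C0 : ℝ} (hC0 : 1 ≤ C0) (hTS : TSHyp C0) {c0 w T N : ℕ} {E S : ℝ}
    (F τ : ℝ) (hτ : 0 ≤ τ) (hbig : (N : ℝ) ^ 2 * (T + 30) ≤ Real.exp (Real.exp c0)) :
    wt {v | ∃ l, PatE c0 w T N E S l ∧ v ∈ PSl (Sm (PT w)) l} ≤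
      ENNReal.ofReal ((N + 1) * (T + 1) ^ N) *
      (ENNReal.ofReal (Real.exp (F - E + (c0 + 35 + 29 * N))) +
      ENNReal.ofReal (Real.exp (-(τ * F) + τ ^ 2 / 2 * Real.log N ^ 2 * S + (w + 32)) *
        (C0 * (1 + T) ^ 2 * Real.exp 59) ^ N)) := by
  set b := (ENNReal.ofReal (Real.exp (F - E + (c0 + 35 + 29 * N))) +
      ENNReal.ofReal (Real.exp (-(τ * F) + τ ^ 2 / 2 * Real.log N ^ 2 * S + (w + 32)) *
        (C0 * (1 + T) ^ 2 * Real.exp 59) ^ N)) with hb
  have h1 : wt {v | ∃ l, PatE c0 w T N E S l ∧ v ∈ PSl (Sm (PT w)) l} ≤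
      ∑' i : Fin (N + 1) × (Fin N → Fin (T + 1)),
        wt {v | PatE c0 w T N E S (patOf i.1 i.2) ∧ v ∈ PSl (Sm (PT w)) (patOf i.1 i.2)} := by
    apply ws_le_tsum
    rintro v ⟨l, hl, hv⟩
    obtain ⟨i, f, hif⟩ := exists_patOf hl.len hl.le
    refine ⟨(i, f), ?_⟩
    show PatE c0 w T N E S (patOf i f) ∧ v ∈ PSl (Sm (PT w)) (patOf i f)
    rw [hif]
    exact ⟨hl, hv⟩
  refine h1.trans ?_
  rw [tsum_fintype]
  have h2 : ∀ i ∈ (Finset.univ : Finset (Fin (N + 1) × (Fin N → Fin (T + 1)))),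
      wt {v | PatE c0 w T N E S (patOf i.1 i.2) ∧ v ∈ PSl (Sm (PT w)) (patOf i.1 i.2)} ≤ b := by
    intro i _
    by_cases hP : PatE c0 w T N E S (patOf i.1 i.2)
    · refine le_trans (wt_mono ?_) (wt_PSl_le hC0 hTS hP F τ hτ hbig)
      rintro v ⟨_, hv⟩
      exact hv
    · have : {v | PatE c0 w T N E S (patOf i.1 i.2) ∧ v ∈ PSl (Sm (PT w)) (patOf i.1 i.2)} = ∅ := by
        ext v
        simp [hP]
      rw [this]
      unfold wt ws
      simp
  refine (Finset.sum_le_sum h2).trans ?_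
  rw [Finset.sum_const, Finset.card_univ, nsmul_eq_mul]
  apply mul_le_mul' _ le_rfl
  rw [← ENNReal.ofReal_natCast]
  apply ENNReal.ofReal_le_ofReal
  rw [Fintype.card_prod, Fintype.card_fin, Fintype.card_fun, Fintype.card_fin, Fintype.card_fin]
  push_cast
  exact le_rfl

/-- the set of totients with a preimage of large defect -/
def Ubad (T : ℝ) (E : ℝ) : Set ℕ :=
  {v | ∃ n ∈ Sm (PT T), n.totient = v ∧ E ≤ Gl (n.primeFactorsList.map yy)}

lemma sum_yy_le_Sy_of_split {n m : ℕ} {Lb : List ℕ}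
    (h : n.primeFactorsList = m.primeFactorsList ++ Lb) : Sy n = Sy m + (Lb.map yy).sum := by
  unfold Sy
  rw [h, List.map_append, List.sum_append]

lemma length_mul_le {w : ℝ} (L : List ℕ) (h : ∀ q ∈ L, w < yy q) :
    (L.length : ℝ) * w ≤ (L.map yy).sum := by
  induction L with
  | nil => simp
  | cons q L ih =>
    have h1 := ih fun x hx => h x (by simp [hx])
    have h2 := h q (by simp)
    rw [List.map_cons, List.sum_cons, List.length_cons]
    push_cast
    linarith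

lemma sum_kap_le (L : List ℕ) :
    ((L.map kap).map fun κ : ℕ => (κ : ℝ)).sum ≤ (L.map yy).sum + L.length := by
  induction L with
  | nil => simp
  | cons q L ih =>
    have h2 := kap_lt q
    simp only [List.map_cons, List.sum_cons, List.length_cons]
    push_cast
    linarith

/-- **(U), non-asymptotic form.** -/
theorem U_main {C0 : ℝ} (hC0 : 1 ≤ C0) (hTS : TSHyp C0) {CB : ℝ}
    (hCB : ∀ T : ℝ, 0 ≤ T → ∀ X S : ℝ,
      wt {v | ∃ n ∈ Sm (PT T), n.totient = v ∧ (Om v : ℝ) ≤ X ∧ S ≤ Sy n}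
        ≤ ENNReal.ofReal (Real.exp (X - 3 / 10 * S + CB)))
    {c0 w T N : ℕ} {X E F τ : ℝ} (hc : c0 ≤ w) (hw : 1 ≤ w) (hN : 1 ≤ N) (hNw : 40 * T ≤ N * w)
    (hT : 1 ≤ T) (hτ : 0 ≤ τ) (hbig : (N : ℝ) ^ 2 * (T + 30) ≤ Real.exp (Real.exp c0))
    (hE : 0 < E - Real.log (10 * T + 1 : ℕ) * (4 * X)) :
    wt (Ubad T E) ≤
      ENNReal.ofReal (Real.exp (-(2 / 5 * (10 * T)) + (3 / 2 * T + 50))) +
      (ENNReal.ofReal (Real.exp (10 * T - 3 / 10 * (40 * T) + CB)) +
      (ENNReal.ofReal (2 * Real.exp (-Real.exp w + T + 32)) +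
      (ENNReal.ofReal ((N + 1) * (T + 32) ^ N) *
        ENNReal.ofReal (Real.exp (-(2 / 5 * X) + (3 / 2 * w + 50))) +
      (ENNReal.ofReal ((N + 1) * (T + 32) ^ N) *
        ENNReal.ofReal (Real.exp (X - 3 / 10 * (4 * X) + CB)) +
      ENNReal.ofReal ((N + 1) * (T + 1) ^ N) *
      (ENNReal.ofReal (Real.exp (F - (E - Real.log (10 * T + 1 : ℕ) * (4 * X) -
        (c0 + 1) * (N * Real.log N)) + (c0 + 35 + 29 * N))) +
      ENNReal.ofReal (Real.exp (-(τ * F) + τ ^ 2 / 2 * Real.log N ^ 2 * (40 * T + N) + (w + 32)) *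
        (C0 * (1 + T) ^ 2 * Real.exp 59) ^ N)))))) := by
  have hT0 : (0 : ℝ) ≤ T := Nat.cast_nonneg T
  have hw0 : (0 : ℝ) ≤ w := Nat.cast_nonneg w
  have hN1 : (1 : ℝ) ≤ N := by exact_mod_cast hN
  have hlogN : 0 ≤ Real.log N := Real.log_nonneg hN1
  set E2 := E - Real.log (10 * T + 1 : ℕ) * (4 * X) - (c0 + 1) * (N * Real.log N) with hE2
  -- the exceptional sets
  set X1 : Set ℕ := {v | v ∈ Sm (PT T) ∧ 10 * (T : ℝ) ≤ Om v} with hX1
  set X2 : Set ℕ := {v | ∃ n ∈ Sm (PT T), n.totient = v ∧ (Om v : ℝ) ≤ 10 * T ∧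
    40 * (T : ℝ) ≤ Sy n} with hX2
  set X3 : Set ℕ := {v | ∃ n ∈ Sm (PT T), n.totient = v ∧
    ∃ q : ℕ, q.Prime ∧ (w : ℝ) < yy q ∧ q ^ 2 ∣ n} with hX3
  set U4 : Set ℕ := {u | u ∈ Sm (PT w) ∧ X ≤ Om u} with hU4
  set U5 : Set ℕ := {u | ∃ m ∈ Sm (PT w), m.totient = u ∧ (Om u : ℝ) ≤ X ∧ 4 * X ≤ Sy m} with hU5
  set X4 : Set ℕ := {v | ∃ b ∈ BPle T N, ∃ u ∈ U4, b * u = v} with hX4
  set X5 : Set ℕ := {v | ∃ b ∈ BPle T N, ∃ u ∈ U5, b * u = v} with hX5
  set X6 : Set ℕ := {v | ∃ l, PatE c0 w T N E2 (40 * T + N) l ∧ v ∈ PSl (Sm (PT w)) l} with hX6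
  have hcover : Ubad T E ⊆ X1 ∪ (X2 ∪ (X3 ∪ (X4 ∪ (X5 ∪ X6)))) := by
    rintro v ⟨n, hn, rfl, hG⟩
    have hn0 : n ≠ 0 := hn.1
    have hvS : n.totient ∈ Sm (PT T) := totient_mem_Sm hn0 hT0 ((mem_Sm_PT hT0).mp hn).2
    by_cases h1 : n.totient ∈ X1
    · exact Or.inl h1
    by_cases h2 : n.totient ∈ X2
    · exact Or.inr (Or.inl h2)
    by_cases h3 : n.totient ∈ X3
    · exact Or.inr (Or.inr (Or.inl h3))
    have hOm : (Om n.totient : ℝ) < 10 * T := by
      by_contra h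
      push Not at h
      exact h1 ⟨hvS, h⟩
    have hSy : Sy n < 40 * T := by
      by_contra h
      push Not at h
      exact h2 ⟨n, hn, rfl, hOm.le, h⟩
    obtain ⟨m, Lb, hm0, hsplit, hms, hLb, hLbs, hmss, htot, hsq⟩ := split_preimage hn0 (w : ℝ)
    have hnodup : Lb.Nodup := by
      by_contra h
      obtain ⟨q, hq, hwq, hqn⟩ := hsq h
      exact h3 ⟨n, hn, rfl, q, hq, hwq, hqn⟩
    rw [totient_prod_nodup Lb (fun q hq => (hLb q hq).1) hnodup] at htot
    have hSsplit := sum_yy_le_Sy_of_split hsplit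
    have hSm0 : 0 ≤ Sy m := by
      unfold Sy
      apply List.sum_nonneg
      intro x hx
      obtain ⟨p, _, rfl⟩ := List.mem_map.mp hx
      exact yy_nonneg p
    have hLbsum : (Lb.map yy).sum < 40 * T := by linarith
    have hLblen : Lb.length ≤ N := by
      by_contra h
      push Not at h
      have h4 := length_mul_le Lb (w := (w : ℝ)) fun q hq => (hLb q hq).2
      have h5 : ((N : ℝ)) * w ≤ (Lb.length : ℝ) * w := by
        have : (N : ℝ) ≤ Lb.length := by exact_mod_cast h.le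
        gcongr
      have h6 : (40 : ℝ) * T ≤ N * w := by exact_mod_cast hNw
      linarith
    have hLbT : ∀ q ∈ Lb, yy q ≤ T := by
      intro q hq
      have h4 : q ∈ n.primeFactors := by
        rw [Nat.mem_primeFactors_iff_mem_primeFactorsList, hsplit]
        exact List.mem_append_right _ hq
      exact ((mem_Sm_PT hT0).mp hn).2 q h4
    have hb : (Lb.map (· - 1)).prod ∈ BPle T N :=
      ⟨Lb, hLblen, fun q hq => ⟨(hLb q hq).1, hLbT q hq⟩, rfl⟩
    have hmS : m ∈ Sm (PT w) := by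
      rw [mem_Sm_PT hw0]
      refine ⟨hm0, fun q hq => hms q ?_⟩
      exact Nat.mem_primeFactors_iff_mem_primeFactorsList.mp hq
    have hmtS : m.totient ∈ Sm (PT w) := totient_mem_Sm hm0 hw0 ((mem_Sm_PT hw0).mp hmS).2
    by_cases h4 : X ≤ Om m.totient
    · refine Or.inr (Or.inr (Or.inr (Or.inl ?_)))
      refine ⟨_, hb, m.totient, ⟨hmtS, h4⟩, ?_⟩
      rw [htot]; ring
    push Not at h4
    by_cases h5 : 4 * X ≤ Sy m
    · refine Or.inr (Or.inr (Or.inr (Or.inr (Or.inl ?_))))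
      refine ⟨_, hb, m.totient, ⟨m, hmS, rfl, h4.le, h5⟩, ?_⟩
      rw [htot]; ring
    push Not at h5
    refine Or.inr (Or.inr (Or.inr (Or.inr (Or.inr ?_))))
    -- defect of the big part
    have hOmn : n.primeFactorsList.length ≤ 10 * T + 1 := by
      have h6 := Om_le_Om_totient hn0
      have h7 : Om n.totient < 10 * T := by exact_mod_cast hOm
      show Om n ≤ _
      omega
    have hlogM : 0 ≤ Real.log (10 * T + 1 : ℕ) := by
      apply Real.log_nonneg
      have : 1 ≤ 10 * T + 1 := by omega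
      exact_mod_cast this
    have hGb : E - Real.log (10 * T + 1 : ℕ) * (4 * X) ≤ Gl (Lb.map yy) := by
      rw [hsplit, List.map_append] at hG
      have h6 := Gl_append_le (m.primeFactorsList.map yy) (Lb.map yy) (by
        intro x hx
        obtain ⟨p, _, rfl⟩ := List.mem_map.mp hx
        exact yy_nonneg p) (10 * T + 1) (by
        rw [List.length_map, List.length_map, ← List.length_append, ← hsplit]
        exact hOmn)
      have h7 : Real.log (10 * T + 1 : ℕ) * (m.primeFactorsList.map yy).sum ≤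
          Real.log (10 * T + 1 : ℕ) * (4 * X) := by
        apply mul_le_mul_of_nonneg_left _ hlogM
        exact h5.le
      linarith
    have hLbne : Lb ≠ [] := by
      rintro rfl
      simp only [List.map_nil, Gl_nil] at hGb
      linarith
    have hkapw : ∀ q ∈ Lb, w < kap q := by
      intro q hq
      have h6 := (hLb q hq).2
      have h7 := yy_le_kap q
      have : (w : ℝ) < kap q := by linarith
      exact_mod_cast this
    refine ⟨Lb.map kap, ?_, Lb, fun q hq => (hLb q hq).1, rfl, m.totient, hmtS, ?_⟩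
    · refine ⟨⟨?_, ?_, ?_, ?_, ?_, hc, hN⟩, ?_, ?_⟩
      · rw [List.pairwise_map]
        exact hLbs.imp fun h => kap_mono h
      · intro x hx
        obtain ⟨q, hq, rfl⟩ := List.mem_map.mp hx
        exact hkapw q hq
      · intro x hx
        obtain ⟨q, hq, rfl⟩ := List.mem_map.mp hx
        rw [kap_le_iff]
        exact hLbT q hq
      · rw [List.length_map]
        exact hLblen
      · simpa using hLbne
      · -- defect of the cells
        have h6 := Gl_le_cells c0 Lb yy kap N hLblen (fun q _ => ⟨by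
          have := kap_lt q
          linarith, yy_le_kap q⟩)
        have h7 : ((c0 : ℝ) + 1) * (Lb.length * Real.log N) ≤ ((c0 : ℝ) + 1) * (N * Real.log N) := by
          have : (Lb.length : ℝ) ≤ N := by exact_mod_cast hLblen
          gcongr
        rw [List.map_map]
        have h8 : (List.map ((fun κ : ℕ => (κ : ℝ) - 1 - c0) ∘ kap) Lb) =
            Lb.map fun q : ℕ => (kap q : ℝ) - 1 - c0 := rfl
        rw [h8]
        linarith
      · have h6 := sum_kap_le Lb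
        have h7 : (Lb.length : ℝ) ≤ N := by exact_mod_cast hLblen
        linarith
    · rw [htot]; ring
  refine (wt_mono hcover).trans ?_
  refine (wt_union_le _ _).trans (add_le_add (wt_Om_large_le hT0 _) ?_)
  refine (wt_union_le _ _).trans (add_le_add (hCB T hT0 _ _) ?_)
  refine (wt_union_le _ _).trans (add_le_add (wt_sq_le hT0 hw0) ?_)
  refine (wt_union_le _ _).trans (add_le_add ?_ ?_)
  · refine (wt_mul_le X4 (BPle T N) U4 fun v hv => hv).trans ?_
    exact mul_le_mul' (wt_BPle_le hT0 N) (wt_Om_large_le hw0 X)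
  refine (wt_union_le _ _).trans (add_le_add ?_ ?_)
  · refine (wt_mul_le X5 (BPle T N) U5 fun v hv => hv).trans ?_
    exact mul_le_mul' (wt_BPle_le hT0 N) (hCB w hw0 _ _)
  · exact wt_patterns_le hC0 hTS F τ hτ hbig

end Crest.Agent.R020
end
end

-- ▼ part R020/LemG
section

/-!
Row 20 (helper162): asymptotic form of (U).
-/

set_option autoImplicit false

open scoped ENNReal
open Filter Topology
open Crest.NumberTheoryR.TotientScale

noncomputable section

namespace Crest.Agent.R020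

/-- powers with logarithms -/
lemma ev_rpow (a b : ℝ) (h : a < b) (C : ℝ) (k : ℕ) :
    ∀ᶠ t : ℝ in atTop, C * (t ^ a * Real.log t ^ k) ≤ t ^ b := by
  have h1 : (fun t : ℝ => Real.log t ^ (k : ℝ)) =o[atTop] fun t : ℝ => t ^ (b - a) :=
    isLittleO_log_rpow_rpow_atTop (k : ℝ) (by linarith)
  have h2 := h1.bound (show (0 : ℝ) < 1 / (|C| + 1) by positivity)
  filter_upwards [h2, eventually_gt_atTop 1] with t ht ht1
  have hl : 0 < Real.log t := Real.log_pos ht1
  have ht0 : 0 < t := by linarith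
  rw [Real.rpow_natCast, Real.norm_of_nonneg (by positivity), Real.norm_of_nonneg (by positivity),
    div_mul_eq_mul_div, le_div_iff₀ (by positivity), one_mul] at ht
  have h3 : t ^ b = t ^ a * t ^ (b - a) := by
    rw [← Real.rpow_add ht0]; ring_nf
  rw [h3]
  have h4 : C * (t ^ a * Real.log t ^ k) = t ^ a * (C * Real.log t ^ k) := by ring
  rw [h4]
  apply mul_le_mul_of_nonneg_left _ (by positivity)
  have h5 : C ≤ |C| := le_abs_self C
  have h6 : 0 < Real.log t ^ k := by positivity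
  nlinarith

lemma ev_const (b : ℝ) (h : 0 < b) (C : ℝ) : ∀ᶠ t : ℝ in atTop, C ≤ t ^ b :=
  (tendsto_rpow_atTop h).eventually_ge_atTop C

section arith

lemma ar1 {t p35 CB : ℝ} (d1 : p35 ≤ t) (d2 : 50 + CB ≤ t) (h0 : 0 ≤ CB) :
    -(2 / 5 * (10 * t)) + (3 / 2 * t + 50) ≤ -p35 := by linarith

lemma ar2 {t p35 CB : ℝ} (d1 : p35 ≤ t) (d2 : 50 + CB ≤ t) :
    10 * t - 3 / 10 * (40 * t) + CB ≤ -p35 := by linarith

lemma ar3 {t p35 e e' : ℝ} (d1 : p35 ≤ t) (b9 : 2 * t + 33 ≤ e') (h : e' ≤ e) :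
    1 + (-e + t + 32) ≤ -p35 := by linarith

lemma ar4 {A p12 p35 X w CB : ℝ} (d3 : 1000 * A ≤ p35) (d4 : 100 * p35 ≤ X) (hw : w ≤ 2 * p12)
    (hA : p12 ≤ A) (h0 : 0 ≤ CB) (d10 : 50 + CB ≤ p12) (hp : 0 ≤ p35) :
    200 * A + (-(2 / 5 * X) + (3 / 2 * w + 50)) ≤ -p35 := by linarith

lemma ar5 {A p12 p35 X CB : ℝ} (d3 : 1000 * A ≤ p35) (d4 : 100 * p35 ≤ X)
    (hA : p12 ≤ A) (d10 : 50 + CB ≤ p12) (hp : 0 ≤ p35) :
    200 * A + (X - 3 / 10 * (4 * X) + CB) ≤ -p35 := by linarith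

lemma ar6 {A B p12 p35 p45 F LX cN N c0 CB p1920 : ℝ} (d3 : 1000 * A ≤ p35)
    (hA : p12 ≤ A) (hB : p45 ≤ B) (h0 : 0 ≤ CB) (d10 : 50 + CB ≤ p12) (hLX : LX ≤ 8 * B)
    (hcN : cN ≤ 240 * B) (hc0 : c0 ≤ 2 * p12) (hN : N ≤ 80 * p12) (d6 : 1000 * B ≤ F)
    (d7 : 100 * F ≤ p1920) (d9 : p35 ≤ p45) (hp : 0 ≤ p35) (hF : 0 ≤ F) :
    200 * A + (F - (p1920 / 2 - LX - cN) + (c0 + 35 + 29 * N)) ≤ -p35 := by linarith

lemma ar7 {A B p12 p35 p34 X w CB Q : ℝ} (d3 : 1000 * A ≤ p35) (d4 : 100 * p35 ≤ X)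
    (hA : p12 ≤ A) (hB : X ≤ B) (h0 : 0 ≤ CB) (d10 : 50 + CB ≤ p12) (hQ : Q ≤ 21 * B)
    (hw : w ≤ 2 * p12) (d5 : 1000 * B ≤ p34) (hp : 0 ≤ p35) :
    200 * A + ((-p34 + Q + (w + 32)) + 320 * A) ≤ -p35 := by linarith

end arith

lemma U_key {C0 : ℝ} (hC0 : 1 ≤ C0) : ∀ᶠ t : ℝ in atTop,
    1 ≤ t ∧
    (t ^ (3 / 10 : ℝ) + 1 ≤ 2 * t ^ (3 / 10 : ℝ)) ∧ (t ^ (1 / 2 : ℝ) + 1 ≤ 2 * t ^ (1 / 2 : ℝ)) ∧
    (80 * t ^ (1 / 2 : ℝ) + 1 ≤ t) ∧ (Real.log (10 * t + 1) ≤ 2 * Real.log t) ∧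
    (Real.log (t + 32) ≤ 2 * Real.log t) ∧
    (Real.log (C0 * (1 + t) ^ 2 * Real.exp 59) ≤ 4 * Real.log t) ∧
    (6400 * t * (t + 30) ≤ Real.exp (t ^ (3 / 10 : ℝ))) ∧
    (2 * t + 33 ≤ Real.exp (t ^ (1 / 2 : ℝ))) ∧
    (1 ≤ Real.log t) := by
  have a1 := eventually_ge_atTop (1 : ℝ)
  have a2 := ev_const (3 / 10) (by norm_num) 1
  have a3 := ev_const (1 / 2) (by norm_num) 81
  have a4 := eventually_ge_atTop (100 : ℝ)
  have a5 := eventually_ge_atTop (C0 * Real.exp 59 * 4)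
  have a6 : ∀ᶠ t : ℝ in atTop, 6400 * t * (t + 30) ≤ Real.exp (t ^ (3 / 10 : ℝ)) := by
    have h1 : ∀ᶠ s : ℝ in atTop, s ^ 10 ≤ Real.exp s := by
      have := (Real.isLittleO_pow_exp_atTop (n := 10)).bound (show (0:ℝ) < 1 by norm_num)
      filter_upwards [this, eventually_ge_atTop 0] with s hs hs0
      rw [one_mul, Real.norm_of_nonneg (by positivity), Real.norm_of_nonneg (Real.exp_pos s).le]
        at hs
      exact hs
    have h2 := (tendsto_rpow_atTop (show (0 : ℝ) < 3 / 10 by norm_num)).eventually h1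
    filter_upwards [h2, eventually_ge_atTop 10000] with t ht ht1
    have h3 : (t ^ (3 / 10 : ℝ)) ^ 10 = t ^ 3 := by
      rw [← Real.rpow_natCast, ← Real.rpow_mul (by linarith), ← Real.rpow_natCast]
      norm_num
    rw [h3] at ht
    have h4 : 6400 * (t + 30) ≤ t ^ 2 := by nlinarith
    nlinarith
  have a7 : ∀ᶠ t : ℝ in atTop, 2 * t + 33 ≤ Real.exp (t ^ (1 / 2 : ℝ)) := by
    have h1 : ∀ᶠ s : ℝ in atTop, s ^ 4 ≤ Real.exp s := by
      have := (Real.isLittleO_pow_exp_atTop (n := 4)).bound (show (0:ℝ) < 1 by norm_num)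
      filter_upwards [this, eventually_ge_atTop 0] with s hs hs0
      rw [one_mul, Real.norm_of_nonneg (by positivity), Real.norm_of_nonneg (Real.exp_pos s).le]
        at hs
      exact hs
    have h2 := (tendsto_rpow_atTop (show (0 : ℝ) < 1 / 2 by norm_num)).eventually h1
    filter_upwards [h2, eventually_ge_atTop 100] with t ht ht1
    have h3 : (t ^ (1 / 2 : ℝ)) ^ 4 = t ^ 2 := by
      rw [← Real.rpow_natCast, ← Real.rpow_mul (by linarith), ← Real.rpow_natCast]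
      norm_num
    rw [h3] at ht
    nlinarith
  have a8 := (Real.tendsto_log_atTop).eventually_ge_atTop 1
  filter_upwards [a1, a2, a3, a4, a5, a6, a7, a8] with t h1 h2 h3 h4 h5 h6 h7 h8
  have ht0 : 0 < t := by linarith
  refine ⟨h1, by linarith, by linarith, ?_, ?_, ?_, ?_, h6, h7, h8⟩
  · have h9 : t = t ^ (1 / 2 : ℝ) * t ^ (1 / 2 : ℝ) := by
      rw [← Real.rpow_add ht0]; norm_num
    nlinarith
  · have h9 : 2 * Real.log t = Real.log (t ^ 2) := by rw [Real.log_pow]; norm_num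
    rw [h9]
    apply Real.log_le_log (by positivity)
    nlinarith
  · have h9 : 2 * Real.log t = Real.log (t ^ 2) := by rw [Real.log_pow]; norm_num
    rw [h9]
    apply Real.log_le_log (by positivity)
    nlinarith
  · have h9 : 4 * Real.log t = Real.log (t ^ 4) := by rw [Real.log_pow]; norm_num
    rw [h9]
    apply Real.log_le_log (by positivity)
    have h10 : (1 + t) ^ 2 ≤ 4 * t ^ 2 := by nlinarith
    calc C0 * (1 + t) ^ 2 * Real.exp 59 ≤ C0 * (4 * t ^ 2) * Real.exp 59 := by gcongr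
      _ = (C0 * Real.exp 59 * 4) * t ^ 2 := by ring
      _ ≤ t * t ^ 2 := by gcongr
      _ ≤ t ^ 4 := by nlinarith [pow_pos ht0 3]

lemma U_key2 (CB : ℝ) : ∀ᶠ t : ℝ in atTop,
    (t ^ (3 / 5 : ℝ) ≤ t) ∧ (50 + CB ≤ t) ∧
    (1000 * (t ^ (1 / 2 : ℝ) * Real.log t ^ 1) ≤ t ^ (3 / 5 : ℝ)) ∧
    (100 * (t ^ (3 / 5 : ℝ) * Real.log t ^ 0) ≤ t ^ (7 / 10 : ℝ)) ∧
    (1000 * (t ^ (7 / 10 : ℝ) * Real.log t ^ 2) ≤ t ^ (3 / 4 : ℝ)) ∧
    (1000 * (t ^ (4 / 5 : ℝ) * Real.log t ^ 1) ≤ t ^ (9 / 10 : ℝ)) ∧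
    (100 * (t ^ (9 / 10 : ℝ) * Real.log t ^ 0) ≤ t ^ (19 / 20 : ℝ)) ∧
    (1 * (t ^ (7 / 10 : ℝ) * Real.log t ^ 0) ≤ t ^ (4 / 5 : ℝ)) ∧
    (1 * (t ^ (3 / 5 : ℝ) * Real.log t ^ 0) ≤ t ^ (4 / 5 : ℝ)) ∧
    (50 + CB ≤ t ^ (1 / 2 : ℝ)) ∧ (t ^ (1 / 2 : ℝ) + 3 ≤ t ^ (3 / 5 : ℝ)) := by
  have a1 : ∀ᶠ t : ℝ in atTop, t ^ (3 / 5 : ℝ) ≤ t := by
    filter_upwards [eventually_ge_atTop 1] with t ht
    calc t ^ (3 / 5 : ℝ) ≤ t ^ (1 : ℝ) := Real.rpow_le_rpow_of_exponent_le ht (by norm_num)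
      _ = t := Real.rpow_one t
  have a2 := eventually_ge_atTop (50 + CB)
  have a3 := ev_rpow (1 / 2) (3 / 5) (by norm_num) 1000 1
  have a4 := ev_rpow (3 / 5) (7 / 10) (by norm_num) 100 0
  have a5 := ev_rpow (7 / 10) (3 / 4) (by norm_num) 1000 2
  have a6 := ev_rpow (4 / 5) (9 / 10) (by norm_num) 1000 1
  have a7 := ev_rpow (9 / 10) (19 / 20) (by norm_num) 100 0
  have a8 := ev_rpow (7 / 10) (4 / 5) (by norm_num) 1 0
  have a9 := ev_rpow (3 / 5) (4 / 5) (by norm_num) 1 0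
  have a10 := ev_const (1 / 2) (by norm_num) (50 + CB)
  have a11 : ∀ᶠ t : ℝ in atTop, t ^ (1 / 2 : ℝ) + 3 ≤ t ^ (3 / 5 : ℝ) := by
    filter_upwards [ev_rpow (1 / 2) (3 / 5) (by norm_num) 2 0, ev_const (1 / 2) (by norm_num) 3]
      with t h1 h2
    rw [pow_zero, mul_one] at h1
    linarith
  filter_upwards [a1, a2, a3, a4, a5, a6, a7, a8, a9, a10, a11] with t h1 h2 h3 h4 h5 h6 h7 h8 h9
    h10 h11
  exact ⟨h1, h2, h3, h4, h5, h6, h7, h8, h9, h10, h11⟩

set_option maxHeartbeats 4000000 in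
/-- (U) at integer scales. -/
theorem U_nat {C0 : ℝ} (hC0 : 1 ≤ C0) (hTS : TSHyp C0) :
    ∀ᶠ T : ℕ in atTop, wt (Ubad T ((T : ℝ) ^ (19 / 20 : ℝ) / 2)) ≤
      ENNReal.ofReal (Real.exp (-(T : ℝ) ^ (1 / 2 : ℝ))) := by
  obtain ⟨CB, hCB0, hCB⟩ := wt_Sy_large (by linarith) hTS
  have hnat : Tendsto (fun T : ℕ => (T : ℝ)) atTop atTop := tendsto_natCast_atTop_atTop
  filter_upwards [hnat.eventually (U_key hC0), hnat.eventually (U_key2 CB)] with T hk hk2
  obtain ⟨b1, b2, b3, b4, b5, b6, b7, b8, b9, b10⟩ := hk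
  obtain ⟨d1, d2, d3, d4, d5, d6, d7, d8, d9, d10, d11⟩ := hk2
  simp only [pow_zero, mul_one, pow_one, one_mul] at d3 d4 d6 d7 d8 d9
  set t : ℝ := (T : ℝ) with ht
  have ht0 : 0 < t := by linarith
  set w : ℕ := ⌈t ^ (1 / 2 : ℝ)⌉₊ with hw
  set c0 : ℕ := ⌈t ^ (3 / 10 : ℝ)⌉₊ with hc0
  have hwle : (w : ℝ) ≤ 2 * t ^ (1 / 2 : ℝ) := by
    have := Nat.ceil_lt_add_one (show 0 ≤ t ^ (1 / 2 : ℝ) by positivity)
    linarith
  have hwge : t ^ (1 / 2 : ℝ) ≤ w := Nat.le_ceil _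
  have hc0le : (c0 : ℝ) ≤ 2 * t ^ (3 / 10 : ℝ) := by
    have := Nat.ceil_lt_add_one (show 0 ≤ t ^ (3 / 10 : ℝ) by positivity)
    linarith
  have hc0ge : t ^ (3 / 10 : ℝ) ≤ c0 := Nat.le_ceil _
  have hcw : c0 ≤ w := by
    apply Nat.ceil_le_ceil
    exact Real.rpow_le_rpow_of_exponent_le b1 (by norm_num)
  have h12 : 1 ≤ t ^ (1 / 2 : ℝ) := Real.one_le_rpow b1 (by norm_num)
  have hw1 : 1 ≤ w := by
    have : (1 : ℝ) ≤ w := h12.trans hwge
    exact_mod_cast this
  set N : ℕ := 40 * w with hN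
  have hN1 : 1 ≤ N := by omega
  have hNr : (N : ℝ) = 40 * w := by rw [hN]; push_cast; ring
  have hNle : (N : ℝ) ≤ 80 * t ^ (1 / 2 : ℝ) := by rw [hNr]; linarith
  have hN1r : (1 : ℝ) ≤ N := by exact_mod_cast hN1
  have htt : t = t ^ (1 / 2 : ℝ) * t ^ (1 / 2 : ℝ) := by
    rw [← Real.rpow_add ht0]; norm_num
  have hNw : 40 * T ≤ N * w := by
    have : (40 : ℝ) * (T : ℝ) ≤ (N : ℝ) * (w : ℝ) := by
      rw [← ht, hNr]
      nlinarith
    exact_mod_cast this
  have hT1 : 1 ≤ T := by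
    have : (1 : ℝ) ≤ (T : ℝ) := by rw [← ht]; exact b1
    exact_mod_cast this
  have hlogN : Real.log N ≤ Real.log t := by
    apply Real.log_le_log (by linarith)
    linarith
  have hlogN0 : 0 ≤ Real.log N := Real.log_nonneg hN1r
  have hl0 : 0 ≤ Real.log t := by linarith
  have hlogM : Real.log (10 * T + 1 : ℕ) ≤ 2 * Real.log t := by
    push_cast
    exact b5
  have hlogM0 : 0 ≤ Real.log (10 * T + 1 : ℕ) := by
    apply Real.log_nonneg
    have : 1 ≤ 10 * T + 1 := by omega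
    exact_mod_cast this
  have hbig : (N : ℝ) ^ 2 * (T + 30) ≤ Real.exp (Real.exp c0) := by
    have h1 : (N : ℝ) ^ 2 ≤ 6400 * t := by
      calc (N : ℝ) ^ 2 ≤ (80 * t ^ (1 / 2 : ℝ)) ^ 2 := by gcongr
        _ = 6400 * (t ^ (1 / 2 : ℝ) * t ^ (1 / 2 : ℝ)) := by ring
        _ = 6400 * t := by rw [← htt]
    calc (N : ℝ) ^ 2 * (T + 30) ≤ 6400 * t * (t + 30) := by
          rw [← ht]
          gcongr
      _ ≤ Real.exp (t ^ (3 / 10 : ℝ)) := b8
      _ ≤ Real.exp c0 := Real.exp_le_exp.mpr hc0ge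
      _ ≤ Real.exp (Real.exp c0) := by
          apply Real.exp_le_exp.mpr
          have := Real.add_one_le_exp (c0 : ℝ)
          linarith
  set X : ℝ := t ^ (7 / 10 : ℝ) with hX
  set E : ℝ := t ^ (19 / 20 : ℝ) / 2 with hE
  set F : ℝ := t ^ (9 / 10 : ℝ) with hF
  set τ : ℝ := t ^ (-(3 / 20) : ℝ) with hτ
  have hX0 : 0 ≤ X := by positivity
  have hτ0 : 0 ≤ τ := by positivity
  have hp8 : t ^ (3 / 10 : ℝ) * t ^ (1 / 2 : ℝ) = t ^ (4 / 5 : ℝ) := by
    rw [← Real.rpow_add ht0]; norm_num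
  -- error terms
  have hXl : Real.log (10 * T + 1 : ℕ) * (4 * X) ≤ 8 * (t ^ (4 / 5 : ℝ) * Real.log t) := by
    calc Real.log (10 * T + 1 : ℕ) * (4 * X) ≤ (2 * Real.log t) * (4 * t ^ (4 / 5 : ℝ)) := by
          gcongr
      _ = 8 * (t ^ (4 / 5 : ℝ) * Real.log t) := by ring
  have hcN : ((c0 : ℝ) + 1) * (N * Real.log N) ≤ 240 * (t ^ (4 / 5 : ℝ) * Real.log t) := by
    have h1 : (c0 : ℝ) + 1 ≤ 3 * t ^ (3 / 10 : ℝ) := by linarith
    calc ((c0 : ℝ) + 1) * (N * Real.log N) ≤ (3 * t ^ (3 / 10 : ℝ)) *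
          ((80 * t ^ (1 / 2 : ℝ)) * Real.log t) := by gcongr
      _ = 240 * (t ^ (3 / 10 : ℝ) * t ^ (1 / 2 : ℝ) * Real.log t) := by ring
      _ = _ := by rw [hp8]
  have hEpos : 0 < E - Real.log (10 * T + 1 : ℕ) * (4 * X) := by
    have h1 : 0 < t ^ (9 / 10 : ℝ) := by positivity
    have : 0 ≤ t ^ (4 / 5 : ℝ) * Real.log t := by positivity
    linarith
  have hmain := U_main hC0 hTS hCB (c0 := c0) (w := w) (T := T) (N := N) (X := X) (E := E)
    (F := F) (τ := τ) hcw hw1 hN1 hNw hT1 hτ0 hbig hEpos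
  refine hmain.trans ?_
  -- common bound
  set R : ℝ≥0∞ := ENNReal.ofReal (Real.exp (-t ^ (3 / 5 : ℝ))) with hR
  have hcount : ((N : ℝ) + 1) * (t + 32) ^ N ≤ Real.exp (200 * (t ^ (1 / 2 : ℝ) * Real.log t)) := by
    have h1 : (N : ℝ) + 1 ≤ t + 32 := by linarith
    have h2 : ((N : ℝ) + 1) * (t + 32) ^ N ≤ (t + 32) ^ (N + 1) := by
      rw [pow_succ, mul_comm]
      gcongr
    refine h2.trans ?_
    have h3 : (t + 32) ^ (N + 1) = Real.exp (((N + 1 : ℕ) : ℝ) * Real.log (t + 32)) := by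
      rw [Real.exp_nat_mul, Real.exp_log (by linarith)]
    rw [h3]
    apply Real.exp_le_exp.mpr
    have h4 : ((N + 1 : ℕ) : ℝ) ≤ 100 * t ^ (1 / 2 : ℝ) := by push_cast; linarith
    calc ((N + 1 : ℕ) : ℝ) * Real.log (t + 32) ≤ (100 * t ^ (1 / 2 : ℝ)) * (2 * Real.log t) := by
          gcongr
          apply Real.log_nonneg
          linarith
      _ = _ := by ring
  have hcount2 : ((N : ℝ) + 1) * (t + 1) ^ N ≤ Real.exp (200 * (t ^ (1 / 2 : ℝ) * Real.log t)) := by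
    refine le_trans ?_ hcount
    gcongr
    linarith
  have hpl : 0 ≤ t ^ (1 / 2 : ℝ) * Real.log t := by positivity
  have hp6 : 0 < t ^ (3 / 5 : ℝ) := by positivity
  have hp7 : 0 < t ^ (7 / 10 : ℝ) := by positivity
  have hp9 : 0 < t ^ (9 / 10 : ℝ) := by positivity
  have hA12 : t ^ (1 / 2 : ℝ) ≤ t ^ (1 / 2 : ℝ) * Real.log t :=
    le_mul_of_one_le_right (by positivity) b10
  have hA45 : t ^ (4 / 5 : ℝ) ≤ t ^ (4 / 5 : ℝ) * Real.log t :=
    le_mul_of_one_le_right (by positivity) b10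
  have hA7 : t ^ (7 / 10 : ℝ) ≤ t ^ (7 / 10 : ℝ) * Real.log t ^ 2 :=
    le_mul_of_one_le_right (by positivity) (one_le_pow₀ b10)
  have T1 : ENNReal.ofReal (Real.exp (-(2 / 5 * (10 * t)) + (3 / 2 * t + 50))) ≤ R := by
    apply ENNReal.ofReal_le_ofReal
    apply Real.exp_le_exp.mpr
    exact ar1 d1 d2 hCB0
  have T2 : ENNReal.ofReal (Real.exp (10 * t - 3 / 10 * (40 * t) + CB)) ≤ R := by
    apply ENNReal.ofReal_le_ofReal
    apply Real.exp_le_exp.mpr
    exact ar2 d1 d2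
  have T3 : ENNReal.ofReal (2 * Real.exp (-Real.exp w + t + 32)) ≤ R := by
    apply ENNReal.ofReal_le_ofReal
    have h1 : Real.exp (t ^ (1 / 2 : ℝ)) ≤ Real.exp w := Real.exp_le_exp.mpr hwge
    have h2 : (2 : ℝ) ≤ Real.exp 1 := by
      have := Real.add_one_le_exp (1 : ℝ)
      linarith
    calc 2 * Real.exp (-Real.exp w + t + 32) ≤ Real.exp 1 * Real.exp (-Real.exp w + t + 32) := by
          gcongr
      _ = Real.exp (1 + (-Real.exp w + t + 32)) := (Real.exp_add _ _).symm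
      _ ≤ _ := by
          apply Real.exp_le_exp.mpr
          exact ar3 d1 b9 h1
  have T4 : ENNReal.ofReal ((N + 1) * (t + 32) ^ N) *
        ENNReal.ofReal (Real.exp (-(2 / 5 * X) + (3 / 2 * w + 50))) ≤ R := by
    rw [← ENNReal.ofReal_mul (by positivity)]
    apply ENNReal.ofReal_le_ofReal
    calc ((N : ℝ) + 1) * (t + 32) ^ N * Real.exp (-(2 / 5 * X) + (3 / 2 * w + 50))
        ≤ Real.exp (200 * (t ^ (1 / 2 : ℝ) * Real.log t)) *
          Real.exp (-(2 / 5 * X) + (3 / 2 * w + 50)) := by gcongr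
      _ = Real.exp (200 * (t ^ (1 / 2 : ℝ) * Real.log t) + (-(2 / 5 * X) + (3 / 2 * w + 50))) :=
          (Real.exp_add _ _).symm
      _ ≤ _ := by
          apply Real.exp_le_exp.mpr
          exact ar4 d3 d4 hwle hA12 hCB0 d10 hp6.le
  have T5 : ENNReal.ofReal ((N + 1) * (t + 32) ^ N) *
        ENNReal.ofReal (Real.exp (X - 3 / 10 * (4 * X) + CB)) ≤ R := by
    rw [← ENNReal.ofReal_mul (by positivity)]
    apply ENNReal.ofReal_le_ofReal
    calc ((N : ℝ) + 1) * (t + 32) ^ N * Real.exp (X - 3 / 10 * (4 * X) + CB)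
        ≤ Real.exp (200 * (t ^ (1 / 2 : ℝ) * Real.log t)) *
          Real.exp (X - 3 / 10 * (4 * X) + CB) := by gcongr
      _ = Real.exp (200 * (t ^ (1 / 2 : ℝ) * Real.log t) + (X - 3 / 10 * (4 * X) + CB)) :=
          (Real.exp_add _ _).symm
      _ ≤ _ := by
          apply Real.exp_le_exp.mpr
          exact ar5 d3 d4 hA12 d10 hp6.le
  have T6a : ENNReal.ofReal ((N + 1) * (t + 1) ^ N) *
      ENNReal.ofReal (Real.exp (F - (E - Real.log (10 * T + 1 : ℕ) * (4 * X) -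
        (c0 + 1) * (N * Real.log N)) + (c0 + 35 + 29 * N))) ≤ R := by
    rw [← ENNReal.ofReal_mul (by positivity)]
    apply ENNReal.ofReal_le_ofReal
    calc ((N : ℝ) + 1) * (t + 1) ^ N * Real.exp (F - (E - Real.log (10 * T + 1 : ℕ) * (4 * X) -
        (c0 + 1) * (N * Real.log N)) + (c0 + 35 + 29 * N))
        ≤ Real.exp (200 * (t ^ (1 / 2 : ℝ) * Real.log t)) *
          Real.exp (F - (E - Real.log (10 * T + 1 : ℕ) * (4 * X) -
        (c0 + 1) * (N * Real.log N)) + (c0 + 35 + 29 * N)) := by gcongr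
      _ = Real.exp (200 * (t ^ (1 / 2 : ℝ) * Real.log t) + (F -
          (E - Real.log (10 * T + 1 : ℕ) * (4 * X) -
        (c0 + 1) * (N * Real.log N)) + (c0 + 35 + 29 * N))) :=
          (Real.exp_add _ _).symm
      _ ≤ _ := by
          apply Real.exp_le_exp.mpr
          have h1 : (c0 : ℝ) ≤ 2 * t ^ (1 / 2 : ℝ) := by
            have : (c0 : ℝ) ≤ w := by exact_mod_cast hcw
            exact this.trans hwle
          exact ar6 d3 hA12 hA45 hCB0 d10 hXl hcN h1 hNle d6 d7 d9 hp6.le hp9.le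
  have hτF : τ * F = t ^ (3 / 4 : ℝ) := by
    rw [hτ, hF, ← Real.rpow_add ht0]; norm_num
  have hτ2 : τ ^ 2 / 2 * Real.log N ^ 2 * (40 * t + N) ≤ 21 * (t ^ (7 / 10 : ℝ) * Real.log t ^ 2) := by
    have h1 : τ ^ 2 * t = t ^ (7 / 10 : ℝ) := by
      rw [hτ, ← Real.rpow_natCast, ← Real.rpow_mul ht0.le]
      nth_rewrite 2 [← Real.rpow_one t]
      rw [← Real.rpow_add ht0]
      norm_num
    have h2 : 40 * t + (N : ℝ) ≤ 42 * t := by linarith
    calc τ ^ 2 / 2 * Real.log N ^ 2 * (40 * t + N) ≤ τ ^ 2 / 2 * Real.log t ^ 2 * (42 * t) := by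
          gcongr
      _ = 21 * ((τ ^ 2 * t) * Real.log t ^ 2) := by ring
      _ = _ := by rw [h1]
  have hDN : (C0 * (1 + t) ^ 2 * Real.exp 59) ^ N ≤ Real.exp (320 * (t ^ (1 / 2 : ℝ) * Real.log t)) := by
    have hpos : 0 < C0 * (1 + t) ^ 2 * Real.exp 59 := by positivity
    have h3 : (C0 * (1 + t) ^ 2 * Real.exp 59) ^ N =
        Real.exp ((N : ℝ) * Real.log (C0 * (1 + t) ^ 2 * Real.exp 59)) := by
      rw [Real.exp_nat_mul, Real.exp_log hpos]
    rw [h3]
    apply Real.exp_le_exp.mpr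
    calc (N : ℝ) * Real.log (C0 * (1 + t) ^ 2 * Real.exp 59) ≤ (N : ℝ) * (4 * Real.log t) := by
          gcongr
      _ ≤ (80 * t ^ (1 / 2 : ℝ)) * (4 * Real.log t) := by gcongr
      _ = _ := by ring
  have T6b : ENNReal.ofReal ((N + 1) * (t + 1) ^ N) *
      ENNReal.ofReal (Real.exp (-(τ * F) + τ ^ 2 / 2 * Real.log N ^ 2 * (40 * t + N) + (w + 32)) *
        (C0 * (1 + t) ^ 2 * Real.exp 59) ^ N) ≤ R := by
    rw [← ENNReal.ofReal_mul (by positivity)]
    apply ENNReal.ofReal_le_ofReal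
    calc ((N : ℝ) + 1) * (t + 1) ^ N *
        (Real.exp (-(τ * F) + τ ^ 2 / 2 * Real.log N ^ 2 * (40 * t + N) + (w + 32)) *
        (C0 * (1 + t) ^ 2 * Real.exp 59) ^ N)
        ≤ Real.exp (200 * (t ^ (1 / 2 : ℝ) * Real.log t)) *
          (Real.exp (-(τ * F) + τ ^ 2 / 2 * Real.log N ^ 2 * (40 * t + N) + (w + 32)) *
          Real.exp (320 * (t ^ (1 / 2 : ℝ) * Real.log t))) := by gcongr
      _ = Real.exp (200 * (t ^ (1 / 2 : ℝ) * Real.log t) +
          ((-(τ * F) + τ ^ 2 / 2 * Real.log N ^ 2 * (40 * t + N) + (w + 32)) +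
          320 * (t ^ (1 / 2 : ℝ) * Real.log t))) := by
          rw [← Real.exp_add, ← Real.exp_add]
      _ ≤ _ := by
          apply Real.exp_le_exp.mpr
          rw [hτF]
          exact ar7 d3 d4 hA12 hA7 hCB0 d10 hτ2 hwle d5 hp6.le
  rw [mul_add]
  have hsum : R + (R + (R + (R + (R + (R + R))))) ≤
      ENNReal.ofReal (Real.exp (-t ^ (1 / 2 : ℝ))) := by
    have h7 : R + (R + (R + (R + (R + (R + R))))) = ENNReal.ofReal (7 * Real.exp (-t ^ (3 / 5 : ℝ))) := by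
      rw [ENNReal.ofReal_mul (by norm_num), ← hR]
      have : ENNReal.ofReal 7 = 7 := by norm_num
      rw [this]
      ring
    rw [h7]
    apply ENNReal.ofReal_le_ofReal
    have h8 : (7 : ℝ) ≤ Real.exp 3 := by
      have h9 := Real.add_one_le_exp (1 : ℝ)
      have h10 : Real.exp 3 = Real.exp 1 ^ 3 := by rw [← Real.exp_nat_mul]; norm_num
      rw [h10]
      have h11 : (2 : ℝ) ^ 3 ≤ Real.exp 1 ^ 3 := by
        gcongr
        linarith
      linarith
    calc 7 * Real.exp (-t ^ (3 / 5 : ℝ)) ≤ Real.exp 3 * Real.exp (-t ^ (3 / 5 : ℝ)) := by gcongr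
      _ = Real.exp (3 + -t ^ (3 / 5 : ℝ)) := (Real.exp_add _ _).symm
      _ ≤ _ := by
          apply Real.exp_le_exp.mpr
          linarith
  refine le_trans ?_ hsum
  exact add_le_add T1 (add_le_add T2 (add_le_add T3 (add_le_add T4 (add_le_add T5
    (add_le_add T6a T6b)))))

end Crest.Agent.R020
end
end

-- ▼ part R020/LemU
section

/-!
Row 20 (helper162): the statement (U).
-/

set_option autoImplicit false

open scoped ENNReal
open Filter Topology
open Crest.NumberTheoryR.TotientScale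

noncomputable section

namespace Crest.Agent.R020

/-- the twisted sum hypothesis holds -/
theorem exists_TSHyp : ∃ C0 : ℝ, 1 ≤ C0 ∧ TSHyp C0 := by
  obtain ⟨C, hC, h⟩ := twisted_sum_le
  refine ⟨max 1 C, le_max_left _ _, ?_⟩
  intro g hg u hu S hS
  have h1 := h g hg u hu S hS
  have h2 : ∑ q ∈ S, g (q - 1) / ((q - 1 : ℕ) : ℝ) = ∑ q ∈ S, g (q - 1) / ((q : ℝ) - 1) := by
    apply Finset.sum_congr rfl
    intro q hq
    have : 1 ≤ q := (hS q hq).1.one_le
    rw [Nat.cast_sub this, Nat.cast_one]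
  have h3 : PL u = PT u := rfl
  rw [h2]
  refine h1.trans ?_
  rw [h3]
  gcongr
  exact le_max_right _ _

lemma FL_append_single (c : ℕ → ℝ) (l : List ℕ) (p : ℕ) :
    FL c (l ++ [p]) = FL c l + c l.length * yy p := by
  induction l generalizing c with
  | nil => simp [FL_cons]
  | cons x l ih =>
    rw [List.cons_append, FL_cons, FL_cons, ih, List.length_cons]
    ring

lemma FL_reverse_eq_Gl (l : List ℕ) : FL aCoef l.reverse = Gl (l.map yy) := by
  induction l with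
  | nil => simp
  | cons x l ih =>
    rw [List.reverse_cons, FL_append_single, ih, List.map_cons, Gl_cons, List.length_reverse,
      List.length_map]

lemma Gl_rr {v : ℕ} (hv : IsTot v) (hsq : ¬ Sq v) :
    Gl ((rr v).primeFactorsList.map yy) = FF aa (tl v) - y1 v := by
  have h1 : v ≠ 1 := by
    rintro rfl
    apply hsq
    unfold Sq
    rw [rr_one]
    simp [Pm]
  rw [← FL_reverse_eq_Gl]
  have h2 := FF_decomp aCoef hv h1 hsq
  have h3 : FL aCoef (rr v).primeFactorsList.reverse = FF aCoef v := rfl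
  rw [h3, h2, aCoef_zero]
  have h4 : (fun i => aCoef (i + 1)) = aa := rfl
  rw [h4]
  ring

lemma rr_mem_Sm {v : ℕ} {T : ℝ} (hT : 0 ≤ T) (hy : y1 v ≤ T) : rr v ∈ Sm (PT T) := by
  refine ⟨(rr_pos v).ne', fun p hp => ?_⟩
  rw [Finset.mem_coe, mem_PT hT]
  have hp' := Nat.prime_of_mem_primeFactors hp
  refine ⟨hp', le_trans (yy_mono ?_) hy⟩
  have hP : 1 ≤ Pm (rr v) := by
    unfold Pm
    rcases hd : dl (rr v) with _ | ⟨q, l⟩
    · simp
    · rw [List.headD_cons]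
      exact (prime_of_mem_dl (n := rr v) (by rw [hd]; simp)).one_le
  exact (Pm_le_iff (rr_pos v).ne' hP).mp le_rfl p hp' (Nat.dvd_of_mem_primeFactors hp)

theorem stmtU : StmtU := by
  obtain ⟨C0, hC0, hTS⟩ := exists_TSHyp
  have h := U_nat hC0 hTS
  rw [eventually_atTop] at h
  obtain ⟨N0, hN0⟩ := h
  refine ⟨1 / 2, max 2 N0, by norm_num, fun Y hY => ?_⟩
  have hY2 : 2 ≤ Y := le_trans (le_max_left _ _) hY
  have hYN : (N0 : ℝ) ≤ Y := le_trans (le_max_right _ _) hY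
  have hYT : Y ≤ ⌈Y⌉₊ := Nat.le_ceil Y
  have hTN : N0 ≤ ⌈Y⌉₊ := by
    have : (N0 : ℝ) ≤ (⌈Y⌉₊ : ℝ) := hYN.trans hYT
    exact_mod_cast this
  have hT2 : (⌈Y⌉₊ : ℝ) ≤ 2 * Y := by
    have := Nat.ceil_lt_add_one (show 0 ≤ Y by linarith)
    linarith
  have h1 := hN0 _ hTN
  refine le_trans ?_ (h1.trans ?_)
  · apply wt_mono
    rintro v ⟨hv, hsq, hy, hF⟩
    refine ⟨rr v, rr_mem_Sm (by positivity) (hy.trans hYT), totient_rr hv, ?_⟩
    rw [Gl_rr hv hsq]
    have h2 : (⌈Y⌉₊ : ℝ) ^ (19 / 20 : ℝ) / 2 ≤ Y ^ (19 / 20 : ℝ) := by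
      have h3 : (⌈Y⌉₊ : ℝ) ^ (19 / 20 : ℝ) ≤ (2 * Y) ^ (19 / 20 : ℝ) :=
        Real.rpow_le_rpow (by positivity) hT2 (by norm_num)
      rw [Real.mul_rpow (by norm_num) (by linarith)] at h3
      have h4 : (2 : ℝ) ^ (19 / 20 : ℝ) ≤ 2 := by
        calc (2 : ℝ) ^ (19 / 20 : ℝ) ≤ 2 ^ (1 : ℝ) :=
              Real.rpow_le_rpow_of_exponent_le (by norm_num) (by norm_num)
          _ = 2 := Real.rpow_one 2
      have h5 : 0 ≤ Y ^ (19 / 20 : ℝ) := by positivity
      nlinarith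
    linarith
  · apply ENNReal.ofReal_le_ofReal
    apply Real.exp_le_exp.mpr
    have : Y ^ (1 / 2 : ℝ) ≤ (⌈Y⌉₊ : ℝ) ^ (1 / 2 : ℝ) :=
      Real.rpow_le_rpow (by linarith) hYT (by norm_num)
    linarith

end Crest.Agent.R020
end
end

-- ▼ part R020/LemZ

/-!
Row 20 (helper688): the crude bound `StmtZ` from `StmtU` (and `StmtSq`, prime sums).
-/

set_option autoImplicit false

open scoped ENNReal Topology
open MeasureTheory Filter

noncomputable section

namespace Crest.Agent.R020.LemZ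

/-- shifted primes of scale `≤ Y` -/
def Qs (Y : ℝ) : Set ℕ := {b | ∃ q : ℕ, q.Prime ∧ yy q ≤ Y ∧ b = q - 1}

/-- totients of scale `≤ Y` -/
def Zs (Y : ℝ) : Set ℕ := {v | IsTot v ∧ y1 v ≤ Y}

lemma wt_Qs_le {Y : ℝ} (hY : 0 ≤ Y) : wt (Qs Y) ≤ ENNReal.ofReal (Y + 27) := by
  classical
  have h1 : wt (Qs Y) ≤ ∑' q : ℕ, ({q : ℕ | q.Prime ∧ yy q ≤ Y} : Set ℕ).indicator
      (fun q => ((q - 1 : ℕ) : ℝ≥0∞)⁻¹) q := by
    apply ws_le_tsum_image (fun v => (v : ℝ≥0∞)⁻¹) _ (fun q : ℕ => q - 1)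
    rintro v ⟨q, hq, hqY, rfl⟩
    exact ⟨q, ⟨hq, hqY⟩, rfl⟩
  refine h1.trans ?_
  have hanti : Antitone (fun u : ℝ => if u ≤ Y then (1 : ℝ≥0∞) else 0) := by
    intro a b hab
    by_cases hb : b ≤ Y
    · simp [hb, hab.trans hb]
    · simp [hb]
  have h2 := psUp _ hanti 0
  have h3 : (∑' q : ℕ, ({q : ℕ | q.Prime ∧ yy q ≤ Y} : Set ℕ).indicator
      (fun q => ((q - 1 : ℕ) : ℝ≥0∞)⁻¹) q) ≤
      ∑' q : ℕ, (if q.Prime ∧ (0 : ℝ) ≤ yy q then
        (if yy q ≤ Y then (1 : ℝ≥0∞) else 0) * ((q - 1 : ℕ) : ℝ≥0∞)⁻¹ else 0) := by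
    apply ENNReal.tsum_le_tsum
    intro q
    by_cases hq : q ∈ {q : ℕ | q.Prime ∧ yy q ≤ Y}
    · rw [Set.indicator_of_mem hq, if_pos ⟨hq.1, yy_nonneg q⟩, if_pos hq.2, one_mul]
    · rw [Set.indicator_of_notMem hq]
      exact zero_le
  refine h3.trans (h2.trans ?_)
  have h4 : (fun u : ℝ => if u ≤ Y then (1 : ℝ≥0∞) else 0) = (Set.Iic Y).indicator 1 := by
    ext u
    by_cases hu : u ≤ Y
    · rw [if_pos hu, Set.indicator_of_mem (Set.mem_Iic.2 hu)]; rfl
    · rw [if_neg hu, Set.indicator_of_notMem (by simpa using hu)]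
  rw [h4, lintegral_indicator_one measurableSet_Iic, Measure.restrict_apply measurableSet_Iic]
  have h5 : Set.Iic Y ∩ Set.Ioi ((0 : ℝ) - 27) = Set.Ioc (-27) Y := by
    ext u
    simp only [Set.mem_inter_iff, Set.mem_Iic, Set.mem_Ioi, Set.mem_Ioc]
    constructor
    · rintro ⟨h1, h2⟩
      exact ⟨by linarith, h1⟩
    · rintro ⟨h1, h2⟩
      exact ⟨h2, by linarith⟩
  rw [h5, Real.volume_Ioc]
  apply ENNReal.ofReal_le_ofReal
  linarith

/-- decomposition step -/
lemma step {CS : ℝ} (hCS : wt {v | IsTot v ∧ Sq v} ≤ ENNReal.ofReal CS) {Y : ℝ} (hY : 0 ≤ Y)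
    (A D : Set ℕ) (hA : ∀ v ∈ A, IsTot v ∧ y1 v ≤ Y)
    (hD : ∀ v ∈ A, v ≠ 1 → ¬ Sq v → tl v ∈ D) :
    wt A ≤ 1 + ENNReal.ofReal CS + ENNReal.ofReal (Y + 27) * wt D := by
  classical
  have h1 : A ⊆ ({1} ∪ {v | IsTot v ∧ Sq v}) ∪ {v | v ∈ A ∧ v ≠ 1 ∧ ¬ Sq v} := by
    intro v hv
    by_cases h1 : v = 1
    · left; left; exact h1
    · by_cases h2 : Sq v
      · left; right; exact ⟨(hA v hv).1, h2⟩
      · right; exact ⟨hv, h1, h2⟩
  refine (wt_mono h1).trans ((wt_union_le _ _).trans ?_)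
  apply add_le_add
  · refine (wt_union_le _ _).trans (add_le_add ?_ hCS)
    rw [wt_singleton]
    simp
  · refine (wt_mul_le _ (Qs Y) D ?_).trans (mul_le_mul' (wt_Qs_le hY) le_rfl)
    rintro v ⟨hv, h1, h2⟩
    obtain ⟨hp, ht, hvv, hr, hlt, hdl⟩ := totient_decomp (hA v hv).1 h1 h2
    exact ⟨Pm (rr v) - 1, ⟨Pm (rr v), hp, (hA v hv).2, rfl⟩, tl v, hD v hv h1 h2, hvv.symm⟩

/-- crude bound -/
lemma crude {Y : ℝ} (hY : 0 ≤ Y) : wt (Zs Y) ≤ ENNReal.ofReal (Real.exp (Y + 32)) := by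
  refine (wt_mono ?_).trans (wt_Sm_le hY)
  rintro v ⟨hv, hvY⟩
  have hr := (rr_pos v).ne'
  rw [← totient_rr hv]
  apply totient_mem_Sm hr hY
  intro q hq
  have hqp := Nat.prime_of_mem_primeFactors hq
  have h2 : q ≤ Pm (rr v) :=
    (Pm_le_iff hr (by
      unfold Pm
      rcases hdl : dl (rr v) with _ | ⟨p, l⟩
      · simp
      · simp only [List.headD_cons]
        exact (prime_of_mem_dl (n := rr v) (by rw [hdl]; simp)).one_le)).1 le_rfl q hqp
        (Nat.dvd_of_mem_primeFactors hq)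
  exact (yy_mono h2).trans hvY

lemma one_le_Z {Y : ℝ} (hY : 0 ≤ Y) : 1 ≤ wt (Zs Y) := by
  have h1 : wt {1} ≤ wt (Zs Y) := by
    apply wt_mono
    rintro v rfl
    exact ⟨isTot_one, by rw [y1_one]; exact hY⟩
  rw [wt_singleton] at h1
  simpa using h1

lemma second {d : ℕ} (hd : IsTot d) (h1 : d ≠ 1) (h2 : ¬ Sq d) :
    1.29 * y1 (tl d) ≤ FF aa d := by
  have h3 := FF_decomp aa hd h1 h2
  obtain ⟨hp, ht, hvv, hr, hlt, hdl⟩ := totient_decomp hd h1 h2
  have h4 : y1 (tl d) ≤ y1 d := yy_mono hlt.le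
  have h5 := mul_y1_le_FF (c := fun i => aa (i + 1)) (fun i => Top.aa_nonneg _) (tl d)
  have h6 := Top.aa_zero_add_one
  have h7 := Top.aa_nonneg 0
  have h8 := y1_nonneg (tl d)
  simp only [zero_add] at h5
  rw [h3]
  nlinarith

/-- the recursion -/
lemma recursion (hU : StmtU) : ∃ K Y1 : ℝ, 1 ≤ K ∧ 2 ≤ Y1 ∧ ∀ Y : ℝ, Y1 ≤ Y →
    wt (Zs Y) ≤ ENNReal.ofReal (K * (Y + 28) ^ 2) * wt (Zs (4 / 5 * Y)) := by
  classical
  obtain ⟨CS, hCS0, hCS⟩ := stmtSq
  obtain ⟨c0, Y0, hc0, hU⟩ := hU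
  have hE : ∀ᶠ Y : ℝ in atTop, Y ^ (19 / 20 : ℝ) ≤ 0.032 * Y := by
    have h1 : Tendsto (fun B : ℝ => B ^ (1 / 20 : ℝ)) atTop atTop :=
      tendsto_rpow_atTop (by norm_num)
    filter_upwards [h1.eventually_ge_atTop 100, eventually_ge_atTop (1 : ℝ)] with Y hY hY1
    have hY0 : 0 < Y := by linarith
    have h2 : Y ^ (19 / 20 : ℝ) * Y ^ (1 / 20 : ℝ) = Y := by
      rw [← Real.rpow_add hY0]
      norm_num
    have h3 : 0 ≤ Y ^ (19 / 20 : ℝ) := by positivity
    nlinarith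
  obtain ⟨Y2, hY2⟩ := eventually_atTop.1 hE
  refine ⟨2 + CS, max (max Y0 Y2) 2, by linarith, le_max_right _ _, fun Y hY => ?_⟩
  have hYY0 : Y0 ≤ Y := (le_max_left _ _).trans ((le_max_left _ _).trans hY)
  have hYY2 : Y2 ≤ Y := (le_max_right _ _).trans ((le_max_left _ _).trans hY)
  have hYt : 2 ≤ Y := (le_max_right _ _).trans hY
  have hYpos : 0 ≤ Y := by linarith
  have hEY := hY2 Y hYY2
  set Zw := wt (Zs (4 / 5 * Y)) with hZw
  have hZ1 : 1 ≤ Zw := one_le_Z (by linarith)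
  -- good second level
  set D : Set ℕ := {d | IsTot d ∧ y1 d ≤ Y ∧ FF aa d ≤ Y + Y ^ (19 / 20 : ℝ)} with hD
  have hDle : wt D ≤ 1 + ENNReal.ofReal CS + ENNReal.ofReal (Y + 27) * Zw := by
    apply step hCS hYpos D (Zs (4 / 5 * Y)) (fun v hv => ⟨hv.1, hv.2.1⟩)
    intro v hv h1 h2
    obtain ⟨hp, ht, -, -, -, -⟩ := totient_decomp hv.1 h1 h2
    refine ⟨ht, ?_⟩
    have h3 := second hv.1 h1 h2
    have h4 := hv.2.2
    linarith
  -- first level
  set Bad : Set ℕ := {v | IsTot v ∧ ¬ Sq v ∧ y1 v ≤ Y ∧ y1 v + Y ^ (19 / 20 : ℝ) < FF aa (tl v)}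
    with hBad
  have hBadle : wt Bad ≤ 1 := by
    refine (hU Y hYY0).trans ?_
    rw [ENNReal.ofReal_le_one]
    apply Real.exp_le_one_iff.2
    have : 0 ≤ Y ^ c0 := by positivity
    linarith
  have hgood : wt (Zs Y \ Bad) ≤ 1 + ENNReal.ofReal CS + ENNReal.ofReal (Y + 27) * wt D := by
    apply step hCS hYpos _ D (fun v hv => ⟨hv.1.1, hv.1.2⟩)
    rintro v ⟨hv, hvb⟩ h1 h2
    obtain ⟨hp, ht, -, -, hlt, -⟩ := totient_decomp hv.1 h1 h2
    have h3 : y1 (tl v) ≤ y1 v := yy_mono hlt.le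
    refine ⟨ht, h3.trans hv.2, ?_⟩
    by_contra h4
    rw [not_le] at h4
    apply hvb
    refine ⟨hv.1, h2, hv.2, ?_⟩
    have := hv.2
    linarith
  have htot : wt (Zs Y) ≤ 1 + (1 + ENNReal.ofReal CS + ENNReal.ofReal (Y + 27) * wt D) := by
    refine (wt_mono (B := Bad ∪ (Zs Y \ Bad)) ?_).trans
      ((wt_union_le _ _).trans (add_le_add hBadle hgood))
    intro v hv
    by_cases h : v ∈ Bad
    · exact Or.inl h
    · exact Or.inr ⟨hv, h⟩
  refine htot.trans ?_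
  set a := ENNReal.ofReal CS with ha
  set b := ENNReal.ofReal (Y + 27) with hb
  have e1 : 1 + (1 + a + b * wt D) ≤ (1 + (1 + a + b * (1 + a + b))) * Zw := by
    calc 1 + (1 + a + b * wt D) ≤ 1 + (1 + a + b * (1 + a + b * Zw)) := by gcongr
      _ ≤ 1 * Zw + (1 * Zw + a * Zw + b * (1 * Zw + a * Zw + b * Zw)) := by
          have i1 : (1 : ℝ≥0∞) ≤ 1 * Zw := by rw [one_mul]; exact hZ1
          have i2 : a ≤ a * Zw := le_mul_of_one_le_right (zero_le) hZ1
          gcongr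
      _ = (1 + (1 + a + b * (1 + a + b))) * Zw := by ring
  refine e1.trans (mul_le_mul' ?_ le_rfl)
  have hC1 : (0 : ℝ) ≤ 1 + CS := by linarith
  have hY27 : (0 : ℝ) ≤ Y + 27 := by linarith
  have hin : ENNReal.ofReal (1 + CS) = 1 + a := by
    rw [ENNReal.ofReal_add zero_le_one hCS0.le, ENNReal.ofReal_one]
  have hin2 : ENNReal.ofReal (1 + CS + (Y + 27)) = 1 + a + b := by
    rw [ENNReal.ofReal_add hC1 hY27, hin]
  have hin3 : ENNReal.ofReal ((Y + 27) * (1 + CS + (Y + 27))) = b * (1 + a + b) := by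
    rw [ENNReal.ofReal_mul hY27, hin2]
  have hprod : (0 : ℝ) ≤ (Y + 27) * (1 + CS + (Y + 27)) := mul_nonneg hY27 (by linarith)
  have e2 : (1 + (1 + a + b * (1 + a + b))) =
      ENNReal.ofReal (1 + (1 + CS + (Y + 27) * (1 + CS + (Y + 27)))) := by
    rw [ENNReal.ofReal_add zero_le_one (by linarith), ENNReal.ofReal_add hC1 hprod, hin, hin3,
      ENNReal.ofReal_one]
  rw [e2]
  apply ENNReal.ofReal_le_ofReal
  have h7 : 0 ≤ (Y + 27) * (3 + CS) := mul_nonneg hY27 (by linarith)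
  have h8 : 0 ≤ (Y + 27) ^ 2 * (1 + CS) := mul_nonneg (sq_nonneg _) hC1
  have h9 : (2 + CS) * (Y + 28) ^ 2 - (1 + (1 + CS + (Y + 27) * (1 + CS + (Y + 27)))) =
      (Y + 27) * (3 + CS) + (Y + 27) ^ 2 * (1 + CS) := by ring
  linarith

end Crest.Agent.R020.LemZ

namespace Crest.Agent.R020

/-- (Z) crude bound. -/
theorem stmtZ (hU : StmtU) : StmtZ := by
  obtain ⟨K, Y1, hK, hY1, hrec⟩ := LemZ.recursion hU
  have hlogK : 0 ≤ Real.log K := Real.log_nonneg hK
  have hlog14 : 0 ≤ Real.log 14 := Real.log_nonneg (by norm_num)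
  set C : ℝ := (Real.log K + 2 * Real.log 14 + 2) / 0.19 + (Y1 + 32) / 0.48 with hC
  have hC1 : Real.log K + 2 * Real.log 14 + 2 ≤ 0.19 * C := by
    rw [hC, mul_add, mul_div_cancel₀ _ (by norm_num)]
    have : 0 ≤ (0.19 : ℝ) * ((Y1 + 32) / 0.48) := by positivity
    linarith
  have hC2 : Y1 + 32 ≤ 0.48 * C := by
    rw [hC, mul_add, mul_div_cancel₀ (Y1 + 32) (by norm_num)]
    have : 0 ≤ (0.48 : ℝ) * ((Real.log K + 2 * Real.log 14 + 2) / 0.19) := by positivity
    linarith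
  have hCpos : 0 < C := by rw [hC]; positivity
  refine ⟨C, hCpos, ?_⟩
  have key : ∀ n : ℕ, ∀ Y : ℝ, 0 ≤ Y → Y ≤ Y1 * (5 / 4 : ℝ) ^ n →
      wt (LemZ.Zs Y) ≤ ENNReal.ofReal (Real.exp (C * Real.log (Y + 2) ^ 2)) := by
    intro n
    induction n with
    | zero =>
      intro Y hY0 hY
      rw [pow_zero, mul_one] at hY
      refine (LemZ.crude hY0).trans (ENNReal.ofReal_le_ofReal (Real.exp_le_exp.2 ?_))
      have h1 : Real.log 2 ≤ Real.log (Y + 2) := Real.log_le_log (by norm_num) (by linarith)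
      have h2 := Real.log_two_gt_d9
      have h3 : 0.48 ≤ Real.log (Y + 2) ^ 2 := by nlinarith
      nlinarith
    | succ n ih =>
      intro Y hY0 hY
      by_cases hle : Y ≤ Y1 * (5 / 4 : ℝ) ^ n
      · exact ih Y hY0 hle
      · rw [not_le] at hle
        have hpow : (1 : ℝ) ≤ (5 / 4 : ℝ) ^ n := one_le_pow₀ (by norm_num)
        have hY1Y : Y1 ≤ Y := by nlinarith
        have hYt : 2 ≤ Y := hY1.trans hY1Y
        have h1 := ih (4 / 5 * Y) (by linarith) (by rw [pow_succ] at hY; linarith)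
        refine (hrec Y hY1Y).trans ((mul_le_mul' le_rfl h1).trans ?_)
        rw [← ENNReal.ofReal_mul (by positivity)]
        apply ENNReal.ofReal_le_ofReal
        set L := Real.log (Y + 2) with hL
        have hL1 : 1 ≤ L := by
          rw [hL, Real.le_log_iff_exp_le (by linarith)]
          have := Real.exp_one_lt_d9
          linarith
        have hl0 : 0 ≤ Real.log (4 / 5 * Y + 2) := Real.log_nonneg (by linarith)
        have hl : Real.log (4 / 5 * Y + 2) ≤ L - 0.1 := by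
          have h2 : Real.log (4 / 5 * Y + 2) ≤ Real.log (0.9 * (Y + 2)) :=
            Real.log_le_log (by linarith) (by linarith)
          rw [Real.log_mul (by norm_num) (by linarith)] at h2
          have h3 : Real.log 0.9 ≤ 0.9 - 1 := Real.log_le_sub_one_of_pos (by norm_num)
          linarith
        have hsq : Real.log (4 / 5 * Y + 2) ^ 2 ≤ (L - 0.1) ^ 2 := by
          apply pow_le_pow_left₀ hl0 hl
        have hK' : K * (Y + 28) ^ 2 ≤ Real.exp (Real.log K + 2 * Real.log 14 + 2 * L) := by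
          have hY2 : 0 < Y + 2 := by linarith
          have e1 : Real.exp (Real.log K + 2 * Real.log 14 + 2 * L) = K * (14 * (Y + 2)) ^ 2 := by
            rw [Real.exp_add, Real.exp_add, Real.exp_log (by linarith), two_mul, Real.exp_add,
              Real.exp_log (by norm_num), two_mul, Real.exp_add, hL, Real.exp_log hY2]
            ring
          rw [e1]
          have h2 : (Y + 28) ^ 2 ≤ (14 * (Y + 2)) ^ 2 := by
            apply pow_le_pow_left₀ (by linarith)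
            linarith
          exact mul_le_mul_of_nonneg_left h2 (by linarith)
        calc K * (Y + 28) ^ 2 * Real.exp (C * Real.log (4 / 5 * Y + 2) ^ 2)
            ≤ Real.exp (Real.log K + 2 * Real.log 14 + 2 * L) * Real.exp (C * (L - 0.1) ^ 2) := by
              apply mul_le_mul hK' _ (Real.exp_pos _).le (Real.exp_pos _).le
              exact Real.exp_le_exp.2 (mul_le_mul_of_nonneg_left hsq hCpos.le)
          _ = Real.exp (Real.log K + 2 * Real.log 14 + 2 * L + C * (L - 0.1) ^ 2) := by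
              rw [← Real.exp_add]
          _ ≤ Real.exp (C * L ^ 2) := by
              apply Real.exp_le_exp.2
              have h5 : Real.log K + 2 * Real.log 14 + 2 * L ≤
                  (Real.log K + 2 * Real.log 14 + 2) * L := by nlinarith
              have h6 : (Real.log K + 2 * Real.log 14 + 2) * L ≤ 0.19 * C * L :=
                mul_le_mul_of_nonneg_right hC1 (by linarith)
              nlinarith
  intro Y hY
  obtain ⟨n, hn⟩ := pow_unbounded_of_one_lt (Y / Y1) (show (1 : ℝ) < 5 / 4 by norm_num)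
  have hY1p : 0 < Y1 := by linarith
  rw [div_lt_iff₀ hY1p] at hn
  exact key n Y hY (by linarith)

end Crest.Agent.R020
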